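import Crest.Agent.R279.AO

/-! Row 279, block (4)-alg: smoothness over all extensions, valuation rings, finiteness of the
Gauss map. -/

set_option autoImplicit false
set_option linter.dupNamespace false

namespace Crest.Agent.R279

open MvPolynomial

/-- a power of each variable lies in the Jacobian ideal -/
theorem pow_mem_jac {k : Type*} [Field k] [IsAlgClosed k] [CharZero k]
    {Q : MvPolynomial (Fin 4) k} (hom : Q.IsHomogeneous 4)
    (hs : ∀ p : Fin 4 → k, p ≠ 0 → eval p Q = 0 → ∃ i, eval p (pderiv i Q) ≠ 0) (m : Fin 4) :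
    ∃ N : ℕ, (X m : MvPolynomial (Fin 4) k) ^ N ∈ Ideal.span (Set.range fun i => pderiv i Q) := by
  have : (X m : MvPolynomial (Fin 4) k) ∈
      (Ideal.span (Set.range fun i => pderiv i Q)).radical := by
    rw [← vanishingIdeal_zeroLocus_eq_radical (K := k), mem_vanishingIdeal_iff]
    intro x hx
    rw [zeroLocus_span] at hx
    have h1 : ∀ i, eval x (pderiv i Q) = 0 := fun i => hx _ ⟨i, rfl⟩
    have h2 : eval x Q = 0 := by
      have := congrArg (eval x) hom.sum_X_mul_pderiv
      simp only [map_sum, map_mul, h1, mul_zero, Finset.sum_const_zero, map_nsmul] at this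
      rw [nsmul_eq_mul] at this
      exact (mul_eq_zero.1 this.symm).resolve_left (by norm_num)
    by_contra hm
    have hx0 : x ≠ 0 := by
      rintro rfl
      simp at hm
    obtain ⟨i, hi⟩ := hs x hx0 h2
    exact hi (h1 i)
  exact this

/-- smoothness modulo a prime ideal of any algebra -/
theorem smooth_prime {k : Type*} [Field k] [IsAlgClosed k] [CharZero k]
    {Q : MvPolynomial (Fin 4) k} (hom : Q.IsHomogeneous 4)
    (hs : ∀ p : Fin 4 → k, p ≠ 0 → eval p Q = 0 → ∃ i, eval p (pderiv i Q) ≠ 0)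
    {A : Type*} [CommRing A] [Algebra k A] (I : Ideal A) [hI : I.IsPrime] (x : Fin 4 → A)
    (h : ∀ i, aeval x (pderiv i Q) ∈ I) (m : Fin 4) : x m ∈ I := by
  obtain ⟨N, hN⟩ := pow_mem_jac hom hs m
  have : Ideal.span (Set.range fun i => pderiv i Q) ≤ I.comap (aeval x : _ →ₐ[k] A) := by
    rw [Ideal.span_le]
    rintro _ ⟨i, rfl⟩
    exact h i
  have h2 := this hN
  rw [Ideal.mem_comap, map_pow, aeval_X] at h2
  exact hI.mem_of_pow_mem N h2

/-- smoothness over every extension field: the gradient vanishes only at the origin -/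
theorem smooth_ext {k : Type*} [Field k] [IsAlgClosed k] [CharZero k]
    {Q : MvPolynomial (Fin 4) k} (hom : Q.IsHomogeneous 4)
    (hs : ∀ p : Fin 4 → k, p ≠ 0 → eval p Q = 0 → ∃ i, eval p (pderiv i Q) ≠ 0)
    {L : Type*} [Field L] [Algebra k L] (x : Fin 4 → L) (hx : x ≠ 0) :
    ∃ i, aeval x (pderiv i Q) ≠ 0 := by
  by_contra h
  push Not at h
  refine hx (funext fun m => ?_)
  exact smooth_prime hom hs (⊥ : Ideal L) x (fun i => by rw [h i]; exact Ideal.zero_mem _) m

/-- the same, for the base-changed polynomial -/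
theorem smooth_map {k : Type*} [Field k] [IsAlgClosed k] [CharZero k]
    {Q : MvPolynomial (Fin 4) k} (hom : Q.IsHomogeneous 4)
    (hs : ∀ p : Fin 4 → k, p ≠ 0 → eval p Q = 0 → ∃ i, eval p (pderiv i Q) ≠ 0)
    {L : Type*} [Field L] [Algebra k L] (x : Fin 4 → L) (hx : x ≠ 0) :
    ∃ i, eval x (pderiv i (map (algebraMap k L) Q)) ≠ 0 := by
  obtain ⟨i, hi⟩ := smooth_ext hom hs x hx
  refine ⟨i, ?_⟩
  rwa [pderiv_map, eval_map, ← aeval_def]

/-- an element outside an algebraically closed subfield is missed by a valuation ring containing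
the subfield -/
theorem exists_val_not_mem {L : Type*} [Field L] (K : Subfield L) [IsAlgClosed K] {a : L}
    (ha : a ∉ K) : ∃ O : ValuationSubring L, (∀ c ∈ K, c ∈ O) ∧ a ∉ O := by
  have : IsIntegrallyClosedIn K.toSubring L := by
    rw [isIntegrallyClosedIn_iff]
    refine ⟨Subtype.val_injective, fun {x} hx => ?_⟩
    have hx' : IsIntegral K x := hx
    have := IntermediateField.adjoin.finiteDimensional hx'
    obtain ⟨y, hy⟩ := (IsAlgClosed.algebraMap_bijective_of_isIntegral
      (k := K) (K := IntermediateField.adjoin K {x})).2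
        ⟨x, IntermediateField.mem_adjoin_simple_self K x⟩
    exact ⟨y, congrArg Subtype.val hy⟩
  obtain ⟨O, h1, h2⟩ := Subring.exists_le_valuationSubring_of_isIntegrallyClosedIn
    (R := K.toSubring) ha
  exact ⟨O, h1, h2⟩

/-- a non-zero vector is a multiple of a primitive vector -/
theorem exists_primitive {L : Type*} [Field L] (O : ValuationSubring L) {ι : Type*} [Finite ι]
    (x : ι → L) (hx : x ≠ 0) : ∃ m, x m ≠ 0 ∧ ∀ i, x i / x m ∈ O := by
  classical
  have := Fintype.ofFinite ι
  obtain ⟨i₀, hi₀⟩ := Function.ne_iff.1 hx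
  obtain ⟨m, -, hm⟩ := Finset.exists_max_image Finset.univ (fun i => O.valuation (x i))
    ⟨i₀, Finset.mem_univ _⟩
  have hm0 : O.valuation (x m) ≠ 0 := by
    intro h
    have := hm i₀ (Finset.mem_univ _)
    rw [h, le_zero_iff, map_eq_zero] at this
    exact hi₀ this
  refine ⟨m, fun h => hm0 (by rw [h, map_zero]), fun i => ?_⟩
  rw [← O.valuation_le_one_iff, map_div₀, div_le_one₀ (zero_lt_iff.2 hm0)]
  exact hm i (Finset.mem_univ _)

/-- scaling a homogeneous polynomial -/
theorem aeval_smul_hom {k A : Type*} [CommRing k] [CommRing A] [Algebra k A] {σ : Type*}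
    {f : MvPolynomial σ k} {n : ℕ} (hf : f.IsHomogeneous n) (c : A) (x : σ → A) :
    aeval (fun i => c * x i) f = c ^ n * aeval x f := by
  rw [f.as_sum, map_sum, map_sum, Finset.mul_sum]
  refine Finset.sum_congr rfl fun d hd => ?_
  have hdn : ∑ i ∈ d.support, d i = n := by
    have := hf (mem_support_iff.1 hd)
    simpa [Finsupp.weight_apply, Finsupp.sum] using this
  rw [aeval_monomial, aeval_monomial, Finsupp.prod, Finsupp.prod]
  simp only [mul_pow, Finset.prod_mul_distrib, Finset.prod_pow_eq_pow_sum, hdn]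
  ring

/-- FINITENESS OF THE GAUSS MAP: if the gradient at `x` has its entries in an algebraically closed
subfield, then so has `x` -/
theorem mem_of_grad_mem {k : Type*} [Field k] [IsAlgClosed k] [CharZero k]
    {Q : MvPolynomial (Fin 4) k} (hom : Q.IsHomogeneous 4)
    (hs : ∀ p : Fin 4 → k, p ≠ 0 → eval p Q = 0 → ∃ i, eval p (pderiv i Q) ≠ 0)
    {L : Type*} [Field L] [Algebra k L] (K : Subfield L) [IsAlgClosed K]
    (hK : ∀ c, algebraMap k L c ∈ K) (x : Fin 4 → L)
    (h : ∀ i, aeval x (pderiv i Q) ∈ K) (m : Fin 4) : x m ∈ K := by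
  by_contra hm
  obtain ⟨O, hO, hmO⟩ := exists_val_not_mem K hm
  have hx : x ≠ 0 := by
    rintro rfl
    exact hm K.zero_mem
  obtain ⟨j, hj, hjO⟩ := exists_primitive O x hx
  have hjn : x j ∉ O := fun hj' => hmO (by
    have := O.mul_mem _ _ (hjO m) hj'
    rwa [div_mul_cancel₀ _ hj] at this)
  have hinv : (x j)⁻¹ ∈ O.nonunits := by
    rw [O.mem_nonunits_iff, map_inv₀, inv_lt_one₀ (zero_lt_iff.2 (by simpa using hj))]
    exact not_le.1 fun h' => hjn (O.valuation_le_one_iff _ |>.1 h')
  let : Algebra k O := ((algebraMap k L).codRestrict O fun c => hO _ (hK c)).toAlgebra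
  have : IsScalarTower k O L := IsScalarTower.of_algebraMap_eq fun _ => rfl
  have key := smooth_prime hom hs (IsLocalRing.maximalIdeal O) (fun i => (⟨x i / x j, hjO i⟩ : O))
    (fun i => by
      rw [← ValuationSubring.coe_mem_nonunits_iff]
      have e : ((aeval (fun i => (⟨x i / x j, hjO i⟩ : O)) (pderiv i Q) : O) : L) =
          (x j)⁻¹ ^ 3 * aeval x (pderiv i Q) := by
        rw [← aeval_smul_hom (hom.pderiv (i := i))]
        rw [show ∀ a : O, (a : L) = algebraMap O L a from fun _ => rfl, ← aeval_algebraMap_apply]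
        congr 2
        funext l
        exact div_eq_inv_mul _ _
      rw [e, O.mem_nonunits_iff, map_mul, map_pow]
      have h1 := (O.mem_nonunits_iff).1 hinv
      have h2 := (O.valuation_le_one_iff _).2 (hO _ (h i))
      exact lt_of_le_of_lt (mul_le_of_le_one_right' h2) (pow_lt_one' h1 (by norm_num))) j
  rw [← ValuationSubring.coe_mem_nonunits_iff] at key
  simp only [div_self hj] at key
  rw [O.mem_nonunits_iff, map_one] at key
  exact lt_irrefl _ key

/-- derivation form: a derivation that kills the gradient kills the point -/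
theorem gauss_finite {F : Type*} [Field F] [Algebra ℂ F] [IsAlgClosed F]
    {Q : MvPolynomial (Fin 4) ℂ} (hom : Q.IsHomogeneous 4)
    (hs : ∀ p : Fin 4 → ℂ, p ≠ 0 → eval p Q = 0 → ∃ i, eval p (pderiv i Q) ≠ 0)
    (d : Derivation ℂ F F) (x : Fin 4 → F) (h : ∀ i, d (aeval x (pderiv i Q)) = 0) (m : Fin 4) :
    d (x m) = 0 := by
  have : IsAlgClosed (constF {d}).toSubfield := constF_isAlgClosed {d}
  have := mem_of_grad_mem hom hs (constF {d}).toSubfield (fun c => (constF {d}).algebraMap_mem c) x
    (fun i e he => by rw [Set.mem_singleton_iff.1 he]; exact h i) m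
  exact this d rfl

/-- projective form (L2): if `d` fixes the tangent plane then it fixes the point -/
theorem gauss_finite_proj {F : Type*} [Field F] [Algebra ℂ F] [IsAlgClosed F]
    {Q : MvPolynomial (Fin 4) ℂ} (hom : Q.IsHomogeneous 4)
    (hs : ∀ p : Fin 4 → ℂ, p ≠ 0 → eval p Q = 0 → ∃ i, eval p (pderiv i Q) ≠ 0)
    (d : Derivation ℂ F F) (x : Fin 4 → F) {c : F}
    (h : ∀ i, d (aeval x (pderiv i Q)) = c * aeval x (pderiv i Q)) :
    ∃ c' : F, ∀ m, d (x m) = c' * x m := by
  by_cases hx : x = 0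
  · exact ⟨0, fun m => by simp [hx]⟩
  obtain ⟨j, hj⟩ := smooth_ext hom hs x hx
  obtain ⟨l, hl⟩ := IsAlgClosed.exists_pow_nat_eq (aeval x (pderiv j Q))⁻¹ (n := 3) (by norm_num)
  have hl0 : l ≠ 0 := by
    rintro rfl
    exact inv_ne_zero hj (by rw [← hl]; norm_num)
  have key := gauss_finite hom hs d (fun i => l * x i) fun i => by
    rw [aeval_smul_hom (hom.pderiv (i := i)), show 4 - 1 = 3 from rfl, hl, Derivation.leibniz,
      Derivation.leibniz_inv, h, h]
    simp only [smul_eq_mul]
    field_simp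
    ring
  refine ⟨-(d l / l), fun m => ?_⟩
  have := key m
  rw [Derivation.leibniz] at this
  simp only [smul_eq_mul] at this
  field_simp
  linear_combination this

end Crest.Agent.R279
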