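import Crest.Agent.R279.AT
import Crest.Agent.R279.AK

/-! Row 279, step (4): from the polynomial to the tensor -/

set_option autoImplicit false

namespace Crest.Agent.R279

open Matrix MvPolynomial

namespace Ten

variable (c : Ten)

theorem aeval_poly (k : Type) [CommRing k] [Algebra ℂ k] {R : Type} [CommRing R] [Algebra ℂ R]
    [Algebra k R] [IsScalarTower ℂ k R] (x : Fin 4 → R) : aeval x (c.poly k) = c.q x := by
  have := c.map_q ((aeval x : MvPolynomial (Fin 4) k →ₐ[k] R).restrictScalars ℂ) fun i => X i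
  rw [AlgHom.restrictScalars_apply] at this
  rw [poly, this]
  congr 1
  funext i
  simp

theorem eval_poly (k : Type) [CommRing k] [Algebra ℂ k] (x : Fin 4 → k) :
    eval x (c.poly k) = c.q x := by
  rw [← c.aeval_poly k x]; rfl

theorem poly_hom (k : Type) [CommRing k] [Algebra ℂ k] : (c.poly k).IsHomogeneous 4 := by
  unfold poly q T
  refine IsHomogeneous.sum _ _ _ fun i _ => IsHomogeneous.sum _ _ _ fun j _ =>
    IsHomogeneous.sum _ _ _ fun l _ => IsHomogeneous.sum _ _ _ fun m _ => ?_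
  exact ((((isHomogeneous_C (Fin 4) (algebraMap ℂ k (c.c i j l m))).mul
    (isHomogeneous_X k i)).mul (isHomogeneous_X k j)).mul (isHomogeneous_X k l)).mul
    (isHomogeneous_X k m)

/-- `pderiv i` is a derivation: use `der_T` and the symmetry of `T`. -/
theorem pderiv_poly (k : Type) [CommRing k] [Algebra ℂ k] (i : Fin 4) :
    pderiv i (c.poly k) = 4 * c.al (fun j => (X j : MvPolynomial (Fin 4) k)) i := by
  have h := c.der_T ((pderiv i : Derivation k (MvPolynomial (Fin 4) k) _).restrictScalars ℂ)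
    (fun j => X j) (fun j => X j) (fun j => X j) (fun j => X j)
  have e : (((pderiv i : Derivation k (MvPolynomial (Fin 4) k) _).restrictScalars ℂ) ∘
      fun j => (X j : MvPolynomial (Fin 4) k)) = Pi.single i 1 := by
    funext j
    simp [pderiv_X, Pi.single_apply, eq_comm]
  rw [e] at h
  refine h.trans ?_
  rw [c.sw1 (Pi.single i 1), c.sw2 _ (Pi.single i 1), c.sw3 _ _ (Pi.single i 1), al]
  ring

theorem eval_pderiv_poly (k : Type) [CommRing k] [Algebra ℂ k] (i : Fin 4) (x : Fin 4 → k) :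
    eval x (pderiv i (c.poly k)) = 4 * c.al x i := by
  have h := congrFun (c.map_al ((aeval x : MvPolynomial (Fin 4) k →ₐ[k] k).restrictScalars ℂ)
    fun j => X j) i
  have e : (((aeval x : MvPolynomial (Fin 4) k →ₐ[k] k).restrictScalars ℂ) ∘
      fun j => (X j : MvPolynomial (Fin 4) k)) = x := by
    funext j
    simp
  rw [e] at h
  rw [pderiv_poly, map_mul, ← h, map_ofNat, Function.comp_apply, AlgHom.restrictScalars_apply,
    aeval_eq_eval]

end Ten

theorem h94_pderiv_comm (i j : Fin 4) (P : MvPolynomial (Fin 4) ℂ) :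
    pderiv i (pderiv j P) = pderiv j (pderiv i P) := by
  by_cases h : i = j
  · rw [h]
  ext m
  simp only [coeff_pderiv, Finsupp.add_apply, Finsupp.single_apply, h, Ne.symm h, if_false,
    add_zero]
  rw [add_right_comm]
  ring

/-- `c i j k l = ∂ᵢ∂ⱼ∂ₖ∂ₗ Q / 24` (Euler's identity `IsHomogeneous.sum_X_mul_pderiv` four times). -/
theorem exists_ten_poly {Q : MvPolynomial (Fin 4) ℂ} (hQ : Q.IsHomogeneous 4) :
    ∃ c : Ten, c.poly ℂ = Q := by
  refine ⟨⟨fun i j k l => coeff 0 (pderiv i (pderiv j (pderiv k (pderiv l Q)))) / 24,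
    fun i j k l => ?_, fun i j k l => ?_, fun i j k l => ?_⟩, ?_⟩
  · rw [h94_pderiv_comm i j]
  · rw [h94_pderiv_comm j k]
  · rw [h94_pderiv_comm k l]
  · have h3 : ∀ l, (pderiv l Q).IsHomogeneous 3 := fun l => hQ.pderiv
    have h2 : ∀ k l, (pderiv k (pderiv l Q)).IsHomogeneous 2 := fun k l => (h3 l).pderiv
    have h1 : ∀ j k l, (pderiv j (pderiv k (pderiv l Q))).IsHomogeneous 1 :=
      fun j k l => (h2 k l).pderiv
    have h0 : ∀ i j k l, (pderiv i (pderiv j (pderiv k (pderiv l Q)))).IsHomogeneous 0 :=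
      fun i j k l => (h1 j k l).pderiv
    have e0 : ∀ i j k l, C (coeff 0 (pderiv i (pderiv j (pderiv k (pderiv l Q))))) =
        pderiv i (pderiv j (pderiv k (pderiv l Q))) := fun i j k l =>
      (totalDegree_eq_zero_iff_eq_C.mp ((totalDegree_zero_iff_isHomogeneous _).mpr (h0 i j k l))).symm
    have e1 := fun j k l => (h1 j k l).sum_X_mul_pderiv
    have e2 := fun k l => (h2 k l).sum_X_mul_pderiv
    have e3 := fun l => (h3 l).sum_X_mul_pderiv
    have e4 := hQ.sum_X_mul_pderiv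
    have h24 : (C (24 : ℂ)⁻¹ : MvPolynomial (Fin 4) ℂ) * 24 = 1 := by
      have : (24 : MvPolynomial (Fin 4) ℂ) = C (24 : ℂ) := rfl
      rw [this, ← C_mul, inv_mul_cancel₀ (by norm_num), C_1]
    simp only [Ten.poly, Ten.q, Ten.T, algebraMap_eq, div_eq_mul_inv, C_mul, e0]
    have key : ∑ i : Fin 4, ∑ j : Fin 4, ∑ k : Fin 4, ∑ l : Fin 4,
        pderiv i (pderiv j (pderiv k (pderiv l Q))) * C (24 : ℂ)⁻¹ * X i * X j * X k * X l =
        C (24 : ℂ)⁻¹ * ∑ l : Fin 4, X l * ∑ k : Fin 4, X k * ∑ j : Fin 4, X j * ∑ i : Fin 4,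
          X i * pderiv i (pderiv j (pderiv k (pderiv l Q))) := by
      simp only [Finset.mul_sum]
      rw [Finset.sum_comm]
      conv_lhs => enter [2, j]; rw [Finset.sum_comm]
      conv_lhs => enter [2, j, 2, k]; rw [Finset.sum_comm]
      rw [Finset.sum_comm]
      conv_lhs => enter [2, k]; rw [Finset.sum_comm]
      rw [Finset.sum_comm]
      refine Finset.sum_congr rfl fun l _ => Finset.sum_congr rfl fun k _ =>
        Finset.sum_congr rfl fun j _ => Finset.sum_congr rfl fun i _ => ?_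
      ring
    rw [key]
    simp only [e1, one_smul, e2, mul_smul_comm, ← Finset.smul_sum, e3, e4]
    simp only [nsmul_eq_mul]
    push_cast
    linear_combination Q * h24

/-- Nullstellensatz: `X m ^ N ∈ span (pderiv i Q)`, evaluate in `F`. -/
theorem Ten.sm_of_smooth {c : Ten} (h : SmoothQ (c.poly ℂ)) : c.Sm := by
  intro F _ _ x hx h0
  obtain ⟨i, hi⟩ := smooth_ext h.hom h.smooth x hx
  have h1 := congrFun (c.map_al (aeval x : MvPolynomial (Fin 4) ℂ →ₐ[ℂ] F) fun j => X j) i
  have e : ((aeval x : MvPolynomial (Fin 4) ℂ →ₐ[ℂ] F) ∘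
      fun j => (X j : MvPolynomial (Fin 4) ℂ)) = x := by
    funext j
    simp
  rw [e, h0] at h1
  apply hi
  rw [Ten.pderiv_poly, map_mul, show aeval x (c.al (fun j => X j) i) = 0 from h1, mul_zero]

theorem exists_ten {Q : MvPolynomial (Fin 4) ℂ} (hQ : SmoothQ Q) :
    ∃ c : Ten, c.poly ℂ = Q ∧ c.Sm := by
  obtain ⟨c, rfl⟩ := exists_ten_poly hQ.hom
  exact ⟨c, rfl, Ten.sm_of_smooth hQ⟩

end Crest.Agent.R279
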