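import Mathlib

/-! Row 279, step (4): linear algebra in `F⁴` with the dot product -/

set_option autoImplicit false

namespace Crest.Agent.R279

open Matrix

variable {F : Type} [Field F]

theorem h88_ker_rank {m n : ℕ} (h : m + n = 4) {A : Fin m → Fin 4 → F}
    (hA : LinearIndependent F A) :
    Module.finrank F (LinearMap.ker (Matrix.of A).mulVecLin) = n := by
  have h1 : (Matrix.of A).rank = m := by
    have := LinearIndependent.rank_matrix (M := Matrix.of A) hA
    simpa using this
  have h2 := LinearMap.finrank_range_add_finrank_ker (Matrix.of A).mulVecLin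
  have h3 : Module.finrank F (LinearMap.range (Matrix.of A).mulVecLin) = m := h1
  rw [h3] at h2
  simp at h2
  omega

/-- `m` independent covectors killing `4 - m` independent vectors: these span the common kernel.
(`dotProduct` is a perfect pairing; count dimensions.) -/
theorem la_mem {m n : ℕ} (h : m + n = 4) {A : Fin m → Fin 4 → F} {P : Fin n → Fin 4 → F}
    (hA : LinearIndependent F A) (hP : LinearIndependent F P) (horth : ∀ i j, A i ⬝ᵥ P j = 0)
    {w : Fin 4 → F} (hw : ∀ i, A i ⬝ᵥ w = 0) : ∃ a : Fin n → F, w = ∑ j, a j • P j := by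
  have hk := h88_ker_rank h hA
  have hle : Submodule.span F (Set.range P) ≤ LinearMap.ker (Matrix.of A).mulVecLin := by
    rw [Submodule.span_le]
    rintro _ ⟨j, rfl⟩
    simp only [SetLike.mem_coe, LinearMap.mem_ker, Matrix.mulVecLin_apply]
    funext i
    exact horth i j
  have hr : Module.finrank F (Submodule.span F (Set.range P)) = n := by
    rw [finrank_span_eq_card hP]; simp
  have heq := Submodule.eq_of_le_of_finrank_eq hle (by rw [hr, hk])
  have hmem : w ∈ Submodule.span F (Set.range P) := by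
    rw [heq]
    simp only [LinearMap.mem_ker, Matrix.mulVecLin_apply]
    funext i
    exact hw i
  obtain ⟨a, ha⟩ := (Submodule.mem_span_range_iff_exists_fun F).1 hmem
  exact ⟨a, ha.symm⟩

/-- a basis of the common kernel. -/
theorem la_ex {m n : ℕ} (h : m + n = 4) {A : Fin m → Fin 4 → F} (hA : LinearIndependent F A) :
    ∃ P : Fin n → Fin 4 → F, LinearIndependent F P ∧ ∀ i j, A i ⬝ᵥ P j = 0 := by
  have hk := h88_ker_rank h hA
  let b := Module.finBasisOfFinrankEq F (LinearMap.ker (Matrix.of A).mulVecLin) hk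
  refine ⟨fun j => (b j : Fin 4 → F), ?_, fun i j => ?_⟩
  · exact b.linearIndependent.map' (LinearMap.ker (Matrix.of A).mulVecLin).subtype
      (Submodule.ker_subtype _)
  · have := (b j).2
    rw [LinearMap.mem_ker, Matrix.mulVecLin_apply] at this
    exact congrFun this i

/-- dual covectors. -/
theorem la_dual {m : ℕ} {A : Fin m → Fin 4 → F} (hA : LinearIndependent F A) :
    ∃ B : Fin m → Fin 4 → F, ∀ i j, B i ⬝ᵥ A j = if i = j then 1 else 0 := by
  have h1 : (Matrix.of A).rank = m := by
    have := LinearIndependent.rank_matrix (M := Matrix.of A) hA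
    simpa using this
  have h3 : Module.finrank F (LinearMap.range (Matrix.of A).mulVecLin) = m := h1
  have htop : LinearMap.range (Matrix.of A).mulVecLin = ⊤ := by
    apply Submodule.eq_top_of_finrank_eq
    rw [h3]; simp
  have hs : ∀ i : Fin m, ∃ b : Fin 4 → F, (Matrix.of A).mulVecLin b = Pi.single i 1 := fun i => by
    have : (Pi.single i 1 : Fin m → F) ∈ LinearMap.range (Matrix.of A).mulVecLin := by
      rw [htop]; trivial
    exact this
  choose B hB using hs
  refine ⟨B, fun i j => ?_⟩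
  have := congrFun (hB i) j
  rw [Matrix.mulVecLin_apply] at this
  rw [dotProduct_comm]
  change A j ⬝ᵥ B i = _ at this
  rw [this, Pi.single_apply]
  by_cases hij : i = j
  · simp [hij]
  · simp [hij, Ne.symm hij]

theorem la_of_dual {m : ℕ} {A B : Fin m → Fin 4 → F}
    (h : ∀ i j, B i ⬝ᵥ A j = if i = j then 1 else 0) : LinearIndependent F A := by
  rw [Fintype.linearIndependent_iff]
  intro g hg i
  have := congrArg (fun v => B i ⬝ᵥ v) hg
  simp only [dotProduct_sum, dotProduct_smul, h, smul_eq_mul, dotProduct_zero] at this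
  simpa using this

theorem la_ind2 {p v : Fin 4 → F} (hp : p ≠ 0) (h : ∀ a : F, v ≠ a • p) :
    LinearIndependent F ![p, v] := by
  rw [LinearIndependent.pair_iff' hp]
  intro a ha
  exact h a ha.symm

theorem la_ind3 {p v w : Fin 4 → F} (h : LinearIndependent F ![p, v])
    (hw : ∀ a b : F, w ≠ a • p + b • v) : LinearIndependent F ![p, v, w] := by
  rw [Fintype.linearIndependent_iff]
  intro g hg
  have h2 := LinearIndependent.pair_iff.1 h
  simp only [Fin.sum_univ_three, Matrix.cons_val_zero, Matrix.cons_val_one, Matrix.cons_val] at hg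
  have hg2 : g 2 = 0 := by
    by_contra hne
    apply hw (-(g 0) / g 2) (-(g 1) / g 2)
    have : w = (g 2)⁻¹ • (g 2 • w) := by rw [smul_smul, inv_mul_cancel₀ hne, one_smul]
    rw [this]
    have h3 : g 2 • w = -(g 0 • p + g 1 • v) := eq_neg_of_add_eq_zero_right hg
    rw [h3]
    ext k
    simp only [Pi.smul_apply, Pi.neg_apply, Pi.add_apply, smul_eq_mul]
    field_simp
    ring
  rw [hg2, zero_smul, add_zero] at hg
  obtain ⟨h0, h1⟩ := h2 _ _ hg
  intro i
  fin_cases i
  · exact h0
  · exact h1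
  · exact hg2

/-- one covector, three vectors. -/
theorem la13 {α p v w z : Fin 4 → F} (hα : α ≠ 0) (h : LinearIndependent F ![p, v, w])
    (h1 : α ⬝ᵥ p = 0) (h2 : α ⬝ᵥ v = 0) (h3 : α ⬝ᵥ w = 0) (hz : α ⬝ᵥ z = 0) :
    ∃ a b e : F, z = a • p + b • v + e • w := by
  have hA : LinearIndependent F ![α] := by
    rw [linearIndependent_unique_iff]
    simpa using hα
  obtain ⟨a, ha⟩ := la_mem (m := 1) (n := 3) rfl hA h (by
    intro i j
    fin_cases i
    fin_cases j
    · simpa using h1
    · simpa using h2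
    · simpa using h3) (w := z) (by
    intro i
    fin_cases i
    simpa using hz)
  refine ⟨a 0, a 1, a 2, ?_⟩
  rw [ha]
  simp [Fin.sum_univ_three]

/-- two covectors, two vectors. -/
theorem la22 {α β p v z : Fin 4 → F} (hα : LinearIndependent F ![α, β])
    (h : LinearIndependent F ![p, v]) (h1 : α ⬝ᵥ p = 0) (h2 : α ⬝ᵥ v = 0) (h3 : β ⬝ᵥ p = 0)
    (h4 : β ⬝ᵥ v = 0) (hz : α ⬝ᵥ z = 0) (hz' : β ⬝ᵥ z = 0) : ∃ a b : F, z = a • p + b • v := by
  obtain ⟨a, ha⟩ := la_mem (m := 2) (n := 2) rfl hα h (by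
    intro i j
    fin_cases i <;> fin_cases j
    · simpa using h1
    · simpa using h2
    · simpa using h3
    · simpa using h4) (w := z) (by
    intro i
    fin_cases i
    · simpa using hz
    · simpa using hz')
  refine ⟨a 0, a 1, ?_⟩
  rw [ha]
  simp [Fin.sum_univ_two]

/-- three covectors, one vector. -/
theorem la31 {α β γ p z : Fin 4 → F} (hα : LinearIndependent F ![α, β, γ]) (hp : p ≠ 0)
    (h1 : α ⬝ᵥ p = 0) (h2 : β ⬝ᵥ p = 0) (h3 : γ ⬝ᵥ p = 0) (hz : α ⬝ᵥ z = 0) (hz' : β ⬝ᵥ z = 0)
    (hz'' : γ ⬝ᵥ z = 0) : ∃ a : F, z = a • p := by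
  have hP : LinearIndependent F ![p] := by
    rw [linearIndependent_unique_iff]
    simpa using hp
  obtain ⟨a, ha⟩ := la_mem (m := 3) (n := 1) rfl hα hP (by
    intro i j
    fin_cases j
    fin_cases i
    · simpa using h1
    · simpa using h2
    · simpa using h3) (w := z) (by
    intro i
    fin_cases i
    · simpa using hz
    · simpa using hz'
    · simpa using hz'')
  refine ⟨a 0, ?_⟩
  rw [ha]
  simp

theorem la_ex2 {α β : Fin 4 → F} (hα : LinearIndependent F ![α, β]) :
    ∃ p v : Fin 4 → F, LinearIndependent F ![p, v] ∧ α ⬝ᵥ p = 0 ∧ α ⬝ᵥ v = 0 ∧ β ⬝ᵥ p = 0 ∧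
      β ⬝ᵥ v = 0 := by
  obtain ⟨P, hP, ho⟩ := la_ex (m := 2) (n := 2) rfl hα
  refine ⟨P 0, P 1, ?_, ho 0 0, ho 0 1, ho 1 0, ho 1 1⟩
  have : ![P 0, P 1] = P := by
    funext j; fin_cases j <;> rfl
  rw [this]; exact hP

/-- echelon basis of a plane. -/
theorem la_ech {α β : Fin 4 → F} (hα : LinearIndependent F ![α, β]) :
    ∃ (i j : Fin 4) (a b : Fin 4 → F), i ≠ j ∧ a i = 1 ∧ a j = 0 ∧ b i = 0 ∧ b j = 1 ∧
      (∃ r s : F, a = r • α + s • β) ∧ (∃ r s : F, b = r • α + s • β) ∧
      ∀ r s : F, r • α + s • β = (r • α + s • β) i • a + (r • α + s • β) j • b := by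
  have h2 := LinearIndependent.pair_iff.1 hα
  have hex : ∃ i j : Fin 4, α i * β j - α j * β i ≠ 0 := by
    by_contra hno
    push Not at hno
    have hα0 : α = 0 := by
      by_contra hne
      obtain ⟨i, hi⟩ : ∃ i, α i ≠ 0 := by
        by_contra hc
        push Not at hc
        exact hne (funext hc)
      have := h2 (β i) (-(α i)) (by
        ext k
        simp only [Pi.add_apply, Pi.smul_apply, smul_eq_mul, Pi.zero_apply]
        linear_combination -(hno i k))
      exact hi (neg_eq_zero.1 this.2)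
    have := h2 1 0 (by simp [hα0])
    exact one_ne_zero this.1
  obtain ⟨i, j, hD⟩ := hex
  have hij : i ≠ j := by
    rintro rfl
    exact hD (sub_self _)
  obtain ⟨d, hd⟩ : ∃ d : F, d * (α i * β j - α j * β i) = 1 := ⟨_, inv_mul_cancel₀ hD⟩
  refine ⟨i, j, (β j * d) • α + (-(α j) * d) • β,
    (-(β i) * d) • α + (α i * d) • β, hij,
    ?_, ?_, ?_, ?_, ⟨_, _, rfl⟩, ⟨_, _, rfl⟩, ?_⟩
  · simp only [Pi.add_apply, Pi.smul_apply, smul_eq_mul]
    linear_combination hd
  · simp only [Pi.add_apply, Pi.smul_apply, smul_eq_mul]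
    ring
  · simp only [Pi.add_apply, Pi.smul_apply, smul_eq_mul]
    ring
  · simp only [Pi.add_apply, Pi.smul_apply, smul_eq_mul]
    linear_combination hd
  · intro r s
    ext k
    simp only [Pi.add_apply, Pi.smul_apply, smul_eq_mul]
    linear_combination (-(r * α k + s * β k)) * hd

end Crest.Agent.R279
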