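import Mathlib

/-! Row 279, block (4)-alg: an algebraically closed field with commuting derivations. -/

set_option autoImplicit false
set_option linter.dupNamespace false

namespace Crest.Agent.R279

open Polynomial

/-- derivations extend along formally étale maps -/
theorem exists_deriv_ext {R S T : Type*} [CommRing R] [CommRing S] [CommRing T] [Algebra R S]
    [Algebra R T] [Algebra S T] [IsScalarTower R S T] [Algebra.FormallyEtale S T]
    (D : Derivation R S T) : ∃ E : Derivation R T T, ∀ s, E (algebraMap S T s) = D s := by
  refine ⟨KaehlerDifferential.linearMapEquivDerivation R T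
    ((D.liftKaehlerDifferential.liftBaseChange T) ∘ₗ
      (KaehlerDifferential.tensorKaehlerEquivOfFormallyEtale R S T).symm.toLinearMap), fun s => ?_⟩
  rw [KaehlerDifferential.linearMapEquivDerivation_apply_apply, LinearMap.comp_apply,
    LinearEquiv.coe_coe, KaehlerDifferential.tensorKaehlerEquivOfFormallyEtale_symm_D_algebraMap,
    LinearMap.liftBaseChange_tmul, one_smul, Derivation.liftKaehlerDifferential_comp_D]

section const

variable {F : Type*} [Field F] [Algebra ℂ F]

/-- the derivative of the value of a polynomial with constant coefficients -/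
theorem deriv_eval_of_const (d : Derivation ℂ F F) (p : F[X]) (hp : ∀ n, d (p.coeff n) = 0)
    (a : F) : d (p.eval a) = p.derivative.eval a * d a := by
  rw [eval_eq_sum_range, map_sum, derivative_eval, Polynomial.sum_over_range _ (by simp),
    Finset.sum_mul]
  refine Finset.sum_congr rfl fun n _ => ?_
  rw [Derivation.leibniz, hp, smul_zero, add_zero, Derivation.leibniz_pow]
  simp only [smul_eq_mul, nsmul_eq_mul]
  ring

/-- a root of a non-zero polynomial with constant coefficients is constant -/
theorem deriv_eq_zero_of_root (d : Derivation ℂ F F) {a : F} :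
    ∀ (n : ℕ) (p : F[X]), p.natDegree = n → p ≠ 0 → (∀ n, d (p.coeff n) = 0) → p.eval a = 0 →
      d a = 0 := by
  have : CharZero F := charZero_of_injective_algebraMap (algebraMap ℂ F).injective
  intro n
  induction n using Nat.strong_induction_on with
  | _ n ih =>
    intro p hn h0 hp ha
    have h1 := deriv_eval_of_const d p hp a
    rw [ha, map_zero] at h1
    rcases mul_eq_zero.1 h1.symm with h | h
    · have hn0 : p.natDegree ≠ 0 := by
        intro h'
        rw [eq_C_of_natDegree_eq_zero h', eval_C] at ha
        exact h0 (by rw [eq_C_of_natDegree_eq_zero h', ha, C_0])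
      refine ih _ (hn ▸ natDegree_derivative_lt hn0) p.derivative rfl
        (fun h' => hn0 (derivative_eq_zero.1 h')) (fun k => ?_) h
      rw [coeff_derivative, Derivation.leibniz, hp, smul_zero, add_zero]
      have : ((k : F) + 1) = ((k + 1 : ℕ) : F) := by push_cast; rfl
      rw [this, Derivation.map_natCast, smul_zero]
    · exact h

/-- the common constants of a set of derivations -/
def constF (S : Set (Derivation ℂ F F)) : IntermediateField ℂ F where
  carrier := {a | ∀ d ∈ S, d a = 0}
  mul_mem' := fun {a b} ha hb d hd => by
    rw [Derivation.leibniz, ha d hd, hb d hd, smul_zero, smul_zero, add_zero]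
  add_mem' := fun {a b} ha hb d hd => by rw [map_add, ha d hd, hb d hd, add_zero]
  algebraMap_mem' := fun r d _ => d.map_algebraMap r
  inv_mem' := fun a ha d hd => by rw [Derivation.leibniz_inv, ha d hd, smul_zero]

theorem mem_constF {S : Set (Derivation ℂ F F)} {a : F} : a ∈ constF S ↔ ∀ d ∈ S, d a = 0 :=
  Iff.rfl

/-- elements algebraic over constants are constants -/
theorem mem_constF_of_isAlgebraic {S : Set (Derivation ℂ F F)} {a : F}
    (ha : IsAlgebraic (constF S) a) : a ∈ constF S := by
  obtain ⟨p, hp0, hp⟩ := ha
  intro d hd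
  refine deriv_eq_zero_of_root d _ (p.map (algebraMap (constF S) F)) rfl
    ((Polynomial.map_ne_zero_iff (algebraMap (constF S) F).injective).2 hp0) (fun n => ?_) ?_
  · rw [coeff_map]; exact (p.coeff n).2 d hd
  · rwa [eval_map_algebraMap]

instance constF_isAlgClosed [IsAlgClosed F] (S : Set (Derivation ℂ F F)) :
    IsAlgClosed (constF S) := by
  refine IsAlgClosed.of_exists_root _ fun p _ hp => ?_
  have h0 : p ≠ 0 := hp.ne_zero
  obtain ⟨a, ha⟩ := IsAlgClosed.exists_aeval_eq_zero F p (degree_pos_of_irreducible hp).ne'
  have hm : a ∈ constF S := mem_constF_of_isAlgebraic ⟨p, h0, ha⟩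
  refine ⟨⟨a, hm⟩, ?_⟩
  apply (algebraMap (constF S) F).injective
  rw [map_zero, ← aeval_algebraMap_apply_eq_algebraMap_eval]
  exact ha

end const

/-- AN ALGEBRAICALLY CLOSED FIELD WITH COMMUTING DERIVATIONS dual to independent variables -/
theorem exists_diff_field (ι : Type) [DecidableEq ι] :
    ∃ (F : Type) (_ : Field F) (_ : Algebra ℂ F) (_ : IsAlgClosed F) (t : ι → F)
      (d : ι → Derivation ℂ F F), (∀ i j, d i (t j) = if i = j then 1 else 0) ∧
        ∀ i j a, d i (d j a) = d j (d i a) := by
  let P := MvPolynomial ι ℂ
  let K := FractionRing P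
  let F := AlgebraicClosure K
  have : Algebra.FormallyEtale P K := Algebra.FormallyEtale.of_isLocalization (nonZeroDivisors P)
  have : CharZero K := charZero_of_injective_algebraMap (algebraMap ℂ K).injective
  have : Algebra.FormallyEtale K F := Algebra.FormallyEtale.of_isSeparable K F
  have : Algebra.FormallyEtale P F := Algebra.FormallyEtale.comp P K F
  have hex : ∀ i : ι, ∃ E : Derivation ℂ F F,
      ∀ s : P, E (algebraMap P F s) = algebraMap P F (MvPolynomial.pderiv i s) := fun i => by
    obtain ⟨E, hE⟩ := exists_deriv_ext (R := ℂ) (S := P) (T := F)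
      ((Algebra.linearMap P F).compDer (MvPolynomial.pderiv i))
    exact ⟨E, hE⟩
  choose d hd using hex
  have ht : ∀ i j, d i (algebraMap P F (MvPolynomial.X j)) = if i = j then 1 else 0 := by
    intro i j
    rw [hd, MvPolynomial.pderiv_X]
    by_cases h : i = j
    · subst h; simp
    · simp [h]
  refine ⟨F, inferInstance, inferInstance, inferInstance,
    fun j => algebraMap P F (MvPolynomial.X j), d, ht, fun i j a => ?_⟩
  have hX : ∀ k, ⁅d i, d j⁆ (algebraMap P F (MvPolynomial.X k)) = 0 := by
    intro k
    rw [Derivation.commutator_apply, ht, ht]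
    split_ifs <;> simp
  have hP : ∀ s : P, ⁅d i, d j⁆ (algebraMap P F s) = 0 := by
    intro s
    induction s using MvPolynomial.induction_on with
    | C c =>
      rw [show (MvPolynomial.C c : P) = algebraMap ℂ P c from rfl, ← IsScalarTower.algebraMap_apply,
        Derivation.map_algebraMap]
    | add p q hp hq => rw [map_add, map_add, hp, hq, add_zero]
    | mul_X p k hp => rw [map_mul, Derivation.leibniz, hp, hX, smul_zero, smul_zero, add_zero]
  have halg : IsAlgebraic P a := by
    have : Algebra.IsAlgebraic P K := IsLocalization.isAlgebraic K (nonZeroDivisors P)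
    have : Algebra.IsAlgebraic P F := Algebra.IsAlgebraic.trans P K F
    exact Algebra.IsAlgebraic.isAlgebraic a
  obtain ⟨p, hp0, hp⟩ := halg
  have hinj : Function.Injective (algebraMap P F) := by
    rw [IsScalarTower.algebraMap_eq P K F]
    exact (algebraMap K F).injective.comp (IsFractionRing.injective P K)
  have := deriv_eq_zero_of_root ⁅d i, d j⁆ _ (p.map (algebraMap P F)) rfl
    ((Polynomial.map_ne_zero_iff hinj).2 hp0) (fun n => by rw [coeff_map]; exact hP _)
    (by rwa [eval_map_algebraMap])
  rwa [Derivation.commutator_apply, sub_eq_zero] at this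

end Crest.Agent.R279
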