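import Crest.Agent.R279.AT
import Crest.Agent.R279.ALa
import Crest.Agent.R279.AO
import Crest.Agent.R279.AB
import Crest.Agent.R279.AK

/-! Row 279, step (4): derivations, lines and tangent planes -/

set_option autoImplicit false

namespace Crest.Agent.R279

open Matrix

variable {F : Type} [Field F] [Algebra ℂ F]

theorem der_dot (δ : Derivation ℂ F F) (a w : Fin 4 → F) :
    δ (a ⬝ᵥ w) = (δ ∘ a) ⬝ᵥ w + a ⬝ᵥ (δ ∘ w) := by
  simp only [dotProduct, map_sum, ← Finset.sum_add_distrib]
  refine Finset.sum_congr rfl fun i _ => ?_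
  simp only [Derivation.leibniz, smul_eq_mul, Function.comp_apply]; ring

theorem der_smul (δ : Derivation ℂ F F) (r : F) (x : Fin 4 → F) :
    δ ∘ (r • x) = δ r • x + r • (δ ∘ x) := by
  funext i
  simp only [Function.comp_apply, Pi.smul_apply, smul_eq_mul, Derivation.leibniz, Pi.add_apply]
  ring

theorem der_add (δ : Derivation ℂ F F) (x y : Fin 4 → F) : δ ∘ (x + y) = δ ∘ x + δ ∘ y := by
  funext i; simp

theorem der_single (δ : Derivation ℂ F F) (l : Fin 4) :
    δ ∘ (Pi.single l 1 : Fin 4 → F) = 0 := by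
  funext i; by_cases h : i = l <;> simp [h]

namespace Ten

variable {c : Ten}

theorem der_q (δ : Derivation ℂ F F) (x : Fin 4 → F) :
    δ (c.q x) = 4 * (c.al x ⬝ᵥ (δ ∘ x)) := by
  rw [q, der_T, al_dot, c.sw1 (δ ∘ x), c.sw2 x (δ ∘ x), c.sw3 x x (δ ∘ x)]; ring

theorem der_al_dot (δ : Derivation ℂ F F) (x w : Fin 4 → F) :
    (δ ∘ c.al x) ⬝ᵥ w = 3 * c.T x x (δ ∘ x) w := by
  have h := der_dot δ (c.al x) w
  rw [al_dot, al_dot, der_T, c.sw1 (δ ∘ x), c.sw2 x (δ ∘ x)] at h
  linear_combination -h

/-- a point of the cone moves in its tangent space. -/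
theorem al_der (δ : Derivation ℂ F F) {x : Fin 4 → F} (hx : c.q x = 0) :
    c.al x ⬝ᵥ (δ ∘ x) = 0 := by
  have : CharZero F := charZero_of_injective_algebraMap (algebraMap ℂ F).injective
  have h := der_q (c := c) δ x
  rw [hx, map_zero] at h
  simpa using h.symm

theorem der_al_self (δ : Derivation ℂ F F) {x : Fin 4 → F} (hx : c.q x = 0) :
    (δ ∘ c.al x) ⬝ᵥ x = 0 := by
  have h := der_dot δ (c.al x) x
  rw [al_dot_self, hx, map_zero, al_der δ hx] at h
  simpa using h.symm

theorem der_al_of_const (δ : Derivation ℂ F F) {x : Fin 4 → F} {a : F} (h : δ ∘ x = a • x) :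
    δ ∘ c.al x = (3 * a) • c.al x := by
  funext l
  have h1 := der_al_dot (c := c) δ x (Pi.single l 1)
  rw [h, smul3, dotProduct_single, mul_one] at h1
  rw [h1]; simp only [al, Pi.smul_apply, smul_eq_mul]; ring

theorem h31_cubic [IsAlgClosed F] (c0 c1 c2 c3 : F) :
    ∃ a b : F, (a ≠ 0 ∨ b ≠ 0) ∧
      a ^ 3 * c0 + 3 * a ^ 2 * b * c1 + 3 * a * b ^ 2 * c2 + b ^ 3 * c3 = 0 := by
  by_cases h0 : c0 = 0
  · exact ⟨1, 0, Or.inl one_ne_zero, by rw [h0]; ring⟩
  · let P : Cubic F := ⟨c0, 3 * c1, 3 * c2, c3⟩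
    have hd : P.toPoly.degree = 3 := Cubic.degree_of_a_ne_zero h0
    obtain ⟨a, ha⟩ := IsAlgClosed.exists_root P.toPoly (by rw [hd]; decide)
    refine ⟨a, 1, Or.inr one_ne_zero, ?_⟩
    simp only [Polynomial.IsRoot, Cubic.toPoly, P, Polynomial.eval_add, Polynomial.eval_mul,
      Polynomial.eval_C, Polynomial.eval_pow, Polynomial.eval_X] at ha
    linear_combination ha

theorem h31_notin (p v w : Fin 4 → F) :
    ∃ e : Fin 4 → F, ∀ a b g : F, e ≠ a • p + b • v + g • w := by
  by_contra hcon
  push Not at hcon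
  have htop : Submodule.span F (Set.range ![p, v, w]) = ⊤ := by
    refine eq_top_iff.2 fun e _ => ?_
    obtain ⟨a, b, g, rfl⟩ := hcon e
    refine Submodule.add_mem _ (Submodule.add_mem _ ?_ ?_) ?_
    · exact Submodule.smul_mem _ _ (Submodule.subset_span ⟨0, rfl⟩)
    · exact Submodule.smul_mem _ _ (Submodule.subset_span ⟨1, rfl⟩)
    · exact Submodule.smul_mem _ _ (Submodule.subset_span ⟨2, rfl⟩)
  have h := finrank_range_le_card (R := F) ![p, v, w]
  rw [Set.finrank, htop, finrank_top] at h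
  simp at h

/-- **L0**: a `δ`-constant line with a moving point of `X` lies in `X`.  With `p' = δ p` the five
numbers `f₀ = T p p p p, f₁ = T p p p p', …, f₄` vanish one after the other (apply `δ`, `der_T`). -/
theorem line_of_const (δ : Derivation ℂ F F) {p v : Fin 4 → F} (hp : c.q p = 0)
    (h1 : ∃ a b : F, δ ∘ p = a • p + b • v ∧ b ≠ 0) (h2 : ∃ a b : F, δ ∘ v = a • p + b • v) :
    ∀ a b : F, c.q (a • p + b • v) = 0 := by
  have : CharZero F := charZero_of_injective_algebraMap (algebraMap ℂ F).injective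
  obtain ⟨a, b, h1, hb⟩ := h1
  obtain ⟨a', b', h2⟩ := h2
  have e1 : c.T p p v p = c.T p p p v := c.sw3 _ _ _ _
  have e2 : c.T p v p p = c.T p p p v := by rw [c.sw2, e1]
  have e3 : c.T v p p p = c.T p p p v := by rw [c.sw1, e2]
  have e4 : c.T p v p v = c.T p p v v := c.sw2 _ _ _ _
  have e5 : c.T v p p v = c.T p p v v := by rw [c.sw1, e4]
  have e6 : c.T p v v p = c.T p p v v := by rw [c.sw3, e4]
  have e7 : c.T v p v v = c.T p v v v := c.sw1 _ _ _ _
  have f0 : c.T p p p p = 0 := hp
  have f1 : c.T p p p v = 0 := by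
    have h := c.der_T δ p p p p
    rw [f0, map_zero, h1] at h
    simp only [add1, add2, add3, add4, smul1, smul2, smul3, smul4, e1, e2, e3, f0] at h
    have h' : b * (4 * c.T p p p v) = 0 := by linear_combination -h
    simpa [hb] using h'
  have f2 : c.T p p v v = 0 := by
    have h := c.der_T δ p p p v
    rw [f1, map_zero, h1, h2] at h
    simp only [add1, add2, add3, add4, smul1, smul2, smul3, smul4, e4, e5, f0, f1] at h
    have h' : b * (3 * c.T p p v v) = 0 := by linear_combination -h
    simpa [hb] using h'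
  have f3 : c.T p v v v = 0 := by
    have h := c.der_T δ p p v v
    rw [f2, map_zero, h1, h2] at h
    simp only [add1, add2, add3, add4, smul1, smul2, smul3, smul4, e1, e7, f1, f2] at h
    have h' : b * (2 * c.T p v v v) = 0 := by linear_combination -h
    simpa [hb] using h'
  have f4 : c.q v = 0 := by
    have h := c.der_T δ p v v v
    rw [f3, map_zero, h1, h2] at h
    simp only [add1, add2, add3, add4, smul1, smul2, smul3, smul4, e4, e6, f2, f3] at h
    have h' : b * c.T v v v v = 0 := by linear_combination -h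
    exact (mul_eq_zero.1 h').resolve_left hb
  intro s t
  rw [q_add, hp, f1, f2, f3, f4]; ring

/-- on a line of `X` all polars vanish. -/
theorem line_polar {p v : Fin 4 → F} (h : ∀ a b : F, c.q (a • p + b • v) = 0) :
    c.q p = 0 ∧ c.T p p p v = 0 ∧ c.T p p v v = 0 ∧ c.T p v v v = 0 ∧ c.q v = 0 := by
  have : CharZero F := charZero_of_injective_algebraMap (algebraMap ℂ F).injective
  have h0 := h 1 0
  have h4 := h 0 1
  have h1 := h 1 1
  have h2 := h 1 (-1)
  have h3 := h 2 1
  rw [q_add] at h0 h4 h1 h2 h3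
  have f0 : c.q p = 0 := by linear_combination h0
  have f4 : c.q v = 0 := by linear_combination h4
  have f2 : c.T p p v v = 0 := by
    linear_combination (1 / 12 : F) * (h1 + h2) - (1 / 6 : F) * (f0 + f4)
  have f1 : c.T p p p v = 0 := by
    linear_combination (1 / 24 : F) * (h3 - 2 * h1 - 14 * f0 + f4 - 12 * f2)
  refine ⟨f0, f1, f2, ?_, f4⟩
  linear_combination (1 / 4 : F) * (h1 - f0 - f4 - 4 * f1 - 6 * f2)

/-- a binary cubic has a non-trivial zero, so the tangent plane turns along a line: no vector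
`w` outside the line is tangent at all of its points. -/
theorem no_double_line [IsAlgClosed F] (hc : c.Sm) {p v w : Fin 4 → F}
    (hind : LinearIndependent F ![p, v, w]) (h : ∀ a b : F, c.q (a • p + b • v) = 0)
    (h0 : c.T p p p w = 0) (h1 : c.T p p v w = 0) (h2 : c.T p v v w = 0) (h3 : c.T v v v w = 0) :
    False := by
  obtain ⟨f0, f1, f2, f3, f4⟩ := line_polar h
  obtain ⟨e, he⟩ := h31_notin p v w
  have hT : ∀ (a b : F) (x : Fin 4 → F), c.al (a • p + b • v) ⬝ᵥ x =
      a ^ 3 * c.T p p p x + 3 * a ^ 2 * b * c.T p p v x + 3 * a * b ^ 2 * c.T p v v x +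
        b ^ 3 * c.T v v v x := by
    intro a b x
    simp only [al_dot, add1, add2, add3, smul1, smul2, smul3]
    rw [c.sw2 p v p x, c.sw1 v p p x, c.sw2 p v p x, c.sw1 v p v x, c.sw2 v v p x, c.sw1 v p v x]
    ring
  obtain ⟨a, b, hab, hz⟩ := h31_cubic (c.T p p p e) (c.T p p v e) (c.T p v v e) (c.T v v v e)
  have hz0 : a • p + b • v ≠ 0 := by
    intro h0
    have := Fintype.linearIndependent_iff.1 hind ![a, b, 0] (by simpa [Fin.sum_univ_three] using h0)
    rcases hab with hab | hab
    · exact hab (this 0)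
    · exact hab (this 1)
  have e1 : c.T p p v p = c.T p p p v := c.sw3 _ _ _ _
  have e6 : c.T p v v p = c.T p p v v := by rw [c.sw3, c.sw2]
  have e7 : c.T v v v p = c.T p v v v := by rw [c.sw3, c.sw2, c.sw1]
  obtain ⟨r, s, t, hrst⟩ := la13 (z := e) (hc F _ hz0) hind
    (by rw [hT, e1, e6, e7, f1, f2, f3, show c.T p p p p = 0 from f0]; ring)
    (by rw [hT, f1, f2, f3, show c.T v v v v = 0 from f4]; ring)
    (by rw [hT, h0, h1, h2, h3]; ring) (by rw [hT, hz])
  exact he r s t hrst

theorem lr_cube (p v w : Fin 4 → F) (a b : F) :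
    c.T (a • p + b • v) (a • p + b • v) (a • p + b • v) w =
      a ^ 3 * c.T p p p w + 3 * a ^ 2 * b * c.T p p v w + 3 * a * b ^ 2 * c.T p v v w +
        b ^ 3 * c.T v v v w := by
  simp only [add1, add2, add3, smul1, smul2, smul3]
  rw [c.sw1 v p p w, c.sw2 p v p w, c.sw2 v v p w, c.sw1 v p v w]
  ring

theorem lr_quad [IsAlgClosed F] (x y z : F) :
    ∃ a b : F, ¬ (a = 0 ∧ b = 0) ∧ x * a ^ 2 + y * a * b + z * b ^ 2 = 0 := by
  have : CharZero F := charZero_of_injective_algebraMap (algebraMap ℂ F).injective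
  by_cases hx : x = 0
  · exact ⟨1, 0, by simp, by simp [hx]⟩
  · obtain ⟨a, ha⟩ := exists_quadratic_eq_zero hx (IsAlgClosed.exists_eq_mul_self (discrim x y z))
    exact ⟨a, 1, by simp, by linear_combination ha⟩

/-- **L1**: lines of a smooth quartic are rigid.  Complete `p, v` by `e₁, e₂`; the cubics
`Cᵢ(b) = T z z z eᵢ`, `z = p + b v`, have no common root in `ℙ¹`, and `L₁ C₁ + L₂ C₂ = 0` where
`δ p + b δ v ≡ L₁(b) e₁ + L₂(b) e₂`, for all `b ∈ ℕ`, hence as polynomials. -/
theorem line_rigid [IsAlgClosed F] (hc : c.Sm) (δ : Derivation ℂ F F) {p v : Fin 4 → F}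
    (hind : LinearIndependent F ![p, v]) (h : ∀ a b : F, c.q (a • p + b • v) = 0) :
    (∃ a b : F, δ ∘ p = a • p + b • v) ∧ ∃ a b : F, δ ∘ v = a • p + b • v := by
  have : CharZero F := charZero_of_injective_algebraMap (algebraMap ℂ F).injective
  obtain ⟨h0, h1, h2, h3, h4⟩ := line_polar h
  unfold q at h0 h4
  set P := δ ∘ p with hP
  set V := δ ∘ v with hV
  -- polars in all positions
  have a1 : c.T p p v p = 0 := by rw [c.sw3, h1]
  have a2 : c.T p v v p = 0 := by rw [c.sw3, c.sw2, h2]
  have a3 : c.T v v v p = 0 := by rw [c.sw3, c.sw2, c.sw1, h3]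
  -- differentiated polars
  have d0 : c.T p p p P = 0 := by
    have e := der_T (c := c) δ p p p p
    rw [h0, map_zero, ← hP, c.sw1 P, c.sw2 p P, c.sw3 p p P] at e
    have : (4 : F) * c.T p p p P = 0 := by linear_combination -e
    simpa using this
  have d1 : 3 * c.T p p v P + c.T p p p V = 0 := by
    have e := der_T (c := c) δ p p p v
    rw [h1, map_zero, ← hP, ← hV, c.sw1 P, c.sw2 p P, c.sw3 p p P] at e
    linear_combination -e
  have d2 : c.T p v v P + c.T p p v V = 0 := by
    have e := der_T (c := c) δ p p v v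
    rw [h2, map_zero, ← hP, ← hV, c.sw1 P, c.sw2 p P, c.sw3 p v P, c.sw3 p p V] at e
    have : (2 : F) * (c.T p v v P + c.T p p v V) = 0 := by linear_combination -e
    simpa using this
  have d3 : c.T v v v P + 3 * c.T p v v V = 0 := by
    have e := der_T (c := c) δ p v v v
    rw [h3, map_zero, ← hP, ← hV, c.sw1 P, c.sw2 v P, c.sw3 v v P, c.sw2 p V, c.sw3 p v V] at e
    linear_combination -e
  have d4 : c.T v v v V = 0 := by
    have e := der_T (c := c) δ v v v v
    rw [h4, map_zero, ← hV, c.sw1 V, c.sw2 v V, c.sw3 v v V] at e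
    have : (4 : F) * c.T v v v V = 0 := by linear_combination -e
    simpa using this
  have hPm : ∃ a b : F, P = a • p + b • v := by
    by_contra hn
    have hn' : ∀ a b : F, P ≠ a • p + b • v := fun a b e => hn ⟨a, b, e⟩
    have hi := la_ind3 hind hn'
    obtain ⟨a, b, hab, hG⟩ := lr_quad (3 * c.T p p v P) (3 * c.T p v v P) (c.T v v v P)
    have hz : a • p + b • v ≠ 0 := fun e => hab (LinearIndependent.pair_iff.1 hind a b e)
    obtain ⟨α, β, e, he⟩ := la13 (z := V) (hc F _ hz) hi
      (by rw [al_dot, lr_cube, h0, a1, a2, a3]; ring)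
      (by rw [al_dot, lr_cube, h1, h2, h3, h4]; ring)
      (by rw [al_dot, lr_cube]; linear_combination a ^ 3 * d0 + b * hG)
      (by
        rw [al_dot, lr_cube]
        linear_combination a ^ 3 * d1 + 3 * a ^ 2 * b * d2 + a * b ^ 2 * d3 + b ^ 3 * d4 - a * hG)
    have e1 : c.T p p p V = 0 := by
      rw [he]; simp only [add4, smul4]; rw [h0, h1, d0]; ring
    have f1 : c.T p p v P = 0 := by
      have : (3 : F) * c.T p p v P = 0 := by linear_combination d1 - e1
      simpa using this
    have e2 : c.T p p v V = 0 := by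
      rw [he]; simp only [add4, smul4]; rw [a1, h2, f1]; ring
    have f2 : c.T p v v P = 0 := by linear_combination d2 - e2
    have e3 : c.T p v v V = 0 := by
      rw [he]; simp only [add4, smul4]; rw [a2, h3, f2]; ring
    have f3 : c.T v v v P = 0 := by linear_combination d3 - 3 * e3
    exact no_double_line hc hi h d0 f1 f2 f3
  refine ⟨hPm, ?_⟩
  by_contra hn
  have hn' : ∀ a b : F, V ≠ a • p + b • v := fun a b e => hn ⟨a, b, e⟩
  obtain ⟨α, β, he⟩ := hPm
  have f1 : c.T p p v P = 0 := by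
    rw [he]; simp only [add4, smul4]; rw [a1, h2]; ring
  have f2 : c.T p v v P = 0 := by
    rw [he]; simp only [add4, smul4]; rw [a2, h3]; ring
  have f3 : c.T v v v P = 0 := by
    rw [he]; simp only [add4, smul4]; rw [a3, h4]; ring
  refine no_double_line hc (la_ind3 hind hn') h (by linear_combination d1 - 3 * f1)
    (by linear_combination d2 - f2) ?_ d4
  have : (3 : F) * c.T p v v V = 0 := by linear_combination d3 - f3
  simpa using this

/-- **L2**: the Gauss map is finite.  Scale `x` so that `al x` has constant coordinates; if a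
coordinate were not integral over `constF {δ}`, take a valuation subring missing it, rescale `x` to a
primitive vector and reduce: a point with `al = 0` over the residue field. -/
theorem gauss_finite [IsAlgClosed F] (hc : c.Sm) (δ : Derivation ℂ F F) {x : Fin 4 → F}
    (hx : x ≠ 0) (h : ∃ a : F, δ ∘ c.al x = a • c.al x) : ∃ a : F, δ ∘ x = a • x := by
  have _ := hx
  obtain ⟨a, ha⟩ := h
  have e : ∀ i, MvPolynomial.aeval x (MvPolynomial.pderiv i (c.poly ℂ)) = 4 * c.al x i := by
    intro i
    have h1 := congrFun (c.map_al (MvPolynomial.aeval x : MvPolynomial (Fin 4) ℂ →ₐ[ℂ] F)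
      fun j => MvPolynomial.X j) i
    have h2 : (MvPolynomial.aeval x : MvPolynomial (Fin 4) ℂ →ₐ[ℂ] F) ∘
        (fun j => MvPolynomial.X j) = x := by
      funext j; simp
    rw [h2, Function.comp_apply] at h1
    rw [c.pderiv_poly, map_mul, h1, map_ofNat]
  obtain ⟨b, hb⟩ := gauss_finite_proj (c.poly_hom ℂ) (fun p hp _ => by
      obtain ⟨i, hi⟩ := Function.ne_iff.1 (hc ℂ p hp)
      exact ⟨i, by rw [c.eval_pderiv_poly]; exact mul_ne_zero (by norm_num) hi⟩) δ x (c := a)
    fun i => by
      have h1 := congrFun ha i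
      have h4 : δ 4 = 0 := by simpa using δ.map_natCast 4
      simp only [Function.comp_apply, Pi.smul_apply, smul_eq_mul] at h1
      rw [e, Derivation.leibniz, h4, h1]
      simp only [smul_eq_mul]
      ring
  exact ⟨b, funext hb⟩

/-- a point moving in three independent directions lies on no line. -/
theorem no_line [IsAlgClosed F] (hc : c.Sm) {η : Fin 4 → F} (δ : Fin 3 → Derivation ℂ F F)
    (hη : LinearIndependent F fun j => (δ j) ∘ η) {v : Fin 4 → F}
    (hind : LinearIndependent F ![η, v]) : ¬ ∀ a b : F, c.q (a • η + b • v) = 0 := by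
  intro h
  have hmem : ∀ j, (δ j) ∘ η ∈ Submodule.span F (Set.range ![η, v]) := by
    intro j
    obtain ⟨a, b, hab⟩ := (line_rigid hc (δ j) hind h).1
    rw [hab]
    exact Submodule.add_mem _ (Submodule.smul_mem _ _ (Submodule.subset_span ⟨0, rfl⟩))
      (Submodule.smul_mem _ _ (Submodule.subset_span ⟨1, rfl⟩))
  have h1 := Submodule.finrank_mono (Submodule.span_le.2 (Set.range_subset_iff.2 hmem))
  rw [finrank_span_eq_card hη, finrank_span_eq_card hind] at h1
  simp at h1

end Ten

end Crest.Agent.R279
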