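import Mathlib

/-! Row 279, step (4): binary sextics, resultants, `4 × 4` determinants. -/

set_option autoImplicit false

namespace Crest.Agent.R279

open Polynomial

/-- product formula for `Res (φ, φ')`. -/
theorem h75_res {k : Type} [Field k] (a b : Fin 6 → k) :
    resultant (∏ i, (C (b i) * X - C (a i))) (derivative (∏ i, (C (b i) * X - C (a i)))) 6 5 =
      (∏ i, b i) * ∏ i, ∏ j ∈ Finset.univ.erase i, (a i * b j - a j * b i) := by
  classical
  set φ : k[X] := ∏ i, (C (b i) * X - C (a i)) with hφ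
  have hle : ∀ i, (C (b i) * X - C (a i)).natDegree ≤ 1 := fun i => by compute_degree
  have h6 : φ.natDegree ≤ 6 := by
    refine (natDegree_prod_le _ _).trans ?_
    exact (Finset.sum_le_sum fun i _ => hle i).trans (by simp)
  by_cases hb : ∀ i, b i ≠ 0
  · have hd : ∀ i, (C (b i) * X - C (a i)).natDegree = 1 := fun i => by
      rw [sub_eq_add_neg, ← C_neg]; exact natDegree_linear (hb i)
    have hl : ∀ i, (C (b i) * X - C (a i)).leadingCoeff = b i := fun i => by
      rw [sub_eq_add_neg, ← C_neg]; exact leadingCoeff_linear (hb i)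
    have hne : ∀ i, C (b i) * X - C (a i) ≠ 0 := fun i h0 => by
      have := hd i; rw [h0] at this; simp at this
    have e6 : φ.natDegree = 6 := by
      rw [hφ, natDegree_prod _ _ fun i _ => hne i]; simp [hd]
    have h5 : (derivative φ).natDegree ≤ 5 := (natDegree_derivative_le φ).trans (by omega)
    have := resultant_prod_left Finset.univ (fun i => C (b i) * X - C (a i)) (derivative φ) 5
      (by simp only [hl]; exact Finset.prod_ne_zero_iff.2 fun i _ => hb i) h5
    rw [← hφ, e6] at this
    rw [this, ← Finset.prod_mul_distrib]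
    refine Finset.prod_congr rfl fun i _ => ?_
    have e : C (b i) * X - C (a i) = C (b i) * (X - C (a i / b i)) := by
      rw [mul_sub, ← C_mul, mul_div_cancel₀ _ (hb i)]
    rw [hd, e, resultant_C_mul_left, resultant_X_sub_C_left _ _ _ h5, hφ, derivative_prod_finset,
      eval_finsetSum, Finset.sum_eq_single i]
    · simp only [eval_mul, eval_prod, eval_sub, eval_C, eval_X, derivative_sub, derivative_C_mul_X,
        derivative_C, sub_zero]
      have : b i ^ 5 = ∏ j ∈ Finset.univ.erase i, b i := by simp [Finset.card_erase_of_mem]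
      rw [this, ← mul_assoc, ← Finset.prod_mul_distrib, mul_comm]
      congr 1
      refine Finset.prod_congr rfl fun j _ => ?_
      have := hb i
      field_simp
    · intro j _ hj
      rw [eval_mul, eval_prod, Finset.prod_eq_zero (i := i) (by simp [hj.symm]), zero_mul]
      have := hb i
      simp only [eval_mul, eval_sub, eval_C, eval_X]
      field_simp
      ring
    · simp
  · push Not at hb
    obtain ⟨i, hi⟩ := hb
    have h5 : φ.natDegree ≤ 5 := by
      rw [hφ, ← Finset.mul_prod_erase _ _ (Finset.mem_univ i), hi]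
      refine natDegree_mul_le.trans ?_
      have e0 : (C (0 : k) * X - C (a i)).natDegree = 0 := by simp
      rw [e0, zero_add]
      refine (natDegree_prod_le _ _).trans ?_
      exact (Finset.sum_le_sum fun i _ => hle i).trans (by simp [Finset.card_erase_of_mem])
    rw [resultant_eq_zero_of_lt_lt _ _ _ _ (by omega)
      ((natDegree_derivative_le φ).trans_lt (by omega)),
      Finset.prod_eq_zero (Finset.mem_univ i) hi, zero_mul]

/-- a binary sextic splits. -/
theorem h75_sextic {k : Type} [Field k] [IsAlgClosed k] (d0 d1 d2 d3 d4 d5 d6 : k) (h0 : d0 ≠ 0) :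
    ∃ r : Fin 6 → k, ∀ s t : k, d0 * s ^ 6 + d1 * s ^ 5 * t + d2 * s ^ 4 * t ^ 2 +
      d3 * s ^ 3 * t ^ 3 + d4 * s ^ 2 * t ^ 4 + d5 * s * t ^ 5 + d6 * t ^ 6 =
      d0 * ∏ i, (s - r i * t) := by
  classical
  set P : k[X] := C d0 * X ^ 6 + C d1 * X ^ 5 + C d2 * X ^ 4 + C d3 * X ^ 3 + C d4 * X ^ 2 +
    C d5 * X + C d6 with hP
  have hd : P.natDegree = 6 := by rw [hP]; compute_degree!
  have hl : P.leadingCoeff = d0 := by
    rw [leadingCoeff, hd, hP]; simp
  have hs := (IsAlgClosed.splits P).eq_prod_roots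
  have hc : P.roots.card = 6 := by rw [← hd]; exact (IsAlgClosed.splits P).natDegree_eq_card_roots.symm
  obtain ⟨l, hl'⟩ := Quot.exists_rep P.roots
  have hlen : l.length = 6 := by rw [← hc, ← hl']; rfl
  obtain ⟨r, rfl⟩ : ∃ r : Fin 6 → k, l = List.ofFn r :=
    ⟨fun i => l.get (i.cast hlen.symm), by
      apply List.ext_getElem
      · simp [hlen]
      · intro i h1 h2
        rw [List.getElem_ofFn]; rfl⟩
  refine ⟨r, fun s t => ?_⟩
  have hev : ∀ z : k, P.eval z = d0 * ∏ i, (z - r i) := fun z => by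
    conv_lhs => rw [hs, hl, ← hl']
    simp [Fin.prod_univ_succ]
  by_cases ht : t = 0
  · subst ht; simp
  · have := hev (s / t)
    simp only [hP, eval_add, eval_mul, eval_C, eval_pow, eval_X, Fin.prod_univ_six] at this ⊢
    field_simp at this
    linear_combination this

/-- `4 × 4` determinant. -/
def d4 {R : Type} [CommRing R] (a b c d : Fin 4 → R) : R :=
  a 0 * (b 1 * (c 2 * d 3 - c 3 * d 2) - b 2 * (c 1 * d 3 - c 3 * d 1) + b 3 * (c 1 * d 2 - c 2 * d 1))
  - a 1 * (b 0 * (c 2 * d 3 - c 3 * d 2) - b 2 * (c 0 * d 3 - c 3 * d 0) + b 3 * (c 0 * d 2 - c 2 * d 0))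
  + a 2 * (b 0 * (c 1 * d 3 - c 3 * d 1) - b 1 * (c 0 * d 3 - c 3 * d 0) + b 3 * (c 0 * d 1 - c 1 * d 0))
  - a 3 * (b 0 * (c 1 * d 2 - c 2 * d 1) - b 1 * (c 0 * d 2 - c 2 * d 0) + b 2 * (c 0 * d 1 - c 1 * d 0))

open Matrix

theorem d4_cramer {R : Type} [CommRing R] (a b c d v : Fin 4 → R) :
    d4 a b c d • v = d4 v b c d • a + d4 a v c d • b + d4 a b v d • c + d4 a b c v • d := by
  funext i
  fin_cases i <;> simp [d4] <;> ring

theorem d4_dot {R : Type} [CommRing R] (n a b c d v : Fin 4 → R) (ha : n ⬝ᵥ a = 0)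
    (hb : n ⬝ᵥ b = 0) (hc : n ⬝ᵥ c = 0) : d4 a b c d * (n ⬝ᵥ v) = d4 a b c v * (n ⬝ᵥ d) := by
  have := congrArg (fun z => n ⬝ᵥ z) (d4_cramer a b c d v)
  simpa [dotProduct_add, dotProduct_smul, ha, hb, hc] using this

theorem d4_comb {R : Type} [CommRing R] (x u w n : Fin 4 → R) (α β m11 m21 m12 m22 : R) :
    d4 x (α • x + m11 • u + m21 • w) (β • x + m12 • u + m22 • w) n =
      (m11 * m22 - m12 * m21) * d4 x u w n := by
  simp [d4]; ring

theorem d4_chart {R : Type} [CommRing R] (x p q r : Fin 4 → R) (a b c : R) :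
    d4 x (a • q - b • p) (a • r - c • p) p = a ^ 2 * d4 x q r p := by
  simp [d4]; ring

theorem d4_indep {k : Type} [Field k] {x u w n : Fin 4 → k} (h : d4 x u w n ≠ 0) :
    LinearIndependent k ![x, u, w] := by
  rw [Fintype.linearIndependent_iff]
  intro g hg
  have h0 := congrFun hg 0
  have h1 := congrFun hg 1
  have h2 := congrFun hg 2
  have h3 := congrFun hg 3
  simp [Fin.sum_univ_three] at h0 h1 h2 h3
  have e : ∀ i, g i * d4 x u w n = 0 := by
    intro i
    fin_cases i
    · have : g 0 * d4 x u w n = d4 (∑ i, g i • ![x, u, w] i) u w n := by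
        simp [d4, Fin.sum_univ_three]; ring
      rw [hg] at this
      simpa [d4] using this
    · have : g 1 * d4 x u w n = d4 x (∑ i, g i • ![x, u, w] i) w n := by
        simp [d4, Fin.sum_univ_three]; ring
      rw [hg] at this
      simpa [d4] using this
    · have : g 2 * d4 x u w n = d4 x u (∑ i, g i • ![x, u, w] i) n := by
        simp [d4, Fin.sum_univ_three]; ring
      rw [hg] at this
      simpa [d4] using this
  exact fun i => (mul_eq_zero.1 (e i)).resolve_right h

theorem d4_exists {k : Type} [Field k] {a x p : Fin 4 → k} (hx : x ≠ 0) (hax : a ⬝ᵥ x = 0)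
    (hap : a ⬝ᵥ p ≠ 0) : ∃ q r, d4 x q r p ≠ 0 := by
  by_contra! h
  have h01 := h (Pi.single 2 1) (Pi.single 3 1)
  have h02 := h (Pi.single 1 1) (Pi.single 3 1)
  have h03 := h (Pi.single 1 1) (Pi.single 2 1)
  have h12 := h (Pi.single 0 1) (Pi.single 3 1)
  have h13 := h (Pi.single 0 1) (Pi.single 2 1)
  have h23 := h (Pi.single 0 1) (Pi.single 1 1)
  have e01 : x 0 * p 1 = x 1 * p 0 := by simp [d4] at h01; linear_combination h01
  have e02 : x 0 * p 2 = x 2 * p 0 := by simp [d4] at h02; linear_combination -h02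
  have e03 : x 0 * p 3 = x 3 * p 0 := by simp [d4] at h03; linear_combination h03
  have e12 : x 1 * p 2 = x 2 * p 1 := by simp [d4] at h12; linear_combination h12
  have e13 : x 1 * p 3 = x 3 * p 1 := by simp [d4] at h13; linear_combination -h13
  have e23 : x 2 * p 3 = x 3 * p 2 := by simp [d4] at h23; linear_combination h23
  simp only [dotProduct, Fin.sum_univ_four] at hax hap
  apply hx
  funext i
  apply mul_left_cancel₀ hap
  fin_cases i
  · simp only [Fin.zero_eta, Pi.zero_apply]
    linear_combination p 0 * hax + a 1 * e01 + a 2 * e02 + a 3 * e03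
  · simp only [Fin.mk_one, Pi.zero_apply]
    linear_combination p 1 * hax - a 0 * e01 + a 2 * e12 + a 3 * e13
  · simp only [Fin.reduceFinMk, Pi.zero_apply]
    linear_combination p 2 * hax - a 0 * e02 - a 1 * e12 + a 3 * e23
  · simp only [Fin.reduceFinMk, Pi.zero_apply]
    linear_combination p 3 * hax - a 0 * e03 - a 1 * e13 - a 2 * e23

end Crest.Agent.R279
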