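import Crest.Agent.R003.Krull

/-! Row 279, step (4): no nowhere vanishing regular function of negative degree on the cone over a
complete intersection curve. -/

set_option autoImplicit false

namespace Crest.Agent.R279

open MvPolynomial

theorem h75_hom_smul {k σ : Type} [Field k] {P : MvPolynomial σ k} {n : ℕ}
    (hP : P.IsHomogeneous n) (l : k) (x : σ → k) : eval (l • x) P = l ^ n * eval x P := by
  rw [eval_eq, eval_eq, Finset.mul_sum]
  refine Finset.sum_congr rfl fun d hd => ?_
  have h1 : ∑ i ∈ d.support, d i = n := by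
    have := hP (mem_support_iff.1 hd)
    rw [← this, Finsupp.weight_apply, Finsupp.sum]
    simp
  simp only [Pi.smul_apply, smul_eq_mul, mul_pow, Finset.prod_mul_distrib,
    Finset.prod_pow_eq_pow_sum, h1]
  ring

theorem h75_comp_eval {k σ : Type} [Field k] [Infinite k] (r : MvPolynomial σ k) (x : σ → k)
    (n : ℕ) (a : k) (h : ∀ l : k, l ≠ 0 → eval (l • x) r = l ^ n * a) :
    eval x (homogeneousComponent n r) = a := by
  classical
  set p : Polynomial k := ∑ m ∈ Finset.range (r.totalDegree + 1),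
    Polynomial.monomial m (eval x (homogeneousComponent m r)) - Polynomial.monomial n a with hp
  have hp0 : p = 0 := by
    apply Polynomial.eq_zero_of_infinite_isRoot
    refine Set.Infinite.mono (s := {0}ᶜ) (fun l hl => ?_) (Set.finite_singleton (0 : k)).infinite_compl
    have h1 := h l hl
    conv_lhs at h1 => rw [← sum_homogeneousComponent r]
    rw [map_sum] at h1
    simp only [Set.mem_ofPred_eq, Polynomial.IsRoot, hp, Polynomial.eval_sub,
      Polynomial.eval_finsetSum, Polynomial.eval_monomial]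
    rw [mul_comm a, ← h1, sub_eq_zero]
    refine Finset.sum_congr rfl fun m _ => ?_
    rw [h75_hom_smul (homogeneousComponent_isHomogeneous m r), mul_comm]
  have h2 := congrArg (fun q => Polynomial.coeff q n) hp0
  simp only [hp, Polynomial.coeff_sub, Polynomial.finsetSum_coeff, Polynomial.coeff_monomial,
    Finset.sum_ite_eq', Finset.mem_range, if_true, Polynomial.coeff_zero] at h2
  split_ifs at h2 with h3
  · exact sub_eq_zero.1 h2
  · rw [homogeneousComponent_eq_zero n r (by omega), map_zero]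
    simpa [eq_comm] using h2

theorem lemZ {k : Type} [Field k] [IsAlgClosed k] (g₁ g₂ : MvPolynomial (Fin 4) k) {n₁ n₂ : ℕ}
    (h1 : 0 < n₁) (h2 : 0 < n₂) (hg₁ : g₁.IsHomogeneous n₁) (hg₂ : g₂.IsHomogeneous n₂)
    {A : Type} (g h : A → MvPolynomial (Fin 4) k) (u : (Fin 4 → k) → k) {d : ℕ} (hd : 0 < d)
    (hu0 : ∀ x, x ≠ 0 → eval x g₁ = 0 → eval x g₂ = 0 → u x ≠ 0)
    (hus : ∀ x, x ≠ 0 → eval x g₁ = 0 → eval x g₂ = 0 → ∀ l : k, l ≠ 0 → u (l • x) * l ^ d = u x)
    (hgh : ∀ x, x ≠ 0 → eval x g₁ = 0 → eval x g₂ = 0 → ∀ a, u x * eval x (h a) = eval x (g a))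
    (hne : ∀ x, x ≠ 0 → eval x g₁ = 0 → eval x g₂ = 0 → ∃ a, eval x (h a) ≠ 0) : False := by
  classical
  set V : Set (Fin 4 → k) := {x | x ≠ 0 ∧ eval x g₁ = 0 ∧ eval x g₂ = 0} with hV
  have hVs : ∀ x ∈ V, ∀ l : k, l ≠ 0 → l • x ∈ V := fun x hx l hl =>
    ⟨smul_ne_zero hl hx.1, by rw [h75_hom_smul hg₁, hx.2.1, mul_zero],
      by rw [h75_hom_smul hg₂, hx.2.2, mul_zero]⟩
  -- the ideal of denominators
  let I : Ideal (MvPolynomial (Fin 4) k) :=
    { carrier := {P | ∃ r : MvPolynomial (Fin 4) k, ∀ x ∈ V, u x * eval x P = eval x r}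
      add_mem' := fun ⟨r, hr⟩ ⟨s, hs⟩ => ⟨r + s, fun x hx => by
        rw [map_add, map_add, mul_add, hr x hx, hs x hx]⟩
      zero_mem' := ⟨0, fun x _ => by simp⟩
      smul_mem' := fun c P ⟨r, hr⟩ => ⟨c * r, fun x hx => by
        rw [smul_eq_mul, map_mul, map_mul, ← hr x hx]; ring⟩ }
  have hrad : idealOfVars (Fin 4) k ≤ I.radical := by
    rw [← vanishingIdeal_zeroLocus_eq_radical (K := k)]
    refine Ideal.span_le.2 ?_
    rintro _ ⟨i, rfl⟩ x hx
    by_contra hxi
    have hx0 : x ≠ 0 := fun h0 => hxi (by simp [h0])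
    have e1 : eval x g₁ = 0 := hx g₁ ⟨0, fun y hy => by simp [hy.2.1]⟩
    have e2 : eval x g₂ = 0 := hx g₂ ⟨0, fun y hy => by simp [hy.2.2]⟩
    obtain ⟨a, ha⟩ := hne x hx0 e1 e2
    exact ha (hx (h a) ⟨g a, fun y hy => hgh y hy.1 hy.2.1 hy.2.2 a⟩)
  obtain ⟨n, hn⟩ := Ideal.exists_pow_le_of_le_radical_of_fg hrad (idealOfVars_fg _ _)
  have hmem : ∀ P : MvPolynomial (Fin 4) k, P.IsHomogeneous n → P ∈ I := fun P hP =>
    hn ((mem_pow_idealOfVars_iff' n P).2 fun m hm => hP.coeff_eq_zero hm.ne)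
  -- the finite dimensional space
  let res : MvPolynomial (Fin 4) k →ₗ[k] (V → k) :=
    { toFun := fun P x => eval x.1 P
      map_add' := fun P P' => by funext x; simp
      map_smul' := fun c P => by funext x; simp }
  let E : Submodule k (V → k) := (homogeneousSubmodule (Fin 4) k n).map res
  have hE : Module.Finite k E :=
    Module.Finite.iff_fg.2 ((homogeneousSubmodule_fg (Fin 4) k n).map res)
  have hfin : ∀ i : Fin 4, ∃ p : Polynomial k, p ≠ 0 ∧ ∀ x ∈ V, p.eval (u x * x i ^ d) = 0 := by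
    intro i
    let w : V → k := fun x => u x.1 * x.1 i ^ d
    have hw : ∀ f ∈ E, (LinearMap.mulLeft k w) f ∈ E := by
      rintro _ ⟨P, hP, rfl⟩
      obtain ⟨r, hr⟩ := hmem P hP
      refine ⟨homogeneousComponent n (X i ^ d * r), homogeneousComponent_isHomogeneous _ _, ?_⟩
      funext x
      refine h75_comp_eval _ x.1 n _ fun l hl => ?_
      have e1 := hr _ (hVs x.1 x.2 l hl)
      have e2 := hus x.1 x.2.1 x.2.2.1 x.2.2.2 l hl
      rw [h75_hom_smul hP] at e1
      simp only [map_mul, map_pow, eval_X, Pi.smul_apply, smul_eq_mul, LinearMap.mulLeft_apply,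
        Pi.mul_apply, ← e1, w]
      change _ = l ^ n * (u x.1 * x.1 i ^ d * eval x.1 P)
      rw [← e2]; ring
    let φ : Module.End k E := (LinearMap.mulLeft k w).restrict hw
    obtain ⟨p, hp, hp0⟩ := LinearMap.exists_monic_and_aeval_eq_zero k φ
    refine ⟨p, hp.ne_zero, fun x hx => ?_⟩
    have hpow : ∀ (m : ℕ) (f : E), ((φ ^ m) f).1 ⟨x, hx⟩ = w ⟨x, hx⟩ ^ m * f.1 ⟨x, hx⟩ := by
      intro m
      induction m with
      | zero => intro f; simp
      | succ m ih =>
        intro f
        rw [pow_succ, Module.End.mul_apply, ih]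
        change _ * (w ⟨x, hx⟩ * f.1 ⟨x, hx⟩) = _
        ring
    have hall : ∀ (q : Polynomial k) (f : E),
        ((Polynomial.aeval φ q) f).1 ⟨x, hx⟩ = q.eval (w ⟨x, hx⟩) * f.1 ⟨x, hx⟩ := by
      intro q f
      induction q using Polynomial.induction_on' with
      | add q q' hq hq' =>
        rw [map_add, LinearMap.add_apply, Submodule.coe_add, Pi.add_apply, hq, hq',
          Polynomial.eval_add, add_mul]
      | monomial m c =>
        rw [Polynomial.aeval_monomial, Module.End.mul_apply, Module.algebraMap_end_apply,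
          Submodule.coe_smul, Pi.smul_apply, hpow, Polynomial.eval_monomial, smul_eq_mul]
        ring
    obtain ⟨j, hj⟩ := Function.ne_iff.1 hx.1
    have := hall p ⟨res (X j ^ n), _, isHomogeneous_X_pow j n, rfl⟩
    rw [hp0] at this
    have e : res (X j ^ n) ⟨x, hx⟩ = x j ^ n := by simp [res]
    simp only [LinearMap.zero_apply, ZeroMemClass.coe_zero, Pi.zero_apply, e] at this
    exact (mul_eq_zero.1 this.symm).resolve_right (pow_ne_zero _ hj)
  choose p hp0 hp using hfin
  -- the normalised points form a finite set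
  have hΞ : Set.Finite {x | x ∈ V ∧ u x = 1} := by
    refine Set.Finite.subset (Set.Finite.pi' (t := fun i => {y : k | ((p i).comp
      (Polynomial.X ^ d)).IsRoot y}) fun i => Polynomial.finite_setOfPred_isRoot ?_) fun x hx i => ?_
    · intro h0
      rcases Polynomial.comp_eq_zero_iff.1 h0 with h | h
      · exact hp0 i h
      · have := congrArg Polynomial.natDegree h.2
        rw [Polynomial.natDegree_X_pow, Polynomial.natDegree_C] at this
        omega
    · have := hp i x hx.1
      rw [hx.2, one_mul] at this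
      simpa [Polynomial.IsRoot, Polynomial.eval_comp] using this
  have hroots : ∀ x : Fin 4 → k, x ≠ 0 → Set.Finite {c : k | ∑ i : Fin 4, c ^ (i : ℕ) * x i = 0} := by
    intro x hx
    let q : Polynomial k := ∑ i : Fin 4, Polynomial.monomial i (x i)
    have hq : q ≠ 0 := by
      intro h0
      apply hx
      funext j
      have := congrArg (fun q => Polynomial.coeff q j) h0
      simpa [q, Polynomial.finsetSum_coeff, Polynomial.coeff_monomial, Fin.val_inj] using this
    refine (Polynomial.finite_setOfPred_isRoot hq).subset fun c hc => ?_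
    simp only [Set.mem_ofPred_eq, Polynomial.IsRoot, q, Polynomial.eval_finsetSum,
      Polynomial.eval_monomial] at hc ⊢
    rw [← hc]
    exact Finset.sum_congr rfl fun i _ => mul_comm _ _
  refine Set.infinite_univ (α := k) ((hΞ.biUnion fun x hx => hroots x hx.1.1).subset fun c _ => ?_)
  obtain ⟨x, hx0, hx⟩ := R003.exists_common_zero (K := k) (σ := Fin 4) (ν := Fin 3)
    ![g₁, g₂, ∑ i : Fin 4, C (c ^ (i : ℕ)) * X i] (fun m => by
      fin_cases m
      · have := h75_hom_smul hg₁ 0 0
        simpa [h1.ne'] using this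
      · have := h75_hom_smul hg₂ 0 0
        simpa [h2.ne'] using this
      · simp) (by simp)
  have hxV : x ∈ V := ⟨hx0, hx 0, hx 1⟩
  have e3 : ∑ i : Fin 4, c ^ (i : ℕ) * x i = 0 := by simpa using hx 2
  obtain ⟨l, hl⟩ := IsAlgClosed.exists_pow_nat_eq (u x) hd
  have hl0 : l ≠ 0 := by
    rintro rfl
    exact hu0 x hx0 (hx 0) (hx 1) (by rw [← hl, zero_pow hd.ne'])
  refine Set.mem_biUnion (x := l • x) ⟨hVs x hxV l hl0, ?_⟩ ?_
  · have := hus x hx0 (hx 0) (hx 1) l hl0
    rw [← hl] at this
    exact mul_right_cancel₀ (pow_ne_zero d hl0) (by rw [this, one_mul])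
  · simp only [Set.mem_ofPred_eq, Pi.smul_apply, smul_eq_mul]
    rw [← mul_zero l, ← e3, Finset.mul_sum]
    exact Finset.sum_congr rfl fun i _ => by ring

end Crest.Agent.R279
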