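import Crest.Agent.R279.AT
import Crest.Agent.R279.AEZ
import Crest.Agent.R279.AER

/-! Row 279, step (4): existence of special points on complete intersection curves. -/

set_option autoImplicit false

namespace Crest.Agent.R279

open Matrix

namespace Ten

section ring
variable (c : Ten) {R : Type} [CommRing R] [Algebra ℂ R]

/-- the discriminant of `μ ↦ q (μ x + v)`. -/
def Dv (x v : Fin 4 → R) : R := (4 * c.T x v v v) ^ 2 - 4 * (6 * c.T x x v v) * c.q v

theorem map_Dv {S : Type} [CommRing S] [Algebra ℂ S] (f : R →ₐ[ℂ] S) (x v : Fin 4 → R) :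
    f (c.Dv x v) = c.Dv (f ∘ x) (f ∘ v) := by
  simp only [Dv, map_sub, map_mul, map_pow, map_ofNat, map_T, map_q]

theorem T_xvvv (x u w : Fin 4 → R) (s t : R) :
    c.T x (s • u + t • w) (s • u + t • w) (s • u + t • w) = s ^ 3 * c.T x u u u +
      3 * s ^ 2 * t * c.T x u u w + 3 * s * t ^ 2 * c.T x u w w + t ^ 3 * c.T x w w w := by
  simp only [add2, add3, add4, smul2, smul3, smul4]
  rw [c.sw3 x u w u, c.sw2 x w u u, c.sw3 x u w u, c.sw2 x w u w, c.sw3 x w w u, c.sw2 x w u w]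
  ring

theorem T_xxvv (x y u w : Fin 4 → R) (s t : R) :
    c.T x y (s • u + t • w) (s • u + t • w) = s ^ 2 * c.T x y u u +
      2 * s * t * c.T x y u w + t ^ 2 * c.T x y w w := by
  simp only [add3, add4, smul3, smul4]
  rw [c.sw3 x y w u]
  ring

theorem Dv_smul (x v : Fin 4 → R) (l m : R) :
    c.Dv (l • x) (m • v) = l ^ 2 * m ^ 6 * c.Dv x v := by
  simp only [Dv, q_smul, smul1, smul2, smul3, smul4]; ring

theorem Dv_shift {x v : Fin 4 → R} (hx : c.q x = 0) (hv : c.T x x x v = 0) (a : R) :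
    c.Dv x (a • x + v) = c.Dv x v := by
  have h1 := c.T_xvvv x x v a 1
  have h2 := c.T_xxvv x x x v a 1
  have h3 := c.q_add x v a 1
  rw [one_smul] at h1 h2 h3
  have hx' : c.T x x x x = 0 := hx
  simp only [Dv, h1, h2, h3, hx, hx', hv]
  ring

theorem Dv_sextic (x u w : Fin 4 → R) : ∃ d1 d2 d3 d4 d5 d6 : R, ∀ s t : R,
    c.Dv x (s • u + t • w) = c.Dv x u * s ^ 6 + d1 * s ^ 5 * t + d2 * s ^ 4 * t ^ 2 +
      d3 * s ^ 3 * t ^ 3 + d4 * s ^ 2 * t ^ 4 + d5 * s * t ^ 5 + d6 * t ^ 6 := by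
  simp only [Dv, T_xvvv, c.T_xxvv x x, q_add]
  generalize c.T x u u u = a0
  generalize c.T x u u w = a1
  generalize c.T x u w w = a2
  generalize c.T x w w w = a3
  generalize c.T x x u u = b0
  generalize c.T x x u w = b1
  generalize c.T x x w w = b2
  generalize c.q u = c0
  generalize c.T u u u w = c1
  generalize c.T u u w w = c2
  generalize c.T u w w w = c3
  generalize c.q w = c4
  refine ⟨32 * a0 * (3 * a1) - 24 * (b0 * (4 * c1) + (2 * b1) * c0),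
    16 * ((3 * a1) ^ 2 + 2 * a0 * (3 * a2)) - 24 * (b0 * (6 * c2) + (2 * b1) * (4 * c1) + b2 * c0),
    32 * (a0 * a3 + (3 * a1) * (3 * a2)) - 24 * (b0 * (4 * c3) + (2 * b1) * (6 * c2) + b2 * (4 * c1)),
    16 * ((3 * a2) ^ 2 + 2 * (3 * a1) * a3) - 24 * (b0 * c4 + (2 * b1) * (4 * c3) + b2 * (6 * c2)),
    32 * (3 * a2) * a3 - 24 * ((2 * b1) * c4 + b2 * (4 * c3)),
    16 * a3 ^ 2 - 24 * b2 * c4, fun s t => by ring⟩

/-- the sextic `s ↦ D (s u + w)`. -/
noncomputable def sx (x u w : Fin 4 → R) : Polynomial R :=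
  c.Dv (fun i => Polynomial.C (x i)) (fun i => Polynomial.X * Polynomial.C (u i) + Polynomial.C (w i))

theorem eval_sx (x u w : Fin 4 → R) (s : R) : (c.sx x u w).eval s = c.Dv x (s • u + w) := by
  have := c.map_Dv ((Polynomial.aeval s : Polynomial R →ₐ[R] R).restrictScalars ℂ)
    (fun i => Polynomial.C (x i)) (fun i => Polynomial.X * Polynomial.C (u i) + Polynomial.C (w i))
  rw [← Polynomial.coe_aeval_eq_eval]
  refine this.trans ?_
  congr 1 <;> funext i <;> simp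
  exact mul_comm _ _

theorem map_sx {S : Type} [CommRing S] [Algebra ℂ S] (f : R →ₐ[ℂ] S) (x u w : Fin 4 → R) :
    (c.sx x u w).map (f : R →+* S) = c.sx (f ∘ x) (f ∘ u) (f ∘ w) := by
  have := c.map_Dv (Polynomial.mapAlgHom f)
    (fun i => Polynomial.C (x i)) (fun i => Polynomial.X * Polynomial.C (u i) + Polynomial.C (w i))
  refine this.trans ?_
  unfold sx
  congr 1 <;> funext i <;> simp

/-- first vector of the frame attached to `p, q`. -/
def fr (x p q : Fin 4 → R) : Fin 4 → R := (c.al x ⬝ᵥ p) • q - (c.al x ⬝ᵥ q) • p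

/-- numerator. -/
def gg (x p q r : Fin 4 → R) : R :=
  (c.al x ⬝ᵥ p) * c.Dv x (c.fr x p q) * ((c.al x ⬝ᵥ p) * d4 x q r p) ^ 30

/-- denominator. -/
noncomputable def hh (x p q r : Fin 4 → R) : R :=
  (c.al x ⬝ᵥ p) * Polynomial.resultant (c.sx x (c.fr x p q) (c.fr x p r))
    (Polynomial.derivative (c.sx x (c.fr x p q) (c.fr x p r))) 6 5

theorem map_fr {S : Type} [CommRing S] [Algebra ℂ S] (f : R →ₐ[ℂ] S) (x p q : Fin 4 → R) :
    f ∘ c.fr x p q = c.fr (f ∘ x) (f ∘ p) (f ∘ q) := by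
  funext i
  simp [fr, al_dot, map_T]

theorem map_gg {S : Type} [CommRing S] [Algebra ℂ S] (f : R →ₐ[ℂ] S) (x p q r : Fin 4 → R) :
    f (c.gg x p q r) = c.gg (f ∘ x) (f ∘ p) (f ∘ q) (f ∘ r) := by
  have : f (d4 x q r p) = d4 (f ∘ x) (f ∘ q) (f ∘ r) (f ∘ p) := by simp [d4]
  simp only [gg, map_mul, map_pow, al_dot, map_T, map_Dv, map_fr, this]

theorem map_hh {S : Type} [CommRing S] [Algebra ℂ S] (f : R →ₐ[ℂ] S) (x p q r : Fin 4 → R) :
    f (c.hh x p q r) = c.hh (f ∘ x) (f ∘ p) (f ∘ q) (f ∘ r) := by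
  simp only [hh, map_mul, al_dot, map_T]
  congr 1
  rw [← map_fr, ← map_fr, ← map_sx, Polynomial.derivative_map, Polynomial.resultant_map_map]
  rfl

theorem al_fr (x p q : Fin 4 → R) : c.al x ⬝ᵥ c.fr x p q = 0 := by
  simp only [fr, dotProduct_sub, dotProduct_smul, smul_eq_mul]; ring

end ring

section field
variable (c : Ten) {k : Type} [Field k] [Algebra ℂ k]

/-- `val` is the inverse of the normalised discriminant at `x`. -/
def UU (x : Fin 4 → k) (val : k) : Prop :=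
  ∃ (u w n : Fin 4 → k) (lc : k) (r : Fin 6 → k), c.al x ⬝ᵥ u = 0 ∧ c.al x ⬝ᵥ w = 0 ∧
    c.al x ⬝ᵥ n ≠ 0 ∧ d4 x u w n ≠ 0 ∧ lc ≠ 0 ∧ Function.Injective r ∧
    (∀ s t, c.Dv x (s • u + t • w) = lc * ∏ i, (s - r i * t)) ∧
    val * (lc ^ 10 * (∏ i, ∏ j ∈ Finset.univ.erase i, (r i - r j)) * (c.al x ⬝ᵥ n) ^ 30) =
      d4 x u w n ^ 30

theorem UU.ne {c : Ten} {x : Fin 4 → k} {val : k} (h : c.UU x val) : val ≠ 0 := by
  obtain ⟨u, w, n, lc, r, -, -, -, h4, -, -, -, h8⟩ := h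
  rintro rfl
  rw [zero_mul] at h8
  exact pow_ne_zero _ h4 h8.symm

theorem UU.smul {c : Ten} {x : Fin 4 → k} {val : k} (h : c.UU x val) {l : k} (hl : l ≠ 0) :
    c.UU (l • x) (val / l ^ 80) := by
  obtain ⟨u, w, n, lc, r, h1, h2, h3, h4, h5, h6, h7, h8⟩ := h
  have e : d4 (l • x) u w n = l * d4 x u w n := by simp [d4]; ring
  refine ⟨u, w, n, l ^ 2 * lc, r, ?_, ?_, ?_, ?_, ?_, h6, fun s t => ?_, ?_⟩
  · rw [al_smul, smul_dotProduct, h1, smul_zero]
  · rw [al_smul, smul_dotProduct, h2, smul_zero]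
  · rw [al_smul, smul_dotProduct]; exact mul_ne_zero (pow_ne_zero _ hl) h3
  · rw [e]; exact mul_ne_zero hl h4
  · exact mul_ne_zero (pow_ne_zero _ hl) h5
  · have := c.Dv_smul x (s • u + t • w) l 1
    rw [one_smul] at this
    rw [this, h7]; ring
  · rw [e, al_smul, smul_dotProduct, mul_pow l, ← h8, smul_eq_mul]
    field_simp

theorem frame_coord {x u w n v : Fin 4 → k} (hx : c.q x = 0) (h1 : c.al x ⬝ᵥ u = 0)
    (h2 : c.al x ⬝ᵥ w = 0) (h3 : c.al x ⬝ᵥ n ≠ 0) (h4 : d4 x u w n ≠ 0) (hv : c.al x ⬝ᵥ v = 0) :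
    ∃ a b e : k, v = a • x + b • u + e • w := by
  have e0 := d4_dot (c.al x) x u w n v (by rw [al_dot_self, hx]) h1 h2
  rw [hv, mul_zero] at e0
  have e1 := (mul_eq_zero.1 e0.symm).resolve_right h3
  have e2 := d4_cramer x u w n v
  rw [e1, zero_smul, add_zero] at e2
  refine ⟨d4 v u w n / d4 x u w n, d4 x v w n / d4 x u w n, d4 x u v n / d4 x u w n, ?_⟩
  funext i
  have := congrFun e2 i
  simp only [Pi.add_apply, Pi.smul_apply, smul_eq_mul] at this ⊢
  field_simp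
  linear_combination this

theorem UU.mul_hh [Infinite k] {c : Ten} {x : Fin 4 → k} {val : k} (h : c.UU x val)
    (hx : c.q x = 0) (p q r : Fin 4 → k) : val * c.hh x p q r = c.gg x p q r := by
  by_cases hp : c.al x ⬝ᵥ p = 0
  · simp [hh, gg, hp]
  obtain ⟨u, w, n, lc, ρ, h1, h2, h3, h4, h5, h6, h7, h8⟩ := h
  obtain ⟨α, m11, m21, hu⟩ := c.frame_coord hx h1 h2 h3 h4 (c.al_fr x p q)
  obtain ⟨β, m12, m22, hw⟩ := c.frame_coord hx h1 h2 h3 h4 (c.al_fr x p r)
  have hD : ∀ s t, c.Dv x (s • c.fr x p q + t • c.fr x p r) =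
      lc * ∏ i, ((m11 - ρ i * m21) * s - (ρ i * m22 - m12) * t) := by
    intro s t
    have e : s • c.fr x p q + t • c.fr x p r =
        (s * α + t * β) • x + ((s * m11 + t * m12) • u + (s * m21 + t * m22) • w) := by
      rw [hu, hw]; module
    rw [e, c.Dv_shift hx, h7]
    · congr 1
      exact Finset.prod_congr rfl fun i _ => by ring
    · rw [← al_dot, dotProduct_add, dotProduct_smul, dotProduct_smul, h1, h2]; simp
  have hsx : c.sx x (c.fr x p q) (c.fr x p r) = Polynomial.C lc *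
      ∏ i, (Polynomial.C (m11 - ρ i * m21) * Polynomial.X - Polynomial.C (ρ i * m22 - m12)) := by
    refine Polynomial.funext fun s => ?_
    have := hD s 1
    rw [one_smul] at this
    rw [eval_sx, this]
    simp [Polynomial.eval_prod]
  have hlc : c.Dv x (c.fr x p q) = lc * ∏ i, (m11 - ρ i * m21) := by
    simpa using hD 1 0
  have hdet : (c.al x ⬝ᵥ p) * d4 x q r p * (c.al x ⬝ᵥ n) =
      (m11 * m22 - m12 * m21) * d4 x u w n := by
    have e1 := d4_chart x p q r (c.al x ⬝ᵥ p) (c.al x ⬝ᵥ q) (c.al x ⬝ᵥ r)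
    have e2 := d4_comb x u w p α β m11 m21 m12 m22
    rw [← hu, ← hw] at e2
    have e3 := d4_dot (c.al x) x u w n p (by rw [al_dot_self, hx]) h1 h2
    apply mul_left_cancel₀ hp
    have e4 : d4 x (c.fr x p q) (c.fr x p r) p = (c.al x ⬝ᵥ p) ^ 2 * d4 x q r p := e1
    linear_combination (c.al x ⬝ᵥ n) * (e2 - e4) - (m11 * m22 - m12 * m21) * e3
  have hB : ∏ i, ∏ j ∈ Finset.univ.erase i, ((ρ i * m22 - m12) * (m11 - ρ j * m21) -
      (ρ j * m22 - m12) * (m11 - ρ i * m21)) =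
      (m11 * m22 - m12 * m21) ^ 30 * ∏ i, ∏ j ∈ Finset.univ.erase i, (ρ i - ρ j) := by
    have : ∀ i : Fin 6, ∏ j ∈ Finset.univ.erase i, ((ρ i * m22 - m12) * (m11 - ρ j * m21) -
        (ρ j * m22 - m12) * (m11 - ρ i * m21)) =
        (m11 * m22 - m12 * m21) ^ 5 * ∏ j ∈ Finset.univ.erase i, (ρ i - ρ j) := by
      intro i
      have e : (m11 * m22 - m12 * m21) ^ 5 =
          ∏ _j ∈ Finset.univ.erase i, (m11 * m22 - m12 * m21) := by
        simp [Finset.card_erase_of_mem]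
      rw [e, ← Finset.prod_mul_distrib]
      exact Finset.prod_congr rfl fun j _ => by ring
    simp only [this, Finset.prod_mul_distrib, Finset.prod_const, Finset.card_univ,
      Fintype.card_fin, ← pow_mul]
  unfold hh gg
  rw [hsx, Polynomial.derivative_C_mul, Polynomial.resultant_C_mul_left,
    Polynomial.resultant_C_mul_right, h75_res, hB, hlc]
  apply mul_right_cancel₀ (pow_ne_zero 30 h3)
  rw [mul_assoc _ (_ ^ 30), ← mul_pow, hdet, mul_pow, ← h8]
  ring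

theorem UU.exists_gg {c : Ten} {x : Fin 4 → k} {val : k} (h : c.UU x val) :
    ∃ p q r, c.gg x p q r ≠ 0 := by
  obtain ⟨u, w, n, lc, ρ, h1, h2, h3, h4, h5, h6, h7, h8⟩ := h
  refine ⟨n, u, w, mul_ne_zero (mul_ne_zero h3 ?_) (pow_ne_zero _ (mul_ne_zero h3 h4))⟩
  have := h7 (c.al x ⬝ᵥ n) 0
  rw [zero_smul, add_zero] at this
  rw [fr, h1, zero_smul, sub_zero, this]
  simp [h5, h3]

theorem spec_of_Dv {x u w : Fin 4 → k} (hx : c.q x = 0) (h1 : c.al x ⬝ᵥ u = 0)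
    (h2 : c.al x ⬝ᵥ w = 0) (D : Fin 5 → k)
    (h : ∀ s t, c.Dv x (s • u + t • w) = t ^ 2 * bf 4 D s t) : c.Spec x u w :=
  ⟨hx, by rw [← al_dot, h1], by rw [← al_dot, h2], D, h⟩

theorem exists_UU [IsAlgClosed k] {x : Fin 4 → k} (hx0 : x ≠ 0) (hx : c.q x = 0)
    (ha : c.al x ≠ 0) (hns : ∀ u w n, d4 x u w n ≠ 0 → ¬ c.Spec x u w) : ∃ val, c.UU x val := by
  classical
  obtain ⟨j, hj⟩ := Function.ne_iff.1 ha
  set n : Fin 4 → k := Pi.single j 1 with hn
  have h3 : c.al x ⬝ᵥ n ≠ 0 := by simpa [hn] using hj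
  obtain ⟨q, r, hqr⟩ := d4_exists hx0 (by rw [al_dot_self, hx]) h3
  have h4 : d4 x (c.fr x n q) (c.fr x n r) n ≠ 0 := by
    rw [fr, fr, d4_chart]; exact mul_ne_zero (pow_ne_zero _ h3) hqr
  have h1 := c.al_fr x n q
  have h2 := c.al_fr x n r
  generalize c.fr x n q = u0 at h1 h4
  generalize c.fr x n r = w0 at h2 h4
  obtain ⟨u, w, h1, h2, h4, h5⟩ : ∃ u w, c.al x ⬝ᵥ u = 0 ∧ c.al x ⬝ᵥ w = 0 ∧ d4 x u w n ≠ 0 ∧
      c.Dv x u ≠ 0 := by
    by_contra! hall
    refine hns u0 w0 n h4 (c.spec_of_Dv hx h1 h2 0 fun s t => ?_)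
    have e0 : c.al x ⬝ᵥ (s • u0 + t • w0) = 0 := by
      rw [dotProduct_add, dotProduct_smul, dotProduct_smul, h1, h2]; simp
    have e1 : bf 4 (0 : Fin 5 → k) s t = 0 := by simp [bf]
    rw [e1, mul_zero]
    by_cases hs : s = 0
    · by_cases ht : t = 0
      · subst hs ht
        have := c.Dv_smul x u0 1 0
        simpa using this
      · refine hall _ u0 e0 h1 ?_
        have := d4_comb x u0 w0 n 0 0 s t 1 0
        simp only [zero_smul, zero_add, one_smul, add_zero] at this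
        rw [this]
        exact mul_ne_zero (by simpa using ht) h4
    · refine hall _ w0 e0 h2 ?_
      have := d4_comb x u0 w0 n 0 0 s t 0 1
      simp only [zero_smul, zero_add, one_smul] at this
      rw [this]
      exact mul_ne_zero (by simpa using hs) h4
  obtain ⟨d1, d2, d3, d4', d5, d6, hd⟩ := c.Dv_sextic x u w
  obtain ⟨ρ, hρ⟩ := h75_sextic _ d1 d2 d3 d4' d5 d6 h5
  have h7 : ∀ s t, c.Dv x (s • u + t • w) = c.Dv x u * ∏ i, (s - ρ i * t) :=
    fun s t => (hd s t).trans (hρ s t)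
  have h6 : Function.Injective ρ := by
    intro i j hij
    by_contra hne
    have hj' : j ∈ Finset.univ.erase i := by simp [Ne.symm hne]
    have hc4 : ((Finset.univ.erase i).erase j).card = 4 := by
      rw [Finset.card_erase_of_mem hj', Finset.card_erase_of_mem (Finset.mem_univ i)]; simp
    obtain ⟨a1, a2, a3, a4, n12, n13, n14, n23, n24, n34, hS⟩ := Finset.card_eq_four.1 hc4
    refine hns (ρ i • u + w) u n ?_ (c.spec_of_Dv hx ?_ h1 ![c.Dv x u * ((ρ i - ρ a1) * (ρ i - ρ a2) *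
      (ρ i - ρ a3) * (ρ i - ρ a4)), c.Dv x u * ((ρ i - ρ a1) * (ρ i - ρ a2) * (ρ i - ρ a3) +
      (ρ i - ρ a1) * (ρ i - ρ a2) * (ρ i - ρ a4) + (ρ i - ρ a1) * (ρ i - ρ a3) * (ρ i - ρ a4) +
      (ρ i - ρ a2) * (ρ i - ρ a3) * (ρ i - ρ a4)), c.Dv x u * ((ρ i - ρ a1) * (ρ i - ρ a2) +
      (ρ i - ρ a1) * (ρ i - ρ a3) + (ρ i - ρ a1) * (ρ i - ρ a4) + (ρ i - ρ a2) * (ρ i - ρ a3) +
      (ρ i - ρ a2) * (ρ i - ρ a4) + (ρ i - ρ a3) * (ρ i - ρ a4)),
      c.Dv x u * ((ρ i - ρ a1) + (ρ i - ρ a2) + (ρ i - ρ a3) + (ρ i - ρ a4)), c.Dv x u]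
      fun s t => ?_)
    · have := d4_comb x u w n 0 0 (ρ i) 1 1 0
      simp only [zero_smul, zero_add, one_smul, add_zero] at this
      rw [this]
      exact mul_ne_zero (by simp) h4
    · rw [dotProduct_add, dotProduct_smul, h1, h2]; simp
    · have e : s • (ρ i • u + w) + t • u = (s * ρ i + t) • u + s • w := by module
      rw [e, h7, ← Finset.mul_prod_erase _ _ (Finset.mem_univ i), ← Finset.mul_prod_erase _ _ hj',
        hS, Finset.prod_insert (by simp [n12, n13, n14]), Finset.prod_insert (by simp [n23, n24]),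
        Finset.prod_pair n34, ← hij]
      simp [bf, Fin.sum_univ_five]
      ring
  have hB : (∏ i, ∏ j ∈ Finset.univ.erase i, (ρ i - ρ j)) ≠ 0 :=
    Finset.prod_ne_zero_iff.2 fun i _ => Finset.prod_ne_zero_iff.2 fun j hj =>
      sub_ne_zero.2 fun h => (Finset.mem_erase.1 hj).1 (h6 h).symm
  exact ⟨_, u, w, n, c.Dv x u, ρ, h1, h2, h3, h4, h5, h6, h7, div_mul_cancel₀ _
    (mul_ne_zero (mul_ne_zero (pow_ne_zero _ h5) hB) (pow_ne_zero _ h3))⟩

end field

/-- **L3**: every complete intersection curve on a smooth quartic carries a special point. -/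
theorem exists_spec (c : Ten) (hc : c.Sm) {k : Type} [Field k] [Algebra ℂ k] [IsAlgClosed k]
    (g₁ g₂ : MvPolynomial (Fin 4) k) {n₁ n₂ : ℕ} (h1 : 0 < n₁) (h2 : 0 < n₂)
    (hg₁ : g₁.IsHomogeneous n₁) (hg₂ : g₂.IsHomogeneous n₂)
    (hV : ∀ x, MvPolynomial.eval x g₁ = 0 → MvPolynomial.eval x g₂ = 0 → c.q x = 0) :
    ∃ x u w : Fin 4 → k, MvPolynomial.eval x g₁ = 0 ∧ MvPolynomial.eval x g₂ = 0 ∧
      LinearIndependent k ![x, u, w] ∧ c.Spec x u w := by
  classical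
  by_contra! hno
  have hU : ∀ x : Fin 4 → k, ∃ val : k, x ≠ 0 → MvPolynomial.eval x g₁ = 0 →
      MvPolynomial.eval x g₂ = 0 → c.UU x val := by
    intro x
    by_cases hx : x ≠ 0 ∧ MvPolynomial.eval x g₁ = 0 ∧ MvPolynomial.eval x g₂ = 0
    · obtain ⟨val, hval⟩ := c.exists_UU hx.1 (hV x hx.2.1 hx.2.2) (hc k x hx.1)
        fun u w n hd => hno x u w hx.2.1 hx.2.2 (d4_indep hd)
      exact ⟨val, fun _ _ _ => hval⟩
    · exact ⟨0, fun a b e => absurd ⟨a, b, e⟩ hx⟩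
  choose u hu using hU
  let ev : (Fin 4 → k) → (MvPolynomial (Fin 4) k →ₐ[ℂ] k) := fun x =>
    (MvPolynomial.aeval x : MvPolynomial (Fin 4) k →ₐ[k] k).restrictScalars ℂ
  have hev : ∀ x P, MvPolynomial.eval x P = ev x P := fun x P => by
    simp [ev]
  have hX : ∀ x, ev x ∘ (fun i => MvPolynomial.X i) = x := fun x => by funext i; simp [ev]
  have hC : ∀ x (p : Fin 4 → k), ev x ∘ (fun i => MvPolynomial.C (p i)) = p := fun x p => by
    funext i; simp [ev]
  let G : (Fin 4 → k) × (Fin 4 → k) × (Fin 4 → k) → MvPolynomial (Fin 4) k := fun a =>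
    c.gg (fun i => MvPolynomial.X i) (fun i => MvPolynomial.C (a.1 i))
      (fun i => MvPolynomial.C (a.2.1 i)) (fun i => MvPolynomial.C (a.2.2 i))
  let H : (Fin 4 → k) × (Fin 4 → k) × (Fin 4 → k) → MvPolynomial (Fin 4) k := fun a =>
    c.hh (fun i => MvPolynomial.X i) (fun i => MvPolynomial.C (a.1 i))
      (fun i => MvPolynomial.C (a.2.1 i)) (fun i => MvPolynomial.C (a.2.2 i))
  have hG : ∀ x a, MvPolynomial.eval x (G a) = c.gg x a.1 a.2.1 a.2.2 := fun x a => by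
    rw [hev, map_gg, hX, hC, hC, hC]
  have hH : ∀ x a, MvPolynomial.eval x (H a) = c.hh x a.1 a.2.1 a.2.2 := fun x a => by
    rw [hev, map_hh, hX, hC, hC, hC]
  have hne : ∀ (x : Fin 4 → k) (val : k), c.q x = 0 → c.UU x val →
      ∃ p q r, c.hh x p q r ≠ 0 := fun x val hx h => by
    obtain ⟨p, q, r, hg⟩ := h.exists_gg
    exact ⟨p, q, r, fun h0 => hg (by rw [← h.mul_hh hx, h0, mul_zero])⟩
  refine lemZ g₁ g₂ h1 h2 hg₁ hg₂ G H u (d := 80) (by norm_num)
    (fun x a b e => (hu x a b e).ne) (fun x a b e l hl => ?_)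
    (fun x a b e α => by rw [hG, hH]; exact (hu x a b e).mul_hh (hV x b e) _ _ _)
    (fun x a b e => ?_)
  · have b' : MvPolynomial.eval (l • x) g₁ = 0 := by rw [h75_hom_smul hg₁, b, mul_zero]
    have e' : MvPolynomial.eval (l • x) g₂ = 0 := by rw [h75_hom_smul hg₂, e, mul_zero]
    have k1 := hu (l • x) (smul_ne_zero hl a) b' e'
    have k2 := (hu x a b e).smul hl
    obtain ⟨p, q, r, h0⟩ := hne _ _ (hV _ b' e') k1
    have k3 := mul_right_cancel₀ h0
      ((k1.mul_hh (hV _ b' e') p q r).trans (k2.mul_hh (hV _ b' e') p q r).symm)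
    rw [k3, div_mul_cancel₀ _ (pow_ne_zero _ hl)]
  · obtain ⟨p, q, r, h0⟩ := hne _ _ (hV x b e) (hu x a b e)
    exact ⟨(p, q, r), by rw [hH]; exact h0⟩

end Ten

end Crest.Agent.R279
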