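import Crest.Agent.R279.AB
import Crest.Agent.R279.AE

/-! Row 279, step (4): existence of special points on complete intersection curves in `X` -/

set_option autoImplicit false

namespace Crest.Agent.R279

open Matrix MvPolynomial

/-- **L3** in tensor form (wrapper around `exists_special` of `R279/AE.lean`). -/
theorem Ten.exists_spec' {c : Ten} (hc : c.Sm) (k : Type) [Field k] [Algebra ℂ k] [IsAlgClosed k]
    {g₁ g₂ h₁ h₂ : MvPolynomial (Fin 4) k} {n₁ n₂ : ℕ} (hg₁ : g₁.IsHomogeneous n₁)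
    (hg₂ : g₂.IsHomogeneous n₂) (hn₁ : 0 < n₁) (hn₂ : 0 < n₂)
    (hq : c.poly k = h₁ * g₁ + h₂ * g₂) :
    ∃ x u w : Fin 4 → k, eval x g₁ = 0 ∧ eval x g₂ = 0 ∧ LinearIndependent k ![x, u, w] ∧
      c.Spec x u w :=
  c.exists_spec hc g₁ g₂ hn₁ hn₂ hg₁ hg₂ fun x e₁ e₂ => by
    rw [← c.eval_poly k x, hq, map_add, map_mul, map_mul, e₁, e₂, mul_zero, mul_zero, add_zero]

end Crest.Agent.R279
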