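import Crest.Agent.R279.ALa

/-! Row 279, step (4): a point of the cone moving in three independent directions is generic -/

set_option autoImplicit false

namespace Crest.Agent.R279

open MvPolynomial Matrix

variable {F : Type} [Field F] [Algebra ℂ F]

theorem gen_der_aeval {τ : Type} [Fintype τ] [DecidableEq τ] (D : Derivation ℂ F F) (x : τ → F)
    (f : MvPolynomial τ ℂ) : D (aeval x f) = ∑ k, aeval x (pderiv k f) * D (x k) := by
  induction f using MvPolynomial.induction_on with
  | C c => simp
  | add p q hp hq => simp only [map_add, hp, hq, add_mul, Finset.sum_add_distrib]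
  | mul_X p i hp =>
    rw [map_mul, D.leibniz, hp, aeval_X]
    simp only [pderiv_mul, map_add, map_mul, aeval_X, add_mul, Finset.sum_add_distrib, smul_eq_mul,
      Finset.mul_sum]
    rw [add_comm]
    congr 1
    · exact Finset.sum_congr rfl fun k _ => by ring
    · rw [Finset.sum_eq_single i]
      · simp
      · intro k _ hk
        rw [pderiv_X_of_ne hk.symm]; simp
      · simp

theorem gen_totalDegree_pderiv_lt {τ : Type} {i : τ} {f : MvPolynomial τ ℂ}
    (h : pderiv i f ≠ 0) : (pderiv i f).totalDegree < f.totalDegree := by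
  obtain ⟨m, hm, e⟩ := Finset.exists_mem_eq_sup (pderiv i f).support (support_nonempty.2 h)
    (fun s => s.sum fun _ e => e)
  have h1 : m + Finsupp.single i 1 ∈ f.support := by
    rw [mem_support_iff] at hm ⊢
    rw [coeff_pderiv] at hm
    exact left_ne_zero_of_mul hm
  have h2 := le_totalDegree h1
  rw [Finsupp.sum_add_index' (fun _ => rfl) (fun _ _ _ => rfl), Finsupp.sum_single_index rfl] at h2
  rw [totalDegree, e]
  omega

theorem gen_eq_C_of_pderiv {τ : Type} {f : MvPolynomial τ ℂ} (h : ∀ i, pderiv i f = 0) :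
    f = C (coeff 0 f) := by
  classical
  ext m
  rw [coeff_C]
  split_ifs with hm
  · rw [hm]
  · obtain ⟨i, hi⟩ : ∃ i, m i ≠ 0 := by
      by_contra hh
      push Not at hh
      exact hm (Finsupp.ext fun i => (hh i).symm)
    have h1 := coeff_pderiv (i := i) f (m - Finsupp.single i 1)
    rw [h i, coeff_zero, tsub_add_cancel_of_le (Finsupp.single_le_iff.2 (Nat.pos_of_ne_zero hi))]
      at h1
    exact (mul_eq_zero.1 h1.symm).resolve_right (Nat.cast_add_one_ne_zero _)

/-- Jacobian criterion. -/
theorem gen_indep {τ τ' : Type} [Fintype τ] [DecidableEq τ] (δ : τ' → Derivation ℂ F F)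
    (x : τ → F) (h : ∀ c : τ → F, (∀ j, ∑ k, c k * δ j (x k) = 0) → c = 0)
    (f : MvPolynomial τ ℂ) (hf : aeval x f = 0) : f = 0 := by
  induction hn : f.totalDegree using Nat.strong_induction_on generalizing f with
  | _ n ih =>
    have k0 := h (fun k => aeval x (pderiv k f)) fun j => by
      rw [← gen_der_aeval, hf, map_zero]
    have hd : ∀ i, pderiv i f = 0 := by
      intro i
      by_contra hne
      exact hne (ih _ (hn ▸ gen_totalDegree_pderiv_lt hne) _ (congrFun k0 i) rfl)
    have hC := gen_eq_C_of_pderiv hd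
    rw [hC, aeval_C, map_eq_zero] at hf
    rw [hC, hf, map_zero]

/-- elimination of one variable from a prime polynomial and a non-multiple. -/
theorem gen_elim {R : Type} [CommRing R] [IsDomain R] {Q P : Polynomial R} (hQ : Prime Q)
    (hP : ¬ Q ∣ P) : ∃ r : R, r ≠ 0 ∧ ∃ a b : Polynomial R, Polynomial.C r = a * Q + b * P := by
  have : (Ideal.span {Q}).IsPrime := (Ideal.span_singleton_prime hQ.ne_zero).2 hQ
  set π := Ideal.Quotient.mkₐ R (Ideal.span {Q})
  have hπ : ∀ S : Polynomial R, Polynomial.aeval (π Polynomial.X) S = π S := fun S => by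
    rw [Polynomial.aeval_algHom_apply, Polynomial.aeval_X_left_apply]
  have halg : IsAlgebraic R (π Polynomial.X) :=
    ⟨Q, hQ.ne_zero, by
      rw [hπ]; exact Ideal.Quotient.eq_zero_iff_mem.2 (Ideal.mem_span_singleton_self Q)⟩
  have halg' : ∀ S : Polynomial R, IsAlgebraic R (π S) := by
    intro S
    rw [← hπ]
    induction S using Polynomial.induction_on' with
    | add p q hp hq => rw [map_add]; exact hp.add hq
    | monomial n a =>
      rw [Polynomial.aeval_monomial]
      exact (isAlgebraic_algebraMap a).mul (halg.pow n)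
  have hP0 : π P ≠ 0 := fun h0 =>
    hP (Ideal.mem_span_singleton.1 (Ideal.Quotient.eq_zero_iff_mem.1 h0))
  obtain ⟨r, hr, t, ht⟩ := (halg' P).exists_nonzero_dvd (mem_nonZeroDivisors_of_ne_zero hP0)
  obtain ⟨b, rfl⟩ := Ideal.Quotient.mkₐ_surjective R (Ideal.span {Q}) t
  have h1 : π (Polynomial.C r - P * b) = 0 := by
    rw [map_sub, map_mul, ← ht, ← Polynomial.algebraMap_eq, π.commutes, sub_self]
  obtain ⟨a, ha⟩ := Ideal.mem_span_singleton'.1 (Ideal.Quotient.eq_zero_iff_mem.1 h1)
  exact ⟨r, hr, a, b, by linear_combination -ha⟩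

theorem gen_option {τ : Type} {Q : MvPolynomial (Option τ) ℂ} (hQ : Prime Q) {η : Option τ → F}
    (hη : aeval η Q = 0) (hind : ∀ f : MvPolynomial τ ℂ, aeval (fun k => η (some k)) f = 0 → f = 0)
    (P : MvPolynomial (Option τ) ℂ) (hP : aeval η P = 0) : Q ∣ P := by
  by_contra hn
  set e := optionEquivLeft ℂ τ
  have he : ∀ S, Polynomial.aevalTower (aeval fun k => η (some k)) (η none) (e S) = aeval η S := by
    intro S
    have : (Polynomial.aevalTower (aeval fun k => η (some k)) (η none)).comp e.toAlgHom =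
        aeval η := by
      refine algHom_ext fun i => ?_
      rcases i with _ | i <;> simp [e]
    exact AlgHom.congr_fun this S
  obtain ⟨r, hr, a, b, hab⟩ := gen_elim (Q := e Q) (P := e P)
    ((MulEquiv.prime_iff e.toMulEquiv).2 hQ) (fun h => hn ((map_dvd_iff e).1 h))
  have := congrArg (Polynomial.aevalTower (aeval fun k => η (some k)) (η none)) hab
  rw [Polynomial.aevalTower_C, map_add, map_mul, map_mul, he, he, hη, hP, mul_zero, mul_zero,
    add_zero] at this
  exact hr (hind r this)

/-- **ker = (Q)**. -/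
theorem generic_of_der {Q : MvPolynomial (Fin 4) ℂ} (hQ : Prime Q) {η : Fin 4 → F}
    (hη : aeval η Q = 0) (δ : Fin 3 → Derivation ℂ F F)
    (hind : LinearIndependent F fun j => (δ j) ∘ η) (P : MvPolynomial (Fin 4) ℂ)
    (hP : aeval η P = 0) : Q ∣ P := by
  obtain ⟨N, hN, hNo⟩ := la_ex (m := 3) (n := 1) rfl hind
  obtain ⟨i, hi⟩ : ∃ i, N 0 i ≠ 0 := Function.ne_iff.1 (hN.ne_zero 0)
  set ε := finSuccEquiv' i
  set e := renameEquiv ℂ ε
  have he : ∀ S, aeval (fun k => η (ε.symm k)) (e S) = aeval η S := by
    intro S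
    simp only [e, renameEquiv_apply, aeval_rename]
    congr 2
    funext k; simp
  refine (map_dvd_iff e).1 (gen_option (F := F) ((MulEquiv.prime_iff e.toMulEquiv).2 hQ)
    (η := fun k => η (ε.symm k)) (by rw [← hη]; exact he Q) ?_ _ (by rw [← hP]; exact he P))
  refine gen_indep δ _ fun c hc => ?_
  obtain ⟨a, ha⟩ := la_mem (m := 3) (n := 1) rfl hind hN hNo
    (w := Fin.insertNth i (0 : F) c) fun j => by
      have := hc j
      rw [dotProduct, Fin.sum_univ_succAbove _ i]
      simpa [ε, mul_comm] using this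
  have h0 := congrFun ha i
  simp only [Fin.insertNth_apply_same, Finset.univ_unique, Fin.default_eq_zero,
    Finset.sum_singleton, Pi.smul_apply, smul_eq_mul] at h0
  have ha0 : a 0 = 0 := (mul_eq_zero.1 h0.symm).resolve_right hi
  funext k
  have h1 := congrFun ha (i.succAbove k)
  simpa [ha0] using h1

end Crest.Agent.R279
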