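import Crest.Agent.R279.AD

/-! Row 279, step (4): elliptic data from a special point -/

set_option autoImplicit false

namespace Crest.Agent.R279

open Matrix

namespace Ten

variable {c : Ten} {F : Type} [Field F] [Algebra ℂ F]

private theorem h1_b2 (x u w : Fin 4 → F) (s t : F) :
    bf 2 ![6 * c.T x x u u, 12 * c.T x x u w, 6 * c.T x x w w, 0, 0] s t =
      6 * c.T x x (s • u + t • w) (s • u + t • w) := by
  simp only [add3, add4, smul3, smul4]
  rw [c.sw3 x x w u]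
  simp [bf, Fin.sum_univ_five]
  ring

private theorem h1_b3 (x u w : Fin 4 → F) (s t : F) :
    bf 3 ![4 * c.T x u u u, 12 * c.T x u u w, 12 * c.T x u w w, 4 * c.T x w w w, 0] s t =
      4 * c.T x (s • u + t • w) (s • u + t • w) (s • u + t • w) := by
  simp only [add2, add3, add4, smul2, smul3, smul4]
  rw [c.sw3 x u w u, c.sw2 x w u u, c.sw3 x u w u, c.sw2 x w u w, c.sw3 x w w u, c.sw2 x w u w]
  simp [bf, Fin.sum_univ_five]
  ring

private theorem h1_b4 (u w : Fin 4 → F) (s t : F) :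
    bf 4 ![c.q u, 4 * c.T u u u w, 6 * c.T u u w w, 4 * c.T u w w w, c.q w] s t =
      c.q (s • u + t • w) := by
  rw [q_add]
  simp [bf, Fin.sum_univ_five]
  ring

private theorem h1_pol (x v : Fin 4 → F) (μ : F) :
    c.al (μ • x + v) ⬝ᵥ x = μ ^ 3 * c.q x + 3 * μ ^ 2 * c.T x x x v + 3 * μ * c.T x x v v +
      c.T x v v v := by
  rw [al_dot]
  simp only [q, add1, add2, add3, smul1, smul2, smul3]
  rw [c.sw3 x x v x, c.sw2 x v x x, c.sw3 x x v x, c.sw1 v x x x, c.sw2 x v x x, c.sw3 x x v x,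
    c.sw3 x v v x, c.sw2 x v x v, c.sw1 v x v x, c.sw3 x v v x, c.sw2 x v x v, c.sw2 v v x x,
    c.sw1 v x v x, c.sw3 x v v x, c.sw2 x v x v, c.sw3 v v v x, c.sw2 v v x v, c.sw1 v x v v]
  ring

/-- no line of `X` through `x`: `d = 1`, `a₂ = 6 T x x v v`, `a₃ = 4 T x v v v`, `a₄ = q v`,
`y₀ = 4 (al η ⬝ x) / t₀`. -/
theorem ell_one (hc : c.Sm) {x u w η : Fin 4 → F} (hi : LinearIndependent F ![x, u, w])
    (hs : c.Spec x u w) (hq : c.q η = 0) (h1 : c.al x ⬝ᵥ η = 0) (h2 : c.al η ⬝ᵥ x ≠ 0)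
    (hno : ∀ s t : F, (∀ a b : F, c.q (a • x + b • (s • u + t • w)) = 0) → s = 0 ∧ t = 0) :
    ∃ D : EllDat F, D.1 0 = x ∧ c.Ell 1 η D := by
  have : CharZero F := charZero_of_injective_algebraMap (algebraMap ℂ F).injective
  obtain ⟨qx, tu, tw, D, hD⟩ := hs
  have hx0 : x ≠ 0 := hi.ne_zero 0
  have hxx : c.al x ⬝ᵥ x = 0 := by rw [al_dot_self, qx]
  have hxu : c.al x ⬝ᵥ u = 0 := by rw [al_dot, tu]
  have hxw : c.al x ⬝ᵥ w = 0 := by rw [al_dot, tw]
  have hv : ∀ s t : F, c.T x x x (s • u + t • w) = 0 := fun s t => by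
    rw [add4, smul4, smul4, tu, tw]; ring
  obtain ⟨μ₀, s₀, t₀, rfl⟩ := la13 (hc F x hx0) hi hxx hxu hxw h1
  have hsec : ∀ μ s t : F, c.q (μ • x + s • u + t • w) =
      6 * c.T x x (s • u + t • w) (s • u + t • w) * μ ^ 2 +
        4 * c.T x (s • u + t • w) (s • u + t • w) (s • u + t • w) * μ + c.q (s • u + t • w) := by
    intro μ s t
    have h := c.q_add x (s • u + t • w) μ 1
    rw [one_smul, ← add_assoc, qx, hv] at h
    rw [h]; ring
  have hy : 4 * (c.al (μ₀ • x + s₀ • u + t₀ • w) ⬝ᵥ x) =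
      2 * μ₀ * (6 * c.T x x (s₀ • u + t₀ • w) (s₀ • u + t₀ • w)) +
        4 * c.T x (s₀ • u + t₀ • w) (s₀ • u + t₀ • w) (s₀ • u + t₀ • w) := by
    rw [add_assoc, h1_pol, qx, hv]; ring
  have hsq : (4 * (c.al (μ₀ • x + s₀ • u + t₀ • w) ⬝ᵥ x)) ^ 2 = t₀ ^ 2 * bf 4 D s₀ t₀ := by
    rw [hsec] at hq
    rw [hy, ← hD]
    linear_combination 4 * (6 * c.T x x (s₀ • u + t₀ • w) (s₀ • u + t₀ • w)) * hq
  have h4 : 4 * (c.al (μ₀ • x + s₀ • u + t₀ • w) ⬝ᵥ x) ≠ 0 := mul_ne_zero (by norm_num) h2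
  have ht : t₀ ≠ 0 := by
    rintro rfl
    exact pow_ne_zero 2 h4 (by rw [hsq]; ring)
  refine ⟨(![x, u, w], ![![6 * c.T x x u u, 12 * c.T x x u w, 6 * c.T x x w w, 0, 0],
    ![4 * c.T x u u u, 12 * c.T x u u w, 12 * c.T x u w w, 4 * c.T x w w w, 0],
    ![c.q u, 4 * c.T u u u w, 6 * c.T u u w w, 4 * c.T u w w w, c.q w], D],
    ![μ₀, s₀, t₀, 4 * (c.al (μ₀ • x + s₀ • u + t₀ • w) ⬝ᵥ x) / t₀]), rfl,
    hi, fun i => ?_, fun μ s t => ?_, fun s t => ?_, fun s t a2 a3 a4 => hno s t fun a b => ?_,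
    rfl, ht, div_ne_zero h4 ht, ?_, ?_⟩
  · fin_cases i
    exacts [hxx, hxu, hxw]
  · change c.q (μ • x + s • u + t • w) = t ^ 0 * (bf 2 _ s t * μ ^ 2 + bf 3 _ s t * μ + bf 4 _ s t)
    rw [pow_zero, one_mul, hsec, ← h1_b2, ← h1_b3, ← h1_b4]
    rfl
  · have h := hD s t
    rw [← h1_b2, ← h1_b3, ← h1_b4] at h
    rw [pow_one]
    exact h
  · have b2 := (h1_b2 (c := c) x u w s t).symm.trans a2
    have b3 := (h1_b3 (c := c) x u w s t).symm.trans a3
    have b4 := (h1_b4 (c := c) u w s t).symm.trans a4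
    rw [q_add, qx, hv, b4]
    linear_combination a ^ 2 * b ^ 2 * b2 + a * b ^ 3 * b3
  · have h := hy
    rw [← h1_b2, ← h1_b3] at h
    refine Eq.trans ?_ h
    change t₀ ^ 1 * (4 * (c.al (μ₀ • x + s₀ • u + t₀ • w) ⬝ᵥ x) / t₀) = _
    rw [pow_one, mul_div_cancel₀ _ ht]
  · change (4 * (c.al (μ₀ • x + s₀ • u + t₀ • w) ⬝ᵥ x) / t₀) ^ 2 = bf 4 D s₀ t₀
    rw [div_pow, hsq, mul_div_cancel_left₀ _ (pow_ne_zero 2 ht)]

omit [Algebra ℂ F] in
theorem ez_bf1 (a : Fin 5 → F) (s t : F) : bf 1 a s t = a 0 * s + a 1 * t := by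
  simp [bf, Fin.sum_univ_five]

omit [Algebra ℂ F] in
theorem ez_bf2 (a : Fin 5 → F) (s t : F) :
    bf 2 a s t = a 0 * s ^ 2 + a 1 * s * t + a 2 * t ^ 2 := by
  simp [bf, Fin.sum_univ_five]

omit [Algebra ℂ F] in
theorem ez_bf3 (a : Fin 5 → F) (s t : F) :
    bf 3 a s t = a 0 * s ^ 3 + a 1 * s ^ 2 * t + a 2 * s * t ^ 2 + a 3 * t ^ 3 := by
  simp [bf, Fin.sum_univ_five]

omit [Algebra ℂ F] in
theorem ez_bf4 (a : Fin 5 → F) (s t : F) :
    bf 4 a s t = a 0 * s ^ 4 + a 1 * s ^ 3 * t + a 2 * s ^ 2 * t ^ 2 + a 3 * s * t ^ 3 +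
      a 4 * t ^ 4 := by
  simp [bf, Fin.sum_univ_five]

theorem ez_T1 (x u w : Fin 4 → F) (s t : F) :
    c.T x x x (s • u + t • w) = s * c.T x x x u + t * c.T x x x w := by
  rw [add4, smul4, smul4]

theorem ez_T2 (x u w : Fin 4 → F) (s t : F) :
    c.T x x (s • u + t • w) (s • u + t • w) =
      s ^ 2 * c.T x x u u + 2 * s * t * c.T x x u w + t ^ 2 * c.T x x w w := by
  simp only [add3, add4, smul3, smul4]
  rw [c.sw3 x x w u]
  ring

theorem ez_T3 (x u w : Fin 4 → F) (s t : F) :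
    c.T x (s • u + t • w) (s • u + t • w) (s • u + t • w) =
      s ^ 3 * c.T x u u u + 3 * s ^ 2 * t * c.T x u u w + 3 * s * t ^ 2 * c.T x u w w +
        t ^ 3 * c.T x w w w := by
  simp only [add2, add3, add4, smul2, smul3, smul4]
  rw [c.sw3 x u w u, c.sw2 x w u u, c.sw3 x u w u, c.sw2 x w u w, c.sw3 x w w u, c.sw2 x w u w]
  ring

theorem ez_al (x v : Fin 4 → F) (a : F) :
    c.al (a • x + v) ⬝ᵥ x =
      a ^ 3 * c.q x + 3 * a ^ 2 * c.T x x x v + 3 * a * c.T x x v v + c.T x v v v := by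
  have h := ez_T3 (c := c) x x v a 1
  rw [one_smul] at h
  rw [al_dot, c.sw3, c.sw2, c.sw1, h, q]
  ring

/-- a line of `X` through `x` in the direction `u`: `d = 0`, divide by `t`.  A second line through
`x` is excluded by `line_rigid`, a double line by `no_double_line`. -/
theorem ell_zero [IsAlgClosed F] (hc : c.Sm) {x u w η : Fin 4 → F}
    (hi : LinearIndependent F ![x, u, w]) (tw : c.T x x x w = 0)
    (hl : ∀ a b : F, c.q (a • x + b • u) = 0) (hq : c.q η = 0) (h1 : c.al x ⬝ᵥ η = 0)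
    (h2 : c.al η ⬝ᵥ x ≠ 0) {e : Derivation ℂ F F} (he : ∀ a : F, e ∘ c.al x ≠ a • c.al x)
    (hη : ∀ v, LinearIndependent F ![η, v] → ¬ ∀ a b : F, c.q (a • η + b • v) = 0) :
    ∃ D : EllDat F, D.1 0 = x ∧ c.Ell 0 η D := by
  have : CharZero F := charZero_of_injective_algebraMap (algebraMap ℂ F).injective
  obtain ⟨qx, t1, t2, t3, qu⟩ := line_polar hl
  have hlin : ∀ a b r : F, a • x + b • u + r • w = 0 → a = 0 ∧ b = 0 ∧ r = 0 := by
    intro a b r h
    have h' := Fintype.linearIndependent_iff.1 hi ![a, b, r] (by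
      simpa [Fin.sum_univ_three] using h)
    exact ⟨h' 0, h' 1, h' 2⟩
  have hx0 : x ≠ 0 := by
    intro h
    have := (hlin 1 0 0 (by simp [h])).1
    exact one_ne_zero this
  obtain ⟨μ₀, s₀, t₀, hη0⟩ := la13 (hc F x hx0) hi (by rw [al_dot_self, qx])
    (by rw [al_dot, t1]) (by rw [al_dot, tw]) h1
  set A := c.T x x u w with hA
  set B := c.T x x w w with hB
  set C := c.T x u u w with hC
  set E := c.T x u w w with hE
  set G := c.T x w w w with hG
  set H := c.T u u u w with hH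
  set I := c.T u u w w with hI
  set J := c.T u w w w with hJ
  set K := c.q w with hK
  let a₂ : Fin 5 → F := ![12 * A, 6 * B, 0, 0, 0]
  let a₃ : Fin 5 → F := ![12 * C, 12 * E, 4 * G, 0, 0]
  let a₄ : Fin 5 → F := ![4 * H, 6 * I, 4 * J, K, 0]
  let D₄ : Fin 5 → F := ![144 * C ^ 2 - 192 * A * H, 288 * C * E - 288 * A * I - 96 * B * H,
    144 * E ^ 2 + 96 * C * G - 192 * A * J - 144 * B * I, 96 * E * G - 48 * A * K - 96 * B * J,
    16 * G ^ 2 - 24 * B * K]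
  have e2 : ∀ s t : F, bf 1 a₂ s t = 12 * A * s + 6 * B * t := fun s t => by
    simp [ez_bf1, a₂]
  have e3 : ∀ s t : F, bf 2 a₃ s t = 12 * C * s ^ 2 + 12 * E * s * t + 4 * G * t ^ 2 :=
    fun s t => by simp [ez_bf2, a₃]
  have e4 : ∀ s t : F, bf 3 a₄ s t =
      4 * H * s ^ 3 + 6 * I * s ^ 2 * t + 4 * J * s * t ^ 2 + K * t ^ 3 :=
    fun s t => by simp [ez_bf3, a₄]
  have eD : ∀ s t : F, bf 2 a₃ s t ^ 2 - 4 * bf 1 a₂ s t * bf 3 a₄ s t = bf 4 D₄ s t := by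
    intro s t
    rw [e2, e3, e4, ez_bf4]
    simp only [D₄, Matrix.cons_val_zero, Matrix.cons_val_one, Matrix.cons_val]
    ring
  have f2 : ∀ s t : F, 6 * c.T x x (s • u + t • w) (s • u + t • w) = t * bf 1 a₂ s t := by
    intro s t
    rw [ez_T2, t2, e2]; ring
  have f3 : ∀ s t : F, 4 * c.T x (s • u + t • w) (s • u + t • w) (s • u + t • w) =
      t * bf 2 a₃ s t := by
    intro s t
    rw [ez_T3, t3, e3]; ring
  have f4 : ∀ s t : F, c.q (s • u + t • w) = t * bf 3 a₄ s t := by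
    intro s t
    rw [q_add, qu, e4]; ring
  have f1 : ∀ s t : F, c.T x x x (s • u + t • w) = 0 := by
    intro s t
    rw [ez_T1, t1, tw]; ring
  have sec2 : ∀ μ b s t : F, c.q (μ • x + b • (s • u + t • w)) =
      t * (bf 1 a₂ s t * μ ^ 2 * b ^ 2 + bf 2 a₃ s t * μ * b ^ 3 + bf 3 a₄ s t * b ^ 4) := by
    intro μ b s t
    rw [q_add, qx, f1]
    linear_combination μ ^ 2 * b ^ 2 * f2 s t + μ * b ^ 3 * f3 s t + b ^ 4 * f4 s t
  have sec : ∀ μ s t : F, c.q (μ • x + s • u + t • w) =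
      t * (bf 1 a₂ s t * μ ^ 2 + bf 2 a₃ s t * μ + bf 3 a₄ s t) := by
    intro μ s t
    have h := sec2 μ 1 s t
    rw [one_smul, ← add_assoc] at h
    rw [h]; ring
  have hy : 4 * (c.al η ⬝ᵥ x) = t₀ * (2 * μ₀ * bf 1 a₂ s₀ t₀ + bf 2 a₃ s₀ t₀) := by
    rw [hη0, add_assoc, ez_al, qx, f1]
    linear_combination 2 * μ₀ * f2 s₀ t₀ + f3 s₀ t₀
  have hy' : t₀ * (2 * μ₀ * bf 1 a₂ s₀ t₀ + bf 2 a₃ s₀ t₀) ≠ 0 := by
    rw [← hy]; exact mul_ne_zero (by norm_num) h2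
  have ht0 : t₀ ≠ 0 := left_ne_zero_of_mul hy'
  have hroot : bf 1 a₂ s₀ t₀ * μ₀ ^ 2 + bf 2 a₃ s₀ t₀ * μ₀ + bf 3 a₄ s₀ t₀ = 0 := by
    have h := sec μ₀ s₀ t₀
    rw [← hη0, hq] at h
    exact (mul_eq_zero.1 h.symm).resolve_left ht0
  refine ⟨(![x, u, w], ![a₂, a₃, a₄, D₄],
    ![μ₀, s₀, t₀, 2 * μ₀ * bf 1 a₂ s₀ t₀ + bf 2 a₃ s₀ t₀]), rfl, hi, ?_, ?_, ?_, ?_, hη0, ht0,
    right_ne_zero_of_mul hy', ?_, ?_⟩
  · intro i
    fin_cases i
    · exact (c.al_dot_self x).trans qx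
    · exact (c.al_dot x u).trans t1
    · exact (c.al_dot x w).trans tw
  · intro μ s t
    have h := sec μ s t
    rw [← pow_one t] at h
    simpa using h
  · intro s t
    have h := eD s t
    simpa using h
  · intro s t g2 g3 g4
    change bf 1 a₂ s t = 0 at g2
    change bf 2 a₃ s t = 0 at g3
    change bf 3 a₄ s t = 0 at g4
    by_cases ht : t = 0
    · refine ⟨?_, ht⟩
      by_contra hs
      rw [e2, ht] at g2
      rw [e3, ht] at g3
      rw [e4, ht] at g4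
      have gA : A = 0 := by simpa [hs] using g2
      have gC : C = 0 := by simpa [hs] using g3
      have gH : H = 0 := by simpa [hs] using g4
      exact no_double_line hc hi hl tw gA gC gH
    · exfalso
      have hl2 : ∀ a b : F, c.q (a • x + b • (s • u + t • w)) = 0 := by
        intro a b
        rw [sec2, g2, g3, g4]; ring
      have i1 : LinearIndependent F ![x, u] := la_ind2 hx0 fun a h => by
        have := (hlin a (-1) 0 (by rw [h]; simp)).2.1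
        norm_num at this
      have i2 : LinearIndependent F ![x, s • u + t • w] := la_ind2 hx0 fun a h => by
        have := (hlin (-a) s t (by rw [add_assoc, h]; simp)).2.2
        exact ht this
      obtain ⟨⟨a, b, h3⟩, -⟩ := line_rigid hc e i1 hl
      obtain ⟨⟨a', b', h4⟩, -⟩ := line_rigid hc e i2 hl2
      have h5 := (hlin (a' - a) (b' * s - b) (b' * t) (by
        have := h4.symm.trans h3
        linear_combination (norm := module) this)).2.2
      have hb : b' = 0 := (mul_eq_zero.1 h5).resolve_right ht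
      rw [hb, zero_smul, add_zero] at h4
      exact he _ (der_al_of_const e h4)
  · simp
  · change (2 * μ₀ * bf 1 a₂ s₀ t₀ + bf 2 a₃ s₀ t₀) ^ 2 = bf 4 D₄ s₀ t₀
    rw [← eD]
    linear_combination 4 * bf 1 a₂ s₀ t₀ * hroot

/-- **L7**. -/
theorem ell_of_spec [IsAlgClosed F] (hc : c.Sm) {x u w η : Fin 4 → F}
    (hi : LinearIndependent F ![x, u, w]) (hs : c.Spec x u w) (hq : c.q η = 0)
    (h1 : c.al x ⬝ᵥ η = 0) (h2 : c.al η ⬝ᵥ x ≠ 0) {e : Derivation ℂ F F}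
    (he : ∀ a : F, e ∘ c.al x ≠ a • c.al x)
    (hη : ∀ v, LinearIndependent F ![η, v] → ¬ ∀ a b : F, c.q (a • η + b • v) = 0) :
    ∃ d ≤ 1, ∃ D : EllDat F, D.1 0 = x ∧ c.Ell d η D := by
  by_cases hno : ∀ s t : F, (∀ a b : F, c.q (a • x + b • (s • u + t • w)) = 0) → s = 0 ∧ t = 0
  · exact ⟨1, le_rfl, ell_one hc hi hs hq h1 h2 hno⟩
  have key : ∀ a b e : F, a • x + b • u + e • w = 0 → a = 0 ∧ b = 0 ∧ e = 0 := by
    intro a b e h
    have := Fintype.linearIndependent_iff.1 hi ![a, b, e] (by simpa [Fin.sum_univ_three] using h)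
    exact ⟨this 0, this 1, this 2⟩
  obtain ⟨s, hno⟩ := not_forall.1 hno
  obtain ⟨t, hno⟩ := not_forall.1 hno
  obtain ⟨hl, hst⟩ := Classical.not_imp.1 hno
  refine ⟨0, zero_le_one, ?_⟩
  by_cases ht : t = 0
  · have hs0 : s ≠ 0 := fun h => hst ⟨h, ht⟩
    refine ell_zero (u := s • u + t • w) (w := w) hc ?_ hs.tw hl hq h1 h2 he hη
    refine Fintype.linearIndependent_iff.2 fun g hg => ?_
    simp only [Fin.sum_univ_three, cons_val_zero, cons_val_one, cons_val_two, head_cons,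
      tail_cons] at hg
    obtain ⟨a0, a1, a2⟩ := key (g 0) (g 1 * s) (g 1 * t + g 2) (by rw [← hg]; module)
    have b1 : g 1 = 0 := (mul_eq_zero.1 a1).resolve_right hs0
    have b2 : g 2 = 0 := by simpa [b1] using a2
    intro i
    fin_cases i
    exacts [a0, b1, b2]
  · refine ell_zero (u := s • u + t • w) (w := u) hc ?_ hs.tu hl hq h1 h2 he hη
    refine Fintype.linearIndependent_iff.2 fun g hg => ?_
    simp only [Fin.sum_univ_three, cons_val_zero, cons_val_one, cons_val_two, head_cons,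
      tail_cons] at hg
    obtain ⟨a0, a1, a2⟩ := key (g 0) (g 1 * s + g 2) (g 1 * t) (by rw [← hg]; module)
    have b1 : g 1 = 0 := (mul_eq_zero.1 a2).resolve_right ht
    have b2 : g 2 = 0 := by simpa [b1] using a1
    intro i
    fin_cases i
    exacts [a0, b1, b2]

end Ten

end Crest.Agent.R279
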