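import Crest.Agent.R279.AT
import Crest.Agent.R279.AO

/-! Row 279, block (4)-alg, core: linear algebra in `F⁴` and derivatives of vectors. -/

set_option autoImplicit false

namespace Crest.Agent.R279

open Matrix

section la
variable {F : Type} [Field F]

theorem am_li3 {a b c : Fin 4 → F} : LinearIndependent F ![a, b, c] ↔
    ∀ r s t : F, r • a + s • b + t • c = 0 → r = 0 ∧ s = 0 ∧ t = 0 := by
  rw [Fintype.linearIndependent_iff]
  constructor
  · intro h r s t e
    have := h ![r, s, t] (by simpa [Fin.sum_univ_three] using e)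
    exact ⟨this 0, this 1, this 2⟩
  · intro h g e i
    obtain ⟨h0, h1, h2⟩ := h (g 0) (g 1) (g 2) (by simpa [Fin.sum_univ_three] using e)
    fin_cases i
    · exact h0
    · exact h1
    · exact h2

theorem am_dual {m n : ℕ} (hmn : m + n = 4) {a : Fin m → Fin 4 → F} {e : Fin n → Fin 4 → F}
    (ha : LinearIndependent F a) (he : LinearIndependent F e) (h : ∀ i j, e j ⬝ᵥ a i = 0)
    {g : Fin 4 → F} (hg : ∀ j, e j ⬝ᵥ g = 0) : g ∈ Submodule.span F (Set.range a) := by
  have h1 : Module.finrank F (LinearMap.range (Matrix.of e).mulVecLin) = n := by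
    have := LinearIndependent.rank_matrix (M := Matrix.of e) he
    rwa [Fintype.card_fin] at this
  have h2 := LinearMap.finrank_range_add_finrank_ker (Matrix.of e).mulVecLin
  rw [h1, Module.finrank_fintype_fun_eq_card, Fintype.card_fin] at h2
  have h3 : Module.finrank F (Submodule.span F (Set.range a)) = m := by
    rw [finrank_span_eq_card ha, Fintype.card_fin]
  have h4 : Submodule.span F (Set.range a) = LinearMap.ker (Matrix.of e).mulVecLin := by
    refine Submodule.eq_of_le_of_finrank_eq ?_ (by omega)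
    rw [Submodule.span_le]
    rintro _ ⟨i, rfl⟩
    exact funext fun j => h i j
  rw [h4]
  exact funext fun j => hg j

theorem am_ex3 (a b c : Fin 4 → F) : ∃ v : Fin 4 → F, v ≠ 0 ∧ a ⬝ᵥ v = 0 ∧ b ⬝ᵥ v = 0 ∧ c ⬝ᵥ v = 0 := by
  have := LinearMap.ker_ne_bot_of_finrank_lt (f := (Matrix.of ![a, b, c]).mulVecLin) (by simp)
  obtain ⟨v, hv, h0⟩ := (Submodule.ne_bot_iff _).1 this
  exact ⟨v, h0, congrFun hv 0, congrFun hv 1, congrFun hv 2⟩

theorem am_par {a b c p v : Fin 4 → F} (h : LinearIndependent F ![a, b, c]) (hp : p ≠ 0)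
    (pa : a ⬝ᵥ p = 0) (pb : b ⬝ᵥ p = 0) (pc : c ⬝ᵥ p = 0)
    (va : a ⬝ᵥ v = 0) (vb : b ⬝ᵥ v = 0) (vc : c ⬝ᵥ v = 0) : ∃ l : F, v = l • p := by
  have := am_dual (m := 1) (n := 3) rfl (a := ![p]) (e := ![a, b, c])
    (linearIndependent_unique_iff.2 (by simpa using hp)) h
    (fun i j => by fin_cases i; fin_cases j <;> assumption) (g := v)
    (fun j => by fin_cases j <;> assumption)
  rw [Submodule.mem_span_range_iff_exists_fun] at this
  obtain ⟨l, hl⟩ := this
  exact ⟨l 0, by simpa using hl.symm⟩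

theorem am_sp2 {a b e f g : Fin 4 → F} (ha : LinearIndependent F ![a, b])
    (he : LinearIndependent F ![e, f]) (ae : a ⬝ᵥ e = 0) (af : a ⬝ᵥ f = 0) (be : b ⬝ᵥ e = 0)
    (bf : b ⬝ᵥ f = 0) (ge : g ⬝ᵥ e = 0) (gf : g ⬝ᵥ f = 0) : ∃ s t : F, g = s • a + t • b := by
  rw [dotProduct_comm] at ae af be bf ge gf
  have := am_dual (m := 2) (n := 2) rfl ha he
    (fun i j => by fin_cases i <;> fin_cases j <;> assumption) (g := g)
    (fun j => by fin_cases j <;> assumption)
  rw [Submodule.mem_span_range_iff_exists_fun] at this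
  obtain ⟨l, hl⟩ := this
  exact ⟨l 0, l 1, by simpa [Fin.sum_univ_two] using hl.symm⟩

theorem am_li2 {a b : Fin 4 → F} (ha : a ≠ 0) (hb : ∀ l : F, b ≠ l • a) :
    LinearIndependent F ![a, b] := by
  rw [LinearIndependent.pair_iff]
  intro s t e
  by_cases ht : t = 0
  · rw [ht, zero_smul, add_zero] at e
    exact ⟨(smul_eq_zero.1 e).resolve_right ha, ht⟩
  · refine absurd ?_ (hb (-(s / t)))
    funext i
    have := congrFun e i
    simp only [Pi.add_apply, Pi.smul_apply, smul_eq_mul, Pi.zero_apply] at this ⊢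
    field_simp
    linear_combination this

theorem am_li3' {a b c : Fin 4 → F} (h : LinearIndependent F ![a, b])
    (hc : ∀ s t : F, c ≠ s • a + t • b) : LinearIndependent F ![a, b, c] := by
  rw [am_li3]
  intro r s t e
  by_cases ht : t = 0
  · rw [ht, zero_smul, add_zero] at e
    obtain ⟨h1, h2⟩ := LinearIndependent.pair_iff.1 h r s e
    exact ⟨h1, h2, ht⟩
  · refine absurd ?_ (hc (-(r / t)) (-(s / t)))
    funext i
    have := congrFun e i
    simp only [Pi.add_apply, Pi.smul_apply, smul_eq_mul, Pi.zero_apply] at this ⊢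
    field_simp
    linear_combination this

theorem am_root [IsAlgClosed F] {A4 A3 : F} (A2 A1 A0 : F) (h : A4 ≠ 0 ∨ A3 ≠ 0) :
    ∃ s : F, A4 * s ^ 4 + A3 * s ^ 3 + A2 * s ^ 2 + A1 * s + A0 = 0 := by
  obtain ⟨s, hs⟩ := IsAlgClosed.exists_root (Polynomial.C A4 * Polynomial.X ^ 4 +
    Polynomial.C A3 * Polynomial.X ^ 3 + Polynomial.C A2 * Polynomial.X ^ 2 +
    Polynomial.C A1 * Polynomial.X + Polynomial.C A0) (fun hd => by
      have e := Polynomial.eq_C_of_degree_eq_zero hd
      have e4 := congrArg (Polynomial.coeff · 4) e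
      have e3 := congrArg (Polynomial.coeff · 3) e
      simp [Polynomial.coeff_X, Polynomial.coeff_C, Polynomial.coeff_X_pow] at e4 e3
      rcases h with h | h
      · exact h e4
      · exact h e3)
  exact ⟨s, by simpa using hs⟩

theorem am_root' [IsAlgClosed F] {A4 A3 : F} (A2 : F) {A1 A0 : F} (h : A4 ≠ 0 ∨ A3 ≠ 0)
    (h' : A0 ≠ 0 ∨ A1 ≠ 0) :
    ∃ s : F, s ≠ 0 ∧ A4 * s ^ 4 + A3 * s ^ 3 + A2 * s ^ 2 + A1 * s + A0 = 0 := by
  by_cases h0 : A0 = 0
  · have h1 : A1 ≠ 0 := h'.resolve_left (fun h => h h0)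
    obtain ⟨s, hs⟩ := IsAlgClosed.exists_root (Polynomial.C A4 * Polynomial.X ^ 3 +
      Polynomial.C A3 * Polynomial.X ^ 2 + Polynomial.C A2 * Polynomial.X + Polynomial.C A1)
      (fun hd => by
        have e := Polynomial.eq_C_of_degree_eq_zero hd
        have e4 := congrArg (Polynomial.coeff · 3) e
        have e3 := congrArg (Polynomial.coeff · 2) e
        simp [Polynomial.coeff_X, Polynomial.coeff_C, Polynomial.coeff_X_pow] at e4 e3
        rcases h with h | h
        · exact h e4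
        · exact h e3)
    have hs' : A4 * s ^ 3 + A3 * s ^ 2 + A2 * s + A1 = 0 := by simpa using hs
    refine ⟨s, ?_, by rw [h0]; linear_combination s * hs'⟩
    rintro rfl
    exact h1 (by simpa using hs')
  · obtain ⟨s, hs⟩ := am_root A2 A1 A0 h
    refine ⟨s, ?_, hs⟩
    rintro rfl
    exact h0 (by simpa using hs)

end la

section der
variable {F : Type} [Field F] [Algebra ℂ F] (δ : Derivation ℂ F F)

theorem am_der_dot (a b : Fin 4 → F) : δ (a ⬝ᵥ b) = (δ ∘ a) ⬝ᵥ b + a ⬝ᵥ (δ ∘ b) := by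
  simp only [dotProduct, map_sum, Derivation.leibniz, smul_eq_mul, Function.comp_apply,
    ← Finset.sum_add_distrib]
  exact Finset.sum_congr rfl fun i _ => by ring

theorem am_der_add (a b : Fin 4 → F) : δ ∘ (a + b) = δ ∘ a + δ ∘ b := by
  funext i; simp

theorem am_der_smul (r : F) (a : Fin 4 → F) : δ ∘ (r • a) = δ r • a + r • (δ ∘ a) := by
  funext i; simp [Derivation.leibniz]; ring

theorem am_der_single (l : Fin 4) : δ ∘ (Pi.single l 1 : Fin 4 → F) = 0 := by
  funext i; by_cases h : i = l <;> simp [Pi.single_apply, h]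

theorem am_der_zero : δ ∘ (0 : Fin 4 → F) = 0 := by
  funext i; simp

variable (c : Ten)

theorem am_T0 (a b d : Fin 4 → F) : c.T 0 a b d = 0 := by simp [Ten.T]

theorem am_der_al (x w : Fin 4 → F) : (δ ∘ c.al x) ⬝ᵥ w = 3 * c.T x x (δ ∘ x) w := by
  have h := am_der_dot δ (c.al x) w
  rw [c.al_dot, c.al_dot, c.der_T, c.sw1 (δ ∘ x), c.sw2 x (δ ∘ x)] at h
  linear_combination -h

theorem am_al_der {x : Fin 4 → F} (hx : c.q x = 0) : c.al x ⬝ᵥ (δ ∘ x) = 0 := by
  have : CharZero F := charZero_of_injective_algebraMap (algebraMap ℂ F).injective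
  have h := c.der_T δ x x x x
  rw [show c.T x x x x = 0 from hx, map_zero, c.sw1 (δ ∘ x), c.sw2 x (δ ∘ x), c.sw3 x x (δ ∘ x)] at h
  rw [c.al_dot]
  linear_combination (-1 / 4 : F) * h

theorem am_der_al_self {x : Fin 4 → F} (hx : c.q x = 0) : (δ ∘ c.al x) ⬝ᵥ x = 0 := by
  rw [am_der_al, c.sw3, ← c.al_dot, am_al_der δ c hx, mul_zero]

theorem am_der_al_of_par {x : Fin 4 → F} {l : F} (h : δ ∘ x = l • x) :
    δ ∘ c.al x = (3 * l) • c.al x := by
  funext i
  have := am_der_al δ c x (Pi.single i 1)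
  rw [dotProduct_single, mul_one, h, c.smul3] at this
  rw [this, Pi.smul_apply, smul_eq_mul, Ten.al]
  ring

theorem am_der_al_zero {x : Fin 4 → F} (h : δ ∘ x = 0) : δ ∘ c.al x = 0 := by
  rw [am_der_al_of_par δ c (l := 0) (by rw [h, zero_smul]), mul_zero, zero_smul]

/-- Vandermonde: a vector of `δ`-eigenvalue `l` has no relation `∑ sⁱ yᵢ = 0` -/
theorem am_vdm {s l : F} (hs : δ s = 1) {y : Fin 4 → F} (hy : δ ∘ y = l • y)
    (h : y 0 + s * y 1 + s ^ 2 * y 2 + s ^ 3 * y 3 = 0) : y = 0 := by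
  have : CharZero F := charZero_of_injective_algebraMap (algebraMap ℂ F).injective
  have e : ∀ i, δ (y i) = l * y i := fun i => congrFun hy i
  have h1 : y 1 + 2 * s * y 2 + 3 * s ^ 2 * y 3 = 0 := by
    have := congrArg δ h
    simp only [map_add, Derivation.leibniz, Derivation.leibniz_pow, e, hs, smul_eq_mul, map_zero,
      nsmul_eq_mul] at this
    push_cast at this
    linear_combination this - l * h
  have h2 : y 2 + 3 * s * y 3 = 0 := by
    have := congrArg δ (show y 1 + (s * y 2 + s * y 2) + (s ^ 2 * y 3 + s ^ 2 * y 3 + s ^ 2 * y 3) = 0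
      by linear_combination h1)
    simp only [map_add, Derivation.leibniz, Derivation.leibniz_pow, e, hs, smul_eq_mul, map_zero,
      nsmul_eq_mul] at this
    push_cast at this
    linear_combination (1 / 2 : F) * this - (l / 2) * h1
  have h3 : y 3 = 0 := by
    have := congrArg δ (show y 2 + (s * y 3 + s * y 3 + s * y 3) = 0 by linear_combination h2)
    simp only [map_add, Derivation.leibniz, e, hs, smul_eq_mul, map_zero] at this
    linear_combination (1 / 3 : F) * this - (l / 3) * h2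
  have h2' : y 2 = 0 := by rw [h3] at h2; simpa using h2
  have h1' : y 1 = 0 := by rw [h3, h2'] at h1; simpa using h1
  have h0' : y 0 = 0 := by rw [h3, h2', h1'] at h; simpa using h
  funext i
  fin_cases i <;> assumption

end der

end Crest.Agent.R279
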