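import Crest.Agent.R279.AD
import Crest.Agent.R279.AEw
import Crest.Agent.R279.AM1

/-! Row 279, step (4): two special tangent planes through the generic point -/

set_option autoImplicit false

namespace Crest.Agent.R279

open Matrix

namespace Ten

variable {c : Ten} {F : Type} [Field F] [Algebra ℂ F]

/-- two independent moving points of `X` whose tangent planes do not lie in one pencil. -/
structure Pair (c : Ten) (δ₁ δ₂ : Derivation ℂ F F) (x₁ x₂ : Fin 4 → F) : Prop where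
  q₁ : c.q x₁ = 0
  q₂ : c.q x₂ = 0
  ne₁ : x₁ ≠ 0
  ne₂ : x₂ ≠ 0
  comm : ∀ a, δ₁ (δ₂ a) = δ₂ (δ₁ a)
  c₁ : δ₂ ∘ x₁ = 0
  c₂ : δ₁ ∘ x₂ = 0
  mv₁ : ∀ a : F, δ₁ ∘ c.al x₁ ≠ a • c.al x₁
  mv₂ : ∀ a : F, δ₂ ∘ c.al x₂ ≠ a • c.al x₂
  npen : ∀ a b : F, c.al x₂ ≠ a • c.al x₁ + b • (δ₁ ∘ c.al x₁)

/-- the non-pencil condition is symmetric. -/
theorem Pair.symm {δ₁ δ₂ : Derivation ℂ F F} {x₁ x₂ : Fin 4 → F} (hc : c.Sm)
    (h : c.Pair δ₁ δ₂ x₁ x₂) : c.Pair δ₂ δ₁ x₂ x₁ := by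
  refine ⟨h.q₂, h.q₁, h.ne₂, h.ne₁, fun a => (h.comm a).symm, h.c₂, h.c₁, h.mv₂, h.mv₁, ?_⟩
  intro a b e
  have k2 : δ₁ ∘ c.al x₂ = 0 := am_der_al_zero δ₁ c h.c₂
  have k3 : δ₁ ∘ (δ₂ ∘ c.al x₂) = 0 := by
    funext i
    have : δ₁ (c.al x₂ i) = 0 := congrFun k2 i
    simp only [Function.comp_apply, h.comm, this, map_zero, Pi.zero_apply]
  have e' : δ₁ ∘ c.al x₁ = δ₁ a • c.al x₂ + δ₁ b • (δ₂ ∘ c.al x₂) := by
    rw [e, der_add, der_smul, der_smul, k2, k3, smul_zero, smul_zero, add_zero, add_zero]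
  by_cases hD : a * δ₁ b - δ₁ a * b = 0
  · have i1 := am_li2 (hc F x₁ h.ne₁) h.mv₁
    have z1 := LinearIndependent.pair_iff.1 i1 (δ₁ b) (-b) (by
      rw [e']
      conv_lhs => rw [e]
      funext i
      simp only [Pi.add_apply, Pi.smul_apply, smul_eq_mul, Pi.zero_apply]
      linear_combination c.al x₂ i * hD)
    have z2 := LinearIndependent.pair_iff.1 i1 (δ₁ a) (-a) (by
      rw [e']
      conv_lhs => rw [e]
      funext i
      simp only [Pi.add_apply, Pi.smul_apply, smul_eq_mul, Pi.zero_apply]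
      linear_combination (-(δ₂ ∘ c.al x₂) i) * hD)
    rw [neg_eq_zero.1 z1.2, neg_eq_zero.1 z2.2, zero_smul, zero_smul, add_zero] at e
    exact hc F x₁ h.ne₁ e
  · obtain ⟨N, hN⟩ : ∃ N : F, N * (a * δ₁ b - δ₁ a * b) = 1 := ⟨_, inv_mul_cancel₀ hD⟩
    refine h.npen (δ₁ b * N) (-b * N) ?_
    rw [e']
    conv_rhs => rw [e]
    funext i
    simp only [Pi.add_apply, Pi.smul_apply, smul_eq_mul]
    linear_combination (-c.al x₂ i) * hN

theorem Pair.ind {δ₁ δ₂ : Derivation ℂ F F} {x₁ x₂ : Fin 4 → F} (hc : c.Sm)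
    (h : c.Pair δ₁ δ₂ x₁ x₂) : LinearIndependent F ![c.al x₁, δ₁ ∘ c.al x₁, c.al x₂] :=
  am_li3' (am_li2 (hc F x₁ h.ne₁) h.mv₁) h.npen

theorem Pair.ind₂ {δ₁ δ₂ : Derivation ℂ F F} {x₁ x₂ : Fin 4 → F} (hc : c.Sm)
    (h : c.Pair δ₁ δ₂ x₁ x₂) : LinearIndependent F ![c.al x₁, c.al x₂] :=
  am_li2 (hc F x₁ h.ne₁) fun l e => h.npen l 0 (by rw [e, zero_smul, add_zero])

/-- the characteristic point is a simple zero of the quartic on the line of the two planes -/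
theorem Pair.simple [IsAlgClosed F] {δ₁ δ₂ : Derivation ℂ F F} {x₁ x₂ p : Fin 4 → F} (hc : c.Sm)
    (h : c.Pair δ₁ δ₂ x₁ x₂) (hp : p ≠ 0) (hq : c.q p = 0) (p1 : c.al x₁ ⬝ᵥ p = 0)
    (p2 : (δ₁ ∘ c.al x₁) ⬝ᵥ p = 0) (p3 : c.al x₂ ⬝ᵥ p = 0) (s t : F) :
    c.al p ≠ s • c.al x₁ + t • c.al x₂ := by
  intro e
  have h' := h.symm hc
  have k1 : δ₂ ∘ c.al x₁ = 0 := am_der_al_zero δ₂ c h.c₁
  have k2 : δ₁ ∘ c.al x₂ = 0 := am_der_al_zero δ₁ c h.c₂
  have k3 : δ₂ ∘ (δ₁ ∘ c.al x₁) = 0 := by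
    funext i
    have : δ₂ (c.al x₁ i) = 0 := congrFun k1 i
    simp only [Function.comp_apply, ← h.comm, this, map_zero, Pi.zero_apply]
  have k4 : δ₁ ∘ (δ₂ ∘ c.al x₂) = 0 := by
    funext i
    have : δ₁ (c.al x₂ i) = 0 := congrFun k2 i
    simp only [Function.comp_apply, h.comm, this, map_zero, Pi.zero_apply]
  have d1 : c.al x₁ ⬝ᵥ (δ₂ ∘ p) = 0 := by
    have := der_dot δ₂ (c.al x₁) p
    rw [p1, k1, map_zero, zero_dotProduct, zero_add] at this
    exact this.symm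
  have d2 : (δ₁ ∘ c.al x₁) ⬝ᵥ (δ₂ ∘ p) = 0 := by
    have := der_dot δ₂ (δ₁ ∘ c.al x₁) p
    rw [p2, k3, map_zero, zero_dotProduct, zero_add] at this
    exact this.symm
  have e2 : δ₂ ∘ c.al p = δ₂ s • c.al x₁ + (δ₂ t • c.al x₂ + t • (δ₂ ∘ c.al x₂)) := by
    rw [e, der_add, der_smul, der_smul, k1, smul_zero, add_zero]
  by_cases ht : t = 0
  · rw [ht, zero_smul, add_zero] at e
    rw [ht, map_zero, zero_smul, zero_smul, add_zero, add_zero] at e2
    have hs : s ≠ 0 := by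
      rintro rfl
      exact hc F p hp (by rw [e, zero_smul])
    obtain ⟨l, hl⟩ := gauss_finite hc δ₂ hp ⟨δ₂ s / s, by
      rw [e2, e, smul_smul, div_mul_cancel₀ _ hs]⟩
    have b2 : (δ₂ ∘ c.al x₂) ⬝ᵥ p = 0 := by
      have := der_dot δ₂ (c.al x₂) p
      rw [p3, hl, dotProduct_smul, p3, smul_zero, add_zero, map_zero] at this
      exact this.symm
    obtain ⟨m, hm⟩ := am_par (h'.ind hc) hp p3 b2 p1 (v := δ₁ ∘ p)
      (by
        have := der_dot δ₁ (c.al x₂) p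
        rw [p3, k2, map_zero, zero_dotProduct, zero_add] at this
        exact this.symm)
      (by
        have := der_dot δ₁ (δ₂ ∘ c.al x₂) p
        rw [b2, k4, map_zero, zero_dotProduct, zero_add] at this
        exact this.symm)
      (by
        have := der_dot δ₁ (c.al x₁) p
        rw [p1, p2, map_zero, zero_add] at this
        exact this.symm)
    have e3 := der_al_of_const (c := c) δ₁ hm
    rw [e, der_smul] at e3
    refine h.mv₁ ((3 * m * s - δ₁ s) / s) ?_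
    funext i
    have := congrFun e3 i
    simp only [Pi.add_apply, Pi.smul_apply, smul_eq_mul] at this ⊢
    field_simp
    linear_combination this
  · have d3 : c.al x₂ ⬝ᵥ (δ₂ ∘ p) = 0 := by
      have := al_der δ₂ hq
      rw [e, add_dotProduct, smul_dotProduct, smul_dotProduct, d1, smul_zero, zero_add,
        smul_eq_mul] at this
      exact (mul_eq_zero.1 this).resolve_left ht
    obtain ⟨l, hl⟩ := am_par (h.ind hc) hp p1 p2 p3 d1 d2 d3
    have e3 := der_al_of_const (c := c) δ₂ hl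
    rw [e2, e] at e3
    refine ht (am_li3.1 (h'.ind hc) (δ₂ t - 3 * l * t) t (δ₂ s - 3 * l * s) ?_).2.1
    funext i
    have := congrFun e3 i
    simp only [Pi.add_apply, Pi.smul_apply, smul_eq_mul, Pi.zero_apply] at this ⊢
    linear_combination this

/-- the defect of the discriminant identity of `Spec` -/
def h48_E (c : Ten) {R : Type} [CommRing R] [Algebra ℂ R] (x u w : Fin 4 → R) (D : Fin 5 → R)
    (s t : R) : R :=
  (4 * c.T x (s • u + t • w) (s • u + t • w) (s • u + t • w)) ^ 2 -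
    4 * (6 * c.T x x (s • u + t • w) (s • u + t • w)) * c.q (s • u + t • w) - t ^ 2 * bf 4 D s t

theorem h48_map_E {R R' : Type} [CommRing R] [Algebra ℂ R] [CommRing R'] [Algebra ℂ R']
    (g : R →ₐ[ℂ] R') (x u w : Fin 4 → R) (D : Fin 5 → R) (s t : R) :
    g (h48_E c x u w D s t) = h48_E c (g ∘ x) (g ∘ u) (g ∘ w) (g ∘ D) (g s) (g t) := by
  have h1 : g ∘ (s • u + t • w) = g s • (g ∘ u) + g t • (g ∘ w) := by
    funext i
    simp
  have h2 : g (bf 4 D s t) = bf 4 (g ∘ D) (g s) (g t) := by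
    simp only [bf, map_sum, apply_ite g, map_mul, map_pow, map_zero, Function.comp_apply]
  simp only [h48_E, map_sub, map_mul, map_pow, map_T, map_q, map_ofNat, h1, h2]

theorem h48_spec_map {k : Type} [Field k] [Algebra ℂ k] [Algebra k F] [IsScalarTower ℂ k F]
    {x u w : Fin 4 → k} (h : c.Spec x u w) :
    c.Spec (algebraMap k F ∘ x) (algebraMap k F ∘ u) (algebraMap k F ∘ w) := by
  have : CharZero k := charZero_of_injective_algebraMap (algebraMap ℂ k).injective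
  let f := IsScalarTower.toAlgHom ℂ k F
  refine ⟨?_, ?_, ?_, ?_⟩
  · exact (c.map_q f x).symm.trans (by rw [h.qx, map_zero])
  · exact (c.map_T f x x x u).symm.trans (by rw [h.tu, map_zero])
  · exact (c.map_T f x x x w).symm.trans (by rw [h.tw, map_zero])
  obtain ⟨D, hD⟩ := h.dbl
  let ι := IsScalarTower.toAlgHom ℂ k (MvPolynomial (Fin 2) k)
  have key : ∀ (L : Type) [Field L] [Algebra ℂ L] [Algebra k L] [IsScalarTower ℂ k L]
      (p : Fin 2 → L), MvPolynomial.aeval p (h48_E c (ι ∘ x) (ι ∘ u) (ι ∘ w) (ι ∘ D)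
        (MvPolynomial.X 0) (MvPolynomial.X 1)) = h48_E c (algebraMap k L ∘ x) (algebraMap k L ∘ u)
          (algebraMap k L ∘ w) (algebraMap k L ∘ D) (p 0) (p 1) := by
    intro L _ _ _ _ p
    have e : ∀ {n : ℕ} (y : Fin n → k), ((MvPolynomial.aeval p :
        MvPolynomial (Fin 2) k →ₐ[k] L).restrictScalars ℂ) ∘ (ι ∘ y) = algebraMap k L ∘ y := by
      intro n y
      funext i
      simp [ι]
    refine (h48_map_E ((MvPolynomial.aeval p : MvPolynomial (Fin 2) k →ₐ[k] L).restrictScalars ℂ)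
      _ _ _ _ _ _).trans ?_
    rw [e, e, e, e]
    simp
  have h0 : h48_E c (ι ∘ x) (ι ∘ u) (ι ∘ w) (ι ∘ D) (MvPolynomial.X 0) (MvPolynomial.X 1) = 0 := by
    refine MvPolynomial.funext fun p => ?_
    rw [map_zero]
    exact (key k p).trans (sub_eq_zero.2 (hD (p 0) (p 1)))
  refine ⟨algebraMap k F ∘ D, fun s t => ?_⟩
  have h1 := key F ![s, t]
  rw [h0, map_zero] at h1
  exact sub_eq_zero.1 h1.symm

theorem h48_aeval_al {k : Type} [Field k] [Algebra ℂ k] [Algebra k F] [IsScalarTower ℂ k F]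
    (x : Fin 4 → F) (j : Fin 4) :
    MvPolynomial.aeval x (c.al (fun j => (MvPolynomial.X j : MvPolynomial (Fin 4) k)) j) =
      c.al x j := by
  have e := congrFun (c.map_al ((MvPolynomial.aeval x :
    MvPolynomial (Fin 4) k →ₐ[k] F).restrictScalars ℂ) fun i => MvPolynomial.X i) j
  have e2 : ((MvPolynomial.aeval x : MvPolynomial (Fin 4) k →ₐ[k] F).restrictScalars ℂ) ∘
      (fun i => MvPolynomial.X i) = x := by
    funext i
    simp
  rw [e2, Function.comp_apply, AlgHom.restrictScalars_apply] at e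
  exact e

/-- special points over the constants of a set of derivations. -/
theorem exists_spec_const [IsAlgClosed F] (hc : c.Sm) (S : Set (Derivation ℂ F F))
    {g₁ g₂ h₁ h₂ : MvPolynomial (Fin 4) (constF S)} {n₁ n₂ : ℕ} (hg₁ : g₁.IsHomogeneous n₁)
    (hg₂ : g₂.IsHomogeneous n₂) (hn₁ : 0 < n₁) (hn₂ : 0 < n₂)
    (hq : c.poly (constF S) = h₁ * g₁ + h₂ * g₂) :
    ∃ x u w : Fin 4 → F, (∀ δ ∈ S, δ ∘ x = 0) ∧ MvPolynomial.aeval x g₁ = 0 ∧
      MvPolynomial.aeval x g₂ = 0 ∧ LinearIndependent F ![x, u, w] ∧ c.Spec x u w := by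
  obtain ⟨x, u, w, h1, h2, hi, hs⟩ := exists_spec' hc (constF S) hg₁ hg₂ hn₁ hn₂ hq
  have he : ∀ g : MvPolynomial (Fin 4) (constF S), MvPolynomial.eval x g = 0 →
      MvPolynomial.aeval (algebraMap (constF S) F ∘ x) g = 0 := by
    intro g hg
    have := MvPolynomial.aeval_algebraMap_apply F x g
    rw [MvPolynomial.aeval_eq_eval, hg, map_zero] at this
    exact this
  refine ⟨algebraMap (constF S) F ∘ x, algebraMap (constF S) F ∘ u, algebraMap (constF S) F ∘ w,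
    fun δ hδ => funext fun i => (x i).2 δ hδ, he _ h1, he _ h2, ?_,
    h48_spec_map hs⟩
  have e : ![algebraMap (constF S) F ∘ x, algebraMap (constF S) F ∘ u, algebraMap (constF S) F ∘ w] =
      fun i => algebraMap (constF S) F ∘ ![x, u, w] i := by
    funext j
    fin_cases j <;> rfl
  rw [e]
  exact (linearIndependent_algebraMap_comp_iff (S := F)).2 hi

/-- a special point whose tangent plane passes through the generic point `t`. -/
theorem exists_spec_gen [IsAlgClosed F] (hc : c.Sm) (S : Set (Derivation ℂ F F))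
    (t : Fin 4 → F) (d : Fin 4 → Derivation ℂ F F) (ht : ∀ δ ∈ S, δ ∘ t = 0)
    (hd : ∀ i j, d i (t j) = if i = j then 1 else 0) :
    ∃ x u w : Fin 4 → F, (∀ δ ∈ S, δ ∘ x = 0) ∧ LinearIndependent F ![x, u, w] ∧ c.Spec x u w ∧
      ∃ i, ∀ a : F, d i ∘ c.al x ≠ a • c.al x := by
  have : CharZero F := charZero_of_injective_algebraMap (algebraMap ℂ F).injective
  let t' : Fin 4 → constF S := fun j => ⟨t j, fun δ hδ => congrFun (ht δ hδ) j⟩
  have hg₂ : (∑ j, MvPolynomial.C (t' j) * MvPolynomial.pderiv j (c.poly (constF S))).IsHomogeneous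
      (0 + (4 - 1)) := MvPolynomial.IsHomogeneous.sum _ _ _ fun j _ =>
    (MvPolynomial.isHomogeneous_C _ _).mul (c.poly_hom (constF S)).pderiv
  obtain ⟨x, u, w, h1, -, h2, hi, hs⟩ := exists_spec_const hc S (h₁ := 1) (h₂ := 0)
    (c.poly_hom (constF S)) hg₂ (by norm_num) (by norm_num) (by rw [one_mul, zero_mul, add_zero])
  refine ⟨x, u, w, h1, hi, hs, ?_⟩
  have h3 : ∀ j, MvPolynomial.aeval x (MvPolynomial.pderiv j (c.poly (constF S))) =
      4 * c.al x j := by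
    intro j
    rw [pderiv_poly, map_mul, map_ofNat, h48_aeval_al]
  have h4 : c.al x ⬝ᵥ t = 0 := by
    simp only [map_sum, map_mul, MvPolynomial.aeval_C, h3] at h2
    have h5 : 4 * (c.al x ⬝ᵥ t) = 0 := by
      rw [← h2, dotProduct, Finset.mul_sum]
      refine Finset.sum_congr rfl fun j _ => ?_
      rw [show algebraMap (constF S) F (t' j) = t j from rfl]
      ring
    exact (mul_eq_zero.1 h5).resolve_left (by norm_num)
  by_contra hne
  push Not at hne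
  refine hc F x (hi.ne_zero 0) (funext fun i => ?_)
  obtain ⟨a, ha⟩ := hne i
  have h5 := der_dot (d i) (c.al x) t
  have h6 : d i ∘ t = Pi.single i 1 := by
    funext j
    rw [Function.comp_apply, hd, Pi.single_apply]
    exact if_congr eq_comm rfl rfl
  rw [h4, map_zero, ha, smul_dotProduct, h4, smul_zero, zero_add, h6, dotProduct_single,
    mul_one] at h5
  exact h5.symm

section off
variable {R : Type} [CommRing R] [Algebra ℂ R]

/-- projection to the line `a = b = 0` -/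
def offY (a b : Fin 4 → R) (i j : Fin 4) (x : Fin 4 → R) : Fin 4 → R :=
  x + (-(a ⬝ᵥ x)) • (Pi.single i 1 : Fin 4 → R) + (-(b ⬝ᵥ x)) • (Pi.single j 1 : Fin 4 → R)

/-- telescoping cubic -/
def offA (c : Ten) (x y : Fin 4 → R) (l : Fin 4) : R :=
  c.T x x x (Pi.single l 1) + c.T x x y (Pi.single l 1) + c.T x y y (Pi.single l 1) +
    c.T y y y (Pi.single l 1)

theorem off_tel (c : Ten) (y z : Fin 4 → R) : c.q (y + z) = c.q y +
    (c.T (y + z) (y + z) (y + z) z + c.T (y + z) (y + z) y z + c.T (y + z) y y z + c.T y y y z) := by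
  generalize hx : y + z = x
  have h1 : c.q x = c.T x x x y + c.T x x x z := by rw [q, ← add4, hx]
  have h2 : c.T x x x y = c.T x x y y + c.T x x y z := by rw [← add4, hx, c.sw3]
  have h3 : c.T x x y y = c.T x y y y + c.T x y y z := by rw [← add4, hx, c.sw2, c.sw3]
  have h4 : c.T x y y y = c.q y + c.T y y y z := by rw [q, ← add4, hx, c.sw1, c.sw2, c.sw3]
  rw [h1, h2, h3, h4]; ring

theorem off_id (c : Ten) (a b : Fin 4 → R) (i j : Fin 4) (x : Fin 4 → R) :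
    c.q x = c.q (offY a b i j x) + (a ⬝ᵥ x) * c.offA x (offY a b i j x) i +
      (b ⬝ᵥ x) * c.offA x (offY a b i j x) j := by
  have h := c.off_tel (offY a b i j x)
    ((a ⬝ᵥ x) • (Pi.single i 1 : Fin 4 → R) + (b ⬝ᵥ x) • (Pi.single j 1 : Fin 4 → R))
  have e : offY a b i j x +
      ((a ⬝ᵥ x) • (Pi.single i 1 : Fin 4 → R) + (b ⬝ᵥ x) • (Pi.single j 1 : Fin 4 → R)) = x := by
    simp only [offY, neg_smul]; abel
  rw [e] at h
  rw [h]
  simp only [add4, smul4, offA]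
  ring

theorem off_map_single {R' : Type} [CommRing R'] [Algebra ℂ R'] (f : R →ₐ[ℂ] R') (l : Fin 4) :
    f ∘ (Pi.single l 1 : Fin 4 → R) = Pi.single l 1 := by
  funext i; by_cases h : i = l <;> simp [Pi.single_apply, h]

theorem off_map_dot {R' : Type} [CommRing R'] [Algebra ℂ R'] (f : R →ₐ[ℂ] R') (a x : Fin 4 → R) :
    f (a ⬝ᵥ x) = (f ∘ a) ⬝ᵥ (f ∘ x) := by
  simp [dotProduct, map_sum]

theorem off_mapY {R' : Type} [CommRing R'] [Algebra ℂ R'] (f : R →ₐ[ℂ] R') (a b : Fin 4 → R)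
    (i j : Fin 4) (x : Fin 4 → R) : f ∘ offY a b i j x = offY (f ∘ a) (f ∘ b) i j (f ∘ x) := by
  funext m
  have h1 := congrFun (off_map_single f i) m
  have h2 := congrFun (off_map_single f j) m
  simp only [Function.comp_apply] at h1 h2
  simp only [offY, Function.comp_apply, Pi.add_apply, Pi.smul_apply, smul_eq_mul, map_add, map_mul,
    map_neg, off_map_dot, h1, h2]

theorem off_mapA {R' : Type} [CommRing R'] [Algebra ℂ R'] (c : Ten) (f : R →ₐ[ℂ] R')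
    (x y : Fin 4 → R) (l : Fin 4) : f (c.offA x y l) = c.offA (f ∘ x) (f ∘ y) l := by
  simp only [offA, map_add, map_T, off_map_single]

theorem off_homT (c : Ten) {K : Type} [CommRing K] [Algebra ℂ K]
    {a b d e : Fin 4 → MvPolynomial (Fin 4) K} {n₁ n₂ n₃ n₄ : ℕ}
    (ha : ∀ m, (a m).IsHomogeneous n₁) (hb : ∀ m, (b m).IsHomogeneous n₂)
    (hd : ∀ m, (d m).IsHomogeneous n₃) (he : ∀ m, (e m).IsHomogeneous n₄) :
    (c.T a b d e).IsHomogeneous (n₁ + n₂ + n₃ + n₄) := by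
  unfold T
  refine MvPolynomial.IsHomogeneous.sum _ _ _ fun i _ => MvPolynomial.IsHomogeneous.sum _ _ _
    fun j _ => MvPolynomial.IsHomogeneous.sum _ _ _ fun k _ =>
      MvPolynomial.IsHomogeneous.sum _ _ _ fun l _ => ?_
  have h0 : (algebraMap ℂ (MvPolynomial (Fin 4) K) (c.c i j k l)).IsHomogeneous 0 :=
    MvPolynomial.isHomogeneous_C _ _
  have := (((h0.mul (ha i)).mul (hb j)).mul (hd k)).mul (he l)
  rwa [zero_add] at this

theorem off_hom_single {K : Type} [CommRing K] (l m : Fin 4) :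
    ((Pi.single l 1 : Fin 4 → MvPolynomial (Fin 4) K) m).IsHomogeneous 0 := by
  by_cases h : m = l
  · subst h; rw [Pi.single_eq_same]; exact MvPolynomial.isHomogeneous_one _ _
  · rw [Pi.single_eq_of_ne h]; exact MvPolynomial.isHomogeneous_zero _ _ _

theorem off_hom_dot {K : Type} [CommRing K] (a : Fin 4 → K) :
    ((fun m => MvPolynomial.C (a m)) ⬝ᵥ fun m => (MvPolynomial.X m : MvPolynomial (Fin 4) K)
      ).IsHomogeneous 1 :=
  MvPolynomial.IsHomogeneous.sum _ _ _ fun m _ => MvPolynomial.isHomogeneous_C_mul_X _ _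

theorem off_homY {K : Type} [CommRing K] (a b : Fin 4 → K) (i j m : Fin 4) :
    (offY (fun m => MvPolynomial.C (a m)) (fun m => MvPolynomial.C (b m)) i j
      (fun m => (MvPolynomial.X m : MvPolynomial (Fin 4) K)) m).IsHomogeneous 1 := by
  simp only [offY, Pi.add_apply, Pi.smul_apply, smul_eq_mul]
  exact ((MvPolynomial.isHomogeneous_X _ _).add ((off_hom_dot a).neg.mul (off_hom_single i m))).add
    ((off_hom_dot b).neg.mul (off_hom_single j m))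

theorem off_homA (c : Ten) {K : Type} [CommRing K] [Algebra ℂ K]
    {x y : Fin 4 → MvPolynomial (Fin 4) K} (hx : ∀ m, (x m).IsHomogeneous 1)
    (hy : ∀ m, (y m).IsHomogeneous 1) (l : Fin 4) : (c.offA x y l).IsHomogeneous 3 :=
  (((c.off_homT hx hx hx (off_hom_single l)).add (c.off_homT hx hx hy (off_hom_single l))).add
    (c.off_homT hx hy hy (off_hom_single l))).add (c.off_homT hy hy hy (off_hom_single l))

end off

theorem off_der_dot (δ : Derivation ℂ F F) {a x : Fin 4 → F} {r : F} (ha : δ ∘ a = 0)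
    (hx : δ ∘ x = r • x) : δ (a ⬝ᵥ x) = r * (a ⬝ᵥ x) := by
  rw [der_dot, ha, hx, zero_dotProduct, zero_add, dotProduct_smul, smul_eq_mul]

theorem off_derY (δ : Derivation ℂ F F) {a b x : Fin 4 → F} {r : F} (ha : δ ∘ a = 0)
    (hb : δ ∘ b = 0) (hx : δ ∘ x = r • x) (i j : Fin 4) :
    δ ∘ offY a b i j x = r • offY a b i j x := by
  simp only [offY, der_add, der_smul, der_single, map_neg, off_der_dot δ ha hx, off_der_dot δ hb hx,
    hx, smul_zero, add_zero, smul_add, smul_smul, mul_neg]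

theorem off_derA (δ : Derivation ℂ F F) {x y : Fin 4 → F} {r : F} (hx : δ ∘ x = r • x)
    (hy : δ ∘ y = r • y) (l : Fin 4) : δ (c.offA x y l) = 3 * r * c.offA x y l := by
  simp only [offA, map_add, der_T, hx, hy, der_single, zero4, smul1, smul2, smul3]
  ring

/-- a moving special point off a given line `α = β = 0` of `X`:  echelon equations `a, b` of the
line are constant for every derivation (`la_ech`, `line_rigid`), `q = a A + b B` by telescoping `T`,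
intersect `A + b M = B - a M = 0`, `M = ∑ t j * X j ^ 2`; `gauss_finite`. -/
theorem exists_spec_off [IsAlgClosed F] (hc : c.Sm) (S : Set (Derivation ℂ F F))
    (t : Fin 4 → F) (d : Fin 4 → Derivation ℂ F F) (ht : ∀ δ ∈ S, δ ∘ t = 0)
    (hd : ∀ i j, d i (t j) = if i = j then 1 else 0) {α β : Fin 4 → F}
    (hαβ : LinearIndependent F ![α, β]) (hl : ∀ z, α ⬝ᵥ z = 0 → β ⬝ᵥ z = 0 → c.q z = 0) :
    ∃ x u w : Fin 4 → F, (∀ δ ∈ S, δ ∘ x = 0) ∧ LinearIndependent F ![x, u, w] ∧ c.Spec x u w ∧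
      (∃ i, ∀ a : F, d i ∘ c.al x ≠ a • c.al x) ∧ ¬ (α ⬝ᵥ x = 0 ∧ β ⬝ᵥ x = 0) := by
  have : CharZero F := charZero_of_injective_algebraMap (algebraMap ℂ F).injective
  obtain ⟨i, j, a, b, -, ai, aj, bi, bj, ⟨r₁, s₁, ha⟩, ⟨r₂, s₂, hb⟩, hech⟩ := la_ech hαβ
  obtain ⟨p, v, hpv, αp, αv, βp, βv⟩ := la_ex2 hαβ
  have hline : ∀ r s : F, c.q (r • p + s • v) = 0 := fun r s =>
    hl _ (by simp [dotProduct_add, dotProduct_smul, αp, αv])
      (by simp [dotProduct_add, dotProduct_smul, βp, βv])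
  -- the span of `α, β` is constant
  have hspan : ∀ (δ : Derivation ℂ F F) (r s : F), ∃ r' s' : F,
      δ ∘ (r • α + s • β) = r' • α + s' • β := by
    intro δ r s
    obtain ⟨⟨e₁, e₂, h1⟩, ⟨f₁, f₂, h2⟩⟩ := line_rigid hc δ hpv hline
    have gp : (r • α + s • β) ⬝ᵥ p = 0 := by simp [add_dotProduct, smul_dotProduct, αp, βp]
    have gv : (r • α + s • β) ⬝ᵥ v = 0 := by simp [add_dotProduct, smul_dotProduct, αv, βv]
    have k1 := der_dot δ (r • α + s • β) p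
    have k2 := der_dot δ (r • α + s • β) v
    rw [h1, dotProduct_add, dotProduct_smul, dotProduct_smul, gp, gv] at k1
    rw [h2, dotProduct_add, dotProduct_smul, dotProduct_smul, gp, gv] at k2
    simp only [map_zero, smul_zero, add_zero] at k1 k2
    exact la22 hpv hαβ (by rwa [dotProduct_comm]) (by rwa [dotProduct_comm])
      (by rwa [dotProduct_comm]) (by rwa [dotProduct_comm]) (by rw [dotProduct_comm, ← k1])
      (by rw [dotProduct_comm, ← k2])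
  have hca : ∀ δ : Derivation ℂ F F, δ ∘ a = 0 := fun δ => by
    obtain ⟨r', s', h⟩ := hspan δ r₁ s₁
    have h2 := hech r' s'
    rw [← h, ← ha] at h2
    simpa [ai, aj] using h2
  have hcb : ∀ δ : Derivation ℂ F F, δ ∘ b = 0 := fun δ => by
    obtain ⟨r', s', h⟩ := hspan δ r₂ s₂
    have h2 := hech r' s'
    rw [← h, ← hb] at h2
    simpa [bi, bj] using h2
  have hl' : ∀ z, a ⬝ᵥ z = 0 → b ⬝ᵥ z = 0 → c.q z = 0 := fun z h1 h2 => by
    have e1 := hech 1 0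
    have e2 := hech 0 1
    simp only [one_smul, zero_smul, add_zero, zero_add] at e1 e2
    refine hl z ?_ ?_
    · rw [e1, add_dotProduct, smul_dotProduct, smul_dotProduct, h1, h2]; simp
    · rw [e2, add_dotProduct, smul_dotProduct, smul_dotProduct, h1, h2]; simp
  have hYa : ∀ z, a ⬝ᵥ offY a b i j z = 0 := fun z => by
    simp [offY, dotProduct_add, dotProduct_smul, dotProduct_single, ai, aj]
  have hYb : ∀ z, b ⬝ᵥ offY a b i j z = 0 := fun z => by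
    simp [offY, dotProduct_add, dotProduct_smul, dotProduct_single, bi, bj]
  -- the polynomials
  let a' : Fin 4 → MvPolynomial (Fin 4) (constF S) := fun m =>
    MvPolynomial.C ⟨a m, fun δ _ => congrFun (hca δ) m⟩
  let b' : Fin 4 → MvPolynomial (Fin 4) (constF S) := fun m =>
    MvPolynomial.C ⟨b m, fun δ _ => congrFun (hcb δ) m⟩
  let X' : Fin 4 → MvPolynomial (Fin 4) (constF S) := fun m => MvPolynomial.X m
  let M : MvPolynomial (Fin 4) (constF S) :=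
    ∑ m, MvPolynomial.C ⟨t m, fun δ hδ => congrFun (ht δ hδ) m⟩ * MvPolynomial.X m ^ 2
  let ev : (Fin 4 → F) → MvPolynomial (Fin 4) (constF S) →ₐ[ℂ] F := fun z =>
    (MvPolynomial.aeval z : MvPolynomial (Fin 4) (constF S) →ₐ[constF S] F).restrictScalars ℂ
  have eva : ∀ z, ev z ∘ a' = a := fun z => funext fun m => by simp [ev, a']
  have evb : ∀ z, ev z ∘ b' = b := fun z => funext fun m => by simp [ev, b']
  have evX : ∀ z, ev z ∘ X' = z := fun z => funext fun m => by simp [ev, X']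
  have evM : ∀ z, ev z M = ∑ m, t m * z m ^ 2 := fun z => by simp [ev, M]
  have hX : ∀ m, (X' m).IsHomogeneous 1 := fun m => MvPolynomial.isHomogeneous_X _ _
  have hY : ∀ m, (offY a' b' i j X' m).IsHomogeneous 1 := fun m => off_homY _ _ i j m
  have hM : M.IsHomogeneous 2 :=
    MvPolynomial.IsHomogeneous.sum _ _ _ fun m _ => MvPolynomial.isHomogeneous_C_mul_X_pow _ _ _
  have hq0 : c.q (offY a' b' i j X') = 0 := by
    apply MvPolynomial.map_injective (algebraMap (constF S) F) (algebraMap (constF S) F).injective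
    rw [map_zero]
    refine MvPolynomial.funext fun z => ?_
    rw [map_zero, MvPolynomial.eval_map, ← MvPolynomial.aeval_def]
    change ev z _ = 0
    rw [map_q, off_mapY, eva, evb, evX]
    exact hl' _ (hYa z) (hYb z)
  obtain ⟨x, u, w, hx, g1, g2, hind, hsp⟩ := exists_spec_const hc S
    (g₁ := c.offA X' (offY a' b' i j X') i + (b' ⬝ᵥ X') * M)
    (g₂ := c.offA X' (offY a' b' i j X') j - (a' ⬝ᵥ X') * M) (h₁ := a' ⬝ᵥ X') (h₂ := b' ⬝ᵥ X')
    (n₁ := 3) (n₂ := 3) ((c.off_homA hX hY i).add ((off_hom_dot _).mul hM))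
    ((c.off_homA hX hY j).sub ((off_hom_dot _).mul hM)) (by norm_num) (by norm_num) (by
      have := c.off_id a' b' i j X'
      rw [hq0] at this
      change c.q X' = _
      rw [this]; ring)
  change ev x _ = 0 at g1 g2
  rw [map_add, map_mul, off_mapA, off_mapY, off_map_dot, eva, evb, evX, evM] at g1
  rw [map_sub, map_mul, off_mapA, off_mapY, off_map_dot, eva, evb, evX, evM] at g2
  have hx0 : x ≠ 0 := hind.ne_zero 0
  -- `x` is off the line
  have hoff : ¬ (a ⬝ᵥ x = 0 ∧ b ⬝ᵥ x = 0) := by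
    rintro ⟨h1, h2⟩
    have hYx : offY a b i j x = x := by simp [offY, h1, h2]
    rw [hYx, h2, zero_mul, add_zero, offA] at g1
    rw [hYx, h1, zero_mul, sub_zero, offA] at g2
    have t1 : c.T x x x (Pi.single i 1) = 0 := by linear_combination g1 / 4
    have t2 : c.T x x x (Pi.single j 1) = 0 := by linear_combination g2 / 4
    refine hc F x hx0 (funext fun l => ?_)
    have t3 := (line_polar (c := c) (p := x) (v := offY a b i j (Pi.single l 1)) fun r s =>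
      hl' _ (by rw [dotProduct_add, dotProduct_smul, dotProduct_smul, h1, hYa]; simp)
        (by rw [dotProduct_add, dotProduct_smul, dotProduct_smul, h2, hYb]; simp)).2.1
    rw [offY, add4, add4, smul4, smul4, t1, t2, mul_zero, mul_zero, add_zero, add_zero] at t3
    exact t3
  refine ⟨x, u, w, hx, hind, hsp, ?_, ?_⟩
  · by_contra hn
    push Not at hn
    obtain ⟨k, hk⟩ := Function.ne_iff.1 hx0
    have hk : x k ≠ 0 := hk
    obtain ⟨r, hr⟩ := gauss_finite hc (d k) hx0 (hn k)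
    have hdM : d k (∑ m, t m * x m ^ 2) = x k ^ 2 + 2 * r * ∑ m, t m * x m ^ 2 := by
      have hm : ∀ m, d k (t m * x m ^ 2) =
          (if k = m then x m ^ 2 else 0) + 2 * r * (t m * x m ^ 2) := fun m => by
        have h1 : d k (x m) = r * x m := congrFun hr m
        rw [Derivation.leibniz, Derivation.leibniz_pow, h1, hd]
        split_ifs <;> simp only [smul_eq_mul, nsmul_eq_mul] <;> push_cast <;> ring
      rw [map_sum, Finset.sum_congr rfl fun m _ => hm m, Finset.sum_add_distrib, Finset.mul_sum,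
        Finset.sum_ite_eq]
      simp
    have hdY := off_derY (d k) (hca _) (hcb _) hr i j
    have k1 := congrArg (d k) g1
    have k2 := congrArg (d k) g2
    rw [map_add, Derivation.leibniz, off_derA (d k) hr hdY, hdM, off_der_dot (d k) (hcb _) hr,
      map_zero, smul_eq_mul, smul_eq_mul] at k1
    rw [map_sub, Derivation.leibniz, off_derA (d k) hr hdY, hdM, off_der_dot (d k) (hca _) hr,
      map_zero, smul_eq_mul, smul_eq_mul] at k2
    refine hoff ⟨?_, ?_⟩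
    · refine (mul_eq_zero.1 (?_ : (a ⬝ᵥ x) * x k ^ 2 = 0)).resolve_right (pow_ne_zero _ hk)
      linear_combination 3 * r * g2 - k2
    · refine (mul_eq_zero.1 (?_ : (b ⬝ᵥ x) * x k ^ 2 = 0)).resolve_right (pow_ne_zero _ hk)
      linear_combination k1 - 3 * r * g1
  · rintro ⟨h1, h2⟩
    refine hoff ⟨?_, ?_⟩
    · rw [ha, add_dotProduct, smul_dotProduct, smul_dotProduct, h1, h2]; simp
    · rw [hb, add_dotProduct, smul_dotProduct, smul_dotProduct, h1, h2]; simp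

/-- in the pencil case the axis is a line of `X` through `x₂`. -/
theorem pencil [IsAlgClosed F] (hc : c.Sm) {δ₁ δ₂ : Derivation ℂ F F} {x₁ x₂ : Fin 4 → F}
    (q₁ : c.q x₁ = 0) (q₂ : c.q x₂ = 0) (ne₁ : x₁ ≠ 0)
    (comm : ∀ a, δ₁ (δ₂ a) = δ₂ (δ₁ a)) (c₁ : δ₂ ∘ x₁ = 0) (c₂ : δ₁ ∘ x₂ = 0)
    (mv₁ : ∀ a : F, δ₁ ∘ c.al x₁ ≠ a • c.al x₁) (mv₂ : ∀ a : F, δ₂ ∘ c.al x₂ ≠ a • c.al x₂)
    (ne₂ : x₂ ≠ 0) {a b : F} (h : c.al x₂ = a • c.al x₁ + b • (δ₁ ∘ c.al x₁)) :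
    (∀ z, c.al x₁ ⬝ᵥ z = 0 → (δ₁ ∘ c.al x₁) ⬝ᵥ z = 0 → c.q z = 0) ∧
      c.al x₁ ⬝ᵥ x₂ = 0 ∧ (δ₁ ∘ c.al x₁) ⬝ᵥ x₂ = 0 := by
  have k₁ : δ₂ ∘ c.al x₁ = 0 := by
    have := der_al_of_const (c := c) δ₂ (x := x₁) (a := 0) (by rw [c₁, zero_smul])
    simpa using this
  have k₂ : δ₁ ∘ c.al x₂ = 0 := by
    have := der_al_of_const (c := c) δ₁ (x := x₂) (a := 0) (by rw [c₂, zero_smul])
    simpa using this
  have k₃ : δ₂ ∘ (δ₁ ∘ c.al x₁) = 0 := by
    funext l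
    have := congrFun k₁ l
    simp only [Function.comp_apply, Pi.zero_apply] at this ⊢
    rw [← comm, this, map_zero]
  have k₄ : δ₁ ∘ (δ₂ ∘ c.al x₂) = 0 := by
    funext l
    have := congrFun k₂ l
    simp only [Function.comp_apply, Pi.zero_apply] at this ⊢
    rw [comm, this, map_zero]
  have h' : δ₂ ∘ c.al x₂ = δ₂ a • c.al x₁ + δ₂ b • (δ₁ ∘ c.al x₁) := by
    rw [h, der_add, der_smul, der_smul, k₁, k₃, smul_zero, smul_zero, add_zero, add_zero]
  have hΔ : a * δ₂ b - b * δ₂ a ≠ 0 := by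
    intro h0
    by_cases ha : a = 0
    · by_cases hb : b = 0
      · exact hc F x₂ ne₂ (by rw [h, ha, hb, zero_smul, zero_smul, add_zero])
      · refine mv₂ (δ₂ b / b) ?_
        rw [h', h]
        funext l
        simp only [Pi.add_apply, Pi.smul_apply, smul_eq_mul]
        field_simp
        linear_combination (-(c.al x₁ l)) * h0
    · refine mv₂ (δ₂ a / a) ?_
      rw [h', h]
      funext l
      simp only [Pi.add_apply, Pi.smul_apply, smul_eq_mul]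
      field_simp
      linear_combination ((δ₁ ∘ c.al x₁) l) * h0
  have to2 : ∀ z, c.al x₁ ⬝ᵥ z = 0 → (δ₁ ∘ c.al x₁) ⬝ᵥ z = 0 →
      c.al x₂ ⬝ᵥ z = 0 ∧ (δ₂ ∘ c.al x₂) ⬝ᵥ z = 0 := fun z h1 h2 => by
    rw [h', h]
    simp only [add_dotProduct, smul_dotProduct, h1, h2, smul_zero, add_zero, and_self]
  have to1 : ∀ z, c.al x₂ ⬝ᵥ z = 0 → (δ₂ ∘ c.al x₂) ⬝ᵥ z = 0 →
      c.al x₁ ⬝ᵥ z = 0 ∧ (δ₁ ∘ c.al x₁) ⬝ᵥ z = 0 := fun z h1 h2 => by
    rw [h'] at h2
    rw [h] at h1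
    simp only [add_dotProduct, smul_dotProduct, smul_eq_mul] at h1 h2
    exact ⟨(mul_eq_zero.1 (by linear_combination δ₂ b * h1 - b * h2)).resolve_left hΔ,
      (mul_eq_zero.1 (by linear_combination a * h2 - δ₂ a * h1)).resolve_left hΔ⟩
  have cst : ∀ z, c.al x₁ ⬝ᵥ z = 0 ∧ (δ₁ ∘ c.al x₁) ⬝ᵥ z = 0 →
      c.al x₁ ⬝ᵥ (δ₁ ∘ z) = 0 ∧ (δ₁ ∘ c.al x₁) ⬝ᵥ (δ₁ ∘ z) = 0 := fun z hz => by
    obtain ⟨h1, h2⟩ := to2 z hz.1 hz.2
    have e1 := der_dot δ₁ (c.al x₂) z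
    have e2 := der_dot δ₁ (δ₂ ∘ c.al x₂) z
    rw [h1, k₂, map_zero, zero_dotProduct, zero_add] at e1
    rw [h2, k₄, map_zero, zero_dotProduct, zero_add] at e2
    exact to1 _ e1.symm e2.symm
  have p0 : c.al x₁ ⬝ᵥ x₁ = 0 ∧ (δ₁ ∘ c.al x₁) ⬝ᵥ x₁ = 0 :=
    ⟨by rw [al_dot_self, q₁], der_al_self δ₁ q₁⟩
  have p1 := cst _ p0
  have p2 := cst _ p1
  have i1 : LinearIndependent F ![c.al x₁, δ₁ ∘ c.al x₁] := la_ind2 (hc F x₁ ne₁) mv₁
  have i2 : LinearIndependent F ![x₁, δ₁ ∘ x₁] :=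
    la_ind2 ne₁ fun r hr => mv₁ _ (der_al_of_const δ₁ hr)
  have hl := line_of_const (c := c) δ₁ (p := x₁) (v := δ₁ ∘ x₁) q₁
    ⟨0, 1, by rw [zero_smul, one_smul, zero_add], one_ne_zero⟩
    (la22 i1 i2 p0.1 p1.1 p0.2 p1.2 p2.1 p2.2)
  refine ⟨fun z h1 h2 => ?_, to1 x₂ (by rw [al_dot_self, q₂]) (der_al_self δ₂ q₂)⟩
  obtain ⟨r, s, rfl⟩ := la22 i1 i2 p0.1 p1.1 p0.2 p1.2 h1 h2
  exact hl r s

/-- **L4**.  `exists_diff_field (Option (Fin 2 × Fin 4))`. -/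
theorem exists_pair (hc : c.Sm) : ∃ (F : Type) (_ : Field F) (_ : Algebra ℂ F)
    (_ : IsAlgClosed F) (δ₀ δ₁ δ₂ : Derivation ℂ F F) (t₀ : F) (x u w : Fin 2 → Fin 4 → F),
    c.Pair δ₁ δ₂ (x 0) (x 1) ∧ (∀ i, LinearIndependent F ![x i, u i, w i]) ∧
      (∀ i, c.Spec (x i) (u i) (w i)) ∧ (∀ i, δ₀ ∘ x i = 0) ∧ δ₀ t₀ = 1 ∧ δ₁ t₀ = 0 ∧ δ₂ t₀ = 0 ∧
      t₀ ≠ 0 := by
  classical
  obtain ⟨F, _, _, _, t, d, hd, hcomm⟩ := exists_diff_field (Option (Fin 2 × Fin 4))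
  have ht : ∀ g g' : Fin 2, g ≠ g' →
      ∀ δ ∈ insert (d none) (Set.range fun j : Fin 4 => d (some (g', j))),
        δ ∘ (fun j : Fin 4 => t (some (g, j))) = 0 := by
    rintro g g' hg δ (rfl | ⟨j, rfl⟩) <;> funext l <;> simp [hd, hg.symm]
  have hd' : ∀ (g : Fin 2) (i j : Fin 4),
      d (some (g, i)) (t (some (g, j))) = if i = j then 1 else 0 := fun g i j => by simp [hd]
  obtain ⟨x₁, u₁, w₁, a1, a2, a3, i₁, a4⟩ := exists_spec_gen hc
    (insert (d none) (Set.range fun j : Fin 4 => d (some (1, j)))) (fun j => t (some (0, j)))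
    (fun j => d (some (0, j))) (ht 0 1 (by decide)) (hd' 0)
  have ne₁ : x₁ ≠ 0 := a2.ne_zero 0
  obtain ⟨x₂, u₂, w₂, b1, b2, b3, ⟨i₂, b4⟩, b5⟩ : ∃ x u w : Fin 4 → F,
      (∀ δ ∈ insert (d none) (Set.range fun j : Fin 4 => d (some (0, j))), δ ∘ x = 0) ∧
      LinearIndependent F ![x, u, w] ∧ c.Spec x u w ∧
      (∃ i, ∀ a : F, d (some (1, i)) ∘ c.al x ≠ a • c.al x) ∧
      ¬ ((∀ z, c.al x₁ ⬝ᵥ z = 0 → (d (some (0, i₁)) ∘ c.al x₁) ⬝ᵥ z = 0 → c.q z = 0) ∧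
        c.al x₁ ⬝ᵥ x = 0 ∧ (d (some (0, i₁)) ∘ c.al x₁) ⬝ᵥ x = 0) := by
    by_cases hl : ∀ z, c.al x₁ ⬝ᵥ z = 0 → (d (some (0, i₁)) ∘ c.al x₁) ⬝ᵥ z = 0 → c.q z = 0
    · obtain ⟨x, u, w, b1, b2, b3, b4, b5⟩ := exists_spec_off hc
        (insert (d none) (Set.range fun j : Fin 4 => d (some (0, j)))) (fun j => t (some (1, j)))
        (fun j => d (some (1, j))) (ht 1 0 (by decide)) (hd' 1) (la_ind2 (hc F x₁ ne₁) a4) hl
      exact ⟨x, u, w, b1, b2, b3, b4, fun h => b5 h.2⟩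
    · obtain ⟨x, u, w, b1, b2, b3, b4⟩ := exists_spec_gen hc
        (insert (d none) (Set.range fun j : Fin 4 => d (some (0, j)))) (fun j => t (some (1, j)))
        (fun j => d (some (1, j))) (ht 1 0 (by decide)) (hd' 1)
      exact ⟨x, u, w, b1, b2, b3, b4, fun h => hl h.1⟩
  have ne₂ : x₂ ≠ 0 := b2.ne_zero 0
  have c₁ : d (some (1, i₂)) ∘ x₁ = 0 := a1 _ (Or.inr ⟨i₂, rfl⟩)
  have c₂ : d (some (0, i₁)) ∘ x₂ = 0 := b1 _ (Or.inr ⟨i₁, rfl⟩)
  refine ⟨F, inferInstance, inferInstance, inferInstance, d none, d (some (0, i₁)),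
    d (some (1, i₂)), t none, ![x₁, x₂], ![u₁, u₂], ![w₁, w₂],
    ⟨a3.qx, b3.qx, ne₁, ne₂, hcomm _ _, c₁, c₂, a4, b4, fun a b h =>
      b5 (pencil hc a3.qx b3.qx ne₁ (hcomm _ _) c₁ c₂ a4 b4 ne₂ h)⟩, ?_, ?_, ?_, by simp [hd],
    by simp [hd], by simp [hd], fun h => ?_⟩
  · intro i; fin_cases i
    exacts [a2, b2]
  · intro i; fin_cases i
    exacts [a3, b3]
  · intro i; fin_cases i
    exacts [a1 _ (Or.inl rfl), b1 _ (Or.inl rfl)]
  · have := hd none none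
    rw [h, map_zero] at this
    simp at this

/-- **L5**: a point of `X` on the line of the two planes off the two characteristic points. -/
theorem Pair.exists_pt [IsAlgClosed F] (hc : c.Sm) {δ₁ δ₂ : Derivation ℂ F F} {x₁ x₂ : Fin 4 → F}
    (h : c.Pair δ₁ δ₂ x₁ x₂) : ∃ η : Fin 4 → F, c.q η = 0 ∧ c.al x₁ ⬝ᵥ η = 0 ∧ c.al x₂ ⬝ᵥ η = 0 ∧
      (δ₁ ∘ c.al x₁) ⬝ᵥ η ≠ 0 ∧ (δ₂ ∘ c.al x₂) ⬝ᵥ η ≠ 0 := by
  have : CharZero F := charZero_of_injective_algebraMap (algebraMap ℂ F).injective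
  have h' := h.symm hc
  obtain ⟨e, e0, e1, e2, e3⟩ := am_ex3 (c.al x₁) (δ₁ ∘ c.al x₁) (c.al x₂)
  obtain ⟨g, g0, g1, g2, g3⟩ := am_ex3 (c.al x₂) (δ₂ ∘ c.al x₂) (c.al x₁)
  have key : ∀ f : Fin 4 → F, LinearIndependent F ![e, f] → c.al x₁ ⬝ᵥ f = 0 → c.al x₂ ⬝ᵥ f = 0 →
      (c.q e ≠ 0 ∨ 4 * c.T e e e f ≠ 0) ∧ (δ₁ ∘ c.al x₁) ⬝ᵥ f ≠ 0 := by
    intro f hf f1 f2
    constructor
    · by_contra hn
      push Not at hn
      obtain ⟨s, t, hst⟩ := am_sp2 (h.ind₂ hc) hf e1 f1 e3 f2 (g := c.al e)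
        (by rw [al_dot_self]; exact hn.1)
        (by rw [al_dot]; exact (mul_eq_zero.1 hn.2).resolve_left (by norm_num))
      exact h.simple hc e0 hn.1 e1 e2 e3 s t hst
    · intro hb
      obtain ⟨l, hl⟩ := am_par (h.ind hc) e0 e1 e2 e3 f1 hb f2
      have := (LinearIndependent.pair_iff.1 hf l (-1) (by rw [hl]; simp)).2
      norm_num at this
  have qs : ∀ (f : Fin 4 → F) (s : F), c.q (s • e + f) = c.q e * s ^ 4 + 4 * c.T e e e f * s ^ 3 +
      6 * c.T e e f f * s ^ 2 + 4 * c.T e f f f * s + c.q f := by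
    intro f s
    have := c.q_add e f s 1
    rw [one_smul] at this
    rw [this]; ring
  by_cases hg : ∃ l : F, g = l • e
  · obtain ⟨l, hl⟩ := hg
    have hl0 : l ≠ 0 := by
      rintro rfl
      exact g0 (by rw [hl, zero_smul])
    have e4 : (δ₂ ∘ c.al x₂) ⬝ᵥ e = 0 := by
      rw [hl, dotProduct_smul, smul_eq_mul] at g2
      exact (mul_eq_zero.1 g2).resolve_left hl0
    obtain ⟨i, hi⟩ := Function.ne_iff.1 e0
    obtain ⟨f, f0, f1, f2, f3⟩ := am_ex3 (c.al x₁) (c.al x₂) (Pi.single i 1)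
    rw [single_dotProduct, one_mul] at f3
    have hfe : ∀ m : F, f ≠ m • e := by
      intro m hm
      rw [hm, Pi.smul_apply, smul_eq_mul] at f3
      rw [(mul_eq_zero.1 f3).resolve_right hi, zero_smul] at hm
      exact f0 hm
    obtain ⟨k1, k2⟩ := key f (am_li2 e0 hfe) f1 f2
    obtain ⟨s, hs⟩ := am_root (6 * c.T e e f f) (4 * c.T e f f f) (c.q f) k1
    refine ⟨s • e + f, by rw [qs, hs], ?_, ?_, ?_, ?_⟩
    · rw [dotProduct_add, dotProduct_smul, e1, f1, smul_zero, add_zero]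
    · rw [dotProduct_add, dotProduct_smul, e3, f2, smul_zero, add_zero]
    · rwa [dotProduct_add, dotProduct_smul, e2, smul_zero, zero_add]
    · rw [dotProduct_add, dotProduct_smul, e4, smul_zero, zero_add]
      intro hb
      obtain ⟨m, hm⟩ := am_par (h'.ind hc) e0 e3 e4 e1 f2 hb f1
      exact hfe m hm
  · push Not at hg
    have heg := am_li2 e0 hg
    obtain ⟨k1, k2⟩ := key g heg g3 g1
    have k3 : c.q g ≠ 0 ∨ 4 * c.T e g g g ≠ 0 := by
      by_contra hn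
      push Not at hn
      obtain ⟨s, t, hst⟩ := am_sp2 (h'.ind₂ hc) heg e3 g1 e1 g3 (g := c.al g)
        (by
          rw [al_dot, c.sw3, c.sw2, c.sw1]
          exact (mul_eq_zero.1 hn.2).resolve_left (by norm_num))
        (by rw [al_dot_self]; exact hn.1)
      exact h'.simple hc g0 hn.1 g1 g2 g3 s t hst
    have k4 : (δ₂ ∘ c.al x₂) ⬝ᵥ e ≠ 0 := by
      intro hb
      obtain ⟨m, hm⟩ := am_par (h'.ind hc) g0 g1 g2 g3 e3 hb e1
      have := (LinearIndependent.pair_iff.1 heg (-1) m (by rw [hm]; simp)).1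
      norm_num at this
    obtain ⟨s, s0, hs⟩ := am_root' (6 * c.T e e g g) k1 k3
    refine ⟨s • e + g, by rw [qs, hs], ?_, ?_, ?_, ?_⟩
    · rw [dotProduct_add, dotProduct_smul, e1, g3, smul_zero, add_zero]
    · rw [dotProduct_add, dotProduct_smul, e3, g1, smul_zero, add_zero]
    · rwa [dotProduct_add, dotProduct_smul, e2, smul_zero, zero_add]
    · rw [dotProduct_add, dotProduct_smul, g2, add_zero, smul_eq_mul]
      exact mul_ne_zero s0 k4

theorem h67_al_const (δ : Derivation ℂ F F) {x : Fin 4 → F} (h : δ ∘ x = 0) :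
    δ ∘ c.al x = 0 := by
  have := der_al_of_const (c := c) δ (x := x) (a := 0) (by rw [h, zero_smul])
  rwa [mul_zero, zero_smul] at this

theorem h67_dot_const (δ : Derivation ℂ F F) {x η : Fin 4 → F} (h : δ ∘ x = 0)
    (h1 : c.al x ⬝ᵥ η = 0) : c.al x ⬝ᵥ (δ ∘ η) = 0 := by
  have := der_dot δ (c.al x) η
  rwa [h1, map_zero, h67_al_const δ h, zero_dotProduct, zero_add, eq_comm] at this

theorem h67_dot_ne (δ : Derivation ℂ F F) {x η : Fin 4 → F} (h1 : c.al x ⬝ᵥ η = 0)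
    (h3 : (δ ∘ c.al x) ⬝ᵥ η ≠ 0) : c.al x ⬝ᵥ (δ ∘ η) ≠ 0 := by
  intro h
  have := der_dot δ (c.al x) η
  rw [h1, map_zero, h, add_zero] at this
  exact h3 this.symm

omit [Algebra ℂ F] in
theorem h67_ind3 {p v w α β : Fin 4 → F} (hp : p ≠ 0) (h1 : α ⬝ᵥ p = 0) (h2 : α ⬝ᵥ v ≠ 0)
    (h3 : α ⬝ᵥ w = 0) (h4 : β ⬝ᵥ p = 0) (h5 : β ⬝ᵥ v = 0) (h6 : β ⬝ᵥ w ≠ 0) :
    LinearIndependent F ![p, v, w] := by
  refine la_ind3 (la_ind2 hp fun a h => h2 ?_) fun a b h => h6 ?_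
  · rw [h, dotProduct_smul, h1, smul_zero]
  · rw [h, dotProduct_add, dotProduct_smul, dotProduct_smul, h4, h5, smul_zero, smul_zero, add_zero]

theorem h67_not_tan [IsAlgClosed F] (hc : c.Sm) {δ₁ δ₂ : Derivation ℂ F F} {x η γ : Fin 4 → F}
    (qx : c.q x = 0) (hx : x ≠ 0) (cx : δ₂ ∘ x = 0) (hq : c.q η = 0) (h1 : c.al x ⬝ᵥ η = 0)
    (h3 : (δ₁ ∘ c.al x) ⬝ᵥ η ≠ 0) (h2 : γ ⬝ᵥ η = 0) (h4 : γ ⬝ᵥ (δ₂ ∘ η) ≠ 0) :
    c.al η ⬝ᵥ x ≠ 0 := by
  intro h
  have hη : η ≠ 0 := fun e => h3 (by rw [e, dotProduct_zero])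
  have n1 := h67_dot_ne δ₁ h1 h3
  have i1 : LinearIndependent F ![c.al η, c.al x] := by
    refine la_ind2 (hc F η hη) fun a e => n1 ?_
    rw [e, smul_dotProduct, al_der δ₁ hq, smul_zero]
  have i2 : LinearIndependent F ![η, x] := by
    refine la_ind2 hη fun a e => ?_
    have h5 := der_al_self (c := c) δ₁ qx
    have h6 : (δ₁ ∘ c.al x) ⬝ᵥ (a • η) = 0 := e ▸ h5
    rw [dotProduct_smul, smul_eq_mul] at h6
    rcases mul_eq_zero.1 h6 with h7 | h7
    · exact hx (by rw [e, h7, zero_smul])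
    · exact h3 h7
  have hxx : c.al x ⬝ᵥ x = 0 := by rw [al_dot_self, qx]
  obtain ⟨a, b, e⟩ := la22 i1 i2 (by rw [al_dot_self, hq]) h h1 hxx (al_der δ₂ hq)
    (h67_dot_const δ₂ cx h1)
  have hb : b ≠ 0 := by
    rintro rfl
    refine h4 ?_
    rw [e, zero_smul, add_zero, dotProduct_smul, h2, smul_zero]
  have hl := line_of_const (c := c) δ₂ hq ⟨a, b, e, hb⟩ ⟨0, 0, by rw [cx]; simp⟩
  obtain ⟨⟨a', b', e'⟩, -⟩ := line_rigid hc δ₁ i2 hl
  refine n1 ?_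
  rw [e', dotProduct_add, dotProduct_smul, dotProduct_smul, h1, hxx, smul_zero, smul_zero, add_zero]

/-- **L6**. -/
theorem Pair.good [IsAlgClosed F] (hc : c.Sm) {δ₁ δ₂ : Derivation ℂ F F} {x₁ x₂ η : Fin 4 → F}
    (h : c.Pair δ₁ δ₂ x₁ x₂) (hq : c.q η = 0) (h1 : c.al x₁ ⬝ᵥ η = 0) (h2 : c.al x₂ ⬝ᵥ η = 0)
    (h3 : (δ₁ ∘ c.al x₁) ⬝ᵥ η ≠ 0) (h4 : (δ₂ ∘ c.al x₂) ⬝ᵥ η ≠ 0) :
    LinearIndependent F ![η, δ₁ ∘ η, δ₂ ∘ η] ∧ LinearIndependent F ![c.al η, c.al x₁, c.al x₂] ∧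
      c.al η ⬝ᵥ x₁ ≠ 0 ∧ c.al η ⬝ᵥ x₂ ≠ 0 := by
  have hη : η ≠ 0 := fun e => h3 (by rw [e, dotProduct_zero])
  have n1 := h67_dot_ne δ₁ h1 h3
  have n2 := h67_dot_ne δ₂ h2 h4
  have z1 := h67_dot_const δ₂ h.c₁ h1
  have z2 := h67_dot_const δ₁ h.c₂ h2
  refine ⟨h67_ind3 hη h1 n1 z1 h2 z2 n2, h67_ind3 (α := δ₁ ∘ η) (β := δ₂ ∘ η) (hc F η hη)
    ?_ ?_ ?_ ?_ ?_ ?_, h67_not_tan hc h.q₁ h.ne₁ h.c₁ hq h1 h3 h2 n2,
    h67_not_tan hc h.q₂ h.ne₂ h.c₂ hq h2 h4 h1 n1⟩ <;> rw [dotProduct_comm]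
  exacts [al_der δ₁ hq, n1, z2, al_der δ₂ hq, z1, n2]

/-- rescaling: `η` lies on the `δ₀`-constant line `ker (al x₁) ∩ ker (al x₂)`, which is not in `X`
(it is not tangent at `η`), so `δ₀ η = a η` by `line_of_const`; one of `η`, `t₀ η` has `a ≠ 0`. -/
theorem Pair.scale [IsAlgClosed F] {δ₀ δ₁ δ₂ : Derivation ℂ F F} {x₁ x₂ η : Fin 4 → F} {t₀ : F}
    (hq : c.q η = 0) (h1 : c.al x₁ ⬝ᵥ η = 0) (h2 : c.al x₂ ⬝ᵥ η = 0)
    (i1 : LinearIndependent F ![η, δ₁ ∘ η, δ₂ ∘ η])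
    (i2 : LinearIndependent F ![c.al η, c.al x₁, c.al x₂]) (k₁ : δ₀ ∘ x₁ = 0) (k₂ : δ₀ ∘ x₂ = 0)
    (t0 : δ₀ t₀ = 1) (t1 : δ₁ t₀ = 0) (t2 : δ₂ t₀ = 0) (tne : t₀ ≠ 0) :
    ∃ r : F, r ≠ 0 ∧ LinearIndependent F fun j => (![δ₀, δ₁, δ₂] j) ∘ (r • η) := by
  have hη : η ≠ 0 := i1.ne_zero 0
  obtain ⟨a, ha⟩ := la31 i2 hη (by rw [al_dot_self, hq]) h1 h2 (al_der δ₀ hq)
    (h67_dot_const δ₀ k₁ h1) (h67_dot_const δ₀ k₂ h2)
  by_cases h0 : a = 0
  · refine ⟨t₀, tne, ?_⟩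
    have := i1.units_smul ![1, Units.mk0 _ tne, Units.mk0 _ tne]
    convert this using 1
    funext j
    fin_cases j
    · simp [der_smul, ha, h0, t0]
    · simp [der_smul, t1, Units.smul_def]
    · simp [der_smul, t2, Units.smul_def]
  · refine ⟨1, one_ne_zero, ?_⟩
    have := i1.units_smul ![Units.mk0 _ h0, 1, 1]
    convert this using 1
    funext j
    fin_cases j
    · simp [ha, Units.smul_def]
    · simp
    · simp

/-- **CORE**. -/
theorem core (hc : c.Sm) : ∃ (F : Type) (_ : Field F) (_ : Algebra ℂ F) (_ : IsAlgClosed F)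
    (η : Fin 4 → F) (x u w : Fin 2 → Fin 4 → F) (δ : Fin 3 → Derivation ℂ F F),
    c.q η = 0 ∧ (∀ i, LinearIndependent F ![x i, u i, w i]) ∧ (∀ i, c.Spec (x i) (u i) (w i)) ∧
      (∀ i, c.al (x i) ⬝ᵥ η = 0) ∧
      (∀ i, ∃ e : Derivation ℂ F F, ∀ a : F, e ∘ c.al (x i) ≠ a • c.al (x i)) ∧
      (LinearIndependent F fun j => (δ j) ∘ η) ∧
      LinearIndependent F ![c.al η, c.al (x 0), c.al (x 1)] ∧ ∀ i, c.al η ⬝ᵥ x i ≠ 0 := by
  obtain ⟨F, _, _, _, δ₀, δ₁, δ₂, t₀, x, u, w, hp, hi, hs, h0, t0, t1, t2, tne⟩ := exists_pair hc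
  obtain ⟨η, hq, h1, h2, h3, h4⟩ := hp.exists_pt hc
  obtain ⟨i1, i2, n1, n2⟩ := hp.good hc hq h1 h2 h3 h4
  obtain ⟨r, hr, i3⟩ := Pair.scale hq h1 h2 i1 i2 (h0 0) (h0 1) t0 t1 t2 tne
  have hr3 : r ^ 3 ≠ 0 := pow_ne_zero _ hr
  refine ⟨F, inferInstance, inferInstance, inferInstance, r • η, x, u, w, ![δ₀, δ₁, δ₂], ?_, hi, hs,
    ?_, ?_, i3, ?_, ?_⟩
  · rw [q_smul, hq, mul_zero]
  · intro i; fin_cases i <;> simp [dotProduct_smul, h1, h2]
  · intro i; fin_cases i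
    exacts [⟨δ₁, hp.mv₁⟩, ⟨δ₂, hp.mv₂⟩]
  · have := i2.units_smul ![Units.mk0 _ hr3, 1, 1]
    convert this using 1
    funext j; fin_cases j <;> simp [al_smul, Units.smul_def]
  · intro i; fin_cases i <;> simp [al_smul, smul_dotProduct, hr, n1, n2]

end Ten

end Crest.Agent.R279
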