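import Mathlib

/-!
# Row 279: specialisation of algebraic data at the generic point

If `ξ` is a generic point of `V ⊆ ℂ^σ` with coordinates in a field `Ω` and `a` is a finite family
of elements of `Ω`, then off a proper hypersurface every point of `V` has a neighbourhood carrying
analytic functions `α` which satisfy on `V` all the polynomial identities satisfied by `(ξ, a)`.
-/

set_option autoImplicit false

namespace Crest.Agent.R279

open Set Filter Topology Polynomial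

section
variable {σ : Type} [Fintype σ]

/-- analytic families of points of the algebra `A` over `W ∩ V`. -/
def Fam (V W : Set (σ → ℂ)) (A : Type) [CommRing A] [Algebra ℂ A] (ξ : σ → A)
    (φ : ↥(W ∩ V) → (A →ₐ[ℂ] ℂ)) : Prop :=
  (∀ q i, φ q (ξ i) = q.1 i) ∧
    ∀ s : A, ∃ α : (σ → ℂ) → ℂ, AnalyticOnNhd ℂ α W ∧ ∀ q, φ q s = α q.1

/-- generic existence of analytic families of points. -/
def Good (V : Set (σ → ℂ)) (A : Type) [CommRing A] [Algebra ℂ A] (ξ : σ → A) : Prop :=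
  ∀ g : A, g ≠ 0 → ∃ d : MvPolynomial σ ℂ, MvPolynomial.aeval ξ d ≠ 0 ∧
    ∀ p ∈ V, MvPolynomial.eval p d ≠ 0 → ∃ W : Set (σ → ℂ), IsOpen W ∧ p ∈ W ∧
      ∃ φ : ↥(W ∩ V) → (A →ₐ[ℂ] ℂ), Fam V W A ξ φ ∧ ∀ q, φ q g ≠ 0

theorem analytic_eval (P : MvPolynomial σ ℂ) (W : Set (σ → ℂ)) :
    AnalyticOnNhd ℂ (fun q : σ → ℂ => MvPolynomial.eval q P) W := by
  induction P using MvPolynomial.induction_on with
  | C c => simpa using analyticOnNhd_const
  | add p q hp hq => simp only [map_add]; exact hp.add hq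
  | mul_X p i hp =>
    simp only [map_mul, MvPolynomial.eval_X]
    exact hp.mul fun x _ => (ContinuousLinearMap.proj (R := ℂ) (φ := fun _ : σ => ℂ) i).analyticAt x

theorem good_base {V : Set (σ → ℂ)} {A : Type} [CommRing A] [Algebra ℂ A] {ξ : σ → A}
    (hs : Function.Surjective (MvPolynomial.aeval (R := ℂ) ξ))
    (hk : ∀ P : MvPolynomial σ ℂ, MvPolynomial.aeval ξ P = 0 → ∀ p ∈ V, MvPolynomial.eval p P = 0) :
    Good V A ξ := by
  intro g hg
  obtain ⟨G, rfl⟩ := hs g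
  refine ⟨G, hg, fun p hp hG => ⟨{q | MvPolynomial.eval q G ≠ 0}, ?_, hG, ?_⟩⟩
  · exact isOpen_ne_fun (continuousOn_univ.1 (analytic_eval G univ).continuousOn) continuous_const
  have H : ∀ q : ↥({q | MvPolynomial.eval q G ≠ 0} ∩ V),
      RingHom.ker (MvPolynomial.aeval (R := ℂ) ξ).toRingHom ≤
        RingHom.ker (MvPolynomial.aeval (R := ℂ) q.1).toRingHom := by
    intro q P hP
    have := hk P hP q.1 q.2.2
    simpa [RingHom.mem_ker, MvPolynomial.coe_aeval_eq_eval] using this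
  have hφ : ∀ q P, AlgHom.liftOfSurjective _ hs _ (H q) (MvPolynomial.aeval ξ P) =
      MvPolynomial.eval q.1 P := by
    intro q P
    rw [AlgHom.liftOfSurjective_apply]; rfl
  refine ⟨fun q => AlgHom.liftOfSurjective _ hs _ (H q), ⟨fun q i => ?_, fun s => ?_⟩, fun q => ?_⟩
  · simpa using hφ q (MvPolynomial.X i)
  · obtain ⟨S, rfl⟩ := hs s
    exact ⟨_, analytic_eval S _, fun q => hφ q S⟩
  · rw [hφ]; exact q.2.1

variable {V : Set (σ → ℂ)} {A B : Type} [CommRing A] [Algebra ℂ A] [CommRing B] [Algebra ℂ B]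
  [Algebra A B] [IsScalarTower ℂ A B] {ξ : σ → A}

/-- analyticity of the value of a polynomial over `A`. -/
theorem Fam.poly {W : Set (σ → ℂ)} {φ : ↥(W ∩ V) → (A →ₐ[ℂ] ℂ)} (h : Fam V W A ξ φ) (P : A[X]) :
    ∃ Φ : (σ → ℂ) × ℂ → ℂ, AnalyticOnNhd ℂ Φ (W ×ˢ univ) ∧
      ∀ q T, aevalTower (φ q) T P = Φ (q.1, T) := by
  induction P using Polynomial.induction_on' with
  | add p q hp hq =>
    obtain ⟨Φ, h1, h2⟩ := hp
    obtain ⟨Ψ, h3, h4⟩ := hq
    exact ⟨fun x => Φ x + Ψ x, h1.add h3, fun q T => by rw [map_add, h2, h4]⟩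
  | monomial n a =>
    obtain ⟨α, h1, h2⟩ := h.2 a
    refine ⟨fun x => α x.1 * x.2 ^ n, fun x hx => ?_, fun q T => ?_⟩
    · exact ((h1 x.1 hx.1).comp analyticAt_fst).mul (analyticAt_snd.pow n)
    · rw [← C_mul_X_pow_eq_monomial, map_mul, map_pow, aevalTower_C, aevalTower_X, h2]

theorem Fam.ext {W W' : Set (σ → ℂ)} {φ : ↥(W ∩ V) → (A →ₐ[ℂ] ℂ)} (h : Fam V W A ξ φ)
    (hW : W' ⊆ W) {b : B} (hs : Function.Surjective (aeval (R := A) b)) {β : (σ → ℂ) → ℂ}
    (hβ : AnalyticOnNhd ℂ β W')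
    (hk : ∀ q : ↥(W' ∩ V), ∀ P : A[X], aeval b P = 0 →
      aevalTower (φ ⟨q.1, hW q.2.1, q.2.2⟩) (β q.1) P = 0) :
    ∃ ψ : ↥(W' ∩ V) → (B →ₐ[ℂ] ℂ), Fam V W' B (fun i => algebraMap A B (ξ i)) ψ ∧
      ∀ q P, ψ q (aeval b P) = aevalTower (φ ⟨q.1, hW q.2.1, q.2.2⟩) (β q.1) P := by
  have hs' : Function.Surjective ((aeval (R := A) b).restrictScalars ℂ) := hs
  have H : ∀ q : ↥(W' ∩ V), RingHom.ker ((aeval (R := A) b).restrictScalars ℂ).toRingHom ≤
      RingHom.ker (aevalTower (φ ⟨q.1, hW q.2.1, q.2.2⟩) (β q.1)).toRingHom :=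
    fun q P hP => hk q P hP
  have hψ : ∀ q P, AlgHom.liftOfSurjective _ hs' _ (H q) (aeval b P) =
      aevalTower (φ ⟨q.1, hW q.2.1, q.2.2⟩) (β q.1) P :=
    fun q P => AlgHom.liftOfSurjective_apply _ hs' _ (H q) P
  refine ⟨fun q => AlgHom.liftOfSurjective _ hs' _ (H q), ⟨fun q i => ?_, fun s => ?_⟩, hψ⟩
  · have := hψ q (C (ξ i))
    rw [aeval_C, aevalTower_C, h.1] at this
    exact this
  · obtain ⟨S, rfl⟩ := hs s
    obtain ⟨Φ, h1, h2⟩ := h.poly S
    refine ⟨fun x => Φ (x, β x), fun x hx => ?_, fun q => by rw [hψ, h2]⟩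
    exact (h1 (x, β x) ⟨hW hx, trivial⟩).comp₂ analyticAt_id (hβ x hx)

omit [Algebra ℂ B] [IsScalarTower ℂ A B] in
theorem kill_of_min {b : B} {m : A[X]} (hm : aeval b m = 0)
    (hmin : ∀ r : A[X], aeval b r = 0 → r.natDegree < m.natDegree → r = 0) (h0 : 0 < m.natDegree)
    (ψ : A[X] →ₐ[ℂ] ℂ) (h1 : ψ m = 0) (h2 : ψ (C m.leadingCoeff) ≠ 0) (P : A[X])
    (hP : aeval b P = 0) : ψ P = 0 := by
  induction hn : P.natDegree using Nat.strong_induction_on generalizing P with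
  | _ n ih =>
    by_cases hlt : P.natDegree < m.natDegree
    · rw [hmin P hP hlt, map_zero]
    push Not at hlt
    have hd := natDegree_cancelLeads_lt_of_natDegree_le_natDegree hlt (h0.trans_le hlt)
    have := ih _ (hn ▸ hd) (m.cancelLeads P) (by simp [cancelLeads, hm, hP]) rfl
    simp only [cancelLeads, map_sub, map_mul, h1, mul_zero, sub_zero, Nat.sub_eq_zero_of_le hlt,
      pow_zero, mul_one] at this
    exact (mul_eq_zero.1 this).resolve_left h2

theorem good_step [IsDomain B] (hinj : Function.Injective (algebraMap A B)) {b : B}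
    (hs : Function.Surjective (aeval (R := A) b)) (h : Good V A ξ) :
    Good V B fun i => algebraMap A B (ξ i) := by
  classical
  have : IsDomain A := hinj.isDomain _
  have : CharZero A := charZero_of_injective_algebraMap (algebraMap ℂ A).injective
  have hd : ∀ d : MvPolynomial σ ℂ, MvPolynomial.aeval ξ d ≠ 0 →
      MvPolynomial.aeval (fun i => algebraMap A B (ξ i)) d ≠ 0 := by
    intro d h1 h2
    have h3 := MvPolynomial.aeval_algebraMap_apply (R := ℂ) B ξ d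
    exact h1 (hinj (by rw [← h3, map_zero]; exact h2))
  intro g hg
  obtain ⟨G, rfl⟩ := hs g
  by_cases htr : ∀ P : A[X], aeval b P = 0 → P = 0
  · have hG : G ≠ 0 := by rintro rfl; simp at hg
    obtain ⟨c, hc⟩ : ∃ c : ℂ, G.eval (algebraMap ℂ A c) ≠ 0 := by
      by_contra hcon
      push Not at hcon
      refine hG (G.eq_zero_of_infinite_isRoot ?_)
      exact (Set.infinite_range_of_injective (algebraMap ℂ A).injective).mono
        (by rintro _ ⟨c, rfl⟩; exact hcon c)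
    obtain ⟨d, hd0, hd1⟩ := h _ hc
    refine ⟨d, hd d hd0, fun p hp hpd => ?_⟩
    obtain ⟨W, hWo, hpW, φ, hφ, hφg⟩ := hd1 p hp hpd
    obtain ⟨ψ, h1, h2⟩ := hφ.ext (B := B) subset_rfl hs (β := fun _ => c) analyticOnNhd_const
      fun q P hP => by rw [htr P hP, map_zero]
    refine ⟨W, hWo, hpW, ψ, h1, fun q => ?_⟩
    rw [h2]
    have := hφg q
    have e : ∀ P : A[X], aevalTower (φ q) c P = φ q (P.eval (algebraMap ℂ A c)) := by
      intro P
      induction P using Polynomial.induction_on' with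
      | add p q hp hq => simp [hp, hq]
      | monomial n a =>
        rw [← C_mul_X_pow_eq_monomial]
        simp [aevalTower_C, aevalTower_X]
    exact e G ▸ this
  push Not at htr
  have hex : ∃ n, ∃ m : A[X], aeval b m = 0 ∧ m ≠ 0 ∧ m.natDegree = n := by
    obtain ⟨m, h1, h2⟩ := htr
    exact ⟨_, m, h1, h2, rfl⟩
  obtain ⟨m, hm, hm0, hmn⟩ := Nat.find_spec hex
  have hmin : ∀ r : A[X], aeval b r = 0 → r.natDegree < m.natDegree → r = 0 := by
    intro r h1 h2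
    by_contra h3
    exact Nat.find_min hex (hmn ▸ h2) ⟨r, h1, h3, rfl⟩
  have hpos : 0 < m.natDegree := by
    by_contra h0
    have h0 : m.natDegree = 0 := by omega
    rw [eq_C_of_natDegree_eq_zero h0, aeval_C] at hm
    have : m.coeff 0 = 0 := hinj (by rw [hm, map_zero])
    exact hm0 (by rw [eq_C_of_natDegree_eq_zero h0, this, map_zero])
  have hm' : aeval b (derivative m) ≠ 0 := by
    intro h1
    have := hmin _ h1 (natDegree_derivative_lt hpos.ne')
    exact hpos.ne' (derivative_eq_zero.1 this)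
  have halg : IsAlgebraic A b := ⟨m, hm0, hm⟩
  have halg' : ∀ P : A[X], IsAlgebraic A (aeval b P) := by
    intro P
    induction P using Polynomial.induction_on' with
    | add p q hp hq => rw [map_add]; exact hp.add hq
    | monomial n a =>
      rw [aeval_monomial]
      exact (isAlgebraic_algebraMap a).mul (halg.pow n)
  obtain ⟨e, he0, t, het⟩ := (halg' (G * derivative m)).exists_nonzero_dvd
    (mem_nonZeroDivisors_of_ne_zero (by rw [map_mul]; exact mul_ne_zero hg hm'))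
  obtain ⟨u, rfl⟩ := hs t
  have hrel : aeval b (G * derivative m * u - C e) = 0 := by
    rw [map_sub, aeval_C, het, map_mul _ _ u, sub_self]
  obtain ⟨d, hd0, hd1⟩ := h (e * m.leadingCoeff) (mul_ne_zero he0 (leadingCoeff_ne_zero.2 hm0))
  refine ⟨d, hd d hd0, fun p hp hpd => ?_⟩
  obtain ⟨W, hWo, hpW, φ, hφ, hφg⟩ := hd1 p hp hpd
  have hlc : ∀ q, φ q m.leadingCoeff ≠ 0 := fun q h0 => hφg q (by rw [map_mul, h0, mul_zero])
  have hee : ∀ q, φ q e ≠ 0 := fun q h0 => hφg q (by rw [map_mul, h0, zero_mul])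
  have hkill : ∀ q T, aevalTower (φ q) T m = 0 → ∀ P : A[X], aeval b P = 0 →
      aevalTower (φ q) T P = 0 := fun q T h1 =>
    kill_of_min hm hmin hpos _ h1 (by rw [aevalTower_C]; exact hlc q)
  have hne : ∀ q T, aevalTower (φ q) T m = 0 →
      aevalTower (φ q) T G ≠ 0 ∧ aevalTower (φ q) T (derivative m) ≠ 0 := by
    intro q T h1
    have := hkill q T h1 _ hrel
    rw [map_sub, aevalTower_C, sub_eq_zero, map_mul, map_mul] at this
    constructor
    · intro h0; exact hee q (by rw [← this, h0, zero_mul, zero_mul])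
    · intro h0; exact hee q (by rw [← this, h0, mul_zero, zero_mul])
  have hev : ∀ q T (P : A[X]), aevalTower (φ q) T P = (P.map (φ q : A →+* ℂ)).eval T := by
    intro q T P
    rw [eval_map]; rfl
  set p₀ : ↥(W ∩ V) := ⟨p, hpW, hp⟩ with hp₀
  obtain ⟨T₀, hT₀⟩ : ∃ T₀, aevalTower (φ p₀) T₀ m = 0 := by
    have : (m.map (φ p₀ : A →+* ℂ)).degree ≠ 0 := by
      rw [degree_map_eq_of_leadingCoeff_ne_zero (φ p₀ : A →+* ℂ) (hlc p₀)]
      exact (natDegree_pos_iff_degree_pos.1 hpos).ne'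
    obtain ⟨T₀, hT⟩ := IsAlgClosed.exists_root _ this
    exact ⟨T₀, by rw [hev]; exact hT⟩
  obtain ⟨Φ, hΦ, hΦe⟩ := hφ.poly m
  have hΦ0 : AnalyticAt ℂ Φ (p, T₀) := hΦ _ ⟨hpW, trivial⟩
  have hcd : ContDiffAt ℂ ⊤ Φ (p, T₀) := hΦ0.contDiffAt
  have hder : HasDerivAt (fun T => Φ (p, T)) (aevalTower (φ p₀) T₀ (derivative m)) T₀ := by
    have : (fun T => Φ (p, T)) = fun T => (m.map (φ p₀ : A →+* ℂ)).eval T := by
      funext T; rw [← hev, hΦe]
    rw [this, hev, ← derivative_map]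
    exact Polynomial.hasDerivAt _ _
  have hinv : (fderiv ℂ Φ (p, T₀) ∘L ContinuousLinearMap.inr ℂ (σ → ℂ) ℂ).IsInvertible := by
    have h1 : HasFDerivAt (fun T => Φ (p, T))
        (fderiv ℂ Φ (p, T₀) ∘L ContinuousLinearMap.inr ℂ (σ → ℂ) ℂ) T₀ :=
      hΦ0.differentiableAt.hasFDerivAt.comp T₀ (hasFDerivAt_prodMk_right p T₀)
    rw [h1.unique hder.hasFDerivAt]
    exact ⟨ContinuousLinearEquiv.unitsEquivAut ℂ (Units.mk0 _ (hne p₀ T₀ hT₀).2), by
      ext; simp⟩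
  have e1 := hcd.eventually_apply_implicitFunction (by simp) hinv
  have e2 : AnalyticAt ℂ (hcd.implicitFunction (by simp) hinv) p :=
    (hcd.contDiffAt_implicitFunction (by simp) hinv).analyticAt
  obtain ⟨W', hW'1, hW'o, hpW'⟩ := eventually_nhds_iff.1
    (e1.and (e2.eventually_analyticAt.and (hWo.mem_nhds hpW)))
  have hW : W' ⊆ W := fun x hx => (hW'1 x hx).2.2
  have hroot : ∀ q : ↥(W' ∩ V), aevalTower (φ ⟨q.1, hW q.2.1, q.2.2⟩)
      (hcd.implicitFunction (by simp) hinv q.1) m = 0 := by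
    intro q
    rw [hΦe, (hW'1 q.1 q.2.1).1, ← hT₀, hΦe]
  obtain ⟨ψ, h1, h2⟩ := hφ.ext (B := B) hW hs (fun x hx => (hW'1 x hx).2.1)
    fun q P hP => hkill _ _ (hroot q) P hP
  exact ⟨W', hW'o, hpW', ψ, h1, fun q => by rw [h2]; exact (hne _ _ (hroot q)).1⟩

omit [Algebra A B] [IsScalarTower ℂ A B] in
theorem good_step' [IsDomain B] (f : A →ₐ[ℂ] B) (hinj : Function.Injective f) {b : B}
    {S : Set B} (hB : Algebra.adjoin ℂ S = ⊤) (hS : ∀ x ∈ S, x ∈ range f ∨ x = b)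
    (h : Good V A ξ) {ξ' : σ → B} (hξ' : ∀ i, ξ' i = f (ξ i)) : Good V B ξ' := by
  obtain rfl : ξ' = fun i => f (ξ i) := funext hξ'
  let _ : Algebra A B := f.toAlgebra
  have _ : IsScalarTower ℂ A B := .of_algebraMap_eq fun c => (f.commutes c).symm
  have hv : ∀ a : A, algebraMap A B a = f a := fun _ => rfl
  have key : ∀ x ∈ Algebra.adjoin ℂ S, ∃ P : A[X], aeval b P = x := by
    intro x hx
    induction hx using Algebra.adjoin_induction with
    | mem x hx =>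
      rcases hS x hx with ⟨a, rfl⟩ | rfl
      · exact ⟨C a, by rw [aeval_C, hv]⟩
      · exact ⟨X, by rw [aeval_X]⟩
    | algebraMap r => exact ⟨C (algebraMap ℂ A r), by rw [aeval_C, hv, f.commutes]⟩
    | add x y _ _ h1 h2 =>
      obtain ⟨P, hP⟩ := h1
      obtain ⟨R, hR⟩ := h2
      exact ⟨P + R, by rw [map_add, hP, hR]⟩
    | mul x y _ _ h1 h2 =>
      obtain ⟨P, hP⟩ := h1
      obtain ⟨R, hR⟩ := h2
      exact ⟨P * R, by rw [map_mul, hP, hR]⟩
  exact good_step (B := B) hinj (b := b) (fun x => key x (hB ▸ Algebra.mem_top)) h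

theorem good_incl {Ω : Type} [Field Ω] [Algebra ℂ Ω] {A : Subalgebra ℂ Ω} {S : Set Ω}
    (hle : A ≤ Algebra.adjoin ℂ S) {b : Ω} (hb : b ∈ Algebra.adjoin ℂ S)
    (hS : ∀ x ∈ S, x ∈ A ∨ x = b)
    {ξ : σ → Ω} (hA : ∀ i, ξ i ∈ A) (h : Good V A fun i => ⟨ξ i, hA i⟩) :
    Good V (Algebra.adjoin ℂ S) fun i => ⟨ξ i, hle (hA i)⟩ := by
  refine good_step' (A := A) (B := Algebra.adjoin ℂ S) (Subalgebra.inclusion hle)
    (Subalgebra.inclusion_injective hle) (b := ⟨b, hb⟩) (S := Subtype.val ⁻¹' S)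
    (Algebra.adjoin_adjoin_coe_preimage (R := ℂ) (s := S)) ?_ h fun i => Subtype.ext rfl
  intro x hx
  rcases hS x hx with h1 | h1
  · exact Or.inl ⟨⟨x, h1⟩, rfl⟩
  · exact Or.inr (Subtype.ext h1)

theorem coe_aeval_sub {Ω τ : Type} [Field Ω] [Algebra ℂ Ω] (A : Subalgebra ℂ Ω) (x : τ → A)
    (P : MvPolynomial τ ℂ) :
    ((MvPolynomial.aeval x P : A) : Ω) = MvPolynomial.aeval (fun i => (x i : Ω)) P :=
  MvPolynomial.comp_aeval_apply x A.val P

theorem good_adjoin {Ω : Type} [Field Ω] [Algebra ℂ Ω] (ξ : σ → Ω)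
    (hk : ∀ P : MvPolynomial σ ℂ, MvPolynomial.aeval ξ P = 0 → ∀ p ∈ V, MvPolynomial.eval p P = 0)
    (s : Finset Ω) :
    Good V (Algebra.adjoin ℂ (range ξ ∪ s)) fun i =>
      ⟨ξ i, Algebra.subset_adjoin (Or.inl ⟨i, rfl⟩)⟩ := by
  classical
  induction s using Finset.induction_on with
  | empty =>
    refine good_base ?_ fun P hP => hk P ?_
    · rintro ⟨x, hx⟩
      have hx' := hx
      rw [Finset.coe_empty, union_empty, Algebra.adjoin_range_eq_range_aeval] at hx'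
      obtain ⟨P, rfl⟩ := hx'
      exact ⟨P, Subtype.ext (coe_aeval_sub _ _ P)⟩
    · have := coe_aeval_sub (Algebra.adjoin ℂ (range ξ ∪ ((∅ : Finset Ω) : Set Ω)))
        (fun i => ⟨ξ i, Algebra.subset_adjoin (Or.inl ⟨i, rfl⟩)⟩) P
      rw [hP] at this
      exact this.symm
  | insert b s _ ih =>
    refine good_incl (b := b) (Algebra.adjoin_mono (union_subset_union_right _ (by simp)))
      (Algebra.subset_adjoin (Or.inr (by simp))) ?_ _ ih
    rintro x (hx | hx)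
    · exact Or.inl (Algebra.subset_adjoin (Or.inl hx))
    · rcases Finset.mem_insert.1 hx with rfl | hx
      · exact Or.inr rfl
      · exact Or.inl (Algebra.subset_adjoin (Or.inr hx))

/-- **Specialisation.**  `ξ` generic for `V`, `a` finitely many elements of `Ω`. -/
theorem spec {Ω : Type} [Field Ω] [Algebra ℂ Ω] (ξ : σ → Ω)
    (hk : ∀ P : MvPolynomial σ ℂ, MvPolynomial.aeval ξ P = 0 → ∀ p ∈ V, MvPolynomial.eval p P = 0)
    {ι : Type} [Fintype ι] (a : ι → Ω) :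
    ∃ d : MvPolynomial σ ℂ, MvPolynomial.aeval ξ d ≠ 0 ∧
      ∀ p ∈ V, MvPolynomial.eval p d ≠ 0 → ∃ W : Set (σ → ℂ), IsOpen W ∧ p ∈ W ∧
        ∃ α : (σ → ℂ) → ι → ℂ, AnalyticOnNhd ℂ α W ∧
          ∀ P : MvPolynomial (σ ⊕ ι) ℂ, MvPolynomial.aeval (Sum.elim ξ a) P = 0 →
            ∀ q ∈ W, q ∈ V → MvPolynomial.eval (Sum.elim q (α q)) P = 0 := by
  classical
  set s : Finset Ω := Finset.univ.image a
  obtain ⟨d, hd0, hd⟩ := good_adjoin ξ hk s 1 one_ne_zero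
  set A := Algebra.adjoin ℂ (range ξ ∪ (s : Set Ω))
  set ξ' : σ → A := fun i => ⟨ξ i, Algebra.subset_adjoin (Or.inl ⟨i, rfl⟩)⟩
  set a' : ι → A := fun i => ⟨a i, Algebra.subset_adjoin (Or.inr (by simp [s]))⟩
  refine ⟨d, fun h0 => hd0 (Subtype.ext ?_), fun p hp hpd => ?_⟩
  · exact (coe_aeval_sub A ξ' d).trans h0
  obtain ⟨W, hWo, hpW, φ, hφ, -⟩ := hd p hp hpd
  choose α hα1 hα2 using fun i => hφ.2 (a' i)
  refine ⟨W, hWo, hpW, fun q i => α i q, fun x hx => ?_, fun P hP q hq hqV => ?_⟩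
  · exact analyticAt_pi_iff.2 fun i => hα1 i x hx
  have h1 : MvPolynomial.aeval (Sum.elim ξ' a') P = 0 := by
    refine Subtype.ext ((coe_aeval_sub A (Sum.elim ξ' a') P).trans ?_)
    have : (fun i => ((Sum.elim ξ' a' i : A) : Ω)) = Sum.elim ξ a := by
      funext i; rcases i with i | i <;> rfl
    rw [this]; exact hP
  have h2 := MvPolynomial.comp_aeval_apply (Sum.elim ξ' a') (φ ⟨q, hq, hqV⟩) P
  rw [h1, map_zero] at h2
  have : (fun i => φ ⟨q, hq, hqV⟩ (Sum.elim ξ' a' i)) = Sum.elim q fun i => α i q := by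
    funext i
    rcases i with i | i
    · exact hφ.1 ⟨q, hq, hqV⟩ i
    · exact hα2 i ⟨q, hq, hqV⟩
  rw [this] at h2
  exact h2.symm

/-- **Specialisation**, subalgebra form. -/
theorem spec_sub {Ω : Type} [Field Ω] [Algebra ℂ Ω] (Q : MvPolynomial σ ℂ) (η : σ → Ω)
    (hgen : ∀ P : MvPolynomial σ ℂ, MvPolynomial.aeval η P = 0 → Q ∣ P)
    (hQ : MvPolynomial.aeval η Q = 0) (S : Subalgebra ℂ Ω) (hS : S.FG) (hη : ∀ i, η i ∈ S) :
    ∃ r : MvPolynomial σ ℂ, ¬ Q ∣ r ∧ ∀ ξ₀ : σ → ℂ, MvPolynomial.eval ξ₀ Q = 0 →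
      MvPolynomial.eval ξ₀ r ≠ 0 → ∃ (O : Set (σ → ℂ)) (ψ : (σ → ℂ) → S → ℂ), IsOpen O ∧ ξ₀ ∈ O ∧
        (∀ s, DifferentiableOn ℂ (fun ξ => ψ ξ s) O) ∧
        ∀ ξ ∈ O, MvPolynomial.eval ξ Q = 0 → ∃ f : S →ₐ[ℂ] ℂ, (∀ s, f s = ψ ξ s) ∧
          ∀ i, f ⟨η i, hη i⟩ = ξ i := by
  obtain ⟨s, hs⟩ := hS
  obtain rfl : S = Algebra.adjoin ℂ (range η ∪ (s : Set Ω)) := by
    refine le_antisymm (hs ▸ Algebra.adjoin_mono subset_union_right) (Algebra.adjoin_le ?_)
    rintro x (⟨i, rfl⟩ | hx)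
    · exact hη i
    · exact hs ▸ Algebra.subset_adjoin hx
  obtain ⟨d, hd0, hd⟩ := good_adjoin (V := {p | MvPolynomial.eval p Q = 0}) η
    (fun P hP p hp => by
      obtain ⟨R, rfl⟩ := hgen P hP
      rw [map_mul, show MvPolynomial.eval p Q = 0 from hp, zero_mul]) s 1 one_ne_zero
  refine ⟨d, ?_, fun p hp hpd => ?_⟩
  · rintro ⟨R, rfl⟩
    refine hd0 (Subtype.ext ((coe_aeval_sub _ _ _).trans ?_))
    change MvPolynomial.aeval η (Q * R) = 0
    rw [map_mul, hQ, zero_mul]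
  obtain ⟨W, hWo, hpW, φ, hφ, -⟩ := hd p hp hpd
  choose α hα1 hα2 using hφ.2
  exact ⟨W, fun q s => α s q, hWo, hpW, fun s => (hα1 s).differentiableOn, fun q hq hqV =>
    ⟨φ ⟨q, hq, hqV⟩, fun s => hα2 s _, fun i => hφ.1 _ i⟩⟩

end

end Crest.Agent.R279
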