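import Crest.Agent.R279.Defs
import Crest.Agent.R003.Krull

/-! Row 279: a smooth quartic is prime; proper hypersurface sections have dense complement -/

set_option autoImplicit false

namespace Crest.Agent.R279

open Set Metric Filter Topology MvPolynomial

theorem hasFDerivAt_mv {n : ℕ} (p : MvPolynomial (Fin n) ℂ) (x : Fin n → ℂ) :
    HasFDerivAt (fun y : Fin n → ℂ => eval y p)
      (∑ i, eval x (pderiv i p) • (ContinuousLinearMap.proj i : (Fin n → ℂ) →L[ℂ] ℂ)) x := by
  induction p using MvPolynomial.induction_on with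
  | C a =>
    simp only [eval_C]
    refine (hasFDerivAt_const (𝕜 := ℂ) a x).congr_fderiv ?_
    ext v
    simp
  | add p q hp hq =>
    simp only [map_add]
    refine (hp.add hq).congr_fderiv ?_
    ext v
    simp [Finset.sum_add_distrib, add_mul]
  | mul_X p j hp =>
    have h := hp.mul (ContinuousLinearMap.proj (R := ℂ) (φ := fun _ : Fin n => ℂ) j).hasFDerivAt
    simp only [map_mul, eval_X]
    refine h.congr_fderiv ?_
    ext v
    simp [Derivation.leibniz, pderiv_X, Pi.single_apply, add_mul, Finset.sum_add_distrib,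
      Finset.mul_sum, apply_ite, mul_assoc]

theorem eval_smul_hom {σ : Type} {K : Type} [CommRing K] {p : MvPolynomial σ K} {n : ℕ}
    (hp : p.IsHomogeneous n) (c : K) (x : σ → K) : eval (c • x) p = c ^ n * eval x p := by
  rw [eval_eq, eval_eq, Finset.mul_sum]
  refine Finset.sum_congr rfl fun d hd => ?_
  rw [hp.degree_eq_sum_deg_support hd]
  simp only [Pi.smul_apply, smul_eq_mul, mul_pow, Finset.prod_mul_distrib,
    Finset.prod_pow_eq_pow_sum]
  ring

theorem SmoothQ.ne_zero {Q : MvPolynomial (Fin 4) ℂ} (hQ : SmoothQ Q) : Q ≠ 0 := by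
  rintro rfl
  obtain ⟨i, hi⟩ := hQ.smooth 1 one_ne_zero (map_zero _)
  simp at hi

theorem SmoothQ.eval_zero {Q : MvPolynomial (Fin 4) ℂ} (hQ : SmoothQ Q) : eval 0 Q = 0 := by
  have h := eval_smul_hom hQ.hom 0 0
  rwa [zero_smul, zero_pow (by norm_num), zero_mul] at h

theorem SmoothQ.unit_of_dvd {Q A : MvPolynomial (Fin 4) ℂ} (hQ : SmoothQ Q) (hA : A ∣ Q)
    (h0 : eval 0 A ≠ 0) : IsUnit A := by
  obtain ⟨B, hB⟩ := hA
  have key : ∀ x : Fin 4 → ℂ, eval x Q ≠ 0 → eval x A = eval 0 A := fun x hx => by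
    let p : Polynomial ℂ := aeval (fun i => Polynomial.C (x i) * Polynomial.X) A
    have hp : ∀ t : ℂ, p.eval t = eval (t • x) A := fun t => by
      have h1 : (Polynomial.aeval t).comp (aeval fun i => Polynomial.C (x i) * Polynomial.X) =
          (aeval (t • x) : MvPolynomial (Fin 4) ℂ →ₐ[ℂ] ℂ) := by
        ext i
        rw [AlgHom.comp_apply, aeval_X, aeval_X, map_mul, Polynomial.aeval_C, Polynomial.aeval_X,
          mul_comm]
        rfl
      have h2 := congrArg (fun f : MvPolynomial (Fin 4) ℂ →ₐ[ℂ] ℂ => f A) h1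
      simpa [p, Polynomial.coe_aeval_eq_eval, coe_aeval_eq_eval] using h2
    have hd : p.degree ≤ 0 := by
      by_contra hd
      obtain ⟨t, ht⟩ := Complex.exists_root (not_le.1 hd)
      rw [Polynomial.IsRoot, hp] at ht
      have h3 : eval (t • x) Q = 0 := by rw [hB, map_mul, ht, zero_mul]
      rw [eval_smul_hom hQ.hom] at h3
      have h4 : t = 0 := pow_eq_zero_iff (by norm_num) |>.1 ((mul_eq_zero.1 h3).resolve_right hx)
      rw [h4, zero_smul] at ht
      exact h0 ht
    have h5 := hp 1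
    have h6 := hp 0
    rw [Polynomial.eq_C_of_degree_le_zero hd, Polynomial.eval_C] at h5 h6
    rw [one_smul] at h5
    rw [zero_smul] at h6
    rw [← h5, ← h6]
  have h7 : Q * (A - C (eval 0 A)) = 0 := MvPolynomial.funext fun x => by
    by_cases hx : eval x Q = 0
    · rw [map_mul, hx, zero_mul, map_zero]
    · rw [map_mul, map_sub, key x hx, eval_C, sub_self, mul_zero, map_zero]
  rw [sub_eq_zero.1 ((mul_eq_zero.1 h7).resolve_left hQ.ne_zero)]
  exact (IsUnit.mk0 _ h0).map C

theorem SmoothQ.irreducible {Q : MvPolynomial (Fin 4) ℂ} (hQ : SmoothQ Q) : Irreducible Q := by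
  refine ⟨fun h => ?_, fun A B h => ?_⟩
  · exact (h.map (eval (0 : Fin 4 → ℂ))).ne_zero hQ.eval_zero
  by_cases hA : eval 0 A = 0
  · by_cases hB : eval 0 B = 0
    · obtain ⟨x, hx, h2⟩ := R003.exists_common_zero (ν := Fin 2) ![A, B]
        (fun n => by fin_cases n; exacts [hA, hB]) (by simp)
      have a0 : eval x A = 0 := h2 0
      have b0 : eval x B = 0 := h2 1
      obtain ⟨i, hi⟩ := hQ.smooth x hx (by rw [h, map_mul, a0, zero_mul])
      exact absurd (by simp [h, Derivation.leibniz, a0, b0]) hi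
    · exact Or.inr (hQ.unit_of_dvd ⟨A, by rw [h, mul_comm]⟩ hB)
  · exact Or.inl (hQ.unit_of_dvd ⟨B, h⟩ hA)

theorem SmoothQ.prime {Q : MvPolynomial (Fin 4) ℂ} (hQ : SmoothQ Q) : Prime Q :=
  hQ.irreducible.prime

/-- elimination of the variable -/
theorem elim_poly {A : Type} [CommRing A] [IsDomain A] {q r : Polynomial A} (hq : Prime q)
    (hr : ¬ q ∣ r) : ∃ d : A, d ≠ 0 ∧ ∃ a b : Polynomial A, Polynomial.C d = q * a + r * b := by
  have := AdjoinRoot.isDomain_of_prime hq
  have h1 : IsAlgebraic A (AdjoinRoot.mk q r) := by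
    rw [← AdjoinRoot.aeval_eq, ← Subalgebra.mem_algebraicClosure]
    refine (Algebra.adjoin_le ?_ : Algebra.adjoin A {AdjoinRoot.root q} ≤ _)
      (Polynomial.aeval_mem_adjoin_singleton A _)
    rintro _ rfl
    exact AdjoinRoot.isAlgebraic_root hq.ne_zero
  obtain ⟨d, hd, s, hs⟩ := h1.exists_nonzero_dvd
    (mem_nonZeroDivisors_of_ne_zero (mt AdjoinRoot.mk_eq_zero.1 hr))
  obtain ⟨b, rfl⟩ := AdjoinRoot.mk_surjective s
  rw [← map_mul] at hs
  obtain ⟨a, ha⟩ := AdjoinRoot.mk_eq_mk.1 (show AdjoinRoot.mk q (Polynomial.C d) = _ from hs)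
  exact ⟨d, hd, a, b, by rw [← ha]; ring⟩

theorem elim_mv {n : ℕ} {Q r : MvPolynomial (Fin n) ℂ} (hQ : Prime Q) (hr : ¬ Q ∣ r) (i : Fin n) :
    ∃ D a b : MvPolynomial (Fin n) ℂ, D ≠ 0 ∧ D = Q * a + r * b ∧
      ∀ y y' : Fin n → ℂ, (∀ j, j ≠ i → y j = y' j) → eval y D = eval y' D := by
  let e : MvPolynomial (Fin n) ℂ ≃ₐ[ℂ] Polynomial (MvPolynomial {j // j ≠ i} ℂ) :=
    (renameEquiv ℂ (Equiv.optionSubtypeNe i).symm).trans (optionEquivLeft ℂ _)
  obtain ⟨d, hd, a, b, h⟩ := elim_poly (q := e Q) (r := e r)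
    ((MulEquiv.prime_iff e.toMulEquiv).2 hQ) fun h => hr (by simpa using map_dvd e.symm h)
  have he : ∀ d, e (rename Subtype.val d) = Polynomial.C d := fun d => by
    induction d using MvPolynomial.induction_on with
    | C c => simp [e]
    | add p q hp hq => simp only [map_add, hp, hq]
    | mul_X p j hp =>
      have hj : e (X j.1) = Polynomial.C (X j) := by
        simp [e, Equiv.optionSubtypeNe_symm_of_ne j.2]
      rw [map_mul, map_mul, hp, Polynomial.C_mul, rename_X, hj]
  refine ⟨rename Subtype.val d, e.symm a, e.symm b, fun h0 => hd ?_, e.injective ?_, ?_⟩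
  · exact rename_injective _ Subtype.val_injective (by rw [h0, map_zero])
  · rw [he, h]
    simp
  · intro y y' hy
    rw [eval_rename, eval_rename]
    congr 2
    funext j
    exact hy j j.2

theorem mv_eq_zero_of_eventually {n : ℕ} {D : MvPolynomial (Fin n) ℂ} {x : Fin n → ℂ}
    (h : ∀ᶠ y in 𝓝 x, eval y D = 0) : D = 0 := by
  have h1 := (AnalyticOnNhd.eval_mvPolynomial D).eqOn_zero_of_preconnected_of_eventuallyEq_zero
    isPreconnected_univ (mem_univ x) h
  exact MvPolynomial.funext fun y => by rw [map_zero]; exact h1 (mem_univ y)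

/-- a polynomial vanishing on the cone near one of its points is a multiple of `Q` -/
theorem SmoothQ.dvd_of_eventually {Q r : MvPolynomial (Fin 4) ℂ} (hQ : SmoothQ Q) {x : V}
    (hx : x ≠ 0) (hx0 : eval x Q = 0) (h : ∀ᶠ y in 𝓝 x, eval y Q = 0 → eval y r = 0) : Q ∣ r := by
  by_contra hr
  obtain ⟨i, hi⟩ := hQ.smooth x hx hx0
  obtain ⟨D, a, b, hD, e, hy⟩ := elim_mv hQ.prime hr i
  let L : V →L[ℂ] ℂ := ∑ j, eval x (pderiv j Q) • ContinuousLinearMap.proj j
  have hL : HasStrictFDerivAt (fun y : V => eval y Q) L x := by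
    have h1 := (AnalyticOnNhd.eval_mvPolynomial Q x (mem_univ x)).hasStrictFDerivAt
    rwa [(hasFDerivAt_mv Q x).fderiv] at h1
  have hLi : L (Pi.single i 1) = eval x (pderiv i Q) := by
    simp [L, Pi.single_apply]
  let Φ : V → V := fun y j => if j = i then eval y Q else y j
  let Φ' : V →L[ℂ] V := ContinuousLinearMap.pi fun j => if j = i then L else
    ContinuousLinearMap.proj j
  have hΦ : HasStrictFDerivAt Φ Φ' x := by
    refine hasStrictFDerivAt_pi.2 fun j => ?_
    by_cases hj : j = i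
    · simpa only [Φ, hj, if_true] using hL
    · simp only [hj, if_false]
      exact (ContinuousLinearMap.proj (R := ℂ) (φ := fun _ : Fin 4 => ℂ) j).hasStrictFDerivAt
  have hs : Φ'.range = ⊤ := by
    refine LinearMap.range_eq_top.2 fun w => ?_
    refine ⟨w + ((w i - L w) / eval x (pderiv i Q)) • (Pi.single i 1 : V), funext fun j => ?_⟩
    by_cases hj : j = i
    · subst hj
      have : Φ' (w + ((w j - L w) / eval x (pderiv j Q)) • (Pi.single j 1 : V)) j =
          L (w + ((w j - L w) / eval x (pderiv j Q)) • (Pi.single j 1 : V)) := by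
        simp only [Φ', ContinuousLinearMap.pi_apply, if_true]
      refine this.trans ?_
      rw [map_add, map_smul, hLi, smul_eq_mul, div_mul_cancel₀ _ hi]
      ring
    · simp [Φ', hj]
  have h1 : ∀ᶠ z in 𝓝 (Φ x), z i = 0 → eval z D = 0 := by
    rw [← hΦ.map_nhds_eq_of_surj hs, eventually_map]
    filter_upwards [h] with y hy0 hz
    have hq : eval y Q = 0 := by simpa [Φ] using hz
    rw [hy (Φ y) y fun j hj => by simp [Φ, hj], e, map_add, map_mul, map_mul, hq, hy0 hq]
    ring
  have hc : Continuous fun y : V => Function.update y i 0 := continuous_id.update i continuous_const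
  have h2 : Function.update x i 0 = Φ x := funext fun j => by
    by_cases hj : j = i
    · subst hj
      simp [Φ, hx0]
    · simp [Φ, hj]
  refine hD (mv_eq_zero_of_eventually (x := x) ?_)
  have h3 := hc.tendsto x
  rw [h2] at h3
  filter_upwards [h3.eventually h1] with y hy1
  rw [← hy1 (by simp)]
  exact hy _ _ fun j hj => by simp [hj]

theorem dense_MQ' {Q : MvPolynomial (Fin 4) ℂ} (hQ : SmoothQ Q) {r : MvPolynomial (Fin 4) ℂ}
    (hr : ¬ Q ∣ r) : ∀ m ∈ MQ Q, m ∈ closure (MQ Q ∩ {m' | MvPolynomial.eval m'.1 r ≠ 0}) := by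
  intro m hm
  by_contra hc
  refine hr (hQ.dvd_of_eventually hm.2 hm.1 ?_)
  have h1 : ∀ᶠ m' in 𝓝 m, m' ∉ MQ Q ∩ {m' | MvPolynomial.eval m'.1 r ≠ 0} :=
    mem_of_superset (isClosed_closure.isOpen_compl.mem_nhds hc) fun m' h h' => h (subset_closure h')
  have h2 : Tendsto (fun y : V => ((y, m.2) : W)) (𝓝 m.1) (𝓝 m) :=
    (continuous_id.prodMk continuous_const).tendsto m.1
  filter_upwards [h2.eventually h1, isOpen_ne.mem_nhds hm.2] with y hy hy0 hq
  by_contra h3
  exact hy ⟨⟨hq, hy0⟩, h3⟩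

end Crest.Agent.R279
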