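import Crest.Agent.R279.AM
import Crest.Agent.R279.AL
import Crest.Agent.R279.AB
import Crest.Agent.R279.AGen
import Crest.Agent.R279.ASpec
import Crest.Agent.R279.GenD

/-! Row 279, step (4): transfer of the elliptic data from the generic point to closed points -/

set_option autoImplicit false

namespace Crest.Agent.R279

open Matrix Set

/-- index set of the data and of the witnesses. -/
abbrev OK (N : ℕ) : Type :=
  (Fin 3 × Fin 4) ⊕ (Fin 4 × Fin 5) ⊕ Fin 4 ⊕ (Fin 3 × Fin 4) ⊕ (Fin 3 × Fin N) ⊕ Fin 3 ⊕ Fin 2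

/-- index set of the equations. -/
abbrev OJ : Type :=
  (Fin 3 × Fin 3) ⊕ Fin 3 ⊕ (ℂ × ℂ × ℂ) ⊕ (ℂ × ℂ) ⊕ ℂ ⊕ Fin 4 ⊕ Unit ⊕ Fin 2 ⊕ Unit ⊕ Unit

section
variable {R : Type} {N : ℕ}

/-- the data. -/
def oDat (a : OK N → R) : EllDat R :=
  (fun i j => a (.inl (i, j)), fun i j => a (.inr (.inl (i, j))), fun i => a (.inr (.inr (.inl i))))

/-- packing. -/
def oPack (D : EllDat R) (B : Fin 3 → Fin 4 → R) (U : Fin 3 → Fin N → R) (w : Fin 3 → R)
    (t : Fin 2 → R) : OK N → R :=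
  Sum.elim (fun x => D.1 x.1 x.2) (Sum.elim (fun x => D.2.1 x.1 x.2) (Sum.elim D.2.2
    (Sum.elim (fun x => B x.1 x.2) (Sum.elim (fun x => U x.1 x.2) (Sum.elim w t)))))

def oB (a : OK N → R) (i : Fin 3) (j : Fin 4) : R := a (.inr (.inr (.inr (.inl (i, j)))))
def oU (a : OK N → R) (i : Fin 3) (j : Fin N) : R := a (.inr (.inr (.inr (.inr (.inl (i, j))))))
def oW (a : OK N → R) (i : Fin 3) : R := a (.inr (.inr (.inr (.inr (.inr (.inl i))))))
def oT (a : OK N → R) (i : Fin 2) : R := a (.inr (.inr (.inr (.inr (.inr (.inr i))))))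

variable [CommRing R] [Algebra ℂ R]

/-- the three forms. -/
def oF (d : ℕ) (D : EllDat R) (s t : R) : Fin 3 → R :=
  ![bf (1 + d) (D.2.1 0) s t, bf (2 + d) (D.2.1 1) s t, bf (3 + d) (D.2.1 2) s t]

/-- the equations. -/
def oEq (c : Ten) (d : ℕ) (ξ : Fin 4 → R) (D : EllDat R) (B : Fin 3 → Fin 4 → R)
    (U : Fin 3 → Fin N → R) (w : Fin 3 → R) (τ : Fin 2 → R) : OJ → R
  | .inl (i, j) => B i ⬝ᵥ D.1 j - if i = j then 1 else 0
  | .inr (.inl i) => c.al (D.1 0) ⬝ᵥ D.1 i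
  | .inr (.inr (.inl (μ, s, t))) =>
      c.q (algebraMap ℂ R μ • D.1 0 + algebraMap ℂ R s • D.1 1 + algebraMap ℂ R t • D.1 2) -
        algebraMap ℂ R t ^ (1 - d) *
          (bf (1 + d) (D.2.1 0) (algebraMap ℂ R s) (algebraMap ℂ R t) * algebraMap ℂ R μ ^ 2 +
            bf (2 + d) (D.2.1 1) (algebraMap ℂ R s) (algebraMap ℂ R t) * algebraMap ℂ R μ +
            bf (3 + d) (D.2.1 2) (algebraMap ℂ R s) (algebraMap ℂ R t))
  | .inr (.inr (.inr (.inl (s, t)))) =>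
      bf (2 + d) (D.2.1 1) (algebraMap ℂ R s) (algebraMap ℂ R t) ^ 2 -
        4 * bf (1 + d) (D.2.1 0) (algebraMap ℂ R s) (algebraMap ℂ R t) *
          bf (3 + d) (D.2.1 2) (algebraMap ℂ R s) (algebraMap ℂ R t) -
        (algebraMap ℂ R t ^ d) ^ 2 * bf 4 (D.2.1 3) (algebraMap ℂ R s) (algebraMap ℂ R t)
  | .inr (.inr (.inr (.inr (.inl s)))) =>
      (∑ k, (∑ j, U k j * algebraMap ℂ R s ^ (j : ℕ)) * oF d D (algebraMap ℂ R s) 1 k) - 1
  | .inr (.inr (.inr (.inr (.inr (.inl i))))) =>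
      ξ i - (D.2.2 0 • D.1 0 + D.2.2 1 • D.1 1 + D.2.2 2 • D.1 2) i
  | .inr (.inr (.inr (.inr (.inr (.inr (.inl _)))))) => (∑ k, w k * oF d D 1 0 k) - 1
  | .inr (.inr (.inr (.inr (.inr (.inr (.inr (.inl i))))))) => τ i * D.2.2 (Fin.natAdd 2 i) - 1
  | .inr (.inr (.inr (.inr (.inr (.inr (.inr (.inr (.inl _)))))))) =>
      D.2.2 2 ^ d * D.2.2 3 - (2 * D.2.2 0 * bf (1 + d) (D.2.1 0) (D.2.2 1) (D.2.2 2) +
        bf (2 + d) (D.2.1 1) (D.2.2 1) (D.2.2 2))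
  | .inr (.inr (.inr (.inr (.inr (.inr (.inr (.inr (.inr _)))))))) =>
      D.2.2 3 ^ 2 - bf 4 (D.2.1 3) (D.2.2 1) (D.2.2 2)

/-- the equations in terms of packed data. -/
def oEqs (c : Ten) (d : ℕ) (ξ : Fin 4 → R) (a : OK N → R) : OJ → R :=
  oEq c d ξ (oDat a) (oB a) (oU a) (oW a) (oT a)

theorem o_map_bf {S : Type} [CommRing S] [Algebra ℂ S] (f : R →ₐ[ℂ] S) (n : ℕ) (a : Fin 5 → R)
    (s t : R) : f (bf n a s t) = bf n (fun i => f (a i)) (f s) (f t) := by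
  simp [bf, map_sum, apply_ite f]

theorem o_map_eqs {S : Type} [CommRing S] [Algebra ℂ S] (f : R →ₐ[ℂ] S) (c : Ten) (d : ℕ)
    (ξ : Fin 4 → R) (a : OK N → R) (j : OJ) :
    f (oEqs c d ξ a j) = oEqs c d (fun i => f (ξ i)) (fun i => f (a i)) j := by
  rcases j with ⟨i, j⟩ | i | ⟨μ, s, t⟩ | ⟨s, t⟩ | s | i | _ | i | _ | _
  · simp [oEqs, oEq, oDat, oB, dotProduct, apply_ite f]
  · simp [oEqs, oEq, oDat, Ten.al_dot, Ten.T]
  · simp [oEqs, oEq, oDat, Ten.q, Ten.T, o_map_bf]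
  · simp [oEqs, oEq, oDat, o_map_bf, map_ofNat]
  · simp [oEqs, oEq, oDat, oU, oF, o_map_bf, Fin.sum_univ_three]
  · simp [oEqs, oEq, oDat]
  · simp [oEqs, oEq, oDat, oW, oF, o_map_bf, Fin.sum_univ_three]
  · simp [oEqs, oEq, oDat, oT]
  · simp [oEqs, oEq, oDat, o_map_bf, map_ofNat]
  · simp [oEqs, oEq, oDat, o_map_bf]

theorem o_map_dual {S : Type} [CommRing S] [Algebra ℂ S] (f : R →ₐ[ℂ] S) (c : Ten)
    (b x y z : Fin 4 → R) (i j : Fin 3) :
    f (b ⬝ᵥ ![c.al x, c.al y, c.al z] j - if i = j then 1 else 0) =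
      (fun l => f (b l)) ⬝ᵥ ![c.al fun l => f (x l), c.al fun l => f (y l),
        c.al fun l => f (z l)] j - if i = j then 1 else 0 := by
  have key : ∀ x : Fin 4 → R, f (b ⬝ᵥ c.al x) = (fun l => f (b l)) ⬝ᵥ c.al fun l => f (x l) := by
    intro x
    rw [dotProduct_comm, c.al_dot, dotProduct_comm, c.al_dot, c.map_T]; rfl
  rw [map_sub, apply_ite f, map_one, map_zero]
  congr 1
  fin_cases j
  exacts [key x, key y, key z]

omit [Algebra ℂ R] in
theorem o_bf_mul (n : ℕ) (a : Fin 5 → R) (r s t : R) :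
    bf n a (r * s) (r * t) = r ^ n * bf n a s t := by
  simp only [bf, Finset.mul_sum]
  refine Finset.sum_congr rfl fun i _ => ?_
  split_ifs with h
  · obtain ⟨k, rfl⟩ := Nat.exists_eq_add_of_le h
    rw [Nat.add_sub_cancel_left]; ring
  · simp

end

theorem ell_of_eqs {N : ℕ} {c : Ten} {d : ℕ} {ξ : Fin 4 → ℂ} {a : OK N → ℂ}
    (h : ∀ j, oEqs c d ξ a j = 0) : c.Ell d ξ (oDat a) := by
  refine ⟨la_of_dual (B := oB a) fun i j => sub_eq_zero.1 (h (.inl (i, j))),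
    fun i => h (.inr (.inl i)), fun μ s t => sub_eq_zero.1 (h (.inr (.inr (.inl (μ, s, t))))),
    fun s t => sub_eq_zero.1 (h (.inr (.inr (.inr (.inl (s, t)))))), fun s t h1 h2 h3 => ?_,
    funext fun i => sub_eq_zero.1 (h (.inr (.inr (.inr (.inr (.inr (.inl i))))))), ?_, ?_,
    sub_eq_zero.1 (h (.inr (.inr (.inr (.inr (.inr (.inr (.inr (.inr (.inl ())))))))))),
    sub_eq_zero.1 (h (.inr (.inr (.inr (.inr (.inr (.inr (.inr (.inr (.inr ()))))))))))⟩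
  · have key : ∀ r s' t' : ℂ, r ≠ 0 → s = r * s' → t = r * t' → ∀ k, oF d (oDat a) s' t' k = 0 := by
      rintro r s' t' hr rfl rfl k
      rw [o_bf_mul] at h1 h2 h3
      fin_cases k
      · exact (mul_eq_zero.1 h1).resolve_left (pow_ne_zero _ hr)
      · exact (mul_eq_zero.1 h2).resolve_left (pow_ne_zero _ hr)
      · exact (mul_eq_zero.1 h3).resolve_left (pow_ne_zero _ hr)
    have ht : t = 0 := by
      by_contra ht
      have k1 := key t (s / t) 1 ht (by field_simp) (mul_one t).symm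
      have k2 := h (.inr (.inr (.inr (.inr (.inl (s / t))))))
      simp [oEqs, oEq, k1] at k2
    refine ⟨?_, ht⟩
    by_contra hs
    have k1 := key s 1 0 hs (mul_one s).symm (by rw [ht, mul_zero])
    have k2 := h (.inr (.inr (.inr (.inr (.inr (.inr (.inl ())))))))
    simp [oEqs, oEq, k1] at k2
  · have k2 := sub_eq_zero.1 (h (.inr (.inr (.inr (.inr (.inr (.inr (.inr (.inl 0)))))))))
    exact right_ne_zero_of_mul_eq_one k2
  · have k2 := sub_eq_zero.1 (h (.inr (.inr (.inr (.inr (.inr (.inr (.inr (.inl 1)))))))))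
    exact right_ne_zero_of_mul_eq_one k2

theorem o_bezout {F : Type} [Field F] [IsAlgClosed F] (p : Fin 3 → Polynomial F)
    (h : ∀ s : F, ∃ k, (p k).eval s ≠ 0) : ∃ u : Fin 3 → Polynomial F, ∑ k, u k * p k = 1 := by
  have : Ideal.span (range p) = ⊤ := by
    obtain ⟨g, hg⟩ := (IsPrincipalIdealRing.principal (Ideal.span (range p))).principal
    have hdvd : ∀ k, g ∣ p k := fun k => by
      have : p k ∈ Ideal.span (range p) := Ideal.subset_span ⟨k, rfl⟩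
      rw [hg] at this
      exact Ideal.mem_span_singleton.1 this
    have hroot : ∀ s, g.eval s ≠ 0 := fun s h0 => by
      obtain ⟨k, hk⟩ := h s
      obtain ⟨q, hq⟩ := hdvd k
      exact hk (by rw [hq, Polynomial.eval_mul, h0, zero_mul])
    have hdeg : g.degree = 0 := by
      by_contra h0
      obtain ⟨s, hs⟩ := IsAlgClosed.exists_root g h0
      exact hroot s hs
    rw [hg]
    exact Ideal.span_singleton_eq_top.2 (Polynomial.isUnit_iff_degree_eq_zero.2 hdeg)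
  exact Ideal.mem_span_range_iff_exists_fun.1 (this ▸ Submodule.mem_top)

theorem eqs_of_ell {F : Type} [Field F] [Algebra ℂ F] [IsAlgClosed F] {c : Ten} {d : ℕ}
    {ξ : Fin 4 → F} {D : EllDat F} (h : c.Ell d ξ D) :
    ∃ (N : ℕ) (a : OK N → F), oDat a = D ∧ ∀ j, oEqs c d ξ a j = 0 := by
  obtain ⟨B, hB⟩ := la_dual h.ind
  have hne : ∀ s t : F, ¬ (s = 0 ∧ t = 0) → ∃ k, oF d D s t k ≠ 0 := by
    intro s t hst
    by_contra hcon
    push Not at hcon
    exact hst (h.nocom s t (hcon 0) (hcon 1) (hcon 2))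
  let D' : EllDat (Polynomial F) := (fun i j => Polynomial.C (D.1 i j),
    fun i j => Polynomial.C (D.2.1 i j), fun i => Polynomial.C (D.2.2 i))
  have hev : ∀ (s : F) k, (oF d D' Polynomial.X 1 k).eval s = oF d D s 1 k := by
    intro s k
    fin_cases k <;> simp [oF, D', bf, Polynomial.eval_finsetSum, apply_ite (Polynomial.eval s)]
  obtain ⟨u, hu⟩ := o_bezout (oF d D' Polynomial.X 1) fun s => by
    simpa only [hev] using hne s 1 (by simp)
  obtain ⟨k₀, hk₀⟩ := hne 1 0 (by simp)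
  set N := (Finset.univ.sup fun k => (u k).natDegree) + 1
  refine ⟨N, oPack D B (fun k j => (u k).coeff j) (Pi.single k₀ (oF d D 1 0 k₀)⁻¹)
    ![(D.2.2 2)⁻¹, (D.2.2 3)⁻¹], rfl, fun j => ?_⟩
  change oEq c d ξ D B (fun k (j : Fin N) => (u k).coeff j) (Pi.single k₀ (oF d D 1 0 k₀)⁻¹)
    ![(D.2.2 2)⁻¹, (D.2.2 3)⁻¹] j = 0
  rcases j with ⟨i, j⟩ | i | ⟨μ, s, t⟩ | ⟨s, t⟩ | s | i | _ | i | _ | _
  · exact sub_eq_zero.2 (hB i j)
  · exact h.tan i
  · exact sub_eq_zero.2 (h.sec _ _ _)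
  · exact sub_eq_zero.2 (h.disc _ _)
  · refine sub_eq_zero.2 ?_
    have := congrArg (Polynomial.eval (algebraMap ℂ F s)) hu
    rw [Polynomial.eval_finsetSum, Polynomial.eval_one] at this
    refine Eq.trans (Finset.sum_congr rfl fun k _ => ?_) this
    rw [Polynomial.eval_mul, hev, Polynomial.eval_eq_sum_range' (n := N) (Nat.lt_succ_of_le
      (Finset.le_sup (f := fun k => (u k).natDegree) (Finset.mem_univ k))), Finset.sum_range]
  · exact sub_eq_zero.2 (congrFun h.pt i)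
  · refine sub_eq_zero.2 ?_
    rw [Finset.sum_eq_single k₀]
    · rw [Pi.single_eq_same, inv_mul_cancel₀ hk₀]
    · intro k _ hk; rw [Pi.single_eq_of_ne hk, zero_mul]
    · simp
  · refine sub_eq_zero.2 ?_
    fin_cases i
    · exact inv_mul_cancel₀ h.t_ne
    · exact inv_mul_cancel₀ h.y_ne
  · exact sub_eq_zero.2 h.y_eq
  · exact sub_eq_zero.2 h.y_sq

theorem o_diff {N : ℕ} {α : V → OK N → ℂ} {O : Set V} (h : DifferentiableOn ℂ α O) :
    DifferentiableOn ℂ (fun ξ => oDat (α ξ)) O := by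
  have h' := differentiableOn_pi.1 h
  exact (differentiableOn_pi.2 fun i => differentiableOn_pi.2 fun j => h' _).prodMk
    ((differentiableOn_pi.2 fun i => differentiableOn_pi.2 fun j => h' _).prodMk
      (differentiableOn_pi.2 fun i => h' _))

/-- **OUT**: local holomorphic elliptic data off a hypersurface section. -/
theorem Ten.out {c : Ten} (hc : c.Sm) (hp : Prime (c.poly ℂ)) :
    ∃ r : MvPolynomial (Fin 4) ℂ, ¬ c.poly ℂ ∣ r ∧ ∃ d : Fin 2 → ℕ, (∀ i, d i ≤ 1) ∧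
      ∀ x : V, c.q x = 0 → MvPolynomial.eval x r ≠ 0 → ∃ (O : Set V) (D : Fin 2 → V → EllDat ℂ),
        IsOpen O ∧ x ∈ O ∧ (∀ i, DifferentiableOn ℂ (D i) O) ∧
        (∀ i, ∀ ξ ∈ O, c.q ξ = 0 → c.Ell (d i) ξ (D i ξ)) ∧
        LinearIndependent ℂ ![c.al x, c.al ((D 0 x).1 0), c.al ((D 1 x).1 0)] := by
  obtain ⟨F, _, _, _, η, x, u, w, δ, hq, hi, hs, h1, he, hδ, hal, h2⟩ := Ten.core hc
  have H : ∀ i, ∃ d ≤ 1, ∃ (N : ℕ) (a : OK N → F), (oDat a).1 0 = x i ∧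
      ∀ j, oEqs c d η a j = 0 := by
    intro i
    obtain ⟨e, he⟩ := he i
    obtain ⟨d, hd, D, hD, hE⟩ := Ten.ell_of_spec hc (hi i) (hs i) hq (h1 i) (h2 i) he
      fun v hv => Ten.no_line hc δ hδ hv
    obtain ⟨N, a, rfl, ha⟩ := eqs_of_ell hE
    exact ⟨d, hd, N, a, hD, ha⟩
  choose d hd N a hx ha using H
  obtain ⟨B, hB⟩ := la_dual hal
  have hηQ : MvPolynomial.aeval η (c.poly ℂ) = 0 := by rw [c.aeval_poly, hq]
  obtain ⟨r, hr, hh⟩ := spec (V := {p | c.q p = 0}) η (fun P hP p hp0 => by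
      obtain ⟨G, rfl⟩ := generic_of_der hp hηQ δ hδ P hP
      rw [map_mul, c.eval_poly, show c.q p = 0 from hp0, zero_mul])
    (ι := OK (N 0) ⊕ OK (N 1) ⊕ (Fin 3 × Fin 4))
    (Sum.elim (a 0) (Sum.elim (a 1) fun y => B y.1 y.2))
  refine ⟨r, ?_, d, hd, fun p hp0 hpr => ?_⟩
  · rintro ⟨G, rfl⟩
    exact hr (by rw [map_mul, hηQ, zero_mul])
  obtain ⟨O, hO, hpO, α, hα, hP⟩ := hh p hp0 hpr
  have hα' := differentiableOn_pi.1 hα.differentiableOn
  refine ⟨O, ![fun ξ => oDat fun k => α ξ (.inl k), fun ξ => oDat fun k => α ξ (.inr (.inl k))],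
    hO, hpO, fun i => ?_, fun i ξ hξ hξq => ?_, ?_⟩
  · fin_cases i
    · exact o_diff (differentiableOn_pi.2 fun k => hα' (.inl k))
    · exact o_diff (differentiableOn_pi.2 fun k => hα' (.inr (.inl k)))
  · fin_cases i
    · refine ell_of_eqs (d := d 0) (a := fun k => α ξ (.inl k)) fun j => ?_
      have := hP (oEqs c (d 0) (fun i => MvPolynomial.X (.inl i))
        (fun k => MvPolynomial.X (.inr (.inl k))) j) (by
          rw [o_map_eqs]; simpa using ha 0 j) ξ hξ hξq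
      rw [← MvPolynomial.coe_aeval_eq_eval] at this
      have e := o_map_eqs (MvPolynomial.aeval (R := ℂ) (Sum.elim ξ (α ξ))) c (d 0)
        (fun i => MvPolynomial.X (.inl i)) (fun k => MvPolynomial.X (.inr (.inl k))) j
      simp only [MvPolynomial.aeval_X, Sum.elim_inl, Sum.elim_inr] at e
      exact e.symm.trans this
    · refine ell_of_eqs (d := d 1) (a := fun k => α ξ (.inr (.inl k))) fun j => ?_
      have := hP (oEqs c (d 1) (fun i => MvPolynomial.X (.inl i))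
        (fun k => MvPolynomial.X (.inr (.inr (.inl k)))) j) (by
          rw [o_map_eqs]; simpa using ha 1 j) ξ hξ hξq
      rw [← MvPolynomial.coe_aeval_eq_eval] at this
      have e := o_map_eqs (MvPolynomial.aeval (R := ℂ) (Sum.elim ξ (α ξ))) c (d 1)
        (fun i => MvPolynomial.X (.inl i)) (fun k => MvPolynomial.X (.inr (.inr (.inl k)))) j
      simp only [MvPolynomial.aeval_X, Sum.elim_inl, Sum.elim_inr] at e
      exact e.symm.trans this
  · refine la_of_dual (B := fun i j => α p (.inr (.inr (i, j)))) fun i j => ?_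
    have := hP _ ((o_map_dual _ c (fun l => MvPolynomial.X (.inr (.inr (.inr (i, l)))))
      (fun l => MvPolynomial.X (.inl l)) (fun l => MvPolynomial.X (.inr (.inl (.inl (0, l)))))
      (fun l => MvPolynomial.X (.inr (.inr (.inl (.inl (0, l)))))) i j).trans (by
        have := hB i j
        rw [← hx 0, ← hx 1] at this
        simp only [MvPolynomial.aeval_X, Sum.elim_inl, Sum.elim_inr]
        exact sub_eq_zero.2 this)) p hpO hp0
    rw [← MvPolynomial.coe_aeval_eq_eval] at this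
    have e := (o_map_dual (MvPolynomial.aeval (R := ℂ) (Sum.elim p (α p))) c _ _ _ _ i j).symm.trans
      this
    simp only [MvPolynomial.aeval_X, Sum.elim_inl, Sum.elim_inr] at e
    exact sub_eq_zero.1 e

theorem XTube.tangent {c : Ten} {x v : V} (hx : c.q x = 0) (h : XTube (c.poly ℂ) x v) :
    c.al x ⬝ᵥ v = 0 := by
  obtain ⟨O, φ, -, hxO, -, h1, h2⟩ := h
  obtain ⟨h3, h4⟩ := h1 x hxO (by rw [c.eval_poly, hx])
  have h5 := (hasFDerivAt_mv (c.poly ℂ) (φ x 0)).comp_hasDerivAt 0 h2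
  have h6 : ((fun y : Fin 4 → ℂ => MvPolynomial.eval y (c.poly ℂ)) ∘ φ x) = fun _ => 0 :=
    funext fun τ => (h4 τ).1
  rw [h6] at h5
  have h7 := h5.unique (hasDerivAt_const 0 0)
  rw [h3] at h7
  simp only [_root_.sum_apply, _root_.smul_apply,
    ContinuousLinearMap.proj_apply, c.eval_pderiv_poly, smul_eq_mul, mul_assoc,
    ← Finset.mul_sum] at h7
  exact (mul_eq_zero.1 h7).resolve_left (by norm_num)

/-- `gen_tubes` from the flow theorem. -/
theorem gen_tubes_of_flow {Q : MvPolynomial (Fin 4) ℂ} (hQ : SmoothQ Q)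
    (flow : ∀ (c : Ten), c.Sm → ∀ d ≤ 1, ∀ (O : Set V) (ξ₀ : V) (D : V → EllDat ℂ), IsOpen O →
      ξ₀ ∈ O → ξ₀ ≠ 0 → c.q ξ₀ = 0 → DifferentiableOn ℂ D O →
      (∀ ξ ∈ O, c.q ξ = 0 → c.Ell d ξ (D ξ)) →
      ∃ v, XTube (c.poly ℂ) ξ₀ v ∧ c.al ((D ξ₀).1 0) ⬝ᵥ v = 0 ∧ ∀ a : ℂ, v ≠ a • ξ₀) :
    ∃ r : MvPolynomial (Fin 4) ℂ, ¬ Q ∣ r ∧ ∀ x : V, x ≠ 0 → MvPolynomial.eval x Q = 0 →
      MvPolynomial.eval x r ≠ 0 →
      ∃ v₁ v₂ : V, LinearIndependent ℂ ![x, v₁, v₂] ∧ XTube Q x v₁ ∧ XTube Q x v₂ := by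
  obtain ⟨c, rfl, hc⟩ := exists_ten hQ
  obtain ⟨r, hr, d, hd, h⟩ := Ten.out hc hQ.prime
  refine ⟨r, hr, fun x hx0 hx hxr => ?_⟩
  rw [c.eval_poly] at hx
  obtain ⟨O, D, hO, hxO, dD, hE, hind⟩ := h x hx hxr
  obtain ⟨v₁, t1, a1, n1⟩ := flow c hc _ (hd 0) O x (D 0) hO hxO hx0 hx (dD 0) (hE 0)
  obtain ⟨v₂, t2, a2, n2⟩ := flow c hc _ (hd 1) O x (D 1) hO hxO hx0 hx (dD 1) (hE 1)
  have hpt : ∀ i, c.al ((D i x).1 0) ⬝ᵥ x = 0 := fun i => by
    have e := hE i x hxO hx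
    have := congrArg (fun z => c.al ((D i x).1 0) ⬝ᵥ z) e.pt
    simpa only [dotProduct_add, dotProduct_smul, e.tan, smul_zero, add_zero] using this
  refine ⟨v₁, v₂, la_ind3 (la_ind2 hx0 n1) fun a b hab => ?_, t1, t2⟩
  obtain ⟨e, he⟩ := la31 hind hx0 (by rw [c.al_dot_self, hx]) (hpt 0) (hpt 1) (t2.tangent hx)
    (by rw [hab, dotProduct_add, dotProduct_smul, dotProduct_smul, hpt, a1]; simp) a2
  exact n2 e he

end Crest.Agent.R279
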