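import Crest.Agent.R279.Defs

/-!
# Row 279, step (4), algebra: the symmetric `4`-linear form of a quartic and the output data
-/

set_option autoImplicit false

namespace Crest.Agent.R279

open Matrix

/-- a symmetric coefficient tensor. -/
structure Ten where
  c : Fin 4 → Fin 4 → Fin 4 → Fin 4 → ℂ
  s1 : ∀ i j k l, c i j k l = c j i k l
  s2 : ∀ i j k l, c i j k l = c i k j l
  s3 : ∀ i j k l, c i j k l = c i j l k

/-- binary form of degree `n ≤ 4` with coefficients `a`. -/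
def bf {R : Type} [CommRing R] (n : ℕ) (a : Fin 5 → R) (s t : R) : R :=
  ∑ i : Fin 5, if (i : ℕ) ≤ n then a i * s ^ (n - i) * t ^ (i : ℕ) else 0

/-- vectors `x, u, w`; forms `a₂, a₃, a₄, D₄`; scalars `μ₀, s₀, t₀, y₀`. -/
abbrev EllDat (R : Type) : Type := (Fin 3 → Fin 4 → R) × (Fin 4 → Fin 5 → R) × (Fin 4 → R)

namespace Ten

section ring
variable (c : Ten) {R : Type} [CommRing R] [Algebra ℂ R]

/-- the `4`-linear form. -/
def T (a b d e : Fin 4 → R) : R :=
  ∑ i, ∑ j, ∑ k, ∑ l, algebraMap ℂ R (c.c i j k l) * a i * b j * d k * e l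

/-- the quartic. -/
def q (x : Fin 4 → R) : R := c.T x x x x

/-- a quarter of the gradient of the quartic. -/
def al (x : Fin 4 → R) : Fin 4 → R := fun l => c.T x x x (Pi.single l 1)

theorem sw1 (a b d e : Fin 4 → R) : c.T a b d e = c.T b a d e := by
  unfold T
  rw [Finset.sum_comm]
  refine Finset.sum_congr rfl fun i _ => Finset.sum_congr rfl fun j _ =>
    Finset.sum_congr rfl fun k _ => Finset.sum_congr rfl fun l _ => ?_
  rw [c.s1 j i]; ring

theorem sw2 (a b d e : Fin 4 → R) : c.T a b d e = c.T a d b e := by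
  unfold T
  refine Finset.sum_congr rfl fun i _ => ?_
  rw [Finset.sum_comm]
  refine Finset.sum_congr rfl fun j _ =>
    Finset.sum_congr rfl fun k _ => Finset.sum_congr rfl fun l _ => ?_
  rw [c.s2 i k]; ring

theorem sw3 (a b d e : Fin 4 → R) : c.T a b d e = c.T a b e d := by
  unfold T
  refine Finset.sum_congr rfl fun i _ => Finset.sum_congr rfl fun j _ => ?_
  rw [Finset.sum_comm]
  refine Finset.sum_congr rfl fun k _ => Finset.sum_congr rfl fun l _ => ?_
  rw [c.s3 i j l]; ring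

theorem add4 (a b d e e' : Fin 4 → R) : c.T a b d (e + e') = c.T a b d e + c.T a b d e' := by
  simp only [T, Pi.add_apply, mul_add, Finset.sum_add_distrib]

theorem smul4 (a b d e : Fin 4 → R) (r : R) : c.T a b d (r • e) = r * c.T a b d e := by
  simp only [T, Pi.smul_apply, smul_eq_mul, Finset.mul_sum]
  refine Finset.sum_congr rfl fun i _ => Finset.sum_congr rfl fun j _ =>
    Finset.sum_congr rfl fun k _ => Finset.sum_congr rfl fun l _ => ?_
  ring

theorem add3 (a b d d' e : Fin 4 → R) : c.T a b (d + d') e = c.T a b d e + c.T a b d' e := by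
  rw [c.sw3, add4, c.sw3 a b e, c.sw3 a b e]

theorem smul3 (a b d e : Fin 4 → R) (r : R) : c.T a b (r • d) e = r * c.T a b d e := by
  rw [c.sw3, smul4, c.sw3]

theorem add2 (a b b' d e : Fin 4 → R) : c.T a (b + b') d e = c.T a b d e + c.T a b' d e := by
  rw [c.sw2, add3, c.sw2 a d b, c.sw2 a d b']

theorem smul2 (a b d e : Fin 4 → R) (r : R) : c.T a (r • b) d e = r * c.T a b d e := by
  rw [c.sw2, smul3, c.sw2]

theorem add1 (a a' b d e : Fin 4 → R) : c.T (a + a') b d e = c.T a b d e + c.T a' b d e := by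
  rw [c.sw1, add2, c.sw1 b a, c.sw1 b a']

theorem smul1 (a b d e : Fin 4 → R) (r : R) : c.T (r • a) b d e = r * c.T a b d e := by
  rw [c.sw1, smul2, c.sw1]

theorem zero4 (a b d : Fin 4 → R) : c.T a b d 0 = 0 := by simp [T]

theorem al_dot (x w : Fin 4 → R) : c.al x ⬝ᵥ w = c.T x x x w := by
  have h : w = ∑ l, w l • (Pi.single l 1 : Fin 4 → R) := by
    funext i; simp [Finset.sum_apply, Pi.single_apply]
  conv_rhs => rw [h]
  simp only [Fin.sum_univ_four, add4, smul4, dotProduct, al]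
  ring

theorem al_dot_self (x : Fin 4 → R) : c.al x ⬝ᵥ x = c.q x := c.al_dot x x

theorem al_smul (r : R) (x : Fin 4 → R) : c.al (r • x) = r ^ 3 • c.al x := by
  funext l; simp only [al, smul1, smul2, smul3, Pi.smul_apply, smul_eq_mul]; ring

theorem q_smul (r : R) (x : Fin 4 → R) : c.q (r • x) = r ^ 4 * c.q x := by
  simp only [q, smul1, smul2, smul3, smul4]; ring

/-- binomial expansion. -/
theorem q_add (x v : Fin 4 → R) (a b : R) : c.q (a • x + b • v) =
    a ^ 4 * c.q x + 4 * a ^ 3 * b * c.T x x x v + 6 * a ^ 2 * b ^ 2 * c.T x x v v +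
      4 * a * b ^ 3 * c.T x v v v + b ^ 4 * c.q v := by
  simp only [q, add1, add2, add3, add4, smul1, smul2, smul3, smul4]
  rw [c.sw3 x x v x, c.sw2 x v x x, c.sw3 x x v x, c.sw1 v x x x, c.sw2 x v x x, c.sw3 x x v x,
    c.sw2 x v x v, c.sw3 x v v x, c.sw2 x v x v, c.sw1 v x x v, c.sw2 x v x v, c.sw1 v x v x,
    c.sw3 x v v x, c.sw2 x v x v, c.sw2 v v x x, c.sw1 v x v x, c.sw3 x v v x, c.sw2 x v x v,
    c.sw1 v x v v, c.sw2 v v x v, c.sw1 v x v v, c.sw3 v v v x, c.sw2 v v x v, c.sw1 v x v v]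
  ring

theorem map_T {S : Type} [CommRing S] [Algebra ℂ S] (f : R →ₐ[ℂ] S) (a b d e : Fin 4 → R) :
    f (c.T a b d e) = c.T (f ∘ a) (f ∘ b) (f ∘ d) (f ∘ e) := by
  simp [T, map_sum]

theorem map_q {S : Type} [CommRing S] [Algebra ℂ S] (f : R →ₐ[ℂ] S) (x : Fin 4 → R) :
    f (c.q x) = c.q (f ∘ x) := c.map_T f x x x x

theorem map_al {S : Type} [CommRing S] [Algebra ℂ S] (f : R →ₐ[ℂ] S) (x : Fin 4 → R) :
    f ∘ c.al x = c.al (f ∘ x) := by
  funext l
  have : (f ∘ (Pi.single l 1 : Fin 4 → R)) = Pi.single l 1 := by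
    funext i; by_cases h : i = l <;> simp [Pi.single_apply, h]
  simp only [Function.comp_apply, al, map_T, this]

/-- Leibniz rule. -/
theorem der_T (δ : Derivation ℂ R R) (a b d e : Fin 4 → R) : δ (c.T a b d e) =
    c.T (δ ∘ a) b d e + c.T a (δ ∘ b) d e + c.T a b (δ ∘ d) e + c.T a b d (δ ∘ e) := by
  simp only [T, map_sum, ← Finset.sum_add_distrib]
  refine Finset.sum_congr rfl fun i _ => Finset.sum_congr rfl fun j _ =>
    Finset.sum_congr rfl fun k _ => Finset.sum_congr rfl fun l _ => ?_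
  simp only [Derivation.leibniz, Derivation.map_algebraMap, smul_eq_mul, Function.comp_apply]
  ring

/-- `x, u, w` lie in the tangent space at `x` and `t²` divides the discriminant
`D(s, t) = q₃² - 4 q₂ q₄` of `μ ↦ q (μ x + s u + t w)`. -/
structure Spec (x u w : Fin 4 → R) : Prop where
  qx : c.q x = 0
  tu : c.T x x x u = 0
  tw : c.T x x x w = 0
  dbl : ∃ D : Fin 5 → R, ∀ s t : R,
    (4 * c.T x (s • u + t • w) (s • u + t • w) (s • u + t • w)) ^ 2 -
      4 * (6 * c.T x x (s • u + t • w) (s • u + t • w)) * c.q (s • u + t • w) =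
      t ^ 2 * bf 4 D s t

end ring

/-- the quartic as a polynomial. -/
noncomputable def poly (c : Ten) (k : Type) [CommRing k] [Algebra ℂ k] :
    MvPolynomial (Fin 4) k := c.q fun i => MvPolynomial.X i

/-- smoothness (over every field). -/
def Sm (c : Ten) : Prop :=
  ∀ (F : Type) [Field F] [Algebra ℂ F] (x : Fin 4 → F), x ≠ 0 → c.al x ≠ 0

/-- genus `≤ 1` plane section through `ξ` (`d = 1`: second double point; `d = 0`: a line splits
off).  `D.1 = (x, u, w)`, `D.2.1 = (a₂, a₃, a₄, D₄)`, `D.2.2 = (μ₀, s₀, t₀, y₀)`. -/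
structure Ell (c : Ten) {F : Type} [Field F] [Algebra ℂ F] (d : ℕ) (ξ : Fin 4 → F)
    (D : EllDat F) : Prop where
  ind : LinearIndependent F D.1
  tan : ∀ i, c.al (D.1 0) ⬝ᵥ D.1 i = 0
  sec : ∀ μ s t : F, c.q (μ • D.1 0 + s • D.1 1 + t • D.1 2) = t ^ (1 - d) *
    (bf (1 + d) (D.2.1 0) s t * μ ^ 2 + bf (2 + d) (D.2.1 1) s t * μ + bf (3 + d) (D.2.1 2) s t)
  disc : ∀ s t : F, bf (2 + d) (D.2.1 1) s t ^ 2 -
    4 * bf (1 + d) (D.2.1 0) s t * bf (3 + d) (D.2.1 2) s t = (t ^ d) ^ 2 * bf 4 (D.2.1 3) s t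
  nocom : ∀ s t : F, bf (1 + d) (D.2.1 0) s t = 0 → bf (2 + d) (D.2.1 1) s t = 0 →
    bf (3 + d) (D.2.1 2) s t = 0 → s = 0 ∧ t = 0
  pt : ξ = D.2.2 0 • D.1 0 + D.2.2 1 • D.1 1 + D.2.2 2 • D.1 2
  t_ne : D.2.2 2 ≠ 0
  y_ne : D.2.2 3 ≠ 0
  y_eq : D.2.2 2 ^ d * D.2.2 3 = 2 * D.2.2 0 * bf (1 + d) (D.2.1 0) (D.2.2 1) (D.2.2 2) +
    bf (2 + d) (D.2.1 1) (D.2.2 1) (D.2.2 2)
  y_sq : D.2.2 3 ^ 2 = bf 4 (D.2.1 3) (D.2.2 1) (D.2.2 2)

end Ten

end Crest.Agent.R279
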