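import Crest.Agent.R279.Defs

/-! Row 279: elementary lemmas on the definitions -/

set_option autoImplicit false

namespace Crest.Agent.R279

open Set Metric Filter Topology

variable {E E' F : Type} [NormedAddCommGroup E] [NormedSpace ℂ E] [NormedAddCommGroup E']
  [NormedSpace ℂ E'] [NormedAddCommGroup F] [NormedSpace ℂ F] {M : Set W}

theorem SprayData.mono {P P' : Set E} {g : E → W} {T ρ C s₀ : ℝ} {N : ℕ}
    (h : SprayData M P g T ρ C s₀ N) (hP : P' ⊆ P) : SprayData M P' g T ρ C s₀ N := by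
  intro s h0 hs R hR A _ _ _ D p m₀ m₁ hD hp hm
  exact h s h0 hs R hR A D p m₀ m₁ hD hp (hm.mono_right hP)

/-- worse constants. -/
theorem SprayData.weaken {P : Set E} {g : E → W} {T ρ C s₀ ρ' C' s₀' : ℝ} {N N' : ℕ}
    (h : SprayData M P g T ρ C s₀ N) (hρ : ρ' ≤ ρ) (hC : C ≤ C') (hs : s₀' ≤ s₀) (hN : N ≤ N') :
    SprayData M P g T ρ' C' s₀' N' := by
  intro s h0 hs' R hR A _ _ _ D p m₀ m₁ hD hp hm h1 h2 h3 h4 h5 h6
  obtain ⟨ψ, hψ⟩ := h s h0 (hs'.trans hs) R hR A D p m₀ m₁ hD hp hm h1 h2 h3 h4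
    (fun a ha => (h5 a ha).trans_le hρ) h6
  exact ⟨ψ, hψ.hol, hψ.mem, hψ.start, hψ.link, fun i hi => hψ.stop i (hN.trans hi),
    fun i a ha τ hτ => (hψ.tame i a ha τ hτ).trans (mul_le_mul_of_nonneg_right hC h0.le)⟩

/-- pull-back along a holomorphic map and perturbation of `g`. -/
theorem SprayData.pull {P : Set E} {g : E → W} {T ρ C s₀ : ℝ} {N : ℕ}
    (h : SprayData M P g T ρ C s₀ N) {P' : Set E'} {φ : E' → E} {g' : E' → W} {d : ℝ}
    (hφ : DifferentiableOn ℂ φ P') (hm : MapsTo φ P' P) (hg : ∀ z ∈ P', ‖g' z - g (φ z)‖ ≤ d) :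
    SprayData M P' g' T (ρ - d) C s₀ N := by
  intro s h0 hs R hR A _ _ _ D p m₀ m₁ hD hp hm' h1 h2 h3 h4 h5 h6
  refine h s h0 hs R hR A D (fun a => φ (p a)) m₀ m₁ hD (hφ.comp hp hm') (hm.comp hm') h1 h2 h3 h4
    (fun a ha => ?_) h6
  have e1 := h5 a ha
  have e2 := hg _ (hm' ha)
  have e3 := norm_sub_le_norm_sub_add_norm_sub (m₀ a) (g' (p a)) (g (φ (p a)))
  linarith

theorem Spray.mono {K K' : Set E} {g : E → W} (h : Spray M K g) (hK : K' ⊆ K) : Spray M K' g := by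
  intro T hT
  obtain ⟨P, ρ, C, s₀, N, h1, h2, h3⟩ := h T hT
  exact ⟨P, ρ, C, s₀, N, h1, hK.trans h2, h3⟩

theorem Spray.empty (g : E → W) : Spray M (∅ : Set E) g := by
  intro T _
  refine ⟨∅, 1, 1, 1, 0, isOpen_empty, Subset.rfl, one_pos, one_pos, one_pos, ?_⟩
  intro s _ _ R _ A _ _ _ D p m₀ m₁ _ _ hm _ _ _ _ _ _
  have hD : D = ∅ := eq_empty_of_forall_notMem fun a ha => hm ha
  subst hD
  refine ⟨fun _ _ _ => 0, fun _ => ?_, fun _ _ h => h.elim, fun _ h => h.elim, fun _ _ h => h.elim,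
    fun _ _ _ h => h.elim, fun _ _ h => h.elim⟩
  exact differentiableOn_const _

/-- pull-back (take `P' = O ∩ φ ⁻¹' P`). -/
theorem Spray.pull {K : Set E} {g : E → W} (h : Spray M K g) {K' O : Set E'} {φ : E' → E}
    {g' : E' → W} (hO : IsOpen O) (hK : K' ⊆ O) (hφ : DifferentiableOn ℂ φ O) (hm : MapsTo φ K' K)
    (hg : ∀ z ∈ O, g' z = g (φ z)) : Spray M K' g' := by
  intro T hT
  obtain ⟨P, ρ, C, s₀, N, h1, h2, h3, h4, h5, h6⟩ := h T hT
  refine ⟨O ∩ φ ⁻¹' P, ρ, C, s₀, N, hφ.continuousOn.isOpen_inter_preimage hO h1,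
    fun z hz => ⟨hK hz, h2 (hm hz)⟩, h3, h4, h5, ?_⟩
  have := h6.pull (P' := O ∩ φ ⁻¹' P) (g' := g') (d := 0) (hφ.mono inter_subset_left)
    (fun z hz => hz.2) fun z hz => by rw [hg z hz.1, sub_self, norm_zero]
  rwa [sub_zero] at this

/-- passive parameters: for fixed `T` take `P' = {x ∈ Ω | x.1 ∈ P, (x.1, 0) ∈ Ω,
‖H x - H (x.1, 0)‖ < ρ / 2}` (open) and use `SprayData.pull`. -/
theorem Spray.passive {K : Set E} {Ω : Set (E × F)} {H : E × F → W} (hΩ : IsOpen Ω)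
    (hK : K ×ˢ {(0 : F)} ⊆ Ω) (hH : ContinuousOn H Ω) (h : Spray M K fun z => H (z, 0)) :
    Spray M (K ×ˢ {(0 : F)}) H := by
  intro T hT
  obtain ⟨P, ρ, C, s₀, N, h1, h2, h3, h4, h5, h6⟩ := h T hT
  have hq : Continuous fun x : E × F => ((x.1, 0) : E × F) := by fun_prop
  have hO : IsOpen ((Ω ∩ (fun x : E × F => ((x.1, 0) : E × F)) ⁻¹' Ω) ∩ Prod.fst ⁻¹' P) :=
    (hΩ.inter (hΩ.preimage hq)).inter (h1.preimage continuous_fst)
  have hc : ContinuousOn (fun x : E × F => ‖H x - H (x.1, 0)‖)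
      ((Ω ∩ (fun x : E × F => ((x.1, 0) : E × F)) ⁻¹' Ω) ∩ Prod.fst ⁻¹' P) :=
    ((hH.mono fun x hx => hx.1.1).sub (hH.comp hq.continuousOn fun x hx => hx.1.2)).norm
  refine ⟨_, ρ - ρ / 2, C, s₀, N, hc.isOpen_inter_preimage hO (isOpen_Iio (a := ρ / 2)), ?_,
    by linarith, h4, h5, h6.pull (φ := Prod.fst) differentiableOn_fst (fun x hx => hx.1.2)
      fun x hx => le_of_lt hx.2⟩
  rintro ⟨z, y⟩ ⟨hz, hy⟩
  obtain rfl : y = 0 := hy
  refine ⟨⟨⟨hK ⟨hz, rfl⟩, hK ⟨hz, rfl⟩⟩, h2 hz⟩, ?_⟩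
  show ‖H (z, 0) - H (z, 0)‖ < ρ / 2
  rw [sub_self, norm_zero]
  linarith

theorem PtSpray.spray {m : W} (h : PtSpray M m) (K : Set E) : Spray M K fun _ => m := by
  exact Spray.pull (φ := fun _ => (0 : ℂ)) h isOpen_univ (subset_univ K) (differentiableOn_const _)
    (mapsTo_univ _ _) fun _ _ => rfl

theorem Spray.pt {K : Set E} {g : E → W} (h : Spray M K g) {z : E} (hz : z ∈ K) :
    PtSpray M (g z) := by
  exact h.pull (φ := fun _ : ℂ => z) isOpen_univ Subset.rfl (differentiableOn_const _)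
    (fun _ _ => hz) fun _ _ => rfl

theorem Model.pull {P : Set E} {g : E → W} {π : E → W →L[ℂ] V} {e : E → V → W} {ρ C : ℝ}
    (h : Model M P g π e ρ C) {O : Set E'} {φ : E' → E} (hO : IsOpen O)
    (hφ : DifferentiableOn ℂ φ O) (hm : MapsTo φ O P) :
    Model M O (fun z => g (φ z)) (fun z => π (φ z)) (fun z => e (φ z)) ρ C := by

  refine ⟨hO, h.ρ_pos, h.one_le, h.holg.comp hφ hm, h.holπ.comp hφ hm, ?_,
    fun z hz => h.mem _ (hm hz), fun z hz => h.zero _ (hm hz), fun z hz => h.inv _ (hm hz),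
    fun z hz => h.lip _ (hm hz), fun z hz => h.bddπ _ (hm hz), fun z hz => h.bddg _ (hm hz),
    fun z hz => h.inj _ (hm hz)⟩
  have h1 : DifferentiableOn ℂ (fun x : E' × V => (φ x.1, x.2)) (O ×ˢ ball 0 ρ) :=
    (hφ.comp differentiableOn_fst fun x hx => hx.1).prodMk differentiableOn_snd
  exact DifferentiableOn.comp (g := fun x : E × V => e x.1 x.2) h.hole h1
    fun x hx => ⟨hm hx.1, hx.2⟩

theorem Model.shrink {P : Set E} {g : E → W} {π : E → W →L[ℂ] V} {e : E → V → W} {ρ ρ' C : ℝ}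
    (h : Model M P g π e ρ C) (h0 : 0 < ρ') (h1 : ρ' ≤ ρ) : Model M P g π e ρ' C := by

  have hb : ball (0 : V) ρ' ⊆ ball 0 ρ := ball_subset_ball h1
  exact ⟨h.op, h0, h.one_le, h.holg, h.holπ, DifferentiableOn.mono h.hole (prod_mono subset_rfl hb),
    fun z hz y hy => h.mem z hz y (hb hy), h.zero, fun z hz y hy => h.inv z hz y (hb hy),
    fun z hz y hy y' hy' => h.lip z hz y (hb hy) y' (hb hy'), h.bddπ, h.bddg,
    fun z hz m hm m' hm' a b => h.inj z hz m hm m' hm' (a.trans_le h1) (b.trans_le h1)⟩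

/-- a point of `M` close to `g z` is in the chart. -/
theorem Model.eq_e {P : Set E} {g : E → W} {π : E → W →L[ℂ] V} {e : E → V → W} {ρ C : ℝ}
    (h : Model M P g π e ρ C) {z : E} (hz : z ∈ P) {m : W} (hm : m ∈ M)
    (hd : C * C * ‖m - g z‖ < ρ) : e z (π z (m - g z)) = m := by

  have hC := h.one_le
  have hn := norm_nonneg (m - g z)
  have hy : ‖π z (m - g z)‖ ≤ C * ‖m - g z‖ :=
    ((π z).le_opNorm _).trans (mul_le_mul_of_nonneg_right (h.bddπ z hz) hn)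
  have hCn : 0 ≤ C * ‖m - g z‖ := mul_nonneg (by linarith) hn
  have h1 : C * ‖m - g z‖ ≤ C * C * ‖m - g z‖ := by nlinarith
  have h2 : ‖m - g z‖ ≤ C * ‖m - g z‖ := by nlinarith
  have hyb : π z (m - g z) ∈ ball (0 : V) ρ := by
    rw [mem_ball_zero_iff]; linarith
  have h0 : (0 : V) ∈ ball (0 : V) ρ := mem_ball_self h.ρ_pos
  have h3 := h.lip z hz _ hyb 0 h0
  rw [h.zero z hz, sub_zero] at h3
  have h4 : C * ‖π z (m - g z)‖ ≤ C * C * ‖m - g z‖ := by
    rw [mul_assoc]; exact mul_le_mul_of_nonneg_left hy (by linarith)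
  refine h.inj z hz _ (h.mem z hz _ hyb) m hm (by linarith) (by linarith) ?_
  have h5 := h.inv z hz _ hyb
  have h6 : π z (e z (π z (m - g z))) - π z (g z) = π z m - π z (g z) := by
    rw [← map_sub, h5, map_sub]
  exact sub_left_injective h6

/-- Cauchy estimate in the base variable (`‖e z y‖ ≤ C + C * ρ`, `R264.SCV.norm_sub_le`). -/
theorem Model.lip_base {P : Set E} {g : E → W} {π : E → W →L[ℂ] V} {e : E → V → W} {ρ C : ℝ}
    (h : Model M P g π e ρ C) {z z' : E} {r : ℝ} (hz : ball z r ⊆ P) (hz' : z' ∈ ball z r)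
    {y : V} (hy : y ∈ ball (0 : V) ρ) :
    ‖e z' y - e z y‖ ≤ 2 * (C + C * ρ) / r * ‖z' - z‖ := by

  have hd : DifferentiableOn ℂ (fun w => e w y) (ball z r) := by
    have h1 : DifferentiableOn ℂ (fun w : E => (w, y)) (ball z r) :=
      differentiableOn_id.prodMk (differentiableOn_const _)
    exact DifferentiableOn.comp (g := fun x : E × V => e x.1 x.2) h.hole h1
      fun x hx => ⟨hz hx, hy⟩
  refine R264.SCV.norm_sub_le hd (fun w hw => ?_) hz'
  have h0 : (0 : V) ∈ ball (0 : V) ρ := mem_ball_self h.ρ_pos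
  have h3 := h.lip w (hz hw) _ hy 0 h0
  rw [h.zero w (hz hw), sub_zero] at h3
  have h4 := h.bddg w (hz hw)
  have h5 : ‖y‖ < ρ := mem_ball_zero_iff.1 hy
  have h6 : C * ‖y‖ ≤ C * ρ := mul_le_mul_of_nonneg_left h5.le (by linarith [h.one_le])
  have h7 : ‖e w y‖ ≤ ‖e w y - g w‖ + ‖g w‖ := norm_le_norm_sub_add _ _
  linarith

theorem HolF.mono {G : Type} [NormedAddCommGroup G] [NormedSpace ℂ G] {Ψ : E → F → G}
    {P P' : Set E} {ρ ρ' : ℝ} (h : HolF Ψ P ρ) (hP : P' ⊆ P) (hρ : ρ' ≤ ρ) : HolF Ψ P' ρ' := by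

  exact DifferentiableOn.mono h (prod_mono hP (ball_subset_ball hρ))

/-- substitution in both variables. -/
theorem HolF.comp {G : Type} [NormedAddCommGroup G] [NormedSpace ℂ G] {Ψ : E → F → G}
    {P : Set E} {ρ : ℝ} (h : HolF Ψ P ρ) {D : Set E'} {p : E' → E} {y : E' → F}
    (hp : DifferentiableOn ℂ p D) (hy : DifferentiableOn ℂ y D) (hpm : MapsTo p D P)
    (hym : ∀ a ∈ D, ‖y a‖ < ρ) : DifferentiableOn ℂ (fun a => Ψ (p a) (y a)) D := by

  exact DifferentiableOn.comp (g := fun x : E × F => Ψ x.1 x.2) h (hp.prodMk hy)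
    fun a ha => ⟨hpm ha, mem_ball_zero_iff.2 (hym a ha)⟩

/-- gluing of compatible holomorphic families on open pieces. -/
theorem HolF.glue {G J : Type} [NormedAddCommGroup G] [NormedSpace ℂ G] [Inhabited G]
    {U : J → Set E} {f : J → E → F → G} {ρ : ℝ} (hU : ∀ j, IsOpen (U j))
    (hf : ∀ j, HolF (f j) (U j) ρ)
    (hc : ∀ j k, ∀ z ∈ U j, z ∈ U k → ∀ y ∈ ball (0 : F) ρ, f j z y = f k z y) :
    ∃ g : E → F → G, HolF g (⋃ j, U j) ρ ∧
      ∀ j, ∀ z ∈ U j, ∀ y ∈ ball (0 : F) ρ, g z y = f j z y := by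

  classical
  let g : E → F → G := fun z y => if hz : ∃ j, z ∈ U j then f hz.choose z y else default
  have hg : ∀ j, ∀ z ∈ U j, ∀ y ∈ ball (0 : F) ρ, g z y = f j z y := by
    intro j z hz y hy
    have hz' : ∃ j, z ∈ U j := ⟨j, hz⟩
    simp only [g, dif_pos hz']
    exact hc _ _ z hz'.choose_spec hz y hy
  refine ⟨g, ?_, hg⟩
  rintro x ⟨hx1, hx2⟩
  obtain ⟨j, hj⟩ := mem_iUnion.1 hx1
  have ho : IsOpen (U j ×ˢ ball (0 : F) ρ) := (hU j).prod isOpen_ball
  have hx : x ∈ U j ×ˢ ball (0 : F) ρ := ⟨hj, hx2⟩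
  have h1 : DifferentiableAt ℂ (fun x : E × F => f j x.1 x.2) x :=
    (hf j).differentiableAt (ho.mem_nhds hx)
  refine (h1.congr_of_eventuallyEq ?_).differentiableWithinAt
  filter_upwards [ho.mem_nhds hx] with w hw
  exact hg j w.1 hw.1 w.2 hw.2

theorem Split.mono {A B A' B' : Set E} {h a b : E → V → V} {δ κ δ' κ' : ℝ}
    (H : Split A B h δ κ a b) (hA : A' ⊆ A) (hB : B' ⊆ B) (hδ : δ' ≤ δ) (hκ : κ ≤ κ') :
    Split A' B' h δ' κ' a b := by

  have hb : ball (0 : V) δ' ⊆ ball 0 δ := ball_subset_ball hδ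
  exact ⟨H.hola.mono hA hδ, H.holb.mono hB hδ,
    fun z hz y hy => (H.bda z (hA hz) y (hb hy)).trans hκ,
    fun z hz y hy => (H.bdb z (hB hz) y (hb hy)).trans hκ,
    fun z hz hz' y hy => H.eq z (hA hz) (hB hz') y (hb hy)⟩

theorem Sec.mono {J : Type} {C : J → Set E} {Ψ : J → E → V → W} {U U' : Set E} {δ ε δ' ε' : ℝ}
    {α : J → E → V → V} (h : Sec C Ψ U δ ε α) (hU' : IsOpen U') (hU : U' ⊆ U) (hδ : δ' ≤ δ)
    (hε : ε ≤ ε') : Sec C Ψ U' δ' ε' α := by

  have hb : ball (0 : V) δ' ⊆ ball 0 δ := ball_subset_ball hδ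
  exact ⟨hU', hU.trans h.cov, fun j => (h.hol j).mono (inter_subset_inter_left _ hU) hδ,
    fun j z hz hz' y hy => (h.near j z (hU hz) hz' y (hb hy)).trans hε,
    fun j k z hz hj hk y hy => h.compat j k z (hU hz) hj hk y (hb hy)⟩

theorem SP.equiv {K : Set E} (h : SP M K) (e : E' ≃L[ℂ] E) (c : E) :
    SP M ((fun z => e z + c) ⁻¹' K) := by
  intro U g hU hK hg hm
  have hψ : Differentiable ℂ fun w : E => e.symm (w - c) := by fun_prop
  have h1 := h ((fun w => e.symm (w - c)) ⁻¹' U) (fun w => g (e.symm (w - c)))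
    (hU.preimage hψ.continuous) (fun w hw => hK (by simpa using hw))
    (hg.comp hψ.differentiableOn fun w hw => hw) fun w hw => hm hw
  exact h1.pull (φ := fun z => e z + c) isOpen_univ (subset_univ _) (by fun_prop)
    (fun z hz => hz) fun z _ => by simp

theorem CAP.equiv {K : Set E} (h : CAP M K) (e : E' ≃L[ℂ] E) (c : E) :
    CAP M ((fun z => e z + c) ⁻¹' K) := by
  intro U g hU hK hg hm ε hε
  have hψ : Differentiable ℂ fun w : E => e.symm (w - c) := by fun_prop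
  obtain ⟨f, hf, hfM, hfK⟩ := h ((fun w => e.symm (w - c)) ⁻¹' U) (fun w => g (e.symm (w - c)))
    (hU.preimage hψ.continuous) (fun w hw => hK (by simpa using hw))
    (hg.comp hψ.differentiableOn fun w hw => hw) (fun w hw => hm hw) ε hε
  refine ⟨fun z => f (e z + c), by fun_prop, fun z => hfM _, fun z hz => ?_⟩
  simpa using hfK _ hz

theorem isCompact_polyC {ι : Type} [Fintype ι] (r : ι → ℝ) : IsCompact (polyC r) := by
  have h : polyC r = Set.pi univ fun i => closedBall (0 : ℂ) (r i) := by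
    ext z
    simp [polyC]
  rw [h]
  exact isCompact_univ_pi fun i => isCompact_closedBall _ _

theorem convex_polyC {ι : Type} (r : ι → ℝ) : Convex ℝ (polyC r) := by
  have h : polyC r = Set.pi univ fun i => closedBall (0 : ℂ) (r i) := by
    ext z
    simp [polyC]
  rw [h]
  exact convex_pi fun i _ => convex_closedBall _ _

end Crest.Agent.R279
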