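import Crest.Agent.R279.Basic

/-! Row 279, block C: abstract polydiscs, approximation from `K` to `K'` -/

set_option autoImplicit false

namespace Crest.Agent.R279

open Set Metric Filter Topology

variable {E E' F F' G : Type} [NormedAddCommGroup E] [NormedSpace ℂ E] [NormedAddCommGroup E']
  [NormedSpace ℂ E'] [NormedAddCommGroup F] [NormedSpace ℂ F] [NormedAddCommGroup F']
  [NormedSpace ℂ F'] [NormedAddCommGroup G] [NormedSpace ℂ G] {M : Set W}

/-- `B` is a closed polydisc in some linear coordinates. -/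
def PD (B : Set F) : Prop :=
  ∃ (ι : Type) (_ : Fintype ι) (e : F ≃L[ℂ] (ι → ℂ)), B = {q | ‖e q‖ ≤ 1}

/-- `CAP` for the closed unit polydiscs. -/
def PolyCAP (M : Set W) : Prop :=
  ∀ (ι : Type) [Fintype ι], CAP M (closedBall (0 : ι → ℂ) 1)

/-- maps to `M` near `K` are approximated on `K` by maps to `M` near `K'`. -/
def App (M : Set W) (K K' : Set E) : Prop :=
  ∀ (U : Set E) (g : E → W), IsOpen U → K ⊆ U → DifferentiableOn ℂ g U → MapsTo g U M →
    ∀ ε : ℝ, 0 < ε → ∃ (U' : Set E) (g' : E → W), IsOpen U' ∧ K' ⊆ U' ∧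
      DifferentiableOn ℂ g' U' ∧ MapsTo g' U' M ∧ ∀ z ∈ K, ‖g' z - g z‖ ≤ ε

/-- `CAP` for all `K₀ × polydisc`, `K₀ ⊆ G` compact convex. -/
def CoreCAP (M : Set W) (G : Type) [NormedAddCommGroup G] [NormedSpace ℂ G] : Prop :=
  ∀ (F : Type) [NormedAddCommGroup F] [NormedSpace ℂ F] [FiniteDimensional ℂ F]
    (K₀ : Set G) (B : Set F), IsCompact K₀ → Convex ℝ K₀ → PD B → CAP M (K₀ ×ˢ B)

/-- `SP` for all `K₀ × polydisc`, `K₀ ⊆ G` compact convex. -/
def CoreSP (M : Set W) (G : Type) [NormedAddCommGroup G] [NormedSpace ℂ G] : Prop :=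
  ∀ (F : Type) [NormedAddCommGroup F] [NormedSpace ℂ F] [FiniteDimensional ℂ F]
    (K₀ : Set G) (B : Set F), IsCompact K₀ → Convex ℝ K₀ → PD B → SP M (K₀ ×ˢ B)

theorem PD.of_le {ι : Type} [Fintype ι] (e : F ≃L[ℂ] (ι → ℂ)) {s : ℝ} (hs : 0 < s) :
    PD {q | ‖e q‖ ≤ s} := by
  have hs' : ((s⁻¹ : ℝ) : ℂ) ≠ 0 := by exact_mod_cast (inv_pos.2 hs).ne'
  refine ⟨ι, inferInstance, e.trans (ContinuousLinearEquiv.smulLeft (Units.mk0 _ hs')), ?_⟩
  ext q
  simp only [mem_ofPred_eq, ContinuousLinearEquiv.trans_apply,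
    ContinuousLinearEquiv.smulLeft_apply_apply, Units.smul_mk0, norm_smul, Complex.norm_real,
    Real.norm_eq_abs, abs_of_pos (inv_pos.2 hs)]
  rw [inv_mul_le_iff₀ hs, mul_one]

theorem PD.isCompact {B : Set F} (h : PD B) : IsCompact B := by
  obtain ⟨ι, _, e, rfl⟩ := h
  have : {q | ‖e q‖ ≤ 1} = e.toHomeomorph ⁻¹' closedBall 0 1 := by
    ext q; simp
  rw [this]
  exact e.toHomeomorph.isCompact_preimage.2 (isCompact_closedBall _ _)

theorem PD.convex {B : Set F} (h : PD B) : Convex ℝ B := by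
  obtain ⟨ι, _, e, rfl⟩ := h
  have : {q | ‖e q‖ ≤ 1} = ((e : F →L[ℂ] (ι → ℂ)).restrictScalars ℝ).toLinearMap ⁻¹'
      closedBall 0 1 := by
    ext q; simp
  rw [this]
  exact (convex_closedBall _ _).linear_preimage _

theorem PD.zero_mem {B : Set F} (h : PD B) : (0 : F) ∈ B := by
  obtain ⟨ι, _, e, rfl⟩ := h
  simp

/-- index type `ι ⊕ ι'`. -/
theorem PD.prod {B : Set F} {B' : Set F'} (h : PD B) (h' : PD B') : PD (B ×ˢ B') := by
  obtain ⟨ι, _, e, rfl⟩ := h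
  obtain ⟨ι', _, e', rfl⟩ := h'
  refine ⟨ι ⊕ ι', inferInstance, (e.prodCongr e').trans
    (ContinuousLinearEquiv.sumPiEquivProdPi ℂ ι ι' (fun _ => ℂ)).symm, ?_⟩
  ext q
  simp only [mem_prod, mem_ofPred_eq, pi_norm_le_iff_of_nonneg zero_le_one, Sum.forall]
  rfl

theorem PD.ballV {ρ : ℝ} (hρ : 0 < ρ) : PD (closedBall (0 : V) ρ) := by
  have := PD.of_le (ContinuousLinearEquiv.refl ℂ V) hρ
  convert this using 1
  ext q; simp

theorem PD.ballC {ρ : ℝ} (hρ : 0 < ρ) : PD (closedBall (0 : ℂ) ρ) := by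
  have := PD.of_le (ContinuousLinearEquiv.funUnique Unit ℂ ℂ).symm hρ
  convert this using 1
  ext q
  simp only [mem_closedBall, dist_zero_right, mem_ofPred_eq, pi_norm_le_iff_of_nonneg hρ.le]
  exact ⟨fun h _ => h, fun h => h ()⟩

theorem PD.exists_superset [FiniteDimensional ℂ F] {S : Set F} (hS : Bornology.IsBounded S) :
    ∃ B : Set F, PD B ∧ S ⊆ B := by
  let e : F ≃L[ℂ] (Fin (Module.finrank ℂ F) → ℂ) :=
    ContinuousLinearEquiv.ofFinrankEq (by simp)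
  obtain ⟨r, hr, h⟩ := (e.lipschitz.isBounded_image hS).subset_closedBall_lt 0 0
  exact ⟨_, PD.of_le e hr, fun q hq => by simpa using h (mem_image_of_mem _ hq)⟩

theorem PD.cap (hp : PolyCAP M) {B : Set F} (h : PD B) : CAP M B := by
  obtain ⟨ι, _, e, rfl⟩ := h
  have := (hp ι).equiv e 0
  convert this using 1
  ext q; simp

/-- `K₀' = cthickening η K₀`, `B' = {‖e q‖ ≤ 1 + η}`, `P = thickening η K₀ ×ˢ {‖e q‖ < 1 + η}`
(a decreasing intersection of compact sets, or `IsCompact.exists_cthickening_subset_open`). -/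
theorem PD.fatten [FiniteDimensional ℂ G] {K₀ : Set G} {B : Set F} (hK : IsCompact K₀)
    (hc : Convex ℝ K₀) (h : PD B) {U : Set (G × F)} (hU : IsOpen U) (hKU : K₀ ×ˢ B ⊆ U) :
    ∃ (K₀' : Set G) (B' : Set F) (P : Set (G × F)), IsCompact K₀' ∧ Convex ℝ K₀' ∧ PD B' ∧
      IsOpen P ∧ K₀ ×ˢ B ⊆ P ∧ P ⊆ K₀' ×ˢ B' ∧ K₀' ×ˢ B' ⊆ U := by
  have := FiniteDimensional.proper ℂ G
  obtain ⟨δ, hδ, hsub⟩ := (hK.prod h.isCompact).exists_cthickening_subset_open hU hKU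
  obtain ⟨ι, _, e, rfl⟩ := h
  set L : ℝ := ‖(e.symm : (ι → ℂ) →L[ℂ] F)‖ with hL
  have hL0 : 0 ≤ L := norm_nonneg _
  set η : ℝ := δ / (L + 1) with hη
  have hη0 : 0 < η := by positivity
  have hη1 : (L + 1) * η = δ := by rw [hη]; field_simp
  refine ⟨cthickening η K₀, {q | ‖e q‖ ≤ 1 + η}, thickening η K₀ ×ˢ {q | ‖e q‖ < 1 + η},
    hK.cthickening, hc.cthickening η, PD.of_le e (by positivity),
    isOpen_thickening.prod (isOpen_lt e.continuous.norm continuous_const),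
    prod_mono (self_subset_thickening hη0 _) fun q hq =>
      lt_of_le_of_lt (show ‖e q‖ ≤ 1 from hq) (lt_add_of_pos_right 1 hη0),
    prod_mono (thickening_subset_cthickening _ _) fun q hq =>
      le_of_lt (show ‖e q‖ < 1 + η from hq), ?_⟩
  rintro ⟨x, q⟩ ⟨hx, hq⟩
  rw [hK.cthickening_eq_biUnion_closedBall hη0.le] at hx
  obtain ⟨x₀, hx₀, hx⟩ := mem_iUnion₂.1 hx
  have hq : ‖e q‖ ≤ 1 + η := hq
  have h1 : (0 : ℝ) < 1 + η := by positivity
  have h2 : ‖(((1 + η)⁻¹ : ℝ) : ℂ)‖ = (1 + η)⁻¹ := by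
    rw [Complex.norm_real, Real.norm_of_nonneg (by positivity)]
  refine hsub (mem_cthickening_of_dist_le _ (x₀, (((1 + η)⁻¹ : ℝ) : ℂ) • q) _ _ ⟨hx₀, ?_⟩ ?_)
  · change ‖e (_ • q)‖ ≤ 1
    rw [map_smul, norm_smul, h2, inv_mul_le_iff₀ h1, mul_one]
    exact hq
  · rw [Prod.dist_eq]
    refine max_le ((mem_closedBall.1 hx).trans (by nlinarith)) ?_
    have h3 : q - (((1 + η)⁻¹ : ℝ) : ℂ) • q =
        (e.symm : (ι → ℂ) →L[ℂ] F) (((η * (1 + η)⁻¹ : ℝ) : ℂ) • e q) := by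
      have h4 : ((η * (1 + η)⁻¹ : ℝ) : ℂ) = 1 - (((1 + η)⁻¹ : ℝ) : ℂ) := by
        rw [← Complex.ofReal_one, ← Complex.ofReal_sub]
        congr 1
        field_simp
        ring
      rw [h4, map_smul, sub_smul, one_smul]
      simp
    rw [dist_eq_norm, h3]
    refine (ContinuousLinearMap.le_opNorm _ _).trans ?_
    rw [norm_smul, Complex.norm_real, Real.norm_of_nonneg (by positivity), ← hL]
    have h5 : η * (1 + η)⁻¹ * ‖e q‖ ≤ η := by
      rw [mul_assoc]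
      exact mul_le_of_le_one_right hη0.le (by rw [inv_mul_le_iff₀ h1, mul_one]; exact hq)
    nlinarith

theorem App.of_subset {K K' : Set E} (h : K' ⊆ K) : App M K K' :=
  fun U g hU hK hg hM _ hε => ⟨U, g, hU, h.trans hK, hg, hM, fun _ _ => by simpa using hε.le⟩

theorem App.trans {K K' K'' : Set E} (h : App M K K') (hK : K ⊆ K') (h' : App M K' K'') :
    App M K K'' := by
  intro U g hU hKU hg hM ε hε
  obtain ⟨U', g', h1, h2, h3, h4, h5⟩ := h U g hU hKU hg hM _ (half_pos hε)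
  obtain ⟨U'', g'', h6, h7, h8, h9, h10⟩ := h' U' g' h1 h2 h3 h4 _ (half_pos hε)
  refine ⟨U'', g'', h6, h7, h8, h9, fun z hz => ?_⟩
  linarith [norm_sub_le_norm_sub_add_norm_sub (g'' z) (g' z) (g z), h5 z hz, h10 z (hK hz)]

theorem App.mono {K K' K'' : Set E} (h : App M K K') (hK : K'' ⊆ K') : App M K K'' := by
  intro U g hU hKU hg hM ε hε
  obtain ⟨U', g', h1, h2, h3⟩ := h U g hU hKU hg hM ε hε
  exact ⟨U', g', h1, hK.trans h2, h3⟩

theorem App.cap {K K' : Set E} (h : App M K K') (hK : K ⊆ K') (h' : CAP M K') : CAP M K := by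
  intro U g hU hKU hg hM ε hε
  obtain ⟨U', g', h1, h2, h3, h4, h5⟩ := h U g hU hKU hg hM _ (half_pos hε)
  obtain ⟨f, h6, h7, h8⟩ := h' U' g' h1 h2 h3 h4 _ (half_pos hε)
  refine ⟨f, h6, h7, fun z hz => ?_⟩
  linarith [norm_sub_le_norm_sub_add_norm_sub (f z) (g' z) (g z), h5 z hz, h8 z (hK hz)]

theorem App.equiv {K K' : Set E} (h : App M K K') (e : E' ≃L[ℂ] E) :
    App M (e ⁻¹' K) (e ⁻¹' K') := by
  intro U g hU hKU hg hM ε hε
  obtain ⟨U', g', h1, h2, h3, h4, h5⟩ := h (e.symm ⁻¹' U) (fun z => g (e.symm z))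
    (hU.preimage e.symm.continuous) (fun z hz => hKU (by simpa using hz))
    (hg.comp e.symm.differentiableOn fun _ hz => hz) (fun z hz => hM hz) ε hε
  exact ⟨e ⁻¹' U', fun z => g' (e z), h1.preimage e.continuous, preimage_mono h2,
    h3.comp e.differentiableOn fun _ hz => hz, fun z hz => h4 hz, fun z hz => by
      simpa using h5 (e z) hz⟩

theorem CAP.empty (hne : M.Nonempty) : CAP M (∅ : Set E) := by
  obtain ⟨m, hm⟩ := hne
  exact fun _ _ _ _ _ _ _ _ => ⟨fun _ => m, differentiable_const m, fun _ => hm, fun _ h => h.elim⟩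

end Crest.Agent.R279
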