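import Crest.Agent.R279.XProd
import Crest.Agent.R279.CPD

/-! Row 279, block C: geometry of the central projection.

`z = ((z', ζ), q) ∈ (G × ℂ) × F`, `x = ((p, q), v) ∈ (G × F) × ℂ`, `ζ = e^v`, `z' = e^v p`. -/

set_option autoImplicit false

namespace Crest.Agent.R279

open Set Metric Filter Topology

variable {G F : Type} [NormedAddCommGroup G] [NormedSpace ℂ G] [NormedAddCommGroup F]
  [NormedSpace ℂ F] {J ι : Type} [Fintype J] [Fintype ι]

/-- closed polyhedron times polydisc. -/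
def Poly (lf : J → (G × ℂ →L[ℂ] ℂ)) (e : F ≃L[ℂ] (ι → ℂ)) (s T : ℝ) : Set ((G × ℂ) × F) :=
  {z | (∀ j, (lf j z.1).re ≤ s) ∧ z.1.2.re ≤ T ∧ ‖e z.2‖ ≤ s}

/-- open polyhedron times polydisc. -/
def Lz (lf : J → (G × ℂ →L[ℂ] ℂ)) (e : F ≃L[ℂ] (ι → ℂ)) (T u : ℝ) : Set ((G × ℂ) × F) :=
  {z | (∀ j, (lf j z.1).re < 1 + u) ∧ z.1.2.re < T + u ∧ ‖e z.2‖ < 1 + u}

noncomputable def cφ (x : (G × F) × ℂ) : (G × ℂ) × F :=
  ((Complex.exp x.2 • x.1.1, Complex.exp x.2), x.1.2)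

noncomputable def cψ (z : (G × ℂ) × F) : (G × F) × ℂ :=
  ((z.1.2⁻¹ • z.1.1, z.2), Complex.log z.1.2)

/-- the curve `Re (e^v) = b`. -/
noncomputable def cβ (b t : ℝ) : ℝ := Real.log b - Real.log (Real.cos t)

/-- the truncated cone over the face, in the coordinates `x`. -/
def Lv (lf : J → (G × ℂ →L[ℂ] ℂ)) (e : F ≃L[ℂ] (ι → ℂ)) (b₁ R u : ℝ) : Set ((G × F) × ℂ) :=
  {x | (∀ j, (lf j (cφ x).1).re < (Complex.exp x.2).re + u) ∧ ‖e x.1.2‖ < 1 + u ∧
    b₁ - u < (Complex.exp x.2).re ∧ x.2.re < R + u ∧ |x.2.im| < 2 + u}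

/-- the face over the base curve. -/
def cK (lf : J → (G × ℂ →L[ℂ] ℂ)) (e : F ≃L[ℂ] (ι → ℂ)) (b y₁ : ℝ) : Set ((G × F) × ℂ) :=
  {x | x.2 ∈ cpt (cβ b) '' Icc (-y₁) y₁ ∧ cφ x ∈ Poly lf e (b ^ 2) (b ^ 2)}

variable {lf : J → (G × ℂ →L[ℂ] ℂ)} {e : F ≃L[ℂ] (ι → ℂ)}

theorem cφ_diff : Differentiable ℂ (cφ : (G × F) × ℂ → (G × ℂ) × F) := by
  unfold cφ
  fun_prop

theorem cψ_diff : DifferentiableOn ℂ (cψ : (G × ℂ) × F → (G × F) × ℂ) {z | 0 < z.1.2.re} := by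
  intro z hz
  have h0 : z.1.2 ≠ 0 := fun h => by simp [h] at hz
  have h1 : DifferentiableAt ℂ (fun z : (G × ℂ) × F => z.1.2) z := by fun_prop
  refine DifferentiableAt.differentiableWithinAt ?_
  exact (((h1.inv h0).smul (by fun_prop : DifferentiableAt ℂ (fun z : (G × ℂ) × F => z.1.1) z)).prodMk
    differentiableAt_snd).prodMk (h1.clog (Or.inl hz))

theorem cφ_cψ {z : (G × ℂ) × F} (hz : 0 < z.1.2.re) : cφ (cψ z) = z := by
  have h0 : z.1.2 ≠ 0 := fun h => by simp [h] at hz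
  simp only [cφ, cψ, Complex.exp_log h0, smul_smul, mul_inv_cancel₀ h0, one_smul]

theorem Poly.convex (s T : ℝ) : Convex ℝ (Poly lf e s T) := by
  rintro x ⟨x1, x2, x3⟩ y ⟨y1, y2, y3⟩ a b ha hb hab
  have hs : ∀ p q r : ℝ, p ≤ r → q ≤ r → a * p + b * q ≤ r := fun p q r hp hq => by
    calc a * p + b * q ≤ a * r + b * r := by gcongr
      _ = r := by rw [← add_mul, hab, one_mul]
  simp only [← Complex.coe_smul]
  refine ⟨fun j => ?_, ?_, ?_⟩
  · simpa using hs _ _ _ (x1 j) (y1 j)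
  · simpa using hs _ _ _ x2 y2
  · simp only [Prod.snd_add, Prod.smul_snd, map_add, map_smul]
    refine (norm_add_le _ _).trans ?_
    simpa [norm_smul, abs_of_nonneg ha, abs_of_nonneg hb] using hs _ _ _ x3 y3

theorem h50_Poly_smul {s T r : ℝ} (hr : 0 < r) (hs : s ≤ r) (hT : T ≤ r) {z : (G × ℂ) × F}
    (hz : z ∈ Poly lf e s T) : ∃ w ∈ Poly lf e 1 1, (r : ℂ) • w = z := by
  have h0 : (r : ℂ) ≠ 0 := by exact_mod_cast hr.ne'
  have key : ∀ p : ℝ, p ≤ r → r⁻¹ * p ≤ 1 := fun p hp => by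
    rw [inv_mul_le_iff₀ hr, mul_one]; exact hp
  refine ⟨((r⁻¹ : ℝ) : ℂ) • z, ⟨fun j => ?_, ?_, ?_⟩, ?_⟩
  · rw [Prod.smul_fst, map_smul, smul_eq_mul, Complex.re_ofReal_mul]
    exact key _ ((hz.1 j).trans hs)
  · rw [Prod.smul_fst, Prod.smul_snd, smul_eq_mul, Complex.re_ofReal_mul]
    exact key _ (hz.2.1.trans hT)
  · rw [Prod.smul_snd, map_smul, norm_smul, Complex.norm_real, Real.norm_eq_abs,
      abs_of_pos (inv_pos.2 hr)]
    exact key _ (hz.2.2.trans hs)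
  · rw [smul_smul, Complex.ofReal_inv, mul_inv_cancel₀ h0, one_smul]

theorem h50_Poly_closed (s T : ℝ) : IsClosed (Poly lf e s T) := by
  simp only [Poly, ofPred_and, ofPred_forall]
  exact (isClosed_iInter fun j => isClosed_le (by fun_prop) continuous_const).inter
    ((isClosed_le (by fun_prop) continuous_const).inter
      (isClosed_le (by fun_prop) continuous_const))

/-- closed, and contained in the image of `Poly 1 1` under `z ↦ max s T • z`. -/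
theorem Poly.isCompact (hc : IsCompact (Poly lf e 1 1)) {s T : ℝ} (hs : 1 ≤ s) (hT : 1 ≤ T) :
    IsCompact (Poly lf e s T) := by
  refine (hc.image (f := fun w => ((max s T : ℝ) : ℂ) • w) (by fun_prop)).of_isClosed_subset
    (h50_Poly_closed s T) fun z hz => ?_
  exact h50_Poly_smul (lt_max_of_lt_left (by linarith)) (le_max_left _ _) (le_max_right _ _) hz

/-- `Poly s s = s • Poly 1 1`, `IsCompact.exists_cthickening_subset_open`. -/
theorem Poly.fat (hc : IsCompact (Poly lf e 1 1)) {P : Set ((G × ℂ) × F)} (hP : IsOpen P)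
    (h : Poly lf e 1 1 ⊆ P) : ∃ b : ℝ, 1 < b ∧ Poly lf e (b ^ 2) (b ^ 2) ⊆ P := by
  have h1 : ∀ᶠ b : ℝ in 𝓝 1, ∀ w ∈ Poly lf e 1 1, ((b ^ 2 : ℝ) : ℂ) • w ∈ P := by
    refine hc.eventually_forall_of_forall_eventually fun w hw => ?_
    have hf : Continuous fun x : ℝ × ((G × ℂ) × F) => ((x.1 ^ 2 : ℝ) : ℂ) • x.2 := by fun_prop
    exact hf.continuousAt.eventually (hP.mem_nhds (by simpa using h hw))
  obtain ⟨b, hb, hb1⟩ := ((h1.filter_mono nhdsWithin_le_nhds).and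
    (self_mem_nhdsWithin (s := Ioi (1 : ℝ)))).exists
  have hb1' : (1 : ℝ) < b := hb1
  refine ⟨b, hb1', fun z hz => ?_⟩
  obtain ⟨w, hw, rfl⟩ := h50_Poly_smul (by positivity) le_rfl le_rfl hz
  exact hb w hw

theorem Poly.subset_Lz {T u : ℝ} (hu : 0 < u) : Poly lf e 1 T ⊆ Lz lf e T u := by
  rintro z ⟨h1, h2, h3⟩
  exact ⟨fun j => by linarith [h1 j], by linarith, by linarith⟩

/-- an `AP` (index types `Option J`, `ι`; `pi_norm_lt_iff`). -/
theorem Lz.st [FiniteDimensional ℂ G] [FiniteDimensional ℂ F] (T : ℝ) {u : ℝ} (hu : 0 < u) :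
    St (Lz lf e T u) := by
  have h1 := ((St.univ (E := (G × ℂ) × F)).forall_re_pos
    (g := fun j z => ((1 + u : ℝ) : ℂ) - lf j z.1) fun j => by fun_prop).re_pos
    (g := fun z => ((T + u : ℝ) : ℂ) - z.1.2) (by fun_prop)
  have h2 := h1.forall_norm_lt (f := fun i z => e z.2 i) (fun i => by fun_prop) fun _ => 1 + u
  convert h2 using 1
  ext z
  simp only [Lz, mem_ofPred_eq, mem_univ, true_and, Complex.sub_re, Complex.ofReal_re, sub_pos,
    pi_norm_lt_iff (show (0 : ℝ) < 1 + u by linarith), and_assoc]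

theorem Lz.closure_subset (T : ℝ) {u u' : ℝ} (hu : u < u') :
    closure (Lz lf e T u) ⊆ Lz lf e T u' := by
  have h : IsClosed {z : (G × ℂ) × F | (∀ j, (lf j z.1).re ≤ 1 + u) ∧ z.1.2.re ≤ T + u ∧
      ‖e z.2‖ ≤ 1 + u} := by
    simp only [ofPred_and, ofPred_forall]
    exact (isClosed_iInter fun j => isClosed_le (by fun_prop) (by fun_prop)).inter
      ((isClosed_le (by fun_prop) (by fun_prop)).inter (isClosed_le (by fun_prop) (by fun_prop)))
  intro z hz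
  obtain ⟨h1, h2, h3⟩ := closure_minimal
    (fun z (hz : z ∈ Lz lf e T u) => by exact ⟨fun j => (hz.1 j).le, hz.2.1.le, hz.2.2.le⟩) h hz
  exact ⟨fun j => by linarith [h1 j], by linarith, by linarith⟩

theorem Lz.isBounded (hc : IsCompact (Poly lf e 1 1)) {T u : ℝ} (hT : 1 ≤ T) (hu : 0 ≤ u) :
    Bornology.IsBounded (Lz lf e T u) := by
  exact (Poly.isCompact hc (s := 1 + u) (T := T + u) (by linarith) (by linarith)).isBounded.subset
    fun z hz => ⟨fun j => (hz.1 j).le, hz.2.1.le, hz.2.2.le⟩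

theorem Lv.st [FiniteDimensional ℂ G] [FiniteDimensional ℂ F] (b₁ R : ℝ) {u : ℝ} (hu : 0 < u) :
    St (Lv lf e b₁ R u) := by
  have hφ := cφ_diff (G := G) (F := F)
  have h1 := (St.univ (E := (G × F) × ℂ)).forall_re_pos
    (g := fun j x => Complex.exp x.2 + (u : ℂ) - lf j (cφ x).1) fun j => by fun_prop
  have h2 := h1.forall_norm_lt (f := fun i x => e x.1.2 i) (fun i => by fun_prop) fun _ => 1 + u
  have h3 := (h2.re_pos (g := fun x => Complex.exp x.2 - ((b₁ - u : ℝ) : ℂ)) (by fun_prop)).re_pos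
    (g := fun x => ((R + u : ℝ) : ℂ) - x.2) (by fun_prop)
  have h4 := (h3.re_pos (g := fun x => ((2 + u : ℝ) : ℂ) - Complex.I * x.2) (by fun_prop)).re_pos
    (g := fun x => ((2 + u : ℝ) : ℂ) + Complex.I * x.2) (by fun_prop)
  convert h4 using 1
  ext x
  simp only [Lv, mem_ofPred_eq, mem_univ, true_and, Complex.sub_re, Complex.add_re,
    Complex.ofReal_re, Complex.I_mul_re, sub_pos, ← sub_eq_add_neg, abs_lt, neg_lt (a := 2 + u),
    pi_norm_lt_iff (show (0 : ℝ) < 1 + u by linarith), and_assoc]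

theorem Lv.closure_subset (b₁ R : ℝ) {u u' : ℝ} (hu : u < u') :
    closure (Lv lf e b₁ R u) ⊆ Lv lf e b₁ R u' := by
  have hφ := (cφ_diff (G := G) (F := F)).continuous
  have h : IsClosed {x : (G × F) × ℂ | (∀ j, (lf j (cφ x).1).re ≤ (Complex.exp x.2).re + u) ∧
      ‖e x.1.2‖ ≤ 1 + u ∧ b₁ - u ≤ (Complex.exp x.2).re ∧ x.2.re ≤ R + u ∧ |x.2.im| ≤ 2 + u} := by
    simp only [ofPred_and, ofPred_forall]
    exact (isClosed_iInter fun j => isClosed_le (by fun_prop) (by fun_prop)).inter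
      ((isClosed_le (by fun_prop) (by fun_prop)).inter
      ((isClosed_le (by fun_prop) (by fun_prop)).inter
      ((isClosed_le (by fun_prop) (by fun_prop)).inter (isClosed_le (by fun_prop) (by fun_prop)))))
  intro x hx
  obtain ⟨h1, h2, h3, h4, h5⟩ := closure_minimal (fun x (hx : x ∈ Lv lf e b₁ R u) => by
    exact ⟨fun j => (hx.1 j).le, hx.2.1.le, hx.2.2.1.le, hx.2.2.2.1.le, hx.2.2.2.2.le⟩) h hx
  exact ⟨fun j => by linarith [h1 j], by linarith, by linarith, by linarith, by linarith⟩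

/-- with `r = Re (e^v) > 1`: `((r⁻¹ e^v p, r⁻¹ e^v), q) ∈ Poly (1 + u) 1` and `|r⁻¹ e^v| ≥ 1`;
`0 < Re v` since `|e^v| > 1`. -/
theorem Lv.isBounded (hc : IsCompact (Poly lf e 1 1)) {b₁ R u : ℝ} (hu : 0 ≤ u)
    (hb : 1 ≤ b₁ - u) : Bornology.IsBounded (Lv lf e b₁ R u) := by
  obtain ⟨B, hB⟩ := (Poly.isCompact hc (s := 1 + u) (T := 1) (by linarith)
    le_rfl).isBounded.exists_norm_le
  refine isBounded_iff_forall_norm_le.2 ⟨max B (R + u + (2 + u)), ?_⟩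
  rintro ⟨⟨p, q⟩, v⟩ ⟨h1, h2, h3, h4, h5⟩
  dsimp only [cφ] at h1 h2 h3 h4 h5
  set r := (Complex.exp v).re with hr
  have hr1 : 1 < r := hb.trans_lt h3
  have hr0 : 0 < r := by linarith
  have h6 : (((r⁻¹ : ℝ) : ℂ) * Complex.exp v).re = 1 := by
    rw [Complex.re_ofReal_mul, ← hr, inv_mul_cancel₀ hr0.ne']
  have h7 := hB (((r⁻¹ : ℝ) : ℂ) • (Complex.exp v • p, Complex.exp v), q)
    ⟨fun j => by
      rw [map_smul, smul_eq_mul, Complex.re_ofReal_mul, inv_mul_le_iff₀ hr0]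
      nlinarith [h1 j], h6.le, h2.le⟩
  rw [Prod.norm_def, Prod.norm_def, max_le_iff, max_le_iff] at h7
  obtain ⟨⟨h8, -⟩, h9⟩ := h7
  rw [Prod.smul_fst, smul_smul, norm_smul] at h8
  have h10 : 1 ≤ ‖((r⁻¹ : ℝ) : ℂ) * Complex.exp v‖ := h6 ▸ Complex.re_le_norm _
  have h11 : 0 < v.re := by
    have := hr1.trans_le (Complex.re_le_norm _)
    rwa [Complex.norm_exp, Real.one_lt_exp_iff] at this
  rw [Prod.norm_def, Prod.norm_def]
  refine max_le_max (max_le ((le_mul_of_one_le_left (norm_nonneg _) h10).trans h8) h9) ?_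
  refine (Complex.norm_le_abs_re_add_abs_im v).trans ?_
  rw [abs_of_pos h11]
  linarith

theorem cβ_facts {b y₁ : ℝ} (hb : 0 < b) (h0 : 0 < y₁) (h1 : y₁ < Real.pi / 2) :
    ∃ Λ L : ℝ, 0 ≤ Λ ∧ 1 ≤ L ∧ ContDiffOn ℝ 1 (cβ b) (Ioo (-y₁) y₁) ∧
      (∀ t ∈ Ioo (-y₁) y₁, |deriv (cβ b) t| ≤ Λ) ∧ (∀ t ∈ Ioo (-y₁) y₁, |cβ b t| ≤ L) ∧
      ContinuousOn (cpt (cβ b)) (Icc (-y₁) y₁) ∧
      ∀ t ∈ Icc (-y₁) y₁, ∀ t' ∈ Icc (-y₁) y₁,
        ‖cpt (cβ b) t - cpt (cβ b) t'‖ ≤ (1 + Λ) * |t - t'| := by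
  have hc : 0 < Real.cos y₁ := Real.cos_pos_of_mem_Ioo ⟨by linarith, h1⟩
  have hle : ∀ t ∈ Icc (-y₁) y₁, Real.cos y₁ ≤ Real.cos t := fun t ht => by
    rw [← Real.cos_abs t]
    exact Real.cos_le_cos_of_nonneg_of_le_pi (abs_nonneg t) (by linarith [Real.pi_pos])
      (abs_le.2 ht)
  have hpos : ∀ t ∈ Icc (-y₁) y₁, 0 < Real.cos t := fun t ht => hc.trans_le (hle t ht)
  have hd : ∀ t ∈ Icc (-y₁) y₁, HasDerivAt (cβ b) (Real.sin t / Real.cos t) t := fun t ht => by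
    have h2 := ((Real.hasDerivAt_cos t).log (hpos t ht).ne').const_sub (Real.log b)
    rw [neg_div, neg_neg] at h2
    exact h2
  have hb' : ∀ t ∈ Icc (-y₁) y₁, |Real.sin t / Real.cos t| ≤ 1 / Real.cos y₁ := fun t ht => by
    rw [abs_div, abs_of_pos (hpos t ht)]
    exact div_le_div₀ zero_le_one (Real.abs_sin_le_one t) hc (hle t ht)
  refine ⟨1 / Real.cos y₁, 1 + |Real.log b| + |Real.log (Real.cos y₁)|, by positivity,
    by linarith [abs_nonneg (Real.log b), abs_nonneg (Real.log (Real.cos y₁))], ?_,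
    fun t ht => ?_, fun t ht => ?_, ?_, fun t ht t' ht' => ?_⟩
  · exact contDiffOn_const.sub (Real.contDiff_cos.contDiffOn.log fun t ht =>
      (hpos t (Ioo_subset_Icc_self ht)).ne')
  · rw [(hd t (Ioo_subset_Icc_self ht)).deriv]
    exact hb' t (Ioo_subset_Icc_self ht)
  · have h2 := Real.log_le_log hc (hle t (Ioo_subset_Icc_self ht))
    have h3 := Real.log_nonpos (hpos t (Ioo_subset_Icc_self ht)).le (Real.cos_le_one t)
    have h4 := neg_abs_le (Real.log (Real.cos y₁))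
    have h5 := neg_abs_le (Real.log b)
    have h6 := le_abs_self (Real.log b)
    unfold cβ
    rw [abs_le]
    constructor <;> linarith
  · have h2 : ContinuousOn (cβ b) (Icc (-y₁) y₁) := fun t ht =>
      (hd t ht).continuousAt.continuousWithinAt
    exact (Complex.continuous_ofReal.comp_continuousOn h2).add (by fun_prop)
  · have h2 := (convex_Icc (-y₁) y₁).norm_image_sub_le_of_norm_hasDerivWithin_le
      (fun x hx => (hd x hx).hasDerivWithinAt) hb' ht' ht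
    have h3 : cpt (cβ b) t - cpt (cβ b) t' =
        ((cβ b t - cβ b t' : ℝ) : ℂ) + ((t - t' : ℝ) : ℂ) * Complex.I := by
      unfold cpt; push_cast; ring
    have h4 := norm_add_le ((cβ b t - cβ b t' : ℝ) : ℂ) (((t - t' : ℝ) : ℂ) * Complex.I)
    rw [norm_mul, Complex.norm_I, mul_one, Complex.norm_real, Complex.norm_real] at h4
    rw [h3]
    simp only [Real.norm_eq_abs] at h2 h4
    linarith

theorem exp_cpt {b t : ℝ} (hb : 0 < b) (ht : |t| < Real.pi / 2) :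
    Complex.exp (cpt (cβ b) t) = ((b / Real.cos t : ℝ) : ℂ) * Complex.exp (t * Complex.I) ∧
      (Complex.exp (cpt (cβ b) t)).re = b := by
  have hc : 0 < Real.cos t := Real.cos_pos_of_mem_Ioo (abs_lt.1 ht)
  have h1 : Complex.exp (cpt (cβ b) t) =
      ((b / Real.cos t : ℝ) : ℂ) * Complex.exp (t * Complex.I) := by
    rw [cpt, Complex.exp_add, ← Complex.ofReal_exp, cβ, Real.exp_sub, Real.exp_log hb,
      Real.exp_log hc]
  refine ⟨h1, ?_⟩
  rw [h1, Complex.re_ofReal_mul, Complex.exp_ofReal_mul_I_re, div_mul_cancel₀ _ hc.ne']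

/-- closed and bounded (`|e^v| ≥ b > 1` on the curve). -/
theorem cK.isCompact [FiniteDimensional ℂ G] [FiniteDimensional ℂ F]
    (hc : IsCompact (Poly lf e 1 1)) {b y₁ : ℝ} (hb : 1 < b) (h0 : 0 < y₁)
    (h1 : y₁ < Real.pi / 2) : IsCompact (cK lf e b y₁) := by
  obtain ⟨-, -, -, -, -, -, -, hcont, -⟩ := cβ_facts (zero_lt_one.trans hb) h0 h1
  have hb2 : 1 ≤ b ^ 2 := one_le_pow₀ hb.le
  have hP := Poly.isCompact hc hb2 hb2
  have hC := isCompact_Icc.image_of_continuousOn hcont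
  have hΦ : Continuous fun y : ((G × ℂ) × F) × ℂ =>
      ((((Complex.exp y.2)⁻¹ • y.1.1.1, y.1.2), y.2) : (G × F) × ℂ) :=
    ((((Complex.continuous_exp.comp continuous_snd).inv₀ fun y => Complex.exp_ne_zero _).smul
      (by fun_prop)).prodMk (by fun_prop)).prodMk continuous_snd
  refine ((hP.prod hC).image hΦ).of_isClosed_subset
    ((hC.isClosed.preimage continuous_snd).inter (hP.isClosed.preimage cφ_diff.continuous)) ?_
  rintro ⟨⟨p, q⟩, v⟩ hx
  refine ⟨(cφ ((p, q), v), v), ⟨hx.2, hx.1⟩, ?_⟩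
  simp only [cφ, inv_smul_smul₀ (Complex.exp_ne_zero v)]

/-- `K₁ = {p | ∀ j, Re (lf j (e^v p, e^v)) ≤ b²}`. -/
theorem cK.slice [FiniteDimensional ℂ G] [FiniteDimensional ℂ F]
    (hc : IsCompact (Poly lf e 1 1)) {b y₁ : ℝ} (hb : 1 < b) (h0 : 0 < y₁)
    (h1 : y₁ < Real.pi / 2) {v : ℂ} (hv : v ∈ cpt (cβ b) '' Icc (-y₁) y₁) :
    ∃ K₁ : Set G, IsCompact K₁ ∧ Convex ℝ K₁ ∧
      {p : G × F | (p, v) ∈ cK lf e b y₁} = K₁ ×ˢ {q | ‖e q‖ ≤ b ^ 2} := by
  have hre : (Complex.exp v).re ≤ b ^ 2 := by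
    obtain ⟨t, ht, rfl⟩ := hv
    rw [(exp_cpt (zero_lt_one.trans hb) ((abs_le.2 ht).trans_lt h1)).2]
    nlinarith
  refine ⟨{p | ∀ j, (lf j (Complex.exp v • p, Complex.exp v)).re ≤ b ^ 2}, ?_, ?_, ?_⟩
  · refine ((cK.isCompact hc hb h0 h1).image (f := fun x => x.1.1) (by fun_prop)).of_isClosed_subset
      ?_ fun p hp => ⟨((p, 0), v), ⟨hv, hp, hre, ?_⟩, rfl⟩
    · rw [Set.ofPred_forall]
      exact isClosed_iInter fun j => isClosed_le (by fun_prop) continuous_const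
    · change ‖e 0‖ ≤ _
      rw [map_zero, norm_zero]
      positivity
  · intro p hp p' hp' a c ha hc' hac j
    have h2 : ((Complex.exp v • (a • p + c • p'), Complex.exp v) : G × ℂ) =
        (a : ℂ) • (Complex.exp v • p, Complex.exp v) +
          (c : ℂ) • (Complex.exp v • p', Complex.exp v) := by
      refine Prod.ext ?_ ?_
      · simp only [Prod.fst_add, Prod.smul_fst, smul_add, Complex.coe_smul, smul_comm (Complex.exp v)]
      · simp only [Prod.snd_add, Prod.smul_snd, ← add_smul, ← Complex.ofReal_add, hac,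
          Complex.ofReal_one, one_smul]
    rw [h2, map_add, map_smul, map_smul, Complex.add_re, smul_eq_mul, smul_eq_mul,
      Complex.re_ofReal_mul, Complex.re_ofReal_mul]
    have h3 := mul_le_mul_of_nonneg_left (hp j) ha
    have h4 := mul_le_mul_of_nonneg_left (hp' j) hc'
    have h5 : a * b ^ 2 + c * b ^ 2 = b ^ 2 := by rw [← add_mul, hac, one_mul]
    linarith
  · ext ⟨p, q⟩
    exact ⟨fun h => ⟨h.2.1, h.2.2.2⟩, fun h => ⟨hv, h.1, hre, h.2⟩⟩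

/-- `e^{cpt β (Im v)} = (b / Re e^v) e^v`, and `Re (lf j ..) < r + u ≤ b r` for `r = Re e^v > 1`. -/
theorem Lv.proj {b b₁ R u y₁ : ℝ} (hb : 1 < b) (h1 : y₁ < Real.pi / 2) (hu : u ≤ b - 1)
    (hb₁ : 1 ≤ b₁ - u) {x : (G × F) × ℂ} (hx : x ∈ Lv lf e b₁ R u) (hy : |x.2.im| ≤ y₁) :
    (x.1, cpt (cβ b) x.2.im) ∈ cK lf e b y₁ := by
  obtain ⟨h2, h3, h4, -, -⟩ := hx
  have hy' : |x.2.im| < Real.pi / 2 := hy.trans_lt h1
  obtain ⟨e1, e2⟩ := exp_cpt (b := b) (by linarith) hy'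
  have hcos : 0 < Real.cos x.2.im :=
    Real.cos_pos_of_mem_Ioo ⟨by linarith [(abs_lt.1 hy').1], (abs_lt.1 hy').2⟩
  set r : ℝ := (Complex.exp x.2).re with hr
  have hr1 : 1 < r := by linarith
  have hr' : r = Real.exp x.2.re * Real.cos x.2.im := Complex.exp_re _
  have hbb : b ≤ b ^ 2 := by nlinarith
  have e3 : Complex.exp (cpt (cβ b) x.2.im) = ((b / r : ℝ) : ℂ) * Complex.exp x.2 := by
    rw [e1]
    conv_rhs => rw [← Complex.re_add_im x.2, Complex.exp_add, ← Complex.ofReal_exp, ← mul_assoc,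
      ← Complex.ofReal_mul]
    congr 2
    rw [hr']
    have := Real.exp_pos x.2.re
    field_simp
  refine ⟨⟨x.2.im, abs_le.1 hy, rfl⟩, fun j => ?_, ?_, ?_⟩
  · have e4 : (cφ (x.1, cpt (cβ b) x.2.im)).1 = ((b / r : ℝ) : ℂ) • (cφ x).1 := by
      simp only [cφ, e3, Prod.smul_mk, smul_smul, smul_eq_mul]
    rw [e4, map_smul, smul_eq_mul, Complex.re_ofReal_mul]
    have h5 := h2 j
    have h6 : 0 < b / r := div_pos (by linarith) (by linarith)
    calc b / r * (lf j (cφ x).1).re ≤ b / r * (b * r) :=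
          mul_le_mul_of_nonneg_left (by nlinarith) h6.le
      _ = b ^ 2 := by field_simp
  · change (Complex.exp (cpt (cβ b) x.2.im)).re ≤ _
    rw [e2]
    exact hbb
  · change ‖e x.1.2‖ ≤ _
    linarith

theorem Lv.win {b b₁ R u c : ℝ} (hb : 0 < b) (hc : b * Real.exp (-c) ≤ b₁ - u)
    {x : (G × F) × ℂ} (hx : x ∈ Lv lf e b₁ R u) (hy : |x.2.im| < Real.pi / 2) :
    cβ b x.2.im - c < x.2.re := by
  obtain ⟨-, -, h4, -, -⟩ := hx
  have hcos : 0 < Real.cos x.2.im :=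
    Real.cos_pos_of_mem_Ioo ⟨by linarith [(abs_lt.1 hy).1], (abs_lt.1 hy).2⟩
  rw [Complex.exp_re] at h4
  have h5 := Real.log_lt_log (mul_pos hb (Real.exp_pos (-c))) (hc.trans_lt h4)
  rw [Real.log_mul hb.ne' (Real.exp_pos _).ne', Real.log_mul (Real.exp_pos _).ne' hcos.ne',
    Real.log_exp, Real.log_exp] at h5
  unfold cβ
  linarith

/-- `‖ζ‖ ≤ R` on the bounded set `Lz T 1`; `cos (arg ζ) = Re ζ / ‖ζ‖ > 1 / R`,
`y₀ = arccos (1 / R)` with `R > 1`; `log ‖ζ‖ ≤ ‖ζ‖`. -/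
theorem cψ_mem (hc : IsCompact (Poly lf e 1 1)) {T : ℝ} (hT : 1 ≤ T) :
    ∃ y₀ R : ℝ, 0 < y₀ ∧ y₀ < Real.pi / 2 ∧ ∀ b₁ u : ℝ, 0 < u → u ≤ 1 → 1 ≤ b₁ →
      ∀ z ∈ Lz lf e T u, b₁ < z.1.2.re → cψ z ∈ Lv lf e b₁ R u ∧ |(cψ z).2.im| < y₀ := by
  obtain ⟨R₀, hR₀⟩ := (Lz.isBounded hc hT zero_le_one).exists_norm_le
  have hR1 : (1 : ℝ) < |R₀| + 2 := by linarith [abs_nonneg R₀]
  set R := |R₀| + 2 with hR
  have hRi : 0 < 1 / R := by positivity
  have hRi' : 1 / R < 1 := (div_lt_one (by linarith)).2 hR1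
  refine ⟨Real.arccos (1 / R), R, Real.arccos_pos.2 hRi', Real.arccos_lt_pi_div_two.2 hRi,
    fun b₁ u hu hu1 hb₁ z hz hb => ?_⟩
  have hz1 : z ∈ Lz lf e T 1 :=
    ⟨fun j => (hz.1 j).trans_le (by linarith), hz.2.1.trans_le (by linarith),
      hz.2.2.trans_le (by linarith)⟩
  have hn : ‖z.1.2‖ ≤ R := by
    have h1 : ‖z.1.2‖ ≤ ‖z‖ := (norm_snd_le z.1).trans (norm_fst_le z)
    linarith [hR₀ z hz1, le_abs_self R₀]
  have h0 : 0 < z.1.2.re := by linarith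
  have hne : z.1.2 ≠ 0 := fun h => by simp [h] at h0
  have hnp : 0 < ‖z.1.2‖ := norm_pos_iff.2 hne
  have harg : |Complex.arg z.1.2| < Real.pi / 2 := Complex.abs_arg_lt_pi_div_two_iff.2 (Or.inl h0)
  have hexp : Complex.exp (cψ z).2 = z.1.2 := Complex.exp_log hne
  have him : (cψ z).2.im = Complex.arg z.1.2 := Complex.log_im _
  have hre : (cψ z).2.re = Real.log ‖z.1.2‖ := Complex.log_re _
  refine ⟨⟨fun j => ?_, hz.2.2, ?_, ?_, ?_⟩, ?_⟩
  · rw [cφ_cψ h0, hexp]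
    linarith [hz.1 j]
  · rw [hexp]
    linarith
  · rw [hre]
    linarith [Real.log_le_sub_one_of_pos hnp]
  · rw [him]
    linarith [Real.pi_le_four]
  · rw [him]
    have h2 : 1 / R < Real.cos |Complex.arg z.1.2| := by
      rw [Real.cos_abs, Complex.cos_arg hne, div_lt_div_iff₀ (by linarith) hnp]
      nlinarith
    have h3 := Real.arccos_lt_arccos (by linarith) h2 (Real.cos_le_one _)
    rwa [Real.arccos_cos (abs_nonneg _) (by linarith [Real.pi_pos])] at h3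

theorem cψ_base {b : ℝ} {z : (G × ℂ) × F} (h0 : 0 < z.1.2.re) (h1 : z.1.2.re < b) :
    (cψ z).2.re < cβ b (cψ z).2.im := by
  have hne : z.1.2 ≠ 0 := fun h => by simp [h] at h0
  have hnp : 0 < ‖z.1.2‖ := norm_pos_iff.2 hne
  have him : (cψ z).2.im = Complex.arg z.1.2 := Complex.log_im _
  have hre : (cψ z).2.re = Real.log ‖z.1.2‖ := Complex.log_re _
  rw [him, hre, cβ, Complex.cos_arg hne, Real.log_div h0.ne' hnp.ne']
  linarith [Real.log_lt_log h0 h1]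

end Crest.Agent.R279
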