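import Crest.Agent.R279.Inv

/-! Row 279: the tilt trick -/

set_option autoImplicit false

namespace Crest.Agent.R279

open Set Metric Filter Topology

variable {E E' F : Type} [NormedAddCommGroup E] [NormedSpace ℂ E] [NormedAddCommGroup E']
  [NormedSpace ℂ E'] [NormedAddCommGroup F] [NormedSpace ℂ F] {M : Set W}

/-- the data of the tilt trick for one approximating map `f`. -/
structure TD (M : Set W) (Ω : Set (E × ℂ)) (g : E × ℂ → W) (π : E × ℂ → W →L[ℂ] V)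
    (e : E × ℂ → V → W) (ρ C : ℝ) (P : Set E) (r₀ r₁ δ l ε R : ℝ) (f : (E × V × V) × ℂ → W) :
    Prop where
  hm : Model M Ω g π e ρ C
  h0 : 0 < r₀
  h01 : r₀ < r₁
  hΩ : P ×ˢ ball (0 : ℂ) r₁ ⊆ Ω
  hδρ : δ ≤ ρ
  hl : 0 < l
  hlδ : C * (2 * l * (1 + r₁)) ≤ δ / 2
  hε : ε ≤ ρ / 4
  hR : r₁ ≤ R
  hd : DifferentiableOn ℂ f ((P ×ˢ ball 0 δ ×ˢ ball 0 δ) ×ˢ ball 0 R)
  hM : MapsTo f ((P ×ˢ ball 0 δ ×ˢ ball 0 δ) ×ˢ ball 0 R) M
  ha : ∀ x ∈ (P ×ˢ ball (0 : V) δ ×ˢ ball (0 : V) δ) ×ˢ ball (0 : ℂ) r₁,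
    ‖f x - e (x.1.1, x.2) (x.1.2.1 - x.2 • x.1.2.2)‖ ≤ ε

/-- the tilted discs. -/
def tG (f : (E × V × V) × ℂ → W) (w : E × ℂ) (a u : V) (τ : ℂ) : W :=
  f ((w.1, a + w.2 • u, u), w.2 + τ)

namespace TD
variable {Ω : Set (E × ℂ)} {g : E × ℂ → W} {π : E × ℂ → W →L[ℂ] V} {e : E × ℂ → V → W}
  {ρ C : ℝ} {P : Set E} {r₀ r₁ δ l ε R : ℝ} {f : (E × V × V) × ℂ → W}
  (H : TD M Ω g π e ρ C P r₀ r₁ δ l ε R f)
include H

theorem small : 2 * l * (1 + r₁) ≤ δ / 2 := by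
  have h1 := H.hm.one_le
  have h2 : 0 < 2 * l * (1 + r₁) := by have := H.hl; have := H.h0.trans H.h01; positivity
  nlinarith [H.hlδ]

theorem comb {a u : V} (ha : ‖a‖ < 2 * l) (hu : ‖u‖ < 2 * l) {z : ℂ} (hz : ‖z‖ ≤ r₁) :
    ‖a + z • u‖ < 2 * l * (1 + r₁) := by
  have h1 := norm_add_le a (z • u)
  rw [norm_smul] at h1
  have h2 : ‖z‖ * ‖u‖ ≤ r₁ * (2 * l) :=
    mul_le_mul hz hu.le (norm_nonneg _) (H.h0.trans H.h01).le
  linarith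

theorem δ_pos : 0 < δ := by
  have := H.small
  have h2 : 0 < 2 * l * (1 + r₁) := by have := H.hl; have := H.h0.trans H.h01; positivity
  linarith

theorem par {w : E × ℂ} (hw : w ∈ P ×ˢ ball (0 : ℂ) r₀) {a u : V} (ha : ‖a‖ < 2 * l)
    (hu : ‖u‖ < 2 * l) :
    (w.1, a + w.2 • u, u) ∈ P ×ˢ ball (0 : V) δ ×ˢ ball (0 : V) δ := by
  have h1 := H.comb ha hu (z := w.2) ((mem_ball_zero_iff.1 hw.2).trans H.h01).le
  have h2 := H.small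
  have h3 := H.δ_pos
  have h4 : 0 < l * r₁ := mul_pos H.hl (H.h0.trans H.h01)
  exact ⟨hw.1, mem_ball_zero_iff.2 (by linarith), mem_ball_zero_iff.2 (by dsimp only; nlinarith)⟩

omit H [NormedAddCommGroup E] [NormedSpace ℂ E] in
theorem time {w : E × ℂ} (hw : w ∈ P ×ˢ ball (0 : ℂ) r₀) {τ : ℂ} {r : ℝ} (hτ : ‖τ‖ ≤ r - r₀) :
    w.2 + τ ∈ ball (0 : ℂ) r := by
  have h1 := mem_ball_zero_iff.1 hw.2
  have h2 := norm_add_le w.2 τ
  exact mem_ball_zero_iff.2 (by linarith)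

theorem memΩ {w : E × ℂ} (hw : w ∈ P ×ˢ ball (0 : ℂ) r₀) {τ : ℂ} (hτ : ‖τ‖ ≤ r₁ - r₀) :
    (w.1, w.2 + τ) ∈ Ω := H.hΩ ⟨hw.1, time hw hτ⟩

theorem memΩ0 {w : E × ℂ} (hw : w ∈ P ×ˢ ball (0 : ℂ) r₀) : w ∈ Ω :=
  H.hΩ ⟨hw.1, ball_subset_ball H.h01.le hw.2⟩

theorem fib {a u : V} (ha : ‖a‖ < 2 * l) (hu : ‖u‖ < 2 * l) {τ : ℂ} (hτ : ‖τ‖ ≤ r₁ - r₀) :
    ‖a - τ • u‖ < 2 * l * (1 + r₁) := by
  have := H.comb ha hu (z := -τ) (by rw [norm_neg]; linarith [H.h0])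
  rwa [neg_smul, ← sub_eq_add_neg] at this

theorem fib' {a u : V} (ha : ‖a‖ < 2 * l) (hu : ‖u‖ < 2 * l) {τ : ℂ} (hτ : ‖τ‖ ≤ r₁ - r₀) :
    a - τ • u ∈ ball (0 : V) ρ := by
  have h1 := H.fib ha hu hτ
  exact mem_ball_zero_iff.2 (by linarith [H.small, H.δ_pos, H.hδρ])

theorem g1 {w : E × ℂ} (hw : w ∈ P ×ˢ ball (0 : ℂ) r₀) {a u : V} (ha : ‖a‖ < 2 * l)
    (hu : ‖u‖ < 2 * l) {τ : ℂ} (hτ : ‖τ‖ ≤ r₁ - r₀) :
    ‖tG f w a u τ - e (w.1, w.2 + τ) (a - τ • u)‖ ≤ ε := by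
  have := H.ha ((w.1, a + w.2 • u, u), w.2 + τ) ⟨H.par hw ha hu, time hw hτ⟩
  have e1 : a + w.2 • u - (w.2 + τ) • u = a - τ • u := by rw [add_smul]; abel
  dsimp only at this
  rwa [e1] at this

theorem g2 {w : E × ℂ} (hw : w ∈ P ×ˢ ball (0 : ℂ) r₀) {a u : V} (ha : ‖a‖ < 2 * l)
    (hu : ‖u‖ < 2 * l) {τ : ℂ} (hτ : ‖τ‖ ≤ r₁ - r₀) :
    ‖π (w.1, w.2 + τ) (tG f w a u τ - g (w.1, w.2 + τ)) - (a - τ • u)‖ ≤ C * ε := by
  have h1 := H.hm.inv _ (H.memΩ hw hτ) _ (H.fib' ha hu hτ)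
  have h2 : π (w.1, w.2 + τ) (tG f w a u τ - g (w.1, w.2 + τ)) - (a - τ • u) =
      π (w.1, w.2 + τ) (tG f w a u τ - e (w.1, w.2 + τ) (a - τ • u)) := by
    conv_lhs => rw [← h1]
    rw [← map_sub]; congr 1; abel
  rw [h2]
  exact ((π _).le_opNorm _).trans (mul_le_mul (H.hm.bddπ _ (H.memΩ hw hτ)) (H.g1 hw ha hu hτ)
    (norm_nonneg _) (zero_le_one.trans H.hm.one_le))

theorem g3 {w : E × ℂ} (hw : w ∈ P ×ˢ ball (0 : ℂ) r₀) {a u : V} (ha : ‖a‖ < 2 * l)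
    (hu : ‖u‖ < 2 * l) {τ : ℂ} (hτ : ‖τ‖ ≤ r₁ - r₀) :
    ‖tG f w a u τ - g (w.1, w.2 + τ)‖ < ρ := by
  have h1 := H.g1 hw ha hu hτ
  have h2 := H.hm.lip _ (H.memΩ hw hτ) _ (H.fib' ha hu hτ) 0 (mem_ball_self H.hm.ρ_pos)
  rw [H.hm.zero _ (H.memΩ hw hτ), sub_zero] at h2
  have h3 := mul_le_mul_of_nonneg_left (H.fib ha hu hτ).le (zero_le_one.trans H.hm.one_le)
  have h4 := norm_sub_le_norm_sub_add_norm_sub (tG f w a u τ) (e (w.1, w.2 + τ) (a - τ • u))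
    (g (w.1, w.2 + τ))
  linarith [H.hlδ, H.hε, H.hδρ, H.hm.ρ_pos]

theorem g4 {w : E × ℂ} (hw : w ∈ P ×ˢ ball (0 : ℂ) r₀) {a u : V} (ha : ‖a‖ < 2 * l)
    (hu : ‖u‖ < 2 * l) {τ : ℂ} (hτ : ‖τ‖ < r₁ - r₀) :
    ‖tG f w a u τ - tG f w a u 0‖ ≤ 2 * ε + (C * (2 * l) + 2 * (C + C * ρ) / (r₁ - r₀)) * ‖τ‖ := by
  have h00 : ‖(0 : ℂ)‖ ≤ r₁ - r₀ := by rw [norm_zero]; linarith [H.h01]
  have h1 := H.g1 hw ha hu hτ.le
  have h2 := H.g1 hw ha hu h00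
  have ha' := H.fib' ha hu h00
  rw [zero_smul, sub_zero] at h2 ha'
  rw [add_zero] at h2
  have h3 := H.hm.lip _ (H.memΩ hw hτ.le) _ (H.fib' ha hu hτ.le) _ ha'
  rw [sub_sub_cancel_left, norm_neg, norm_smul] at h3
  have hp := H.hm.pull (O := ball (0 : ℂ) r₁) (φ := fun z : ℂ => (w.1, z)) isOpen_ball
    (by fun_prop) fun z hz => H.hΩ ⟨hw.1, hz⟩
  have h4 := hp.lip_base (z := w.2) (z' := w.2 + τ) (r := r₁ - r₀)
    (ball_subset_ball' (by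
      have := mem_ball_zero_iff.1 hw.2
      rw [dist_zero_right]; linarith))
    (by rw [mem_ball, dist_eq_norm, add_sub_cancel_left]; exact hτ) ha'
  rw [add_sub_cancel_left] at h4
  have h5 : C * (‖τ‖ * ‖u‖) ≤ C * (2 * l) * ‖τ‖ := by
    have := mul_le_mul_of_nonneg_left (mul_le_mul_of_nonneg_left hu.le (norm_nonneg τ))
      (zero_le_one.trans H.hm.one_le)
    linarith
  have e1 : tG f w a u τ - tG f w a u 0 = (tG f w a u τ - e (w.1, w.2 + τ) (a - τ • u)) +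
      (e (w.1, w.2 + τ) (a - τ • u) - e (w.1, w.2 + τ) a) + (e (w.1, w.2 + τ) a - e (w.1, w.2) a) -
      (tG f w a u 0 - e (w.1, w.2) a) := by abel
  rw [e1]
  refine (norm_sub_le _ _).trans ?_
  have h6 := norm_add₃_le (a := tG f w a u τ - e (w.1, w.2 + τ) (a - τ • u))
    (b := e (w.1, w.2 + τ) (a - τ • u) - e (w.1, w.2 + τ) a)
    (c := e (w.1, w.2 + τ) a - e (w.1, w.2) a)
  linarith

theorem gM {w : E × ℂ} (hw : w ∈ P ×ˢ ball (0 : ℂ) r₀) {a u : V} (ha : ‖a‖ < 2 * l)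
    (hu : ‖u‖ < 2 * l) {τ : ℂ} (hτ : ‖τ‖ ≤ R - r₀) : tG f w a u τ ∈ M :=
  H.hM ⟨H.par hw ha hu, time hw hτ⟩

theorem gd {D : Set E'} {w : E' → E × ℂ} {a u : E' → V} {τ : E' → ℂ}
    (dw : DifferentiableOn ℂ w D) (da : DifferentiableOn ℂ a D) (du : DifferentiableOn ℂ u D)
    (dτ : DifferentiableOn ℂ τ D) (hw : ∀ x ∈ D, w x ∈ P ×ˢ ball (0 : ℂ) r₀)
    (ha : ∀ x ∈ D, ‖a x‖ < 2 * l) (hu : ∀ x ∈ D, ‖u x‖ < 2 * l) (hτ : ∀ x ∈ D, ‖τ x‖ ≤ R - r₀) :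
    DifferentiableOn ℂ (fun x => tG f (w x) (a x) (u x) (τ x)) D :=
  H.hd.comp (f := fun x => (((w x).1, a x + (w x).2 • u x, u x), (w x).2 + τ x))
    ((dw.fst.prodMk ((da.add (dw.snd.smul du)).prodMk du)).prodMk (dw.snd.add dτ))
    fun x hx => ⟨H.par (hw x hx) (ha x hx) (hu x hx), time (hw x hx) (hτ x hx)⟩

/-- solving the three equations. -/
theorem solve {D : Set E'} (hD : IsOpen D) {p : E' → E × ℂ} {m₀ m₁ : E' → W} {σ : ℝ} (hσ : 0 < σ)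
    (hσr : σ ≤ r₁ - r₀) (hεl : 16 * (C * ε * (1 + 4 / σ)) ≤ l)
    (dp : DifferentiableOn ℂ p D) (hp : MapsTo p D (P ×ˢ ball (0 : ℂ) r₀))
    (d0 : DifferentiableOn ℂ m₀ D) (d1 : DifferentiableOn ℂ m₁ D) (M0 : MapsTo m₀ D M)
    (M1 : MapsTo m₁ D M) (n0 : ∀ x ∈ D, C * ‖m₀ x - g (p x)‖ ≤ l)
    (n1 : ∀ x ∈ D, C * ‖m₁ x - g (p x)‖ ≤ l) (n01 : ∀ x ∈ D, C * ‖m₁ x - m₀ x‖ ≤ l * σ) :
    ∃ a₁ a₂ u : E' → V, DifferentiableOn ℂ a₁ D ∧ DifferentiableOn ℂ a₂ D ∧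
      DifferentiableOn ℂ u D ∧ ∀ x ∈ D, ‖a₁ x‖ < 2 * l ∧ ‖a₂ x‖ < 2 * l ∧ ‖u x‖ < 2 * l ∧
        tG f (p x) (a₁ x) 0 0 = m₀ x ∧ tG f (p x) (a₂ x) (u x) 0 = m₁ x ∧
        tG f (p x) (a₁ x) 0 σ = tG f (p x) (a₂ x) (u x) σ := by
  have hC := H.hm.one_le
  have hl := H.hl
  have hσ0 : (σ : ℂ) ≠ 0 := by exact_mod_cast hσ.ne'
  have nσ : ‖(σ : ℂ)‖ = σ := by rw [Complex.norm_real, Real.norm_of_nonneg hσ.le]
  have t0 : ‖(0 : ℂ)‖ ≤ r₁ - r₀ := by rw [norm_zero]; linarith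
  have tσ : ‖(σ : ℂ)‖ ≤ r₁ - r₀ := by rw [nσ]; exact hσr
  have hz : ‖(0 : V)‖ < 2 * l := by rw [norm_zero]; linarith
  set y₀ : E' → V := fun x => π (p x) (m₀ x - g (p x)) with hy₀
  set y₁ : E' → V := fun x => π (p x) (m₁ x - g (p x)) with hy₁
  have pΩ : MapsTo p D Ω := fun x hx => H.memΩ0 (hp hx)
  have dπ := H.hm.holπ.comp dp pΩ
  have dg := H.hm.holg.comp dp pΩ
  have dy₀ : DifferentiableOn ℂ y₀ D := dπ.clm_apply (d0.sub dg)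
  have dy₁ : DifferentiableOn ℂ y₁ D := dπ.clm_apply (d1.sub dg)
  have nπ : ∀ x ∈ D, ∀ m, ‖π (p x) m‖ ≤ C * ‖m‖ := fun x hx m =>
    ((π _).le_opNorm _).trans (mul_le_mul_of_nonneg_right (H.hm.bddπ _ (pΩ hx)) (norm_nonneg _))
  set A₁ : E' → V × V × V → V := fun x α => y₀ x + α.1 with hA₁
  set A₂ : E' → V × V × V → V := fun x α => y₁ x + α.2.1 with hA₂
  set U : E' → V × V × V → V := fun x α => (σ : ℂ)⁻¹ • (y₁ x - y₀ x) + α.2.2 with hU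
  have bA₁ : ∀ x ∈ D, ∀ α : V × V × V, ‖α‖ < l → ‖A₁ x α‖ < 2 * l := fun x hx α hα => by
    have h1 := (nπ x hx _).trans (n0 x hx)
    have h2 := norm_add_le (y₀ x) α.1
    linarith [norm_fst_le α]
  have bA₂ : ∀ x ∈ D, ∀ α : V × V × V, ‖α‖ < l → ‖A₂ x α‖ < 2 * l := fun x hx α hα => by
    have h1 := (nπ x hx _).trans (n1 x hx)
    have h2 := norm_add_le (y₁ x) α.2.1
    linarith [norm_snd_le α, norm_fst_le α.2]
  have bU : ∀ x ∈ D, ∀ α : V × V × V, ‖α‖ < l → ‖U x α‖ < 2 * l := fun x hx α hα => by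
    have h0 : y₁ x - y₀ x = π (p x) (m₁ x - m₀ x) := by
      simp only [hy₀, hy₁, ← map_sub]; congr 1; abel
    have h1 : ‖(σ : ℂ)⁻¹ • (y₁ x - y₀ x)‖ ≤ l := by
      rw [norm_smul, norm_inv, nσ, h0, inv_mul_le_iff₀ hσ]
      linarith [(nπ x hx _).trans (n01 x hx)]
    have h2 := norm_add_le ((σ : ℂ)⁻¹ • (y₁ x - y₀ x)) α.2.2
    linarith [norm_snd_le α, norm_snd_le α.2]
  set q : E' → E × ℂ := fun x => ((p x).1, (p x).2 + σ) with hq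
  set β₁ : E' → V × V × V → V := fun x α =>
    π (p x) (tG f (p x) (A₁ x α) 0 0 - g (p x)) - y₀ x with hβ₁
  set β₂ : E' → V × V × V → V := fun x α =>
    π (p x) (tG f (p x) (A₂ x α) (U x α) 0 - g (p x)) - y₁ x with hβ₂
  set β₃ : E' → V × V × V → V := fun x α =>
    π (q x) (tG f (p x) (A₁ x α) 0 σ - tG f (p x) (A₂ x α) (U x α) σ) with hβ₃
  set β : E' → V × V × V → V × V × V := fun x α =>
    (β₁ x α, β₂ x α, (σ : ℂ)⁻¹ • (β₃ x α - (β₁ x α - β₂ x α))) with hβ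
  have dβ : HolF β D l := by
    have f1 : ∀ {G : Type} [NormedAddCommGroup G] [NormedSpace ℂ G] {k : E' → G},
        DifferentiableOn ℂ k D →
        DifferentiableOn ℂ (fun x : E' × V × V × V => k x.1) (D ×ˢ ball 0 l) :=
      fun hk => hk.comp differentiableOn_fst fun x hx => hx.1
    have dA₁ : DifferentiableOn ℂ (fun x : E' × V × V × V => A₁ x.1 x.2) (D ×ˢ ball 0 l) :=
      (f1 dy₀).add differentiableOn_snd.fst
    have dA₂ : DifferentiableOn ℂ (fun x : E' × V × V × V => A₂ x.1 x.2) (D ×ˢ ball 0 l) :=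
      (f1 dy₁).add differentiableOn_snd.snd.fst
    have dU : DifferentiableOn ℂ (fun x : E' × V × V × V => U x.1 x.2) (D ×ˢ ball 0 l) :=
      (f1 ((dy₁.sub dy₀).const_smul (σ : ℂ)⁻¹)).add differentiableOn_snd.snd.snd
    have G1 : ∀ τ : ℂ, ‖τ‖ ≤ r₁ - r₀ → DifferentiableOn ℂ
        (fun x : E' × V × V × V => tG f (p x.1) (A₁ x.1 x.2) 0 τ) (D ×ˢ ball 0 l) := fun τ hτ =>
      H.gd (f1 dp) dA₁ (differentiableOn_const _) (differentiableOn_const _) (fun x hx => hp hx.1)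
        (fun x hx => bA₁ _ hx.1 _ (mem_ball_zero_iff.1 hx.2)) (fun _ _ => hz)
        fun _ _ => by linarith [H.hR]
    have G2 : ∀ τ : ℂ, ‖τ‖ ≤ r₁ - r₀ → DifferentiableOn ℂ
        (fun x : E' × V × V × V => tG f (p x.1) (A₂ x.1 x.2) (U x.1 x.2) τ) (D ×ˢ ball 0 l) :=
      fun τ hτ =>
      H.gd (f1 dp) dA₂ dU (differentiableOn_const _) (fun x hx => hp hx.1)
        (fun x hx => bA₂ _ hx.1 _ (mem_ball_zero_iff.1 hx.2))
        (fun x hx => bU _ hx.1 _ (mem_ball_zero_iff.1 hx.2)) fun _ _ => by linarith [H.hR]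
    have dq : DifferentiableOn ℂ (fun x => π (q x)) D :=
      H.hm.holπ.comp (dp.fst.prodMk (dp.snd.add_const _)) fun x hx => H.memΩ (hp hx) tσ
    have b1 : DifferentiableOn ℂ (fun x : E' × V × V × V => β₁ x.1 x.2) (D ×ˢ ball 0 l) :=
      ((f1 dπ).clm_apply ((G1 0 t0).sub (f1 dg))).sub (f1 dy₀)
    have b2 : DifferentiableOn ℂ (fun x : E' × V × V × V => β₂ x.1 x.2) (D ×ˢ ball 0 l) :=
      ((f1 dπ).clm_apply ((G2 0 t0).sub (f1 dg))).sub (f1 dy₁)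
    have b3 : DifferentiableOn ℂ (fun x : E' × V × V × V => β₃ x.1 x.2) (D ×ˢ ball 0 l) :=
      (f1 dq).clm_apply ((G1 σ tσ).sub (G2 σ tσ))
    exact b1.prodMk (b2.prodMk ((b3.sub (b1.sub b2)).const_smul (σ : ℂ)⁻¹))
  have hb : ∀ x ∈ D, ∀ α ∈ ball (0 : V × V × V) l, ‖β x α - α‖ ≤ C * ε * (1 + 4 / σ) := by
    intro x hx α hα
    have hα' := mem_ball_zero_iff.1 hα
    have e1 := H.g2 (hp hx) (bA₁ x hx α hα') hz t0
    have e2 := H.g2 (hp hx) (bA₂ x hx α hα') (bU x hx α hα') t0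
    have e3 := H.g2 (hp hx) (bA₁ x hx α hα') hz tσ
    have e4 := H.g2 (hp hx) (bA₂ x hx α hα') (bU x hx α hα') tσ
    simp only [add_zero, Prod.mk.eta, zero_smul, smul_zero, sub_zero] at e1 e2 e3
    have h0 : 0 ≤ C * ε := (norm_nonneg _).trans e1
    have h4 : 0 ≤ C * ε * (4 / σ) := by positivity
    have k1 : ‖β₁ x α - α.1‖ ≤ C * ε := by
      convert e1 using 2; simp only [hβ₁, hA₁]; abel
    have k2 : ‖β₂ x α - α.2.1‖ ≤ C * ε := by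
      convert e2 using 2; simp only [hβ₂, hA₂]; abel
    have k3 : ‖(σ : ℂ)⁻¹ • (β₃ x α - (β₁ x α - β₂ x α)) - α.2.2‖ ≤ C * ε * (4 / σ) := by
      have e5 : (σ : ℂ)⁻¹ • (β₃ x α - (β₁ x α - β₂ x α)) - α.2.2 = (σ : ℂ)⁻¹ •
          ((π (q x) (tG f (p x) (A₁ x α) 0 σ - g (q x)) - A₁ x α) -
            (π (q x) (tG f (p x) (A₂ x α) (U x α) σ - g (q x)) - (A₂ x α - (σ : ℂ) • U x α)) -
            ((β₁ x α - α.1) - (β₂ x α - α.2.1))) := by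
        have e6 : (σ : ℂ) • U x α = (y₁ x - y₀ x) + (σ : ℂ) • α.2.2 := by
          simp only [hU, smul_add, smul_smul, mul_inv_cancel₀ hσ0, one_smul]
        have e7 : α.2.2 = (σ : ℂ)⁻¹ • (σ : ℂ) • α.2.2 := by
          rw [smul_smul, inv_mul_cancel₀ hσ0, one_smul]
        rw [e6]
        conv_lhs => rw [e7, ← smul_sub]
        congr 1
        simp only [hβ₃, hA₁, hA₂, map_sub]
        abel
      rw [e5, norm_smul, norm_inv, nσ, inv_mul_le_iff₀ hσ]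
      refine (norm_sub_le_of_le (norm_sub_le_of_le e3 e4) (norm_sub_le_of_le k1 k2)).trans
        (le_of_eq ?_)
      field_simp
      ring
    rw [mul_add, mul_one]
    exact max_le (k1.trans (by linarith)) (max_le (k2.trans (by linarith)) (k3.trans (by linarith)))
  have hl2 : (0 : V × V × V) ∈ ball (0 : V × V × V) (l / 2) := mem_ball_self (half_pos hl)
  have hεp : ∀ x ∈ D, 0 ≤ C * ε * (1 + 4 / σ) := fun x hx =>
    (norm_nonneg _).trans (hb x hx 0 (mem_ball_self hl))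
  obtain ⟨h, dh, hh⟩ := inv hD (α := fun _ y => y) differentiableOn_snd dβ hεl
    (fun x hx y _ => by rw [sub_self, norm_zero]; exact hεp x hx) hb
  have dh0 : DifferentiableOn ℂ (fun x => h x 0) D :=
    dh.comp differentiableOn_id (differentiableOn_const _) (fun _ hx => hx)
      fun _ _ => by rw [norm_zero]; exact half_pos hl
  refine ⟨fun x => A₁ x (h x 0), fun x => A₂ x (h x 0), fun x => U x (h x 0), dy₀.add dh0.fst,
    dy₁.add dh0.snd.fst, ((dy₁.sub dy₀).const_smul (σ : ℂ)⁻¹).add dh0.snd.snd, fun x hx => ?_⟩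
  obtain ⟨k1, k2, -⟩ := hh x hx 0 hl2
  rw [zero_add] at k2
  have hα : ‖h x 0‖ < l := by linarith
  have z1 : β₁ x (h x 0) = 0 := congrArg Prod.fst k2
  have z2 : β₂ x (h x 0) = 0 := congrArg (fun v => v.2.1) k2
  have z3 : β₃ x (h x 0) = 0 := by
    have : (σ : ℂ)⁻¹ • (β₃ x (h x 0) - (β₁ x (h x 0) - β₂ x (h x 0))) = 0 :=
      congrArg (fun v => v.2.2) k2
    rw [z1, z2, sub_zero, sub_zero, smul_eq_zero] at this
    exact this.resolve_left (inv_ne_zero hσ0)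
  have c1 := bA₁ x hx _ hα
  have c2 := bA₂ x hx _ hα
  have c3 := bU x hx _ hα
  have tR : ∀ τ : ℂ, ‖τ‖ ≤ r₁ - r₀ → ‖τ‖ ≤ R - r₀ := fun τ hτ => by linarith [H.hR]
  have lρ : ∀ t : ℝ, 0 ≤ t → C * t ≤ l → t < ρ := fun t h1 h2 => by
    have h4 : 0 < l * r₁ := mul_pos H.hl (H.h0.trans H.h01)
    nlinarith [H.small, H.hδρ]
  refine ⟨c1, c2, c3, ?_, ?_, ?_⟩
  · refine H.hm.inj _ (pΩ hx) _ (H.gM (hp hx) c1 hz (tR _ t0)) _ (M0 hx)
      (by simpa using H.g3 (hp hx) c1 hz t0) (lρ _ (norm_nonneg _) (n0 x hx)) ?_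
    simp only [hβ₁, hy₀, map_sub] at z1
    rw [sub_sub_sub_cancel_right, sub_eq_zero] at z1
    exact z1
  · refine H.hm.inj _ (pΩ hx) _ (H.gM (hp hx) c2 c3 (tR _ t0)) _ (M1 hx)
      (by simpa using H.g3 (hp hx) c2 c3 t0) (lρ _ (norm_nonneg _) (n1 x hx)) ?_
    simp only [hβ₂, hy₁, map_sub] at z2
    rw [sub_sub_sub_cancel_right, sub_eq_zero] at z2
    exact z2
  · refine H.hm.inj _ (H.memΩ (hp hx) tσ) _ (H.gM (hp hx) c1 hz (tR _ tσ)) _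
      (H.gM (hp hx) c2 c3 (tR _ tσ)) (H.g3 (hp hx) c1 hz tσ) (H.g3 (hp hx) c2 c3 tσ) ?_
    simp only [hβ₃, map_sub] at z3
    exact sub_eq_zero.1 z3

end TD

/-- **TILT**.  With `w = p a = (w'', w₁)`, `G (a, u, τ) = F ((w'', a + w₁ u, u), w₁ + τ) ≈
e (w'', w₁ + τ) (a - τ u)`, step `σ = K s` (`K = 4 C / δ` or so), move `0`: `G (a₁, 0, σ τ)`,
move `1`: `G (a₂, u, σ (1 - τ))`.  Unknowns `(a₁, a₂, u) = (y₀ + α₁, y₁ + α₂, (y₁ - y₀) / σ + α₃)`,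
`y_i = π w (m_i - g w)`; the three equations (`L_w G(a₁,0,0) = y₀`, `L_w G(a₂,u,0) = y₁`,
`L_{w+σ} G(a₁,0,σ) = L_{w+σ} G(a₂,u,σ)`) read `β (α) = 0` with `β = id + O(ε / σ)`: `inv` in
`V × V × V` with `α = id`, at `y = 0`; `Model.inj` turns them into equalities in `M`. -/
theorem tilt [FiniteDimensional ℂ E] {Ω : Set (E × ℂ)} {g : E × ℂ → W} {π : E × ℂ → W →L[ℂ] V}
    {e : E × ℂ → V → W} {ρ C : ℝ} (hm : Model M Ω g π e ρ C) {P : Set E} (hP : IsOpen P)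
    {r₀ r₁ δ : ℝ} (h0 : 0 < r₀) (h01 : r₀ < r₁) (hΩ : P ×ˢ ball (0 : ℂ) r₁ ⊆ Ω) (hδ : 0 < δ)
    (hρ : δ * (1 + r₁) ≤ ρ)
    (happ : ∀ ε R : ℝ, 0 < ε → r₁ ≤ R → ∃ f : (E × V × V) × ℂ → W,
      DifferentiableOn ℂ f ((P ×ˢ ball 0 δ ×ˢ ball 0 δ) ×ˢ ball 0 R) ∧
      MapsTo f ((P ×ˢ ball 0 δ ×ˢ ball 0 δ) ×ˢ ball 0 R) M ∧
      ∀ x ∈ (P ×ˢ ball (0 : V) δ ×ˢ ball (0 : V) δ) ×ˢ ball (0 : ℂ) r₁,
        ‖f x - e (x.1.1, x.2) (x.1.2.1 - x.2 • x.1.2.2)‖ ≤ ε) :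
    Spray M (P ×ˢ ball (0 : ℂ) r₀) g := by
  intro T hT
  have hC := hm.one_le
  have hρ0 := hm.ρ_pos
  have hr : 0 < r₁ - r₀ := sub_pos.2 h01
  have hr1 : 0 < r₁ := h0.trans h01
  obtain ⟨l, hl, hlδ⟩ : ∃ l : ℝ, 0 < l ∧ C * (2 * l * (1 + r₁)) ≤ δ / 2 :=
    ⟨δ / (4 * C * (1 + r₁)), by positivity, le_of_eq (by field_simp; ring)⟩
  obtain ⟨K, hK, hKl⟩ : ∃ K : ℝ, 0 < K ∧ l * K = C := ⟨C / l, by positivity, by field_simp⟩
  set L : ℝ := C * (2 * l) + 2 * (C + C * ρ) / (r₁ - r₀) with hL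
  have hL0 : 0 < L := by positivity
  refine ⟨P ×ˢ ball 0 r₀, l / (2 * C), 3 + L * K * (T + 1),
    min (l / (2 * C)) ((r₁ - r₀) / (K * (T + 1))), 2, hP.prod isOpen_ball, subset_rfl,
    by positivity, by positivity, by positivity, ?_⟩
  intro s hs hs0 R hR A _ _ _ D p m₀ m₁ hD dp hp d0 d1 M0 M1 n0 n01
  have hs1 : C * s ≤ l / 2 := by
    have := hs0.trans (min_le_left _ _)
    rw [le_div_iff₀ (by positivity)] at this
    linarith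
  obtain ⟨σ, hσ⟩ : ∃ σ : ℝ, σ = K * s := ⟨_, rfl⟩
  have hσ0 : 0 < σ := by rw [hσ]; positivity
  have hs2 : σ * (T + 1) ≤ r₁ - r₀ := by
    have := hs0.trans (min_le_right _ _)
    rw [le_div_iff₀ (by positivity)] at this
    rw [hσ]; linarith
  have nσ : ‖(σ : ℂ)‖ = σ := by rw [Complex.norm_real, Real.norm_of_nonneg hσ0.le]
  obtain ⟨ε, hε0, hε1, hε2, hε3⟩ : ∃ ε : ℝ, 0 < ε ∧ ε ≤ ρ / 4 ∧ ε ≤ s ∧
      16 * (C * ε * (1 + 4 / σ)) ≤ l := by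
    refine ⟨min (ρ / 4) (min s (l / (16 * C * (1 + 4 / σ)))), by positivity, min_le_left _ _,
      (min_le_right _ _).trans (min_le_left _ _), ?_⟩
    have := (min_le_right (ρ / 4) _).trans (min_le_right s (l / (16 * C * (1 + 4 / σ))))
    rw [le_div_iff₀ (by positivity)] at this
    linarith
  have hRp : 0 < σ * (R + 1) := mul_pos hσ0 (by linarith)
  obtain ⟨f, f1, f2, f3⟩ := happ ε (r₁ + σ * (R + 1)) hε0 (by linarith)
  have H : TD M Ω g π e ρ C P r₀ r₁ δ l ε (r₁ + σ * (R + 1)) f :=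
    ⟨hm, h0, h01, hΩ, by nlinarith, hl, hlδ, hε1, by linarith, f1, f2, f3⟩
  have n0' : ∀ x ∈ D, C * ‖m₀ x - g (p x)‖ ≤ l / 2 := fun x hx => by
    have := (n0 x hx).le
    rw [le_div_iff₀ (by positivity)] at this
    linarith
  obtain ⟨a₁, a₂, u, da₁, da₂, du, hh⟩ := H.solve hD hσ0 (by nlinarith) hε3 dp hp d0 d1 M0 M1
    (fun x hx => by linarith [n0' x hx])
    (fun x hx => by
      have h1 := norm_sub_le_norm_sub_add_norm_sub (m₁ x) (m₀ x) (g (p x))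
      have h2 := n01 x hx
      have h3 := n0' x hx
      nlinarith)
    (fun x hx => by
      have h2 := n01 x hx
      rw [hσ, ← mul_assoc, hKl]
      exact mul_le_mul_of_nonneg_left h2 (by linarith))
  have hz : ‖(0 : V)‖ < 2 * l := by rw [norm_zero]; linarith
  have t1 : ∀ τ : ℂ, ∀ r : ℝ, ‖τ‖ < r → ‖(σ : ℂ) * τ‖ < σ * (r + 1) := fun τ r h => by
    rw [norm_mul, nσ]; exact mul_lt_mul_of_pos_left (by linarith) hσ0
  have t2 : ∀ τ : ℂ, ∀ r : ℝ, ‖τ‖ < r → ‖(σ : ℂ) * (1 - τ)‖ < σ * (r + 1) := fun τ r h => by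
    have := norm_sub_le (1 : ℂ) τ
    rw [norm_one] at this
    rw [norm_mul, nσ]; exact mul_lt_mul_of_pos_left (by linarith) hσ0
  have f1' : ∀ {G : Type} [NormedAddCommGroup G] [NormedSpace ℂ G] {k : A → G},
      DifferentiableOn ℂ k D → DifferentiableOn ℂ (fun x : A × ℂ => k x.1) (D ×ˢ ball 0 R) :=
    fun hk => hk.comp differentiableOn_fst fun x hx => hx.1
  have hLs : L * (σ * (T + 1)) = L * K * (T + 1) * s := by rw [hσ]; ring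
  refine ⟨fun i => match i with
    | 0 => fun x τ => tG f (p x) (a₁ x) 0 (σ * τ)
    | 1 => fun x τ => tG f (p x) (a₂ x) (u x) (σ * (1 - τ))
    | _ + 2 => fun x _ => m₁ x, ?_, ?_, ?_, ?_, ?_, ?_⟩
  · intro i
    match i with
    | 0 =>
      exact H.gd (f1' dp) (f1' da₁) (differentiableOn_const _) (by fun_prop) (fun x hx => hp hx.1)
        (fun x hx => (hh _ hx.1).1) (fun _ _ => hz)
        fun x hx => by linarith [t1 _ _ (mem_ball_zero_iff.1 hx.2)]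
    | 1 =>
      exact H.gd (f1' dp) (f1' da₂) (f1' du) (by fun_prop) (fun x hx => hp hx.1)
        (fun x hx => (hh _ hx.1).2.1) (fun x hx => (hh _ hx.1).2.2.1)
        fun x hx => by linarith [t2 _ _ (mem_ball_zero_iff.1 hx.2)]
    | _ + 2 => exact f1' d1
  · intro i x hx τ hτ
    match i with
    | 0 => exact H.gM (hp hx) (hh x hx).1 hz (by linarith [t1 _ _ (mem_ball_zero_iff.1 hτ)])
    | 1 =>
      exact H.gM (hp hx) (hh x hx).2.1 (hh x hx).2.2.1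
        (by linarith [t2 _ _ (mem_ball_zero_iff.1 hτ)])
    | _ + 2 => exact M1 hx
  · intro x hx
    simpa using (hh x hx).2.2.2.1
  · intro i x hx
    match i with
    | 0 => simpa using (hh x hx).2.2.2.2.2
    | 1 => simpa using (hh x hx).2.2.2.2.1
    | _ + 2 => rfl
  · intro i hi x hx τ
    match i, hi with
    | _ + 2, _ => rfl
  · intro i x hx τ hτ
    have h2 := n01 x hx
    have hLp : 0 ≤ L * K * (T + 1) * s := by positivity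
    match i with
    | 0 =>
      have k1 := t1 _ _ (mem_ball_zero_iff.1 hτ)
      have k2 := H.g4 (hp hx) (hh x hx).1 hz (k1.trans_le hs2)
      rw [(hh x hx).2.2.2.1] at k2
      have k3 := mul_le_mul_of_nonneg_left k1.le hL0.le
      dsimp only
      linarith
    | 1 =>
      have k1 := t2 _ _ (mem_ball_zero_iff.1 hτ)
      have k2 := H.g4 (hp hx) (hh x hx).2.1 (hh x hx).2.2.1 (k1.trans_le hs2)
      rw [(hh x hx).2.2.2.2.1] at k2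
      have k3 := mul_le_mul_of_nonneg_left k1.le hL0.le
      have k4 := norm_sub_le_norm_sub_add_norm_sub (tG f (p x) (a₂ x) (u x) (σ * (1 - τ))) (m₁ x)
        (m₀ x)
      dsimp only
      linarith
    | _ + 2 =>
      dsimp only
      linarith

end Crest.Agent.R279
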