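import Crest.Agent.R279.CPD
import Crest.Agent.R279.Tilt

/-! Row 279, block C: spray systems from the approximation property -/

set_option autoImplicit false

namespace Crest.Agent.R279

open Set Metric Filter Topology

variable {G : Type} [NormedAddCommGroup G] [NormedSpace ℂ G] {M : Set W}

/-- `PD.fatten` gives `K₀ × B ⊆ P ⊆ K₀' × B' ⊆ U`; model `(P₁, π, e, ρ, C)` of `g` near `K₀' × B'`,
pulled back by `Prod.fst` to `Ω = P₁ ×ˢ univ` (`Model.pull`); `tilt` with `r₀ = 1`, `r₁ = 2`,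
`δ = ρ / 4`: the map `x ↦ e x.1.1 (x.1.2.1 - x.2 • x.1.2.2)` is holomorphic on the open set
`{x.1.1 ∈ P₁, ‖x.1.2.1 - x.2 • x.1.2.2‖ < ρ}` which contains
`((K₀' × B') × closedBall δ × closedBall δ) × closedBall 2`, and this set has `CAP` (`CAP.equiv` with
the reassociation `((G × F) × V × V) × ℂ ≃L G × (F × (V × V) × ℂ)`, `c = 0`, `PD.prod`).
Then `Spray.pull` along `p ↦ (p, 0)` with `O = univ`. -/
theorem CoreCAP.sp [FiniteDimensional ℂ G] (hM : HasModels M) (h : CoreCAP M G) : CoreSP M G := by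
  intro F _ _ _ K₀ B hK hc hB U g hU hKU hg hm
  obtain ⟨K₀', B', P, hK', hc', hB', hP, hKP, hPK, hKU'⟩ := PD.fatten hK hc hB hU hKU
  obtain ⟨P₁, π, e, ρ, C, h1, -, hmod⟩ := hM (G × F) (K₀' ×ˢ B') U g (hK'.prod hB'.isCompact)
    (hc'.prod hB'.convex) hU hKU' hg hm
  have hρ := hmod.ρ_pos
  have hδ : 0 < ρ / 4 := by positivity
  have hmod' := hmod.pull (O := P₁ ×ˢ univ) (φ := (Prod.fst : (G × F) × ℂ → G × F))
    (hmod.op.prod isOpen_univ) differentiableOn_fst fun x hx => hx.1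
  have hcap := h (F × (V × V) × ℂ) K₀' _ hK' hc'
    (hB'.prod (((PD.ballV hδ).prod (PD.ballV hδ)).prod (PD.ballC two_pos)))
  have hp : Differentiable ℂ fun y : G × F × (V × V) × ℂ => (y.1, y.2.1) := by fun_prop
  have hq : Differentiable ℂ fun y : G × F × (V × V) × ℂ => y.2.2.1.1 - y.2.2.2 • y.2.2.1.2 := by
    fun_prop
  have hs := tilt hmod' hP one_pos one_lt_two (fun x hx => ⟨h1 (hPK hx.1), mem_univ _⟩) hδ
    (by linarith) fun ε R hε _ => by
      obtain ⟨f, hf, hfM, hfK⟩ := hcap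
        {y | (y.1, y.2.1) ∈ P₁ ∧ ‖y.2.2.1.1 - y.2.2.2 • y.2.2.1.2‖ < ρ}
        (fun y => e (y.1, y.2.1) (y.2.2.1.1 - y.2.2.2 • y.2.2.1.2))
        ((hmod.op.preimage hp.continuous).inter (isOpen_lt hq.continuous.norm continuous_const))
        (by
          rintro ⟨a, b, ⟨u, v⟩, τ⟩ ⟨ha, hb, ⟨hu, hv⟩, hτ⟩
          refine ⟨h1 ⟨ha, hb⟩, ?_⟩
          have e1 : ‖u‖ ≤ ρ / 4 := mem_closedBall_zero_iff.1 hu
          have e2 : ‖v‖ ≤ ρ / 4 := mem_closedBall_zero_iff.1 hv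
          have e3 : ‖τ‖ ≤ 2 := mem_closedBall_zero_iff.1 hτ
          have e4 : ‖τ • v‖ ≤ 2 * (ρ / 4) := by
            rw [norm_smul]; exact mul_le_mul e3 e2 (norm_nonneg _) two_pos.le
          change ‖u - τ • v‖ < ρ
          linarith [norm_sub_le u (τ • v)])
        (hmod.hole.comp hp.differentiableOn hq.differentiableOn (fun y hy => hy.1) fun y hy => hy.2)
        (fun y hy => hmod.mem _ hy.1 _ (mem_ball_zero_iff.2 hy.2)) ε hε
      refine ⟨fun x => f (x.1.1.1, x.1.1.2, x.1.2, x.2), Differentiable.differentiableOn (by fun_prop),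
        fun x _ => hfM _, fun x hx => ?_⟩
      exact hfK (x.1.1.1, x.1.1.2, x.1.2, x.2) ⟨(hPK hx.1.1).1, (hPK hx.1.1).2,
        ⟨ball_subset_closedBall hx.1.2.1, ball_subset_closedBall hx.1.2.2⟩,
        ball_subset_closedBall hx.2⟩
  exact hs.pull (φ := fun p => (p, 0)) isOpen_univ (subset_univ _) (by fun_prop)
    (fun p hp => ⟨hKP hp, mem_ball_self one_pos⟩) fun _ _ => rfl

end Crest.Agent.R279
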