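import Crest.Agent.R279.CStepB
import Crest.Agent.R279.CSp

/-! Row 279, block C: from polydiscs to all compact convex sets -/

set_option autoImplicit false

namespace Crest.Agent.R279

open Set Metric Filter Topology

variable {E F : Type} [NormedAddCommGroup E] [NormedSpace ℂ E] [NormedAddCommGroup F]
  [NormedSpace ℂ F] {J : Type} [Fintype J] {M : Set W}

/-- a closed real polyhedron. -/
def PolyA (l : J → (E →L[ℂ] ℂ)) (c : J → ℝ) : Set E := {z | ∀ j, (l j z).re ≤ c j}

omit [Fintype J] in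
private theorem h14_closed (l : J → (E →L[ℂ] ℂ)) (c : J → ℝ) : IsClosed (PolyA l c) := by
  rw [PolyA, ofPred_forall]
  exact isClosed_iInter fun j =>
    isClosed_le (Complex.continuous_re.comp (l j).continuous) continuous_const

omit [Fintype J] in
private theorem h14_convex (l : J → (E →L[ℂ] ℂ)) (c : J → ℝ) : Convex ℝ (PolyA l c) := by
  intro x hx y hy a b ha hb hab j
  rw [map_add, ← Complex.coe_smul, ← Complex.coe_smul, map_smul, map_smul, smul_eq_mul,
    smul_eq_mul, Complex.add_re, Complex.re_ofReal_mul, Complex.re_ofReal_mul]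
  have h1 := mul_le_mul_of_nonneg_left (hx j) ha
  have h2 := mul_le_mul_of_nonneg_left (hy j) hb
  have h3 : a * c j + b * c j = c j := by rw [← add_mul, hab, one_mul]
  linarith

/-- closed, and inside `s • PolyA l c` for `s = max 1 (max_j c' j / c j)`. -/
theorem PolyA.isCompact {l : J → (E →L[ℂ] ℂ)} {c : J → ℝ} (hc : ∀ j, 0 < c j)
    (h : IsCompact (PolyA l c)) (c' : J → ℝ) : IsCompact (PolyA l c') := by
  obtain ⟨s, hs1, hs⟩ : ∃ s : ℝ, 1 ≤ s ∧ ∀ j, c' j ≤ s * c j := by
    have h0 : ∀ j, 0 ≤ |c' j| / c j := fun j => div_nonneg (abs_nonneg _) (hc j).le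
    refine ⟨1 + ∑ j, |c' j| / c j, le_add_of_nonneg_right (Finset.sum_nonneg fun j _ => h0 j),
      fun j => ?_⟩
    have h1 : |c' j| / c j ≤ ∑ j, |c' j| / c j :=
      Finset.single_le_sum (f := fun j => |c' j| / c j) (fun j _ => h0 j) (Finset.mem_univ j)
    rw [div_le_iff₀ (hc j)] at h1
    nlinarith [le_abs_self (c' j), hc j]
  have hs0 : 0 < s := by linarith
  refine (h.image (continuous_const_smul (s : ℂ))).of_isClosed_subset (h14_closed l c')
    fun z hz => ⟨((s⁻¹ : ℝ) : ℂ) • z, fun j => ?_, ?_⟩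
  · rw [map_smul, smul_eq_mul, Complex.re_ofReal_mul, inv_mul_le_iff₀ hs0]
    exact (hz j).trans (hs j)
  · simp only [smul_smul]
    rw [← Complex.ofReal_mul, mul_inv_cancel₀ hs0.ne', Complex.ofReal_one, one_smul]

/-- `cthickening η K ⊆ U`; separate every point of the compact set
`S = cthickening η K \ thickening η K` from `K` (`RCLike.geometric_hahn_banach_closed_point`),
finite subcover.  The polyhedron is convex, contains `0` and misses `S`, so it lies in
`thickening η K` (intermediate values of `infDist · K` on a segment from `0`). -/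
theorem exists_polyA [FiniteDimensional ℂ E] {K U : Set E} (hK : IsCompact K) (hc : Convex ℝ K)
    (h0 : (0 : E) ∈ K) (hU : IsOpen U) (hKU : K ⊆ U) :
    ∃ (n : ℕ) (l : Fin n → (E →L[ℂ] ℂ)) (c : Fin n → ℝ), (∀ j, 0 < c j) ∧
      IsCompact (PolyA l c) ∧ K ⊆ PolyA l c ∧ PolyA l c ⊆ U := by
  obtain ⟨η, hη, hηU⟩ := hK.exists_cthickening_subset_open hU hKU
  have := FiniteDimensional.proper ℂ E
  have hC : IsCompact (cthickening η K) := hK.cthickening
  have hS : IsCompact (cthickening η K \ thickening η K) := hC.diff isOpen_thickening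
  have hsep : ∀ x : ↥(cthickening η K \ thickening η K), ∃ (f : E →L[ℂ] ℂ) (u : ℝ),
      (∀ a ∈ K, (f a).re < u) ∧ u < (f x).re := fun x =>
    RCLike.geometric_hahn_banach_closed_point (𝕜 := ℂ) hc hK.isClosed
      fun h => x.2.2 (self_subset_thickening hη K h)
  choose f u hf hu using hsep
  obtain ⟨t, ht⟩ := hS.elim_finite_subcover (fun x => {z | u x < (f x z).re})
    (fun x => isOpen_lt continuous_const (Complex.continuous_re.comp (f x).continuous))
    fun z hz => mem_iUnion.2 ⟨⟨z, hz⟩, hu ⟨z, hz⟩⟩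
  have hKP : K ⊆ PolyA (fun j => f (t.equivFin.symm j)) fun j => u (t.equivFin.symm j) :=
    fun z hz j => (hf _ z hz).le
  have hP : PolyA (fun j => f (t.equivFin.symm j)) (fun j => u (t.equivFin.symm j)) ⊆
      thickening η K := by
    refine IsPreconnected.subset_left_of_subset_union (v := (cthickening η K)ᶜ) isOpen_thickening
      isClosed_cthickening.isOpen_compl
      (disjoint_compl_right_iff_subset.2 (thickening_subset_cthickening η K)) (fun z hz => ?_)
      ⟨0, hKP h0, self_subset_thickening hη K h0⟩ (h14_convex _ _).isPreconnected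
    by_contra hn
    rw [mem_union, not_or, mem_compl_iff, not_not] at hn
    obtain ⟨x, hx, hxz⟩ := mem_iUnion₂.1 (ht ⟨hn.2, hn.1⟩)
    have h1 := hz (t.equivFin ⟨x, hx⟩)
    simp only [Equiv.symm_apply_apply] at h1
    exact absurd hxz (not_lt.2 h1)
  have hP' := hP.trans (thickening_subset_cthickening η K)
  exact ⟨t.card, _, _, fun j => by simpa using hf (t.equivFin.symm j) 0 h0,
    hC.of_isClosed_subset (h14_closed _ _) hP', hKP, hP'.trans hηU⟩

/-- If `l j₀ = 0` the two sets are equal (`App.of_subset`).  Otherwise `G = ker (l j₀)` has rank `k`,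
`Θ : E ≃L G × ℂ` with `(Θ z).2 = l j₀ z / c j₀`, `lf j = (c j)⁻¹ • l j ∘ Θ⁻¹` for `j ≠ j₀`,
`lf j₀ = 0`; the two sets are the preimages of `Poly lf e 1 1` and `Poly lf e 1 (T / c j₀)` under
`Θ.prodCongr (refl F)`; `step`, `App.equiv`. -/
theorem enlarge_one [DecidableEq J] [FiniteDimensional ℂ E] [FiniteDimensional ℂ F]
    (hM : HasModels M) {k : ℕ}
    (hSP : ∀ (G : Type) [NormedAddCommGroup G] [NormedSpace ℂ G] [FiniteDimensional ℂ G],
      Module.finrank ℂ G = k → CoreSP M G)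
    (hk : Module.finrank ℂ E = k + 1) {l : J → (E →L[ℂ] ℂ)} {c : J → ℝ} (hc : ∀ j, 0 < c j)
    (h : IsCompact (PolyA l c)) {B : Set F} (hB : PD B) (j₀ : J) {T : ℝ} (hT : c j₀ ≤ T) :
    App M (PolyA l c ×ˢ B) (PolyA l (Function.update c j₀ T) ×ˢ B) := by
  by_cases h0 : l j₀ = 0
  · refine App.of_subset (prod_mono_left fun z hz j => ?_)
    by_cases hj : j = j₀
    · rw [hj, h0]
      simpa using (hc j₀).le
    · simpa [Function.update_of_ne hj] using hz j
  obtain ⟨ι, _, e, rfl⟩ := hB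
  have hc0 : ∀ j, (c j : ℂ) ≠ 0 := fun j => by exact_mod_cast (hc j).ne'
  obtain ⟨z₀, hz₀⟩ : ∃ z, l j₀ z ≠ 0 := by
    by_contra hn
    push Not at hn
    exact h0 (ContinuousLinearMap.ext hn)
  let φ : E →L[ℂ] ℂ := (c j₀ : ℂ)⁻¹ • l j₀
  have hr : Function.RightInverse
      (ContinuousLinearMap.toSpanSingleton ℂ (((c j₀ : ℂ) / l j₀ z₀) • z₀)) φ := by
    intro t
    have := hc0 j₀
    simp only [φ, ContinuousLinearMap.toSpanSingleton_apply, smul_apply,
      map_smul, smul_eq_mul]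
    field_simp
  let Θ : E ≃L[ℂ] φ.ker × ℂ :=
    (ContinuousLinearEquiv.equivOfRightInverse φ _ hr).trans (ContinuousLinearEquiv.prodComm ℂ _ _)
  have hΘ : ∀ z, (Θ z).2 = (c j₀ : ℂ)⁻¹ * l j₀ z := fun z => rfl
  have hG : Module.finrank ℂ φ.ker = k := by
    have h1 := Θ.toLinearEquiv.finrank_eq
    rw [Module.finrank_prod, Module.finrank_self, hk] at h1
    omega
  let lf : J → (φ.ker × ℂ →L[ℂ] ℂ) := fun j =>
    if j = j₀ then 0 else (c j : ℂ)⁻¹ • (l j).comp (Θ.symm : φ.ker × ℂ →L[ℂ] E)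
  have hre : ∀ j (w : ℂ) (s : ℝ), ((c j : ℂ)⁻¹ * w).re ≤ s / c j ↔ w.re ≤ s := by
    intro j w s
    rw [← Complex.ofReal_inv, Complex.re_ofReal_mul, inv_mul_eq_div, div_le_div_iff_of_pos_right (hc j)]
  have key : ∀ S : ℝ, (Θ.prodCongr (ContinuousLinearEquiv.refl ℂ F)) ⁻¹' Poly lf e 1 (S / c j₀) =
      PolyA l (Function.update c j₀ S) ×ˢ {q | ‖e q‖ ≤ 1} := by
    intro S
    ext ⟨z, q⟩
    change ((∀ j, (lf j (Θ z)).re ≤ 1) ∧ (Θ z).2.re ≤ S / c j₀ ∧ ‖e q‖ ≤ 1) ↔
      (∀ j, (l j z).re ≤ Function.update c j₀ S j) ∧ ‖e q‖ ≤ 1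
    have h1 : ∀ j, j ≠ j₀ → ((lf j (Θ z)).re ≤ 1 ↔ (l j z).re ≤ c j) := by
      intro j hj
      rw [← hre j (l j z) (c j), div_self (hc j).ne']
      simp [lf, hj]
    rw [hΘ, hre]
    constructor
    · rintro ⟨h2, h3, h4⟩
      refine ⟨fun j => ?_, h4⟩
      by_cases hj : j = j₀
      · rwa [hj, Function.update_self]
      · rw [Function.update_of_ne hj]
        exact (h1 j hj).1 (h2 j)
    · rintro ⟨h2, h3⟩
      refine ⟨fun j => ?_, by simpa using h2 j₀, h3⟩
      by_cases hj : j = j₀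
      · simp [lf, hj]
      · exact (h1 j hj).2 (by simpa [Function.update_of_ne hj] using h2 j)
  have k1 := key (c j₀)
  rw [div_self (hc j₀).ne', Function.update_eq_self] at k1
  have hcp : IsCompact (Poly lf e 1 1) := by
    rw [← (Θ.prodCongr (ContinuousLinearEquiv.refl ℂ F)).toHomeomorph.isCompact_preimage]
    exact k1 ▸ h.prod (PD.isCompact ⟨ι, _, e, rfl⟩)
  rw [← k1, ← key T]
  exact (step hM (hSP _ hG) hcp ((one_le_div (hc j₀)).2 hT)).equiv _

/-- induction on a finset `s` of indices for `s.piecewise c' c`. -/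
theorem enlarge_all [FiniteDimensional ℂ E] [FiniteDimensional ℂ F] (hM : HasModels M) {k : ℕ}
    (hSP : ∀ (G : Type) [NormedAddCommGroup G] [NormedSpace ℂ G] [FiniteDimensional ℂ G],
      Module.finrank ℂ G = k → CoreSP M G)
    (hk : Module.finrank ℂ E = k + 1) {l : J → (E →L[ℂ] ℂ)} {c c' : J → ℝ} (hc : ∀ j, 0 < c j)
    (h : IsCompact (PolyA l c)) {B : Set F} (hB : PD B) (hc' : ∀ j, c j ≤ c' j) :
    App M (PolyA l c ×ˢ B) (PolyA l c' ×ˢ B) := by
  classical
  have key : ∀ s : Finset J, App M (PolyA l c ×ˢ B) (PolyA l (s.piecewise c' c) ×ˢ B) := by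
    intro s
    induction s using Finset.induction_on with
    | empty => rw [Finset.piecewise_empty]; exact App.of_subset Subset.rfl
    | insert j s hj ih =>
      rw [Finset.piecewise_insert]
      have hle : ∀ i, c i ≤ s.piecewise c' c i := fun i => by
        by_cases hi : i ∈ s
        · rw [Finset.piecewise_eq_of_mem _ _ _ hi]; exact hc' i
        · rw [Finset.piecewise_eq_of_notMem _ _ _ hi]
      refine ih.trans (prod_mono (fun z hz i => (hz i).trans (hle i)) Subset.rfl)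
        (enlarge_one hM hSP hk (fun i => (hc i).trans_le (hle i)) (PolyA.isCompact hc h _) hB j ?_)
      rw [Finset.piecewise_eq_of_notMem _ _ _ hj]
      exact hc' j
  have := key Finset.univ
  rwa [Finset.piecewise_univ] at this

/-- `K₀ = ∅`, or `K₀ = B₀` for the polydisc `B₀ ⊇ K₀` (`E` is a subsingleton). -/
theorem core_zero [FiniteDimensional ℂ E] (hne : M.Nonempty) (hp : PolyCAP M)
    (hk : Module.finrank ℂ E = 0) : CoreCAP M E := by
  intro F _ _ _ K₀ B hK _ hB
  rcases K₀.eq_empty_or_nonempty with rfl | ⟨z, hz⟩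
  · rw [empty_prod]; exact CAP.empty hne
  have : Subsingleton E := Module.finrank_zero_iff.1 hk
  obtain ⟨B₀, hB₀, hKB⟩ := PD.exists_superset hK.isBounded
  have h : K₀ = B₀ := Subset.antisymm hKB fun w _ => by rwa [Subsingleton.elim w z]
  rw [h]
  exact (hB₀.prod hB).cap hp

/-- `K₀ = ∅`: `CAP.empty`.  Otherwise translate so that `0 ∈ K₀` (`CAP.equiv`).  Given `U`, take
`U₀ ⊇ K₀` open with `U₀ ×ˢ B ⊆ U` (`generalized_tube_lemma`), `L = PolyA l c` from `exists_polyA`,
a polydisc `B₀ ⊇ L` inside `closedBall 0 R`, `c' j = c j + ‖l j‖ R`; `enlarge_all`, `App.mono` to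
`B₀ ×ˢ B`, `App.cap`, `PD.cap`, `PD.prod` give `CAP M (L ×ˢ B)`. -/
theorem core_succ [FiniteDimensional ℂ E] (hM : HasModels M) (hne : M.Nonempty) (hp : PolyCAP M)
    {k : ℕ}
    (hSP : ∀ (G : Type) [NormedAddCommGroup G] [NormedSpace ℂ G] [FiniteDimensional ℂ G],
      Module.finrank ℂ G = k → CoreSP M G)
    (hk : Module.finrank ℂ E = k + 1) : CoreCAP M E := by
  intro F _ _ _ K₀ B hK hc hB
  have key : ∀ K : Set E, IsCompact K → Convex ℝ K → (0 : E) ∈ K → CAP M (K ×ˢ B) := by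
    intro K hK hc h0 U g hU hKU hg hgM ε hε
    obtain ⟨U₀, v, hU₀, -, hKU₀, hBv, huv⟩ := generalized_tube_lemma hK hB.isCompact hU hKU
    obtain ⟨n, l, c, hc0, hL, hKL, hLU⟩ := exists_polyA hK hc h0 hU₀ hKU₀
    obtain ⟨B₀, hB₀, hLB⟩ := PD.exists_superset hL.isBounded
    obtain ⟨R, hR⟩ := hB₀.isCompact.isBounded.exists_norm_le
    have hR0 : 0 ≤ R := (norm_nonneg _).trans (hR 0 hB₀.zero_mem)
    have h1 := enlarge_all hM hSP hk (c' := fun j => c j + ‖l j‖ * R) hc0 hL hB
      fun j => le_add_of_nonneg_right (by positivity)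
    have h2 : B₀ ⊆ PolyA l fun j => c j + ‖l j‖ * R := fun z hz j => by
      have a1 := Complex.re_le_norm (l j z)
      have a2 := (l j).le_of_opNorm_le_of_le le_rfl (hR z hz)
      have a3 := hc0 j
      simp only
      linarith
    have h3 : CAP M (PolyA l c ×ˢ B) := (h1.mono (prod_mono h2 Subset.rfl)).cap
      (prod_mono hLB Subset.rfl) ((hB₀.prod hB).cap hp)
    obtain ⟨f, hf, hfM, hfK⟩ := h3 U g hU ((prod_mono hLU hBv).trans huv) hg hgM ε hε
    exact ⟨f, hf, hfM, fun z hz => hfK z (prod_mono hKL Subset.rfl hz)⟩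
  rcases K₀.eq_empty_or_nonempty with rfl | ⟨z₀, hz₀⟩
  · rw [empty_prod]; exact CAP.empty hne
  have h1 := (key ((fun w => w + z₀) ⁻¹' K₀) ((Homeomorph.addRight z₀).isCompact_preimage.2 hK)
    (hc.translate_preimage_left z₀) (by simpa using hz₀)).equiv
      (ContinuousLinearEquiv.refl ℂ (E × F)) (-z₀, 0)
  convert h1 using 1
  ext z
  simp

theorem core_all (hM : HasModels M) (hne : M.Nonempty) (hp : PolyCAP M) (k : ℕ) :
    ∀ (G : Type) [NormedAddCommGroup G] [NormedSpace ℂ G] [FiniteDimensional ℂ G],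
      Module.finrank ℂ G = k → CoreCAP M G := by
  induction k with
  | zero => exact fun G _ _ _ hk => core_zero hne hp hk
  | succ k ih => exact fun G _ _ _ hk => core_succ hM hne hp (fun G' _ _ _ h => (ih G' h).sp hM) hk

/-- **Step (3)**: the approximation property for all compact convex sets. -/
theorem cap_convex' [FiniteDimensional ℂ E] (hM : HasModels M) (hne : M.Nonempty) (hp : PolyCAP M)
    {K : Set E} (hK : IsCompact K) (hc : Convex ℝ K) : CAP M K := by
  have h1 : PD {q : Fin 0 → ℂ | ‖ContinuousLinearEquiv.refl ℂ (Fin 0 → ℂ) q‖ ≤ 1} :=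
    ⟨Fin 0, inferInstance, _, rfl⟩
  have h2 := (core_all hM hne hp _ E rfl (Fin 0 → ℂ) K _ hK hc h1).equiv
    (ContinuousLinearEquiv.prodUnique ℂ E (Fin 0 → ℂ)).symm 0
  convert h2 using 1
  ext z
  have h3 : ∀ q : Fin 0 → ℂ, ‖q‖ ≤ 1 := fun q => by
    rw [Subsingleton.elim q 0, norm_zero]
    exact zero_le_one
  simp [h3]

end Crest.Agent.R279
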