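import Crest.Agent.R279.Inv

/-! Row 279: sections of an atlas -/

set_option autoImplicit false

namespace Crest.Agent.R279

open Set Metric Filter Topology

variable {E E' F : Type} [NormedAddCommGroup E] [NormedSpace ℂ E] [NormedAddCommGroup E']
  [NormedSpace ℂ E'] [NormedAddCommGroup F] [NormedSpace ℂ F] {M : Set W}

variable {J : Type} {C : J → Set E} {Ψ : J → E → V → W} {ρ : ℝ}

theorem Sec.h36_lt {U : Set E} {δ ε : ℝ} {α : J → E → V → V} (h : Sec C Ψ U δ ε α)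
    (hρ : δ + ε ≤ ρ) {j : J} {z : E} (hz : z ∈ U) (hj : z ∈ C j) {y : V}
    (hy : y ∈ ball (0 : V) δ) : ‖α j z y‖ < ρ := by
  have h1 := h.near j z hz hj y hy
  have h2 := norm_le_norm_sub_add (α j z y) y
  rw [mem_ball_zero_iff] at hy
  linarith

/-- the map defined by a section (`HolF.glue`). -/
theorem Sec.map (hA : Atlas M C Ψ ρ) {U : Set E} {δ ε : ℝ} {α : J → E → V → V}
    (h : Sec C Ψ U δ ε α) (hρ : δ + ε ≤ ρ) :
    ∃ f : E → V → W, HolF f U δ ∧ (∀ z ∈ U, ∀ y ∈ ball (0 : V) δ, f z y ∈ M) ∧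
      ∀ j, ∀ z ∈ U, z ∈ C j → ∀ y ∈ ball (0 : V) δ, f z y = Ψ j z (α j z y) := by
  obtain ⟨f, h1, h2⟩ := HolF.glue (U := fun j => U ∩ C j) (f := fun j z y => Ψ j z (α j z y))
    (ρ := δ) (fun j => h.op.inter (hA.op j))
    (fun j => (hA.hol j).comp differentiableOn_fst (h.hol j) (fun x hx => hx.1.2)
      fun x hx => h.h36_lt hρ hx.1.1 hx.1.2 hx.2)
    fun j k z hj hk y hy => h.compat j k z hj.1 hj.2 hk.2 y hy
  refine ⟨f, h1.mono (fun z hz => ?_) le_rfl, fun z hz y hy => ?_,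
    fun j z hz hj y hy => h2 j z ⟨hz, hj⟩ y hy⟩
  · obtain ⟨j, hj⟩ := mem_iUnion.1 (h.cov hz)
    exact mem_iUnion.2 ⟨j, hz, hj⟩
  · obtain ⟨j, hj⟩ := mem_iUnion.1 (h.cov hz)
    rw [h2 j z ⟨hz, hj⟩ y hy]
    exact hA.mem j z hj _ (mem_ball_zero_iff.2 (h.h36_lt hρ hz hj hy))

/-- the transition between two sections: `h_j` from `inv` on `U ∩ U' ∩ C j`; `h_j = h_k` on
overlaps since `Ψ j (α j (y + h_j)) = Ψ j (α' j y) = Ψ k (α' k y) = Ψ k (α k (y + h_k))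
= Ψ j (α j (y + h_k))`, `Ψ j z` is injective (`Atlas.inj`) and `α j z` is (`inv_expand`). -/
theorem Sec.trans (hA : Atlas M C Ψ ρ) {U U' : Set E} {δ ε : ℝ} {α α' : J → E → V → V}
    (h : Sec C Ψ U δ ε α) (h' : Sec C Ψ U' δ ε α') (hρ : δ + ε ≤ ρ) (hε : 16 * ε ≤ δ) :
    ∃ t : E → V → V, HolF t (U ∩ U') (δ / 2) ∧ ∀ z ∈ U ∩ U', ∀ y ∈ ball (0 : V) (δ / 2),
      ‖t z y‖ ≤ 2 * ε ∧ ∀ j, z ∈ C j → α j z (y + t z y) = α' j z y := by
  have ho : ∀ j, IsOpen (U ∩ U' ∩ C j) := fun j => (h.op.inter h'.op).inter (hA.op j)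
  choose s hs1 hs2 using fun j => inv (ho j)
    ((h'.hol j).mono (inter_subset_inter_left _ inter_subset_right) le_rfl)
    ((h.hol j).mono (inter_subset_inter_left _ inter_subset_left) le_rfl) hε
    (fun z hz => h'.near j z hz.1.2 hz.2) fun z hz => h.near j z hz.1.1 hz.2
  have hb : ∀ j, ∀ z ∈ U ∩ U' ∩ C j, ∀ y ∈ ball (0 : V) (δ / 2),
      y + s j z y ∈ ball (0 : V) (3 * δ / 4) := fun j z hz y hy => by
    have h1 := (hs2 j z hz y hy).1
    have h2 := pos_of_mem_ball hy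
    rw [mem_ball_zero_iff] at hy ⊢
    linarith [norm_add_le y (s j z y)]
  obtain ⟨t, h1, h2⟩ := HolF.glue ho hs1 fun j k z hj hk y hy => by
    by_cases hjk : j = k
    · rw [hjk]
    have h0 := pos_of_mem_ball hy
    have hsub : ball (0 : V) (3 * δ / 4) ⊆ ball 0 δ := ball_subset_ball (by linarith)
    have hy' : y ∈ ball (0 : V) δ := ball_subset_ball (by linarith) hy
    have e1 : Ψ j z (α j z (y + s j z y)) = Ψ j z (α j z (y + s k z y)) := by
      rw [(hs2 j z hj y hy).2.1, h'.compat j k z hj.1.2 hj.2 hk.2 y hy',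
        h.compat j k z hj.1.1 hj.2 hk.2 _ (hsub (hb k z hk y hy)), (hs2 k z hk y hy).2.1]
    have e2 := hA.inj j k hjk z hj.2 hk.2
      (mem_ball_zero_iff.2 (h.h36_lt hρ hj.1.1 hj.2 (hsub (hb j z hj y hy))))
      (mem_ball_zero_iff.2 (h.h36_lt hρ hj.1.1 hj.2 (hsub (hb k z hk y hy)))) e1
    have e3 := inv_expand (h97_fibre (h.hol j) ⟨hj.1.1, hj.2⟩) hε (h.near j z hj.1.1 hj.2)
      (hb j z hj y hy) (hb k z hk y hy)
    rw [e2, sub_self, norm_zero, mul_zero, norm_le_zero_iff, sub_eq_zero] at e3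
    exact add_left_cancel e3
  refine ⟨t, h1.mono (fun z hz => ?_) le_rfl, fun z hz y hy => ⟨?_, fun j hj => ?_⟩⟩
  · obtain ⟨j, hj⟩ := mem_iUnion.1 (h.cov hz.1)
    exact mem_iUnion.2 ⟨j, hz, hj⟩
  · obtain ⟨j, hj⟩ := mem_iUnion.1 (h.cov hz.1)
    rw [h2 j z ⟨hz, hj⟩ y hy]
    exact (hs2 j z ⟨hz, hj⟩ y hy).1
  · rw [h2 j z ⟨hz, hj⟩ y hy]
    exact (hs2 j z ⟨hz, hj⟩ y hy).2.1

theorem h31_hol_union {G : Type} [NormedAddCommGroup G] [NormedSpace ℂ G] {g : E → F → G}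
    {A B : Set E} {δ : ℝ} (hA : IsOpen A) (hB : IsOpen B) (h1 : HolF g A δ) (h2 : HolF g B δ) :
    HolF g (A ∪ B) δ := by
  rintro x ⟨hx | hx, hy⟩
  · exact (h1.differentiableAt ((hA.prod isOpen_ball).mem_nhds ⟨hx, hy⟩)).differentiableWithinAt
  · exact (h2.differentiableAt ((hB.prod isOpen_ball).mem_nhds ⟨hx, hy⟩)).differentiableWithinAt

theorem h31_hol_congr {G : Type} [NormedAddCommGroup G] [NormedSpace ℂ G] {f g : E → F → G}
    {A : Set E} {δ : ℝ} (h : HolF f A δ) (hg : ∀ z ∈ A, ∀ y ∈ ball (0 : F) δ, g z y = f z y) :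
    HolF g A δ :=
  DifferentiableOn.congr h fun x hx => hg x.1 hx.1 x.2 hx.2

theorem h31_add_lt {y a : V} {δ δ' κ : ℝ} (hy : y ∈ ball (0 : V) δ') (ha : ‖a‖ ≤ κ)
    (hδ : δ' + κ ≤ δ / 2) : ‖y + a‖ < δ / 2 := by
  rw [mem_ball_zero_iff] at hy
  linarith [norm_add_le y a]

theorem h31_add_mem {y a : V} {δ δ' κ : ℝ} (hy : y ∈ ball (0 : V) δ') (ha : ‖a‖ ≤ κ)
    (hδ : δ' + κ ≤ δ / 2) : y + a ∈ ball (0 : V) δ := by
  have h := h31_add_lt hy ha hδ
  rw [mem_ball_zero_iff]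
  linarith [norm_nonneg (y + a)]

theorem h31_hol_add {G : Type} [NormedAddCommGroup G] [NormedSpace ℂ G] {f : E → V → G}
    {a : E → V → V} {A A' : Set E} {δ δ' κ : ℝ} (hf : HolF f A δ) (ha : HolF a A' δ')
    (hA : A' ⊆ A) (hb : ∀ z ∈ A', ∀ y ∈ ball (0 : V) δ', ‖a z y‖ ≤ κ) (hδ : δ' + κ ≤ δ / 2) :
    HolF (fun z y => f z (y + a z y)) A' δ' := by
  have h1 : DifferentiableOn ℂ (fun x : E × V => (x.1, x.2 + a x.1 x.2)) (A' ×ˢ ball 0 δ') :=
    differentiableOn_fst.prodMk (differentiableOn_snd.add ha)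
  exact DifferentiableOn.comp (g := fun x : E × V => f x.1 x.2) hf h1
    fun x hx => ⟨hA hx.1, h31_add_mem hx.2 (hb _ hx.1 _ hx.2) hδ⟩

theorem h31_hol_pull {G : Type} [NormedAddCommGroup G] [NormedSpace ℂ G] {f : E → F → G}
    {A : Set E} {A' : Set E'} {δ : ℝ} {φ : E' → E} (hf : HolF f A δ)
    (hφ : DifferentiableOn ℂ φ A') (hm : MapsTo φ A' A) : HolF (fun z => f (φ z)) A' δ := by
  have h1 : DifferentiableOn ℂ (fun x : E' × F => (φ x.1, x.2)) (A' ×ˢ ball 0 δ) :=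
    (hφ.comp differentiableOn_fst fun x hx => hx.1).prodMk differentiableOn_snd
  exact DifferentiableOn.comp (g := fun x : E × F => f x.1 x.2) hf h1
    fun x hx => ⟨hm hx.1, hx.2⟩

theorem h31_hol_mono {G : Type} [NormedAddCommGroup G] [NormedSpace ℂ G] {f : E → F → G}
    {A A' : Set E} {δ : ℝ} (hf : HolF f A δ) (hA : A' ⊆ A) : HolF f A' δ :=
  DifferentiableOn.mono hf (prod_mono hA Subset.rfl)

/-- gluing two sections along a splitting of their transition: the new section is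
`α j z (y + a z y)` on `A` and `α' j z (y + b z y)` on `B`. -/
theorem Sec.glue (hA : Atlas M C Ψ ρ) {U U' A B : Set E} {δ ε δ' κ : ℝ} {α α' : J → E → V → V}
    (h : Sec C Ψ U δ ε α) (h' : Sec C Ψ U' δ ε α') {t a b : E → V → V}
    (ht : ∀ z ∈ U ∩ U', ∀ y ∈ ball (0 : V) (δ / 2), ∀ j, z ∈ C j → α j z (y + t z y) = α' j z y)
    (hAo : IsOpen A) (hBo : IsOpen B) (hAU : A ⊆ U) (hBU : B ⊆ U') (hs : Split A B t δ' κ a b)
    (hδ : δ' + κ ≤ δ / 2) :
    ∃ α'' : J → E → V → V, Sec C Ψ (A ∪ B) δ' (ε + κ) α'' := by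
  classical
  let α'' : J → E → V → V := fun j z y =>
    if z ∈ A then α j z (y + a z y) else α' j z (y + b z y)
  have e1 : ∀ j, ∀ z ∈ A, ∀ y, α'' j z y = α j z (y + a z y) := fun j z hz y => if_pos hz
  have e2 : ∀ j, ∀ z ∈ B, z ∈ C j → ∀ y ∈ ball (0 : V) δ', α'' j z y = α' j z (y + b z y) := by
    intro j z hz hj y hy
    by_cases hzA : z ∈ A
    · rw [e1 j z hzA, hs.eq z hzA hz y hy]
      exact ht z ⟨hAU hzA, hBU hz⟩ _ (mem_ball_zero_iff.2 (h31_add_lt hy (hs.bdb z hz y hy) hδ)) j hj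
    · exact if_neg hzA
  refine ⟨α'', hAo.union hBo, union_subset (hAU.trans h.cov) (hBU.trans h'.cov), fun j => ?_,
    ?_, ?_⟩
  · rw [union_inter_distrib_right]
    refine h31_hol_union (hAo.inter (hA.op j)) (hBo.inter (hA.op j)) ?_ ?_
    · exact h31_hol_congr (h31_hol_add (h.hol j) (h31_hol_mono hs.hola inter_subset_left)
        (inter_subset_inter_left _ hAU) (fun z hz => hs.bda z hz.1) hδ)
        fun z hz y _ => e1 j z hz.1 y
    · exact h31_hol_congr (h31_hol_add (h'.hol j) (h31_hol_mono hs.holb inter_subset_left)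
        (inter_subset_inter_left _ hBU) (fun z hz => hs.bdb z hz.1) hδ)
        fun z hz y hy => e2 j z hz.1 hz.2 y hy
  · rintro j z (hz | hz) hj y hy
    · rw [e1 j z hz]
      have h1 := h.near j z (hAU hz) hj _ (h31_add_mem hy (hs.bda z hz y hy) hδ)
      have h2 := hs.bda z hz y hy
      have h3 : α j z (y + a z y) - y = (α j z (y + a z y) - (y + a z y)) + a z y := by abel
      rw [h3]
      exact (norm_add_le _ _).trans (add_le_add h1 h2)
    · rw [e2 j z hz hj y hy]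
      have h1 := h'.near j z (hBU hz) hj _ (h31_add_mem hy (hs.bdb z hz y hy) hδ)
      have h2 := hs.bdb z hz y hy
      have h3 : α' j z (y + b z y) - y = (α' j z (y + b z y) - (y + b z y)) + b z y := by abel
      rw [h3]
      exact (norm_add_le _ _).trans (add_le_add h1 h2)
  · rintro j k z (hz | hz) hj hk y hy
    · rw [e1 j z hz, e1 k z hz]
      exact h.compat j k z (hAU hz) hj hk _ (h31_add_mem hy (hs.bda z hz y hy) hδ)
    · rw [e2 j z hz hj y hy, e2 k z hz hk y hy]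
      exact h'.compat j k z (hBU hz) hj hk _ (h31_add_mem hy (hs.bdb z hz y hy) hδ)

/-- the trivial section over a set meeting only one piece. -/
theorem Sec.triv {U : Set E} (hU : IsOpen U) {j₀ : J} (h0 : U ⊆ C j₀)
    (h1 : ∀ j, j ≠ j₀ → Disjoint U (C j)) (δ : ℝ) {ε : ℝ} (hε : 0 ≤ ε) :
    Sec C Ψ U δ ε fun _ _ y => y := by
  have h2 : ∀ j, ∀ z ∈ U, z ∈ C j → j = j₀ := fun j z hz hj =>
    by_contra fun hne => disjoint_left.1 (h1 j hne) hz hj
  refine ⟨hU, h0.trans (subset_iUnion C j₀), fun _ => differentiableOn_snd,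
    fun _ _ _ _ y _ => by rwa [sub_self, norm_zero], fun j k z hz hj hk y _ => ?_⟩
  rw [h2 j z hz hj, h2 k z hz hk]

/-- pull-back of an atlas. -/
theorem Atlas.pull (hA : Atlas M C Ψ ρ) {O : Set E'} (hO : IsOpen O) {φ : E' → E}
    (hφ : DifferentiableOn ℂ φ O) :
    Atlas M (fun j => O ∩ φ ⁻¹' C j) (fun j z => Ψ j (φ z)) ρ := by
  refine ⟨fun j => hφ.continuousOn.isOpen_inter_preimage hO (hA.op j), fun j => ?_,
    fun j z hz => hA.mem j _ hz.2, fun j k hjk z hz hk => hA.inj j k hjk _ hz.2 hk.2⟩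
  exact h31_hol_pull (hA.hol j) (hφ.mono inter_subset_left) fun z hz => hz.2

/-- transport of a section to another atlas which agrees with the pulled back one over `O`. -/
theorem Sec.pull (hA : Atlas M C Ψ ρ) {U : Set E} {δ ε : ℝ} {α : J → E → V → V}
    (h : Sec C Ψ U δ ε α) {O : Set E'} (hO : IsOpen O) {φ : E' → E} (hφ : DifferentiableOn ℂ φ O)
    {J' : Type} {C' : J' → Set E'} {Ψ' : J' → E' → V → W} (σ : J' ≃ J)
    (hC : ∀ j, ∀ z ∈ O, (z ∈ C' j ↔ φ z ∈ C (σ j)))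
    (hΨ : ∀ j, ∀ z ∈ O, z ∈ C' j → ∀ y, Ψ' j z y = Ψ (σ j) (φ z) y) :
    Sec C' Ψ' (O ∩ φ ⁻¹' U) δ ε fun j z => α (σ j) (φ z) := by
  refine ⟨hφ.continuousOn.isOpen_inter_preimage hO h.op, fun z hz => ?_, fun j => ?_,
    fun j z hz hj => h.near _ _ hz.2 ((hC j z hz.1).1 hj), fun j k z hz hj hk y hy => ?_⟩
  · obtain ⟨j, hj⟩ := mem_iUnion.1 (h.cov hz.2)
    refine mem_iUnion.2 ⟨σ.symm j, (hC _ z hz.1).2 ?_⟩
    rwa [σ.apply_symm_apply]
  · exact h31_hol_pull (h.hol (σ j)) (hφ.mono fun z hz => hz.1.1)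
      fun z hz => ⟨hz.1.2, (hC j z hz.1.1).1 hz.2⟩
  · rw [hΨ j z hz.1 hj, hΨ k z hz.1 hk]
    exact h.compat _ _ _ hz.2 ((hC j z hz.1).1 hj) ((hC k z hz.1).1 hk) y hy

/-- gluing two maps along a splitting of a transition. -/
theorem glue_maps {A B : Set E} (hAo : IsOpen A) (hBo : IsOpen B) {f f' : E → V → W}
    {t a b : E → V → V} {δ δ' κ : ℝ} (hf : HolF f A δ) (hf' : HolF f' B δ)
    (ht : ∀ z ∈ A, z ∈ B → ∀ y ∈ ball (0 : V) (δ / 2), f z (y + t z y) = f' z y)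
    (hs : Split A B t δ' κ a b) (hδ : δ' + κ ≤ δ / 2) :
    ∃ g : E → V → W, HolF g (A ∪ B) δ' ∧
      (∀ z ∈ A, ∀ y ∈ ball (0 : V) δ', g z y = f z (y + a z y)) ∧
      ∀ z ∈ B, ∀ y ∈ ball (0 : V) δ', g z y = f' z (y + b z y) := by
  classical
  let g : E → V → W := fun z y => if z ∈ A then f z (y + a z y) else f' z (y + b z y)
  have e1 : ∀ z ∈ A, ∀ y, g z y = f z (y + a z y) := fun z hz y => if_pos hz
  have e2 : ∀ z ∈ B, ∀ y ∈ ball (0 : V) δ', g z y = f' z (y + b z y) := by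
    intro z hz y hy
    by_cases hzA : z ∈ A
    · rw [e1 z hzA, hs.eq z hzA hz y hy]
      exact ht z hzA hz _ (mem_ball_zero_iff.2 (h31_add_lt hy (hs.bdb z hz y hy) hδ))
    · exact if_neg hzA
  refine ⟨g, h31_hol_union hAo hBo ?_ ?_, fun z hz y _ => e1 z hz y, e2⟩
  · exact h31_hol_congr (h31_hol_add hf hs.hola Subset.rfl hs.bda hδ) fun z hz y _ => e1 z hz y
  · exact h31_hol_congr (h31_hol_add hf' hs.holb Subset.rfl hs.bdb hδ) e2

end Crest.Agent.R279
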