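import Crest.Agent.R279.XG2
import Crest.Agent.R279.Sec

/-! Row 279, block C: gluing the sections over a chain of windows -/

set_option autoImplicit false

namespace Crest.Agent.R279

open Set Metric Filter Topology

variable {E : Type} [NormedAddCommGroup E] [NormedSpace ℂ E] {M : Set W}

/-- Induction on `n`.  Step: `α` over `Λ n ∩ {y₀ < Im < y₀ + (n + 4) h}` with `(δ', K ε)`, the new
window `k = n + 1` restricted (`Sec.mono`) to `Λ n`, `(δ', K ε)`; `Sec.trans` gives `t` on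
`Λ n ∩ {y₀ + (n + 1) h < Im < y₀ + (n + 4) h}` of radius `δ' / 2` and size `2 K ε`; `G2cut` with
`a', a, b, b' = y₀ + (n + 1, n + 2, n + 3, n + 4) h`, `Λ' = Λ (n + 1)`, `ρ = δ' / 2`; `Split.mono` to
`A = Λ (n + 1) ∩ {y₀ < Im < b}`, `B = Λ (n + 1) ∩ {a < Im < y₀ + (n + 5) h}`; `Sec.glue`. -/
theorem win_glue [FiniteDimensional ℂ E] {Λ : ℕ → Set E} (hst : ∀ k, St (Λ k))
    (hb : Bornology.IsBounded (Λ 0)) (hcl : ∀ k, closure (Λ (k + 1)) ⊆ Λ k) {l : E → ℂ}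
    (hl : Differentiable ℂ l) (y₀ : ℝ) {h δ : ℝ} (hh : 0 < h) (hδ : 0 < δ) (n : ℕ) :
    ∃ δ' K ε₀ : ℝ, 0 < δ' ∧ δ' ≤ δ ∧ 1 ≤ K ∧ 0 < ε₀ ∧ K * ε₀ ≤ δ ∧ ∀ ε : ℝ, 0 < ε → ε ≤ ε₀ →
      ∀ (J : Type) (C : J → Set E) (Ψ : J → E → V → W), Atlas M C Ψ (2 * δ) →
      (∀ k : ℕ, k ≤ n → ∃ α, Sec C Ψ
        (Λ 0 ∩ {z | y₀ + k * h < (l z).im ∧ (l z).im < y₀ + (k + 4) * h}) δ ε α) →
      ∃ α, Sec C Ψ (Λ n ∩ {z | y₀ < (l z).im ∧ (l z).im < y₀ + (n + 4) * h}) δ' (K * ε) α := by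
  have hs : ∀ k, Λ (k + 1) ⊆ Λ k := fun k => subset_closure.trans (hcl k)
  have hs0 : ∀ k, Λ k ⊆ Λ 0 := fun k => by
    induction k with
    | zero => exact Subset.rfl
    | succ k ih => exact (hs k).trans ih
  have hop : ∀ (k : ℕ) (a b : ℝ), IsOpen (Λ k ∩ {z | a < (l z).im ∧ (l z).im < b}) := by
    intro k a b
    have hc : Continuous fun z => (l z).im := Complex.continuous_im.comp hl.continuous
    exact (hst k).isOpen.inter ((isOpen_lt continuous_const hc).inter (isOpen_lt hc continuous_const))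
  induction n with
  | zero =>
    refine ⟨δ, 1, δ, hδ, le_rfl, le_rfl, hδ, by linarith, fun ε _ _ J C Ψ _ hw => ?_⟩
    obtain ⟨α, hα⟩ := hw 0 le_rfl
    refine ⟨α, hα.mono (hop _ _ _) ?_ le_rfl (by linarith)⟩
    rintro z ⟨h1, h2, h3⟩
    exact ⟨h1, by simpa using h2, h3⟩
  | succ n ih =>
    obtain ⟨δ', K, ε₀, h1, h2, h3, h4, h5, ih⟩ := ih
    obtain ⟨K₂, hK₂, hG⟩ := G2cut (hst n) (hb.subset (hs0 n)) (hst (n + 1)).isOpen (hcl n) hl
      (a' := y₀ + (n + 1) * h) (a := y₀ + (n + 2) * h) (b := y₀ + (n + 3) * h)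
      (b' := y₀ + (n + 4) * h) (ρ := δ' / 2) (by linarith) (by linarith) (by linarith)
      (by positivity)
    have hK0 : 0 < K := by linarith
    have hK₂0 : 0 < K₂ := by linarith
    have hKK : 0 < K₂ * K := by positivity
    have hK' : 0 < K + 2 * (K₂ * K) := by positivity
    have hmin : (K + 2 * (K₂ * K)) * min ε₀ (δ' / (16 * (K + 2 * (K₂ * K)))) ≤ δ' / 16 := by
      refine (mul_le_mul_of_nonneg_left (min_le_right _ _) hK'.le).trans (le_of_eq ?_)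
      field_simp
    refine ⟨δ' / 2 / 4, K + 2 * (K₂ * K), min ε₀ (δ' / (16 * (K + 2 * (K₂ * K)))), by positivity,
      by linarith, by linarith, by positivity, by linarith, fun ε hε hε₀ J C Ψ hA hw => ?_⟩
    have e1 : (K + 2 * (K₂ * K)) * ε ≤ δ' / 16 :=
      (mul_le_mul_of_nonneg_left hε₀ hK'.le).trans hmin
    have e2 : 0 < K * ε := by positivity
    have e3 : 0 < K₂ * K * ε := by positivity
    have e4 : ε ≤ K * ε := le_mul_of_one_le_left hε.le h3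
    have hn : (0 : ℝ) ≤ n * h := by positivity
    obtain ⟨α, hα⟩ := ih ε hε (hε₀.trans (min_le_left _ _)) J C Ψ hA fun k hk => hw k (by omega)
    obtain ⟨α', hα'⟩ := hw (n + 1) le_rfl
    have hα'' : Sec C Ψ (Λ n ∩ {z | y₀ + (n + 1) * h < (l z).im ∧ (l z).im < y₀ + (n + 5) * h})
        δ' (K * ε) α' := by
      refine hα'.mono (hop _ _ _) ?_ h2 e4
      rintro z ⟨g1, g2, g3⟩
      refine ⟨hs0 n g1, ?_, ?_⟩ <;> push_cast <;> linarith
    obtain ⟨t, ht1, ht2⟩ := Sec.trans hA hα hα'' (by linarith) (by linarith)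
    have hsub : Λ n ∩ {z | y₀ + (n + 1) * h < (l z).im ∧ (l z).im < y₀ + (n + 4) * h} ⊆
        (Λ n ∩ {z | y₀ < (l z).im ∧ (l z).im < y₀ + (n + 4) * h}) ∩
          (Λ n ∩ {z | y₀ + (n + 1) * h < (l z).im ∧ (l z).im < y₀ + (n + 5) * h}) := by
      rintro z ⟨g1, g2, g3⟩
      exact ⟨⟨g1, by linarith, g3⟩, g1, g2, by linarith⟩
    obtain ⟨a, b, hS⟩ := hG t (2 * (K * ε)) (by positivity) (by linarith)
      (ht1.mono hsub le_rfl) fun z hz y hy => (ht2 z (hsub hz) y hy).1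
    obtain ⟨α₃, h₃⟩ := Sec.glue hA hα hα'' (t := t) (a := a) (b := b)
      (A := Λ (n + 1) ∩ {z | y₀ < (l z).im ∧ (l z).im < y₀ + (n + 3) * h})
      (B := Λ (n + 1) ∩ {z | y₀ + (n + 2) * h < (l z).im ∧ (l z).im < y₀ + (n + 5) * h})
      (fun z hz y hy => (ht2 z hz y hy).2) (hop _ _ _) (hop _ _ _)
      (fun z hz => ⟨hs n hz.1, hz.2.1, by linarith [hz.2.2]⟩)
      (fun z hz => ⟨hs n hz.1, by linarith [hz.2.1], hz.2.2⟩)
      (hS.mono (fun z hz => ⟨hz.1, hz.2.2⟩) (fun z hz => ⟨hz.1, hz.2.1⟩) le_rfl le_rfl)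
      (by linarith)
    refine ⟨α₃, h₃.mono (hop _ _ _) ?_ le_rfl (by linarith)⟩
    rintro z ⟨g1, g2, g3⟩
    push_cast at g3
    by_cases hz : (l z).im < y₀ + (n + 3) * h
    · exact Or.inl ⟨g1, g2, hz⟩
    · exact Or.inr ⟨g1, by linarith [not_lt.1 hz], by linarith⟩

end Crest.Agent.R279
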