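import Crest.Agent.R279.RL1

/-! Row 279: rectangle lemma, stage 2 (the base shell) -/

set_option autoImplicit false

namespace Crest.Agent.R279

open Set Metric Filter Topology

variable {G : Type} [NormedAddCommGroup G] [NormedSpace ℂ G] {M : Set W} {I : Set ℝ} {β : ℝ → ℝ}
  {P : ℝ → Set G} {Ω : Set (G × ℂ)} {g : G × ℂ → W} {π : G × ℂ → W →L[ℂ] V} {e : G × ℂ → V → W}
  {ρ C c Λ L R : ℝ}

open MeasureTheory

/-- the cut-off of stage 2 -/
noncomputable def h28_chi (β : ℝ → ℝ) (η : ℝ) (v : ℂ) : ℝ :=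
  Real.smoothTransition (3 / η * (v.re - β v.im) + 2)

theorem h28_chi_diff (h : Geo M I β P Ω g π e ρ C c Λ L) (η : ℝ) :
    ContDiffOn ℝ 1 (h28_chi β η) {v | v.im ∈ I} := by
  have h1 : ContDiffOn ℝ 1 (fun v : ℂ => β v.im) {v | v.im ∈ I} :=
    h.c1.comp Complex.imCLM.contDiff.contDiffOn fun v hv => hv
  exact Real.smoothTransition.contDiff.comp_contDiffOn
    ((contDiffOn_const.mul (Complex.reCLM.contDiff.contDiffOn.sub h1)).add contDiffOn_const)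

theorem h28_chi_bd (h : Geo M I β P Ω g π e ρ C c Λ L) : ∃ K₂ : ℝ, 0 < K₂ ∧ ∀ η : ℝ, 0 < η →
    ∀ v : ℂ, v.im ∈ I → β v.im - η < v.re → v.re < β v.im →
      ‖fderiv ℝ (h28_chi β η) v‖ ≤ K₂ / η := by
  have hc : ContDiff ℝ 1 Real.smoothTransition := Real.smoothTransition.contDiff
  obtain ⟨K₁, hK₁⟩ := (isCompact_Icc (a := (-1 : ℝ)) (b := 2)).exists_bound_of_continuousOn
    (hc.continuous_deriv le_rfl).continuousOn
  have hK0 : 0 ≤ K₁ := (norm_nonneg _).trans (hK₁ 0 ⟨by norm_num, by norm_num⟩)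
  have hΛ := h.Λ0
  refine ⟨(K₁ + 1) * (3 * (1 + Λ)), by positivity, fun η hη v hv h1 h2 => ?_⟩
  have hβ : HasDerivAt β (deriv β v.im) v.im :=
    ((h.c1.differentiableOn one_ne_zero).differentiableAt (h.opI.mem_nhds hv)).hasDerivAt
  have e1 : HasFDerivAt (fun w : ℂ => w.re) Complex.reCLM v := Complex.reCLM.hasFDerivAt
  have e2 : HasFDerivAt (fun w : ℂ => β w.im) (deriv β v.im • Complex.imCLM) v :=
    hβ.comp_hasFDerivAt v Complex.imCLM.hasFDerivAt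
  have e3 := ((e1.sub e2).const_mul (3 / η)).add_const 2
  have e4 := ((hc.differentiable one_ne_zero) (3 / η * (v.re - β v.im) + 2)).hasDerivAt
  have e5 : HasFDerivAt (h28_chi β η) _ v := e4.comp_hasFDerivAt v e3
  have h3 : 0 < 3 / η := by positivity
  have h4 : 3 / η * η = 3 := by field_simp
  have b1 : ‖deriv Real.smoothTransition (3 / η * (v.re - β v.im) + 2)‖ ≤ K₁ + 1 :=
    (hK₁ _ ⟨by nlinarith, by nlinarith⟩).trans (by linarith)
  have b2 : ‖Complex.reCLM - deriv β v.im • Complex.imCLM‖ ≤ 1 + Λ := by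
    refine (norm_sub_le _ _).trans ?_
    rw [norm_smul, Complex.reCLM_norm, Complex.imCLM_norm, mul_one]
    exact add_le_add le_rfl (h.der _ hv)
  rw [e5.fderiv, norm_smul, norm_smul, Real.norm_of_nonneg h3.le]
  calc _ ≤ (K₁ + 1) * (3 / η * (1 + Λ)) := by gcongr
    _ = _ := by ring

/-- the transition from the map of the section to the base family on the shell -/
theorem h28_trans (h : Geo M I β P Ω g π e ρ C c Λ L) {r A η κ : ℝ} {Pc : ℤ → Set G}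
    {Ψ : ℤ → G × ℂ → V → W} (hc : Cells M I β P Ω e c R η r A Pc Ψ) (hr : 0 < r)
    (hrρ : 2 * C * r ≤ ρ) (hη : 0 < η) (hA : 0 < A) (hκ : 0 ≤ κ) (hs : 64 * (C * A * η + κ) ≤ r)
    {U D : Set (G × ℂ)} {α : ℤ → G × ℂ → V → V}
    (hα : Sec (fun j => Pc j ×ˢ cell β η R j) Ψ U (r / 4) κ α) (hD : IsOpen D) (hDU : D ⊆ U)
    (hsh : ∀ x ∈ D, x.2.re < β x.2.im) :
    ∃ t : G × ℂ → V → V, HolF t D (r / 8) ∧ ∀ x ∈ D, ∀ y ∈ ball (0 : V) (r / 8),
      ‖t x y‖ ≤ 2 * (C * A * η + κ) ∧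
        ∀ j, x ∈ Pc j ×ˢ cell β η R j → Ψ j x (α j x (y + t x y)) = e x y := by
  have hC := h.model.one_le
  have hAη : 0 < A * η := mul_pos hA hη
  have hAη' : A * η ≤ C * A * η := by nlinarith
  have hrρ' : 2 * r ≤ ρ := by nlinarith
  have hat := hc.atlas h hr hrρ hη hA (by linarith)
  have hat' : Atlas M (fun j => Pc j ×ˢ cell β η R j) Ψ (r / 2) :=
    ⟨fun j => hat.op (some j), fun j => hat.hol (some j), fun j => hat.mem (some j),
      fun j k hjk => hat.inj (some j) (some k) (by simpa using hjk)⟩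
  obtain ⟨f, hf, hfM, hfe⟩ := hα.map hat' (by linarith)
  have hcov : ∀ x ∈ D, ∃ j, x ∈ Pc j ×ˢ cell β η R j := fun x hx =>
    mem_iUnion.1 (hα.cov (hDU hx))
  have hΩ : D ⊆ Ω := fun x hx => by
    obtain ⟨j, hj⟩ := hcov x hx
    exact (hc.shell j _ hj.1 _ hj.2 (hsh x hx)).1
  have hb : ∀ {s s' : ℝ} {y : V}, y ∈ ball (0 : V) s → s ≤ s' → y ∈ ball (0 : V) s' :=
    fun hy hs => ball_subset_ball hs hy
  have heg : ∀ x ∈ D, ∀ y ∈ ball (0 : V) (r / 2), ‖e x y - g x‖ ≤ ρ / 4 := fun x hx y hy => by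
    have h1 := h.model.lip x (hΩ hx) y (hb hy (by linarith)) 0 (mem_ball_self h.model.ρ_pos)
    rw [h.model.zero x (hΩ hx), sub_zero] at h1
    have h2 := mul_le_mul_of_nonneg_left (mem_ball_zero_iff.1 hy).le (zero_le_one.trans hC)
    linarith
  have hcl : ∀ x ∈ D, ∀ y ∈ ball (0 : V) (r / 4), ∃ w ∈ ball (0 : V) (r / 2), ‖w - y‖ ≤ κ ∧
      ‖f x y - e x w‖ ≤ A * η := fun x hx y hy => by
    obtain ⟨j, hj⟩ := hcov x hx
    have h1 := hα.near j x (hDU hx) hj y hy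
    have h2 : α j x y ∈ ball (0 : V) (r / 2) := by
      rw [mem_ball_zero_iff] at hy ⊢
      linarith [norm_le_norm_sub_add (α j x y) y]
    refine ⟨_, h2, h1, ?_⟩
    rw [hfe j x (hDU hx) hj y hy]
    exact (hc.shell j _ hj.1 _ hj.2 (hsh x hx)).2 _ (hb h2 (by linarith))
  obtain ⟨-, t, ht, H⟩ := transloc (M := M) (Ψ := e) (Ψ' := f) (g := g) (π := π) (ρ := r / 4)
    (r := ρ) (ε := C * A * η + κ) (B := C) hD (h.model.hole.mono hΩ (by linarith))
    (hf.mono hDU le_rfl) (h.model.holg.mono hΩ) (h.model.holπ.mono hΩ)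
    (fun x hx => h.model.bddπ x (hΩ hx)) (fun x hx => h.model.inj x (hΩ hx))
    (fun x hx y hy => ⟨h.model.mem x (hΩ hx) y (hb hy (by linarith)), hfM x (hDU hx) y hy⟩)
    (fun x hx y hy => by
      obtain ⟨w, hw, -, h2⟩ := hcl x hx y hy
      have h3 := norm_sub_le_norm_sub_add_norm_sub (f x y) (e x w) (g x)
      exact ⟨by linarith [heg x hx y (hb hy (by linarith))], by linarith [heg x hx w hw]⟩)
    (by linarith) (fun x hx y hy => by
      obtain ⟨w, hw, h1, h2⟩ := hcl x hx y hy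
      refine ⟨by rw [h.model.inv x (hΩ hx) y (hb hy (by linarith)), sub_self, norm_zero]; linarith,
        ?_⟩
      have h3 : π x (f x y - g x) - y = π x (f x y - e x w) + (w - y) := by
        rw [← sub_add_sub_cancel (f x y) (e x w), map_add,
          h.model.inv x (hΩ hx) w (hb hw (by linarith)), add_sub_assoc]
      have h4 := (π x).le_of_opNorm_le (h.model.bddπ x (hΩ hx)) (f x y - e x w)
      have h5 := mul_le_mul_of_nonneg_left h2 (zero_le_one.trans hC)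
      rw [h3]
      linarith [norm_add_le (π x (f x y - e x w)) (w - y)])
  rw [show r / 4 / 2 = r / 8 by ring] at ht H
  refine ⟨t, ht, fun x hx y hy => ⟨(H x hx y hy).1, fun j hj => ?_⟩⟩
  rw [← (H x hx y hy).2.1, hfe j x (hDU hx) hj]
  rw [mem_ball_zero_iff]
  linarith [norm_add_le y (t x y), (H x hx y hy).1, mem_ball_zero_iff.1 hy]

/-- the splitting over the shell -/
theorem h28_split [FiniteDimensional ℂ G] (h : Geo M I β P Ω g π e ρ C c Λ L) :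
    ∃ K₂ : ℝ, 1 ≤ K₂ ∧ ∀ (η a b R ω δ : ℝ) (PW : Set G) (t : G × ℂ → V → V), 0 < η → η ≤ 1 →
      η ≤ c → IsOpen PW → b - a ≤ L → Ioo a b ⊆ I → 0 < ω →
      32 * (K₂ * ω / η ^ (1 / 4 : ℝ)) ≤ δ →
      HolF t (PW ×ˢ (win β a b η R ∩ (win β a b c R ∩ {v | v.re < β v.im}))) δ →
      (∀ x ∈ PW ×ˢ (win β a b η R ∩ (win β a b c R ∩ {v | v.re < β v.im})),
        ∀ y ∈ ball (0 : V) δ, ‖t x y‖ ≤ ω) →
      ∃ a' b' : G × ℂ → V → V, Split (PW ×ˢ win β a b η R)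
        (PW ×ˢ (win β a b c R ∩ {v | v.re < β v.im})) t (δ / 2)
        (4 * (K₂ * ω / η ^ (1 / 4 : ℝ))) a' b' := by
  obtain ⟨K₂, hK₂, hbd⟩ := h28_chi_bd h
  obtain ⟨C₀, hC₀, hint⟩ := strip_integral
  have hL : 0 < L ^ (1 / 4 : ℝ) := Real.rpow_pos_of_pos h.L_pos _
  have h0 : 0 < K₂ * C₀ * L ^ (1 / 4 : ℝ) := by positivity
  refine ⟨1 + K₂ * C₀ * L ^ (1 / 4 : ℝ), by linarith,
    fun η a b R ω δ PW t hη hη1 hηc hPW hab hI hω hδ ht htb => ?_⟩
  have hs : 0 < η ^ (1 / 4 : ℝ) := Real.rpow_pos_of_pos hη _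
  have hs1 : η ^ (1 / 4 : ℝ) ≤ 1 := Real.rpow_le_one hη.le hη1 (by norm_num)
  have hmem : ∀ {c' : ℝ} {v : ℂ}, v ∈ win β a b c' R → v.im ∈ I := fun hv => hI ⟨hv.1, hv.2.1⟩
  have hAo := h.isOpen_win hI η R
  have hBo : IsOpen (win β a b c R ∩ {v | v.re < β v.im}) := by
    have := (h.isOpen_win hI c R).inter (h.isOpen_strip 0).2
    convert this using 1
    ext v
    exact ⟨fun hv => ⟨hv.1, hmem hv.1, by simpa using hv.2⟩, fun hv => ⟨hv.1, by simpa using hv.2.2⟩⟩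
  have h3 : 0 < 3 / η := by positivity
  have h4 : 3 / η * η = 3 := by field_simp
  refine G1 (χ := h28_chi β η) (ω := fun _ => ω) hPW hAo hBo
    ((h28_chi_diff h η).mono fun v hv => hmem hv.1)
    (fun _ _ => ⟨Real.smoothTransition.nonneg _, Real.smoothTransition.le_one _⟩)
    (fun ζ h1 h2 => ?_) (fun ζ h1 h2 => ?_) ht (fun p hp ζ hζ => htb (p, ζ) ⟨hp, hζ⟩)
    (fun _ _ => ?_) (fun z => ?_) (by positivity) hδ
  · have h5 : β ζ.im ≤ ζ.re := not_lt.1 fun h5 =>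
      h2 ⟨⟨h1.1, h1.2.1, by linarith [h1.2.2.1], h1.2.2.2⟩, h5⟩
    filter_upwards [(h.isOpen_strip (-(η / 3))).1.mem_nhds (x := ζ) ⟨hmem h1, by linarith⟩]
      with ξ hξ _
    exact Real.smoothTransition.one_of_one_le (by nlinarith [hξ.2])
  · have h5 : ζ.re ≤ β ζ.im - η := not_lt.1 fun h5 => h2 ⟨h1.1.1, h1.1.2.1, h5, h1.1.2.2.2⟩
    filter_upwards [(h.isOpen_strip (-(2 * η / 3))).2.mem_nhds (x := ζ) ⟨hmem h1.1, by linarith⟩]
      with ξ hξ _
    exact Real.smoothTransition.zero_of_nonpos (by nlinarith [hξ.2])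
  · rw [le_div_iff₀ hs]
    nlinarith [mul_pos h0 hω]
  · have hm := (hAo.inter hBo).measurableSet
    have h5 := hint _ (fun t => β t - η) a L η hm h.L_pos hη
      (fun v hv => ⟨hv.1.1, by linarith [hv.1.2.1], hv.1.2.2.1, by simpa using hv.2.2⟩) z
    have h6 : 0 ≤ ω * (K₂ / η) := by positivity
    calc _ ≤ ∫⁻ ζ in win β a b η R ∩ (win β a b c R ∩ {v | v.re < β v.im}),
          ENNReal.ofReal (ω * (K₂ / η)) * ENNReal.ofReal (1 / ‖ζ - z‖) := by
          refine setLIntegral_mono' hm fun ζ hζ => ?_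
          rw [← ENNReal.ofReal_mul h6, mul_one_div]
          refine ENNReal.ofReal_le_ofReal ?_
          have := hbd η hη ζ (hmem hζ.1) hζ.1.2.2.1 hζ.2.2
          gcongr
      _ ≤ ENNReal.ofReal (ω * (K₂ / η)) *
          ENNReal.ofReal (C₀ * η ^ (3 / 4 : ℝ) * L ^ (1 / 4 : ℝ)) := by
          rw [lintegral_const_mul' _ _ ENNReal.ofReal_ne_top]
          gcongr
      _ ≤ _ := by
          rw [← ENNReal.ofReal_mul h6]
          refine ENNReal.ofReal_le_ofReal ?_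
          have h7 : η ^ (3 / 4 : ℝ) * η ^ (1 / 4 : ℝ) = η := by
            rw [← Real.rpow_add hη]; norm_num
          have h8 : ω * (K₂ / η) * (C₀ * η ^ (3 / 4 : ℝ) * L ^ (1 / 4 : ℝ)) * η ^ (1 / 4 : ℝ) =
              K₂ * C₀ * L ^ (1 / 4 : ℝ) * ω * (η ^ (3 / 4 : ℝ) * η ^ (1 / 4 : ℝ) / η) := by ring
          rw [le_div_iff₀ hs, h8, h7, div_self hη.ne']
          linarith

/-- **stage 2**: `f` from `Sec.map` (cells only: `Atlas` restricted to `some j`) is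
`O(η^(1/2))`-close to `e` on the shell `β - η < Re v < β`; `transloc` in the chart at the point
gives `t` with `f (y + t) = e y`; `G1` with `A' = win β a b η R`, `B' = win β a b c R ∩ {Re v < β}`,
`χ v = smoothTransition (3 * (Re v - β (Im v)) / η + 2)` (`= 1` for `Re v - β ≥ -η/3`, `= 0` for
`≤ -2η/3`), gradient `≤ K' / η`, `strip_integral` with `w = η`: error
`η^(1/2) η^(-1) η^(3/4) = η^(1/4)`.  New section: `α j (y + a)` on cells, `y + b` on the base. -/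
theorem stage2 [FiniteDimensional ℂ G] (h : Geo M I β P Ω g π e ρ C c Λ L) {r A K : ℝ}
    (hr : 0 < r) (hrρ : 2 * C * r ≤ ρ) (hA : 0 < A) (hK : 0 < K) (R : ℝ) {ε : ℝ} (hε : 0 < ε) :
    ∃ η₂ : ℝ, 0 < η₂ ∧ ∀ (η : ℝ) (Pc : ℤ → Set G) (Ψ : ℤ → G × ℂ → V → W), 0 < η →
      η ≤ η₂ → Cells M I β P Ω e c R η r A Pc Ψ →
      ∀ (a b : ℝ) (PW : Set G), IsOpen PW → b - a ≤ L → Icc (a - c) (b + c) ⊆ I →
        (∀ t ∈ Icc (a - c) (b + c), PW ⊆ P t) → ∀ α : ℤ → G × ℂ → V → V,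
        Sec (fun j => Pc j ×ˢ cell β η R j) Ψ (PW ×ˢ win β a b η R) (r / 4)
          (K * η ^ (1 / 2 : ℝ)) α →
        ∃ α', Sec (fun o : Option ℤ => o.elim (basePc Ω I β) fun j => Pc j ×ˢ cell β η R j)
          (fun o => o.elim e Ψ) (PW ×ˢ win β a b c R) (r / 16) ε α' := by
  obtain ⟨K₂, hK₂, hsp⟩ := h28_split h
  have hC := h.model.one_le
  have hc0 := h.c_pos
  obtain ⟨K₃, hK₃⟩ : ∃ K₃ : ℝ, K₃ = K₂ * (2 * (C * A + K)) := ⟨_, rfl⟩
  have hCA : 0 < C * A := by positivity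
  have hK3 : 2 * (C * A + K) ≤ K₃ := by rw [hK₃]; nlinarith
  have hK3' : 0 < K₃ := by linarith
  obtain ⟨s₀, hs₀, hs1, hs2, hs3⟩ : ∃ s₀ : ℝ, 0 < s₀ ∧ s₀ ≤ 1 ∧ 256 * K₃ * s₀ ≤ r ∧
      5 * K₃ * s₀ ≤ ε := by
    refine ⟨min 1 (min (r / (256 * K₃)) (ε / (5 * K₃))), by positivity, min_le_left _ _, ?_, ?_⟩
    · rw [← le_div_iff₀' (by positivity)]
      exact (min_le_right _ _).trans (min_le_left _ _)
    · rw [← le_div_iff₀' (by positivity)]
      exact (min_le_right _ _).trans (min_le_right _ _)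
  refine ⟨min c (s₀ ^ 4), by positivity, fun η Pc Ψ hη hη₂ hc a b PW hPW hab hI hP α hα => ?_⟩
  have hηc : η ≤ c := hη₂.trans (min_le_left _ _)
  obtain ⟨s, hs⟩ : ∃ s, s = η ^ (1 / 4 : ℝ) := ⟨_, rfl⟩
  have hsp0 : 0 < s := hs ▸ Real.rpow_pos_of_pos hη _
  have e4 : s ^ 4 = η := by
    rw [hs, ← Real.rpow_natCast, ← Real.rpow_mul hη.le]; norm_num
  have e2 : η ^ (1 / 2 : ℝ) = s ^ 2 := by
    rw [hs, ← Real.rpow_natCast, ← Real.rpow_mul hη.le]; norm_num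
  have hss : s ≤ s₀ := le_of_pow_le_pow_left₀ four_ne_zero hs₀.le
    (e4 ▸ hη₂.trans (min_le_right _ _))
  have hs1' : s ≤ 1 := hss.trans hs1
  have f2 : s ^ 2 ≤ s := by nlinarith
  have f4 : η ≤ s ^ 2 := by
    rw [← e4]; exact pow_le_pow_of_le_one hsp0.le hs1' (by norm_num)
  have f5 : K₃ * s ≤ K₃ * s₀ := mul_le_mul_of_nonneg_left hss hK3'.le
  have f6 : C * A * η ≤ C * A * s ^ 2 := mul_le_mul_of_nonneg_left f4 hCA.le
  have f7 : 2 * (C * A + K) * s ^ 2 ≤ K₃ * s := mul_le_mul hK3 f2 (by positivity) hK3'.le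
  have f8 : 0 < K * s ^ 2 := by positivity
  have f9 : 0 < C * A * s ^ 2 := by positivity
  rw [e2] at hα
  have hI' : Ioo a b ⊆ I := fun t ht => hI ⟨by linarith [ht.1], by linarith [ht.2]⟩
  have hmem : ∀ {c' : ℝ} {v : ℂ}, v ∈ win β a b c' R → v.im ∈ I := fun hv => hI' ⟨hv.1, hv.2.1⟩
  have hBo : IsOpen (win β a b c R ∩ {v | v.re < β v.im}) := by
    have := (h.isOpen_win hI' c R).inter (h.isOpen_strip 0).2
    convert this using 1
    ext v
    exact ⟨fun hv => ⟨hv.1, hmem hv.1, by simpa using hv.2⟩, fun hv => ⟨hv.1, by simpa using hv.2.2⟩⟩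
  obtain ⟨t, ht, H⟩ := h28_trans h hc hr hrρ hη hA f8.le (by linarith) hα
    (hPW.prod ((h.isOpen_win hI' η R).inter hBo)) (prod_mono subset_rfl inter_subset_left)
    fun x hx => hx.2.2.2
  have e5 : K₂ * (2 * (C * A + K) * s ^ 2) / η ^ (1 / 4 : ℝ) = K₃ * s := by
    rw [← hs, hK₃]; field_simp
  obtain ⟨a', b', hS⟩ := hsp η a b R (2 * (C * A + K) * s ^ 2) (r / 8) PW t hη
    (by linarith) hηc hPW hab hI' (by positivity) (by rw [e5]; linarith) ht
    fun x hx y hy => (H x hx y hy).1.trans (by linarith)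
  rw [e5, show r / 8 / 2 = r / 16 by ring] at hS
  have hδ : r / 16 + 4 * (K₃ * s) ≤ r / 4 / 2 := by linarith
  have hcell : ∀ j, ∀ x ∈ PW ×ˢ win β a b c R, x ∈ Pc j ×ˢ cell β η R j →
      x ∈ PW ×ˢ win β a b η R := fun j x hx hj =>
    ⟨hx.1, hx.2.1, hx.2.2.1, hj.2.2.1, hj.2.2.2⟩
  have hbase : ∀ x ∈ PW ×ˢ win β a b c R, x ∈ basePc Ω I β →
      x ∈ PW ×ˢ (win β a b c R ∩ {v | v.re < β v.im}) := fun x hx hj => ⟨hx.1, hx.2, hj.2.2⟩
  have hmix : ∀ j, ∀ x ∈ PW ×ˢ win β a b c R, x ∈ Pc j ×ˢ cell β η R j → x ∈ basePc Ω I β →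
      ∀ y ∈ ball (0 : V) (r / 16), Ψ j x (α j x (y + a' x y)) = e x (y + b' x y) := by
    intro j x hx hj hb y hy
    have h1 := hcell j x hx hj
    have h2 := hbase x hx hb
    have h3 := h31_add_lt hy (hS.bdb x h2 y hy) hδ
    rw [hS.eq x h1 h2 y hy]
    exact (H x ⟨hx.1, h1.2, h2.2⟩ _ (mem_ball_zero_iff.2 (by linarith))).2 j hj
  refine ⟨fun o => o.elim (fun x y => y + b' x y) fun j x y => α j x (y + a' x y),
    hPW.prod (h.isOpen_win hI' c R), fun x hx => ?_, ?_, ?_, ?_⟩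
  · by_cases h1 : x.2.re < β x.2.im
    · refine mem_iUnion.2 ⟨none, ?_, hmem hx.2, h1⟩
      refine h.sub _ (hmem hx.2) _ (hP _ ⟨by linarith [hx.2.1], by linarith [hx.2.2.1]⟩ hx.1) _ ?_
      have h2 : x.2 - cpt β x.2.im = ((x.2.re - β x.2.im : ℝ) : ℂ) := by
        apply Complex.ext <;> simp [cpt]
      rw [h2, Complex.norm_real, Real.norm_eq_abs, abs_lt]
      exact ⟨by linarith [hx.2.2.2.1], by linarith⟩
    · obtain ⟨j, hj⟩ := mem_iUnion.1 (hα.cov (a := x)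
        ⟨hx.1, hx.2.1, hx.2.2.1, by linarith [not_lt.1 h1], hx.2.2.2.2⟩)
      exact mem_iUnion.2 ⟨some j, hj⟩
  · rintro (_ | j)
    · exact differentiableOn_snd.add (hS.holb.mono (fun x hx => hbase x hx.1 hx.2) le_rfl)
    · exact h31_hol_add (hα.hol j) (hS.hola.mono (fun x hx => hcell j x hx.1 hx.2) le_rfl)
        (fun x hx => ⟨hcell j x hx.1 hx.2, hx.2⟩) (fun x hx => hS.bda x (hcell j x hx.1 hx.2)) hδ
  · rintro (_ | j) x hx hj y hy
    · have := hS.bdb x (hbase x hx hj) y hy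
      show ‖y + b' x y - y‖ ≤ ε
      rw [add_sub_cancel_left]
      linarith
    · have h2 := hS.bda x (hcell j x hx hj) y hy
      have h1 := hα.near j x (hcell j x hx hj) hj _ (h31_add_mem hy h2 hδ)
      have h3 : α j x (y + a' x y) - y = (α j x (y + a' x y) - (y + a' x y)) + a' x y := by abel
      show ‖α j x (y + a' x y) - y‖ ≤ ε
      rw [h3]
      linarith [norm_add_le (α j x (y + a' x y) - (y + a' x y)) (a' x y)]
  · rintro (_ | j) (_ | k) x hx hj hk y hy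
    · rfl
    · exact (hmix k x hx hk hj y hy).symm
    · exact hmix j x hx hj hk y hy
    · exact hα.compat j k x (hcell j x hx hj) hj hk _
        (h31_add_mem hy (hS.bda x (hcell j x hx hj) y hy) hδ)

end Crest.Agent.R279
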