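import Crest.Agent.R279.RLc
import Crest.Agent.R279.RL2

/-! Row 279: the rectangle lemma -/

set_option autoImplicit false

namespace Crest.Agent.R279

open Set Metric Filter Topology

variable {E E' F : Type} [NormedAddCommGroup E] [NormedSpace ℂ E] [NormedAddCommGroup E']
  [NormedSpace ℂ E'] [NormedAddCommGroup F] [NormedSpace ℂ F] {M : Set W}

/-- **RL**.  `η = 1 / (N J)` small, cells `j = m N + i` of centre height `τ_j = 2 π η (j + 1/2)`,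
`|Im v - τ_j| < 5 π η / 4`, `β (Im v) - η < Re v < R`, `p ∈ P t_m`, `t_m = 2 π η N m` (empty unless
`Icc (t_m - h) (t_m + 2 h) ⊆ I`, `h = 2 π η N`); cell map
`ψ^m_i ((p, y), θ ((v - cpt β τ_j) / η))` where `ψ^m` is the chain (chosen by a function of
`(P t_m, m₀, m₁)`, whence periodicity) from `e (p, cpt β t_m) y` to `e (p, cpt β t_{m+1}) y`,
`s = O(η)`.  Window section: `transloc` (reference chart at `(p, cpt β t_m)`) on the overlap strips,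
`G1` for even / odd cells with `χ = smoothTransition (1/2 + 2 cos ((Im v / η - π) / 2))`, profile
`ω = C η` for `Re v - β < η^{3/4}`, `C η η^{1/2}` beyond, error `κ₁ = O((η^{3/4})^{3/4} + η^{1/2})`;
then `transloc` (chart at `(p, v)`) and `G1` with the base family on the shell
`β - η < Re v < β`, `χ = smoothTransition (((β (Im v) - Re v) / η - 1/3) * 3)`, loss `η^{-1/4}`. -/
theorem RL (Λ : ℝ) (hΛ : 0 ≤ Λ) : ∃ T₀ : ℝ, 1 < T₀ ∧
    ∀ {G : Type} [NormedAddCommGroup G] [NormedSpace ℂ G] [FiniteDimensional ℂ G] (M : Set W)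
      (I : Set ℝ) (β : ℝ → ℝ) (P : ℝ → Set G) (Ω : Set (G × ℂ)) (g : G × ℂ → W)
      (π : G × ℂ → W →L[ℂ] V) (e : G × ℂ → V → W) (ρ C c ρS CS s₀ L R : ℝ) (N : ℕ),
      IsOpen I → I.OrdConnected → ContDiffOn ℝ 1 β I → (∀ t ∈ I, |deriv β t| ≤ Λ) →
      (∀ t ∈ I, |β t| ≤ L) → Model M Ω g π e ρ C → 0 < c → 0 < ρS → 0 < CS → 0 < s₀ → 0 < L →
      (∀ t ∈ I, IsOpen (P t)) →
      (∀ t ∈ I, ∀ p ∈ P t, ∀ v : ℂ, ‖v - cpt β t‖ < c → (p, v) ∈ Ω) →
      (∀ t ∈ I, SprayData M (P t) (fun p => g (p, cpt β t)) T₀ ρS CS s₀ N) →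
      ∃ δ : ℝ, 0 < δ ∧ 2 * δ ≤ ρ ∧ ∀ ε : ℝ, 0 < ε →
        ∃ (Cl : ℤ → Set (G × ℂ)) (Ψ : ℤ → G × ℂ → V → W),
          Atlas M (fun o : Option ℤ => o.elim (basePc Ω I β) Cl) (fun o => o.elim e Ψ) (2 * δ) ∧
          (∀ j, ∀ x ∈ Cl j, x.2.im ∈ I ∧ β x.2.im - ε < x.2.re) ∧
          ((∀ x y, e (shift x) y = e x y) → (∀ t, β (t + 2 * Real.pi) = β t) →
            (∀ t, P (t + 2 * Real.pi) = P t) → I = univ →
            ∃ J : ℤ, ∀ j x, (shift x ∈ Cl (j + J) ↔ x ∈ Cl j) ∧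
              ∀ y, Ψ (j + J) (shift x) y = Ψ j x y) ∧
          ∀ (a b : ℝ) (PW : Set G), IsOpen PW → b - a ≤ L → Icc (a - c) (b + c) ⊆ I →
            (∀ t ∈ Icc (a - c) (b + c), PW ⊆ P t) →
            ∃ α, Sec (fun o : Option ℤ => o.elim (basePc Ω I β) Cl) (fun o => o.elim e Ψ)
              (PW ×ˢ win β a b c R) δ ε α := by
  obtain ⟨T₀, hT, hcells⟩ := exists_cells Λ
  refine ⟨T₀, hT, ?_⟩
  intro G _ _ _ M I β P Ω g π e ρ C c ρS CS s₀ L R N h1 h2 h3 h4 h5 h6 h7 h8 h9 h10 h11 h12 h13 h14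
  have hG : Geo M I β P Ω g π e ρ C c Λ L := ⟨h1, h2, h3, hΛ, h4, h5, h6, h7, h11, h12, h13⟩
  obtain ⟨r, A, hr, hrρ, hA, hc⟩ := hcells R hG h8 h9 h10 h14
  obtain ⟨K, η₁, hK, hη₁, hs1⟩ := stage1 hG hr hrρ hA R
  have hC := h6.one_le
  have hrρ' : r ≤ ρ := by nlinarith
  refine ⟨r / 16, by positivity, by linarith, fun ε hε => ?_⟩
  obtain ⟨η₂, hη₂, hs2⟩ := stage2 hG hr hrρ hA hK R hε
  have hCA : 0 < 16 * (C * A) := by positivity
  obtain ⟨η, hη, hη0, Pc, Ψ, hcl, hper⟩ :=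
    hc (min (min η₁ η₂) (min ε (r / (16 * (C * A))))) (by positivity)
  have e1 : η ≤ η₁ := hη0.trans ((min_le_left _ _).trans (min_le_left _ _))
  have e2 : η ≤ η₂ := hη0.trans ((min_le_left _ _).trans (min_le_right _ _))
  have e3 : η ≤ ε := hη0.trans ((min_le_right _ _).trans (min_le_left _ _))
  have e4 : η ≤ r / (16 * (C * A)) := hη0.trans ((min_le_right _ _).trans (min_le_right _ _))
  have e5 : 16 * (C * A * η) ≤ r := by
    rw [le_div_iff₀ hCA] at e4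
    nlinarith
  have hat := hcl.atlas hG hr hrρ hη hA e5
  refine ⟨fun j => Pc j ×ˢ cell β η R j, Ψ, ?_, ?_, hper, ?_⟩
  · refine ⟨hat.op, fun j => (hat.hol j).mono subset_rfl (by linarith), fun j z hz y hy =>
      hat.mem j z hz y (ball_subset_ball (by linarith) hy), fun j k hjk z hz hz' =>
      (hat.inj j k hjk z hz hz').mono (ball_subset_ball (by linarith))⟩
  · rintro j ⟨p, v⟩ ⟨hp, hv⟩
    refine ⟨hcl.inI j ⟨p, hp⟩ _ (hv.1.le.trans ?_), ?_⟩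
    · have := Real.pi_pos
      nlinarith
    · have := hv.2.1
      linarith
  · intro a b PW k1 k2 k3 k4
    obtain ⟨α, hα⟩ := hs1 η Pc Ψ hη e1 hcl a b PW k1 k2 k3 k4
    exact hs2 η Pc Ψ hη e2 hcl a b PW k1 k2 k3 k4 α hα

end Crest.Agent.R279
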