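import Crest.Agent.R279.Basic

/-! Row 279: uniform spray constants along a compact curve -/

set_option autoImplicit false

namespace Crest.Agent.R279

open Set Metric Filter Topology

variable {E E' F : Type} [NormedAddCommGroup E] [NormedSpace ℂ E] [NormedAddCommGroup E']
  [NormedSpace ℂ E'] [NormedAddCommGroup F] [NormedSpace ℂ F] {M : Set W}

/-- **UNIF** (compactness + Lebesgue number).  For `z₀ ∈ Γ` take the data at `z₀` on an open
`P₀ ⊇` slice, shrink to `thickening (2 c₀) (slice z₀)` with closure-type control: for `‖z - z₀‖`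
small the slices of `𝒦` at `z` lie in `thickening c₀ (slice z₀)`, `H (p, z)` is `ρ / 2`-close to
`H (p, z₀)` and `(p, z) ∈ Ω`; finite subcover, `SprayData.pull`, `SprayData.weaken`. -/
theorem unif [FiniteDimensional ℂ E] {𝒦 Ω : Set (E × ℂ)} {Γ : Set ℂ} {H : E × ℂ → W}
    (h𝒦 : IsCompact 𝒦) (hΓ : IsCompact Γ) (hΩ : IsOpen Ω)
    (hsub : ∀ x ∈ 𝒦, x.2 ∈ Γ → x ∈ Ω) (hH : ContinuousOn H Ω)
    (hS : ∀ z ∈ Γ, Spray M {p | (p, z) ∈ 𝒦} fun p => H (p, z)) {T : ℝ} (hT : 1 < T) :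
    ∃ (P : ℂ → Set E) (c ρ C s₀ : ℝ) (N : ℕ), 0 < c ∧ 0 < ρ ∧ 0 < C ∧ 0 < s₀ ∧ ∀ z ∈ Γ,
      IsOpen (P z) ∧ SprayData M (P z) (fun p => H (p, z)) T ρ C s₀ N ∧
      (∀ p ∈ P z, ∀ v : ℂ, ‖v - z‖ < c → (p, v) ∈ Ω) ∧
      ∀ x ∈ 𝒦, ‖x.2 - z‖ < c → ball x.1 c ⊆ P z := by
  classical
  refine hΓ.induction_on (p := fun G => ∃ (P : ℂ → Set E) (c ρ C s₀ : ℝ) (N : ℕ),
    0 < c ∧ 0 < ρ ∧ 0 < C ∧ 0 < s₀ ∧ ∀ z ∈ G,
      IsOpen (P z) ∧ SprayData M (P z) (fun p => H (p, z)) T ρ C s₀ N ∧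
      (∀ p ∈ P z, ∀ v : ℂ, ‖v - z‖ < c → (p, v) ∈ Ω) ∧
      ∀ x ∈ 𝒦, ‖x.2 - z‖ < c → ball x.1 c ⊆ P z) ?_ ?_ ?_ ?_
  · exact ⟨fun _ => ∅, 1, 1, 1, 1, 0, one_pos, one_pos, one_pos, one_pos, fun _ h => h.elim⟩
  · rintro s t hst ⟨P, c, ρ, C, s₀, N, h1, h2, h3, h4, h⟩
    exact ⟨P, c, ρ, C, s₀, N, h1, h2, h3, h4, fun z hz => h z (hst hz)⟩
  · rintro s t ⟨P, c, ρ, C, s₀, N, h1, h2, h3, h4, h⟩ ⟨P', c', ρ', C', s₀', N', h1', h2', -, h4', h'⟩
    refine ⟨fun z => if z ∈ s then P z else P' z, min c c', min ρ ρ', max C C', min s₀ s₀',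
      max N N', lt_min h1 h1', lt_min h2 h2', lt_max_of_lt_left h3, lt_min h4 h4', fun z hz => ?_⟩
    by_cases hs : z ∈ s
    · obtain ⟨a1, a2, a3, a4⟩ := h z hs
      simp only [if_pos hs]
      exact ⟨a1, a2.weaken (min_le_left _ _) (le_max_left _ _) (min_le_left _ _) (le_max_left _ _),
        fun p hp v hv => a3 p hp v (hv.trans_le (min_le_left _ _)), fun x hx hxz =>
          (ball_subset_ball (min_le_left _ _)).trans (a4 x hx (hxz.trans_le (min_le_left _ _)))⟩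
    · obtain ⟨a1, a2, a3, a4⟩ := h' z (hz.resolve_left hs)
      simp only [if_neg hs]
      exact ⟨a1, a2.weaken (min_le_right _ _) (le_max_right _ _) (min_le_right _ _)
        (le_max_right _ _), fun p hp v hv => a3 p hp v (hv.trans_le (min_le_right _ _)),
        fun x hx hxz =>
          (ball_subset_ball (min_le_right _ _)).trans (a4 x hx (hxz.trans_le (min_le_right _ _)))⟩
  intro z₀ hz₀
  obtain ⟨P₀, ρ, C, s₀, N, hP₀, hSP, hρ, hC, hs₀, hD⟩ := hS z₀ hz₀ T hT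
  have hcont : Continuous fun p : E => (p, z₀) := by fun_prop
  have hSc : IsCompact {p : E | (p, z₀) ∈ 𝒦} :=
    (h𝒦.image continuous_fst).of_isClosed_subset (h𝒦.isClosed.preimage hcont)
      fun p hp => ⟨_, hp, rfl⟩
  have hc2 : Continuous fun x : E × ℂ => (x.1, z₀) := by fun_prop
  have hO1 : IsOpen (Ω ∩ (fun x : E × ℂ => (x.1, z₀)) ⁻¹' Ω) := hΩ.inter (hΩ.preimage hc2)
  have hO2 : ContinuousOn (fun x : E × ℂ => ‖H x - H (x.1, z₀)‖)
      (Ω ∩ (fun x : E × ℂ => (x.1, z₀)) ⁻¹' Ω) :=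
    ((hH.mono inter_subset_left).sub (hH.comp hc2.continuousOn fun x hx => hx.2)).norm
  have hO := (hO2.isOpen_inter_preimage hO1 (isOpen_Iio (a := ρ / 2))).inter
    (hP₀.preimage (continuous_fst : Continuous (Prod.fst : E × ℂ → E)))
  obtain ⟨u, v, hu, hv, hSu, hzv, huv⟩ := generalized_tube_lemma hSc (isCompact_singleton (x := z₀))
    hO (by
      rintro ⟨p, z⟩ ⟨hp, hz⟩
      obtain rfl : z = z₀ := hz
      have hm : (p, z) ∈ Ω := hsub _ hp hz₀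
      refine ⟨⟨⟨hm, hm⟩, ?_⟩, hSP hp⟩
      simpa using hρ)
  obtain ⟨δ, hδ, hδu⟩ := hSc.exists_thickening_subset_open hu hSu
  have hK' : IsCompact (Prod.snd '' (𝒦 \ Prod.fst ⁻¹' thickening (δ / 2) {p : E | (p, z₀) ∈ 𝒦})) :=
    (h𝒦.diff (isOpen_thickening.preimage continuous_fst)).image continuous_snd
  have hz' : z₀ ∈ v ∩
      (Prod.snd '' (𝒦 \ Prod.fst ⁻¹' thickening (δ / 2) {p : E | (p, z₀) ∈ 𝒦}))ᶜ := by
    refine ⟨hzv rfl, ?_⟩
    rintro ⟨⟨p, z⟩, ⟨hx, hx'⟩, rfl⟩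
    exact hx' (self_subset_thickening (half_pos hδ) _ hx)
  obtain ⟨r, hr, hrv⟩ := Metric.isOpen_iff.1 (hv.inter hK'.isClosed.isOpen_compl) z₀ hz'
  refine ⟨ball z₀ (r / 2), mem_nhdsWithin_of_mem_nhds (ball_mem_nhds _ (half_pos hr)),
    fun _ => u, min (r / 2) (δ / 2), ρ - ρ / 2, C, s₀, N, lt_min (half_pos hr) (half_pos hδ),
    by linarith, hC, hs₀, fun z hz => ?_⟩
  have hb : ∀ w : ℂ, ‖w - z‖ < min (r / 2) (δ / 2) → w ∈ ball z₀ r := fun w hw => by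
    have h1 := hw.trans_le (min_le_left _ _)
    rw [← dist_eq_norm] at h1
    rw [mem_ball] at hz ⊢
    linarith [dist_triangle w z z₀]
  have hzb : z ∈ v := (hrv (ball_subset_ball (half_le_self hr.le) hz)).1
  refine ⟨hu, hD.pull (φ := fun p => p) differentiableOn_id
      (fun p hp => (huv (mk_mem_prod hp hzb)).2) fun p hp => (huv (mk_mem_prod hp hzb)).1.2.le,
    fun p hp w hw => (huv (mk_mem_prod hp (hrv (hb w hw)).1)).1.1.1, fun x hx hxz => ?_⟩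
  have h1 : x.1 ∈ thickening (δ / 2) {p : E | (p, z₀) ∈ 𝒦} := by
    by_contra h
    exact (hrv (hb _ hxz)).2 ⟨x, ⟨hx, h⟩, rfl⟩
  refine (ball_subset_ball (min_le_right _ _)).trans ((ball_subset_thickening h1 _).trans
    ((thickening_thickening_subset _ _ _).trans ?_))
  rwa [add_halves]

end Crest.Agent.R279
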