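import Crest.Agent.R279.CGeo
import Crest.Agent.R279.CWin
import Crest.Agent.R279.RL
import Crest.Agent.R279.Unif

/-! Row 279, block C: extension beyond one face -/

set_option autoImplicit false

namespace Crest.Agent.R279

open Set Metric Filter Topology

variable {G F : Type} [NormedAddCommGroup G] [NormedSpace ℂ G] [NormedAddCommGroup F]
  [NormedSpace ℂ F] {J ι : Type} [Fintype J] [Fintype ι] {M : Set W}
  {lf : J → (G × ℂ →L[ℂ] ℂ)} {e : F ≃L[ℂ] (ι → ℂ)}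

theorem stepA [FiniteDimensional ℂ G] [FiniteDimensional ℂ F] (hSP : CoreSP M G)
    (hc : IsCompact (Poly lf e 1 1)) {T : ℝ} (hT : 1 ≤ T) {P₀ : Set ((G × ℂ) × F)}
    {g : (G × ℂ) × F → W} {π : (G × ℂ) × F → W →L[ℂ] V} {ch : (G × ℂ) × F → V → W} {ρ C : ℝ}
    (hm : Model M P₀ g π ch ρ C) {b : ℝ} (hb : 1 < b) (hP : Poly lf e (b ^ 2) (b ^ 2) ⊆ P₀) :
    ∃ b₁ u δ : ℝ, 1 < b₁ ∧ b₁ < b ∧ 0 < u ∧ u ≤ b - 1 ∧ 0 < δ ∧ δ ≤ ρ ∧ ∀ ε : ℝ, 0 < ε →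
      ∃ (f : (G × ℂ) × F → V → W) (t : (G × ℂ) × F → V → V),
        HolF f (Lz lf e T u ∩ {z | b₁ < z.1.2.re}) δ ∧
        (∀ z ∈ Lz lf e T u ∩ {z | b₁ < z.1.2.re}, ∀ y ∈ ball (0 : V) δ, f z y ∈ M) ∧
        HolF t (Lz lf e T u ∩ {z | b₁ < z.1.2.re ∧ z.1.2.re < b}) δ ∧
        ∀ z ∈ Lz lf e T u ∩ {z | b₁ < z.1.2.re ∧ z.1.2.re < b}, ∀ y ∈ ball (0 : V) δ,
          ‖t z y‖ ≤ ε ∧ ch z (y + t z y) = f z y := by
  have hb0 : 0 < b := by linarith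
  obtain ⟨y₀, R, hy0, hy0', hψ⟩ := cψ_mem hc hT
  obtain ⟨y₁, hy01, h1⟩ := exists_between hy0'
  have h0 : 0 < y₁ := hy0.trans hy01
  obtain ⟨Λ, L, hΛ, hL, hβ1, hβ2, hβ3, hβ4, hβ5⟩ := cβ_facts hb0 h0 h1
  obtain ⟨T₀, hT₀, hRL⟩ := RL Λ hΛ
  set Ω : Set ((G × F) × ℂ) := cφ ⁻¹' P₀ with hΩd
  have hΩ : IsOpen Ω := hm.op.preimage cφ_diff.continuous
  have hm' := hm.pull hΩ cφ_diff.differentiableOn fun x hx => hx
  have hΓ : IsCompact (cpt (cβ b) '' Icc (-y₁) y₁) := isCompact_Icc.image_of_continuousOn hβ4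
  have hgM : MapsTo g P₀ M := fun z hz => hm.zero z hz ▸ hm.mem z hz 0 (mem_ball_self hm.ρ_pos)
  have hS : ∀ v ∈ cpt (cβ b) '' Icc (-y₁) y₁,
      Spray M {p | (p, v) ∈ cK lf e b y₁} fun p => g (cφ (p, v)) := by
    intro v hv
    obtain ⟨K₁, k1, k2, k3⟩ := cK.slice hc hb h0 h1 hv
    have k4 : K₁ ×ˢ {q | ‖e q‖ ≤ b ^ 2} ⊆ (fun p => (p, v)) ⁻¹' Ω := fun p hp => by
      rw [← k3] at hp
      exact hP hp.2
    rw [k3]
    exact hSP F K₁ _ k1 k2 (PD.of_le e (by positivity)) ((fun p => (p, v)) ⁻¹' Ω) _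
      (hΩ.preimage (by fun_prop)) k4 (hm'.holg.comp (by fun_prop) fun p hp => hp) fun p hp => hgM hp
  obtain ⟨P, c, ρS, CS, s₀, N, hc0, hρS, hCS, hs₀, hU⟩ := unif (H := fun x => g (cφ x))
    (cK.isCompact hc hb h0 h1) hΓ hΩ (fun x hx _ => hP hx.2) hm'.holg.continuousOn hS hT₀
  obtain ⟨c', hc', c1, c2, c3⟩ : ∃ c' : ℝ, 0 < c' ∧ 8 * (1 + Λ) * c' ≤ c ∧ 8 * c' ≤ y₁ - y₀ ∧
      4 * c' ≤ 1 := by
    refine ⟨min (c / (8 * (1 + Λ))) (min ((y₁ - y₀) / 8) (1 / 4)), ?_, ?_, ?_, ?_⟩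
    · have := sub_pos.2 hy01
      positivity
    · rw [mul_comm, ← le_div_iff₀ (by positivity)]
      exact min_le_left _ _
    · linarith [min_le_right (c / (8 * (1 + Λ))) (min ((y₁ - y₀) / 8) (1 / 4)),
        min_le_left ((y₁ - y₀) / 8) (1 / 4)]
    · linarith [min_le_right (c / (8 * (1 + Λ))) (min ((y₁ - y₀) / 8) (1 / 4)),
        min_le_right ((y₁ - y₀) / 8) (1 / 4)]
  have hcc : c' ≤ c := by nlinarith
  have hmem : ∀ t ∈ Ioo (-y₁) y₁, cpt (cβ b) t ∈ cpt (cβ b) '' Icc (-y₁) y₁ := fun t ht =>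
    ⟨t, Ioo_subset_Icc_self ht, rfl⟩
  obtain ⟨δ, hδ, hδρ, hA⟩ := hRL M (Ioo (-y₁) y₁) (cβ b) (fun t => P (cpt (cβ b) t)) Ω _ _ _ ρ C c'
    ρS CS s₀ L (R + 1) N isOpen_Ioo ordConnected_Ioo hβ1 hβ2 hβ3 hm' hc' hρS hCS hs₀ (by linarith)
    (fun t ht => (hU _ (hmem t ht)).1)
    (fun t ht p hp v hv => (hU _ (hmem t ht)).2.2.1 p hp v (hv.trans_le hcc))
    fun t ht => (hU _ (hmem t ht)).2.1
  obtain ⟨b₀, b01, b02, b03⟩ : ∃ b₀ : ℝ, 1 ≤ b₀ ∧ b * Real.exp (-c') ≤ b₀ ∧ b₀ < b := by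
    refine ⟨max 1 (b * Real.exp (-c')), le_max_left _ _, le_max_right _ _, max_lt hb ?_⟩
    exact mul_lt_of_lt_one_right hb0 (Real.exp_lt_one_iff.2 (by linarith))
  obtain ⟨η, hη, η1, η2, η3⟩ : ∃ η : ℝ, 0 < η ∧ 5 * η ≤ b - b₀ ∧ η ≤ b - 1 ∧ η ≤ 1 := by
    refine ⟨min ((b - b₀) / 5) (min (b - 1) 1), ?_, ?_, ?_, ?_⟩
    · have := sub_pos.2 b03
      have := sub_pos.2 hb
      positivity
    · linarith [min_le_left ((b - b₀) / 5) (min (b - 1) 1)]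
    · exact (min_le_right _ _).trans (min_le_left _ _)
    · exact (min_le_right _ _).trans (min_le_right _ _)
  have hu : ∀ k : ℕ, 0 < η / (k + 1) ∧ η / (k + 1) ≤ η := fun k =>
    ⟨by positivity, div_le_self hη.le (by linarith [k.cast_nonneg (α := ℝ)])⟩
  set n : ℕ := ⌈2 * y₀ / c'⌉₊ with hn
  have n1 : 2 * y₀ ≤ n * c' := (div_le_iff₀ hc').1 (Nat.le_ceil _)
  have n2 : n * c' ≤ 2 * y₀ + c' := by
    have := (Nat.ceil_lt_add_one (show 0 ≤ 2 * y₀ / c' by positivity)).le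
    calc n * c' ≤ (2 * y₀ / c' + 1) * c' := by gcongr
      _ = _ := by field_simp
  obtain ⟨δ', K, ε₀, hδ', hδδ, hK, hε₀, hKε, hW⟩ := win_glue (M := M)
    (Λ := fun k : ℕ => Lv lf e (b₀ + 2 * η) R (η / (k + 1)))
    (fun k => Lv.st _ _ (hu k).1) (Lv.isBounded hc (hu 0).1.le (by linarith [(hu 0).2]))
    (fun k => Lv.closure_subset _ _ (by
      push_cast
      exact div_lt_div_of_pos_left hη (by positivity) (by linarith)))
    (l := Prod.snd) differentiable_snd (-y₀) hc' hδ n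
  refine ⟨b₀ + 2 * η, η / (n + 1), δ', by linarith, by linarith, (hu n).1, (hu n).2.trans η2, hδ',
    by linarith, fun ε hε => ?_⟩
  have hK0 : 0 < K := by linarith
  have hε' : 0 < min ε₀ (ε / K) := by positivity
  have hKε' : K * min ε₀ (ε / K) ≤ ε := by
    rw [mul_comm, ← le_div_iff₀ hK0]
    exact min_le_right _ _
  have hKε'' : K * min ε₀ (ε / K) ≤ δ :=
    (mul_le_mul_of_nonneg_left (min_le_left _ _) hK0.le).trans hKε
  obtain ⟨Cl, Ψ, hAt, -, -, hwin⟩ := hA _ hε'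
  obtain ⟨α, hα⟩ := hW _ hε' (min_le_left _ _) _ _ _ hAt fun k hk => by
    have k0 : (0 : ℝ) ≤ k * c' := by positivity
    have k1 : (k : ℝ) * c' ≤ n * c' := by gcongr
    have hI : Icc (-y₀ + k * c' - c') (-y₀ + (k + 4) * c' + c') ⊆ Ioo (-y₁) y₁ := fun t ht =>
      ⟨by linarith [ht.1], by linarith [ht.2]⟩
    obtain ⟨α, hα⟩ := hwin (-y₀ + k * c') (-y₀ + (k + 4) * c')
      (⋃ t ∈ Icc (-y₀ + k * c') (-y₀ + (k + 4) * c'),
        ⋃ p ∈ {p | (p, cpt (cβ b) t) ∈ cK lf e b y₁}, ball p c)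
      (isOpen_biUnion fun _ _ => isOpen_biUnion fun _ _ => isOpen_ball) (by linarith) hI
      fun t ht => iUnion₂_subset fun t' ht' => iUnion₂_subset fun p hp => by
        have ht'' : t' ∈ Icc (-y₀ + k * c' - c') (-y₀ + (k + 4) * c' + c') :=
          ⟨by linarith [ht'.1], by linarith [ht'.2]⟩
        refine (hU _ (hmem t (hI ht))).2.2.2 (p, cpt (cβ b) t') hp ?_
        refine (hβ5 t' (Ioo_subset_Icc_self (hI ht'')) t (Ioo_subset_Icc_self (hI ht))).trans_lt ?_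
        have : |t' - t| ≤ 6 * c' := abs_le.2 ⟨by linarith [ht''.1, ht.2], by linarith [ht''.2, ht.1]⟩
        calc (1 + Λ) * |t' - t| ≤ (1 + Λ) * (6 * c') := by gcongr
          _ < c := by nlinarith
    have him : Continuous fun x : (G × F) × ℂ => x.2.im := by fun_prop
    refine ⟨α, hα.mono ((Lv.st _ _ (hu 0).1).isOpen.inter
      ((isOpen_lt continuous_const him).inter (isOpen_lt him continuous_const)))
      (fun x hx => ?_) le_rfl le_rfl⟩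
    have hx1 : -y₀ + k * c' < x.2.im := hx.2.1
    have hx2 : x.2.im < -y₀ + (k + 4) * c' := hx.2.2
    have hy : |x.2.im| ≤ y₁ := abs_le.2 ⟨by linarith, by linarith⟩
    refine ⟨mem_iUnion₂.2 ⟨x.2.im, ⟨hx1.le, hx2.le⟩, mem_iUnion₂.2 ⟨x.1,
      Lv.proj hb h1 ((hu 0).2.trans η2) (by linarith [(hu 0).2]) hx.1 hy, mem_ball_self hc0⟩⟩,
      hx1, hx2, Lv.win hb0 (by linarith [(hu 0).2]) hx.1 (hy.trans_lt h1), ?_⟩
    linarith [hx.1.2.2.2.1, (hu 0).2]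
  obtain ⟨f, hf, hfM, hfe⟩ := Sec.map hAt hα (by linarith)
  have hmap : ∀ z ∈ Lz lf e T (η / (n + 1)) ∩ {z | b₀ + 2 * η < z.1.2.re},
      cψ z ∈ Lv lf e (b₀ + 2 * η) R (η / (n + 1)) ∩
        {x | -y₀ < x.2.im ∧ x.2.im < -y₀ + (n + 4) * c'} := fun z hz => by
    obtain ⟨a1, a2⟩ := hψ _ _ (hu n).1 ((hu n).2.trans η3) (by linarith) z hz.1 hz.2
    exact ⟨a1, (abs_lt.1 a2).1, by linarith [(abs_lt.1 a2).2]⟩
  have hpos : ∀ z : (G × ℂ) × F, b₀ + 2 * η < z.1.2.re → 0 < z.1.2.re := fun z hz => by linarith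
  have hbase : ∀ z ∈ Lz lf e T (η / (n + 1)) ∩ {z | b₀ + 2 * η < z.1.2.re ∧ z.1.2.re < b},
      cψ z ∈ basePc Ω (Ioo (-y₁) y₁) (cβ b) := fun z hz => by
    obtain ⟨-, a2⟩ := hψ _ _ (hu n).1 ((hu n).2.trans η3) (by linarith) z hz.1 hz.2.1
    have hbb : b ≤ b ^ 2 := by nlinarith
    refine ⟨?_, ⟨by linarith [(abs_lt.1 a2).1], by linarith [(abs_lt.1 a2).2]⟩,
      cψ_base (hpos z hz.2.1) hz.2.2⟩
    rw [hΩd, mem_preimage, cφ_cψ (hpos z hz.2.1)]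
    exact hP ⟨fun j => by linarith [hz.1.1 j, (hu n).2], by linarith [hz.2.2],
      by linarith [hz.1.2.2, (hu n).2]⟩
  have hd : ∀ S : Set (((G × ℂ) × F) × V), (∀ x ∈ S, b₀ + 2 * η < x.1.1.2.re) →
      DifferentiableOn ℂ (fun x : ((G × ℂ) × F) × V => cψ x.1) S := fun S hS =>
    DifferentiableOn.comp (g := cψ) (f := Prod.fst) cψ_diff differentiableOn_fst
      fun x hx => hpos _ (hS x hx)
  refine ⟨fun z => f (cψ z), fun z y => α none (cψ z) y - y, ?_, fun z hz => hfM _ (hmap z hz), ?_,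
    fun z hz y hy => ⟨?_, ?_⟩⟩
  · exact hf.comp (p := fun x : ((G × ℂ) × F) × V => cψ x.1) (y := Prod.snd)
      (hd _ fun x hx => hx.1.2) differentiableOn_snd
      (fun x hx => hmap _ hx.1) fun x hx => mem_ball_zero_iff.1 hx.2
  · refine DifferentiableOn.sub ?_ differentiableOn_snd
    exact (hα.hol none).comp (p := fun x : ((G × ℂ) × F) × V => cψ x.1) (y := Prod.snd)
      (hd _ fun x hx => hx.1.2.1) differentiableOn_snd
      (fun x hx => ⟨hmap _ ⟨hx.1.1, hx.1.2.1⟩, hbase _ hx.1⟩) fun x hx => mem_ball_zero_iff.1 hx.2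
  · exact (hα.near none _ (hmap z ⟨hz.1, hz.2.1⟩) (hbase z hz) y hy).trans hKε'
  · have := hfe none _ (hmap z ⟨hz.1, hz.2.1⟩) (hbase z hz) y hy
    rw [add_sub_cancel]
    refine Eq.trans ?_ this.symm
    change _ = ch (cφ (cψ z)) (α none (cψ z) y)
    rw [cφ_cψ (hpos z hz.2.1)]

end Crest.Agent.R279
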