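import Crest.Agent.R279.CStepA

/-! Row 279, block C: enlarging one constraint of a polyhedron -/

set_option autoImplicit false

namespace Crest.Agent.R279

open Set Metric Filter Topology

variable {G F : Type} [NormedAddCommGroup G] [NormedSpace ℂ G] [NormedAddCommGroup F]
  [NormedSpace ℂ F] {J ι : Type} [Fintype J] [Fintype ι] {M : Set W}
  {lf : J → (G × ℂ →L[ℂ] ℂ)} {e : F ≃L[ℂ] (ι → ℂ)}

/-- Model `(P₀, π, ch, ρ, C)` near `Poly 1 1` (`hM`, `Poly.convex`), `b` from `Poly.fat`, `stepA`.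
`G2cut` with `Λ = Lz T u`, `Λ' = Lz T (u / 2)`, `l z = I * z.1.2` (so `Im l = Re ζ`),
`a' = b₁ < a < b₂ < b' = b`, radius `δ`; `glue_maps` with `f = ch` on `A = Λ' ∩ {Re ζ < b₂} ⊆
Poly (b²) (b²) ⊆ P₀`, `f'` from `stepA` on `B = Λ' ∩ {a < Re ζ}`, `δ' = δ / 4`; put `y = 0`,
`U' = A ∪ B = Λ' ⊇ Poly 1 T`; on `Poly 1 1 ⊆ A`:
`‖ch z (α z 0) - ch z 0‖ ≤ C K ε'` (`Model.lip`, `Model.zero`). -/
theorem step [FiniteDimensional ℂ G] [FiniteDimensional ℂ F] (hM : HasModels M)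
    (hSP : CoreSP M G) (hc : IsCompact (Poly lf e 1 1)) {T : ℝ} (hT : 1 ≤ T) :
    App M (Poly lf e 1 1) (Poly lf e 1 T) := by
  intro U g hU hKU hg hgM ε hε
  obtain ⟨P₀, π, ch, ρ, C, hKP, -, hm⟩ := hM _ _ U g hc (Poly.convex 1 1) hU hKU hg hgM
  obtain ⟨b, hb, hP⟩ := Poly.fat hc hm.op hKP
  obtain ⟨b₁, u, δ, h1, h2, hu, hub, hδ, hδρ, hA⟩ := stepA hSP hc hT hm hb hP
  have hu2 : 0 < u / 2 := half_pos hu
  have hl : Differentiable ℂ fun z : (G × ℂ) × F => Complex.I * z.1.2 := by fun_prop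
  obtain ⟨K, hK, hG⟩ := G2cut (Lz.st (lf := lf) (e := e) T hu) (Lz.isBounded hc hT hu.le)
    (Lz.st T hu2).isOpen (Lz.closure_subset T (half_lt_self hu)) hl
    (a' := b₁) (a := (2 * b₁ + b) / 3) (b := (b₁ + 2 * b) / 3) (b' := b) (by linarith) (by linarith)
    (by linarith) hδ
  simp only [Complex.I_mul_im] at hG
  have hC := hm.one_le
  obtain ⟨ε', hε', k1, k2⟩ : ∃ ε' : ℝ, 0 < ε' ∧ K * ε' ≤ δ / 4 ∧ C * (K * ε') ≤ ε := by
    refine ⟨min (δ / 4 / K) (ε / (C * K)), by positivity, ?_, ?_⟩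
    · rw [mul_comm]
      exact (le_div_iff₀ (by linarith)).1 (min_le_left _ _)
    · rw [← mul_assoc, mul_comm]
      exact (le_div_iff₀ (by positivity)).1 (min_le_right _ _)
  obtain ⟨f, t, f1, f2, t1, t2⟩ := hA ε' hε'
  obtain ⟨α, β, hs⟩ := hG t ε' hε' (by linarith) t1 fun z hz y hy => (t2 z hz y hy).1
  have hΛ : Lz lf e T (u / 2) ⊆ Lz lf e T u :=
    subset_closure.trans (Lz.closure_subset T (half_lt_self hu))
  have hre : Continuous fun z : (G × ℂ) × F => z.1.2.re := by fun_prop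
  have hAP : Lz lf e T (u / 2) ∩ {z | z.1.2.re < (b₁ + 2 * b) / 3} ⊆ P₀ := fun z hz => by
    have hb2 : b ≤ b ^ 2 := by nlinarith
    have h3 : z.1.2.re < (b₁ + 2 * b) / 3 := hz.2
    exact hP ⟨fun j => by linarith [hz.1.1 j], by linarith, by linarith [hz.1.2.2]⟩
  have hBP : Lz lf e T (u / 2) ∩ {z | (2 * b₁ + b) / 3 < z.1.2.re} ⊆
      Lz lf e T u ∩ {z | b₁ < z.1.2.re} := fun z hz => by
    have h3 : (2 * b₁ + b) / 3 < z.1.2.re := hz.2
    exact ⟨hΛ hz.1, show b₁ < z.1.2.re by linarith⟩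
  have oA := (Lz.st (lf := lf) (e := e) T hu2).isOpen.inter
    (isOpen_lt hre (continuous_const (y := (b₁ + 2 * b) / 3)))
  have oB := (Lz.st (lf := lf) (e := e) T hu2).isOpen.inter
    (isOpen_lt (continuous_const (y := (2 * b₁ + b) / 3)) hre)
  obtain ⟨g', g1, g2, g3⟩ := glue_maps oA oB (hm.hole.mono hAP hδρ) (f1.mono hBP le_rfl)
    (fun z hz hz' y hy => (t2 z ⟨hΛ hz.1, (hBP hz').2, by
      have h3 : z.1.2.re < (b₁ + 2 * b) / 3 := hz.2
      linarith⟩ y (ball_subset_ball (half_le_self hδ.le) hy)).2) hs (by linarith)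
  have h0 : (0 : V) ∈ ball (0 : V) (δ / 4) := mem_ball_self (by positivity)
  have hκ : δ / 4 + K * ε' ≤ δ / 2 := by linarith
  refine ⟨_, fun z => g' z 0, oA.union oB, fun z hz => ?_,
    g1.comp differentiableOn_id (differentiableOn_const 0) (mapsTo_id _) fun _ _ => by
      rw [norm_zero]; positivity, ?_, fun z hz => ?_⟩
  · by_cases h : z.1.2.re < (b₁ + 2 * b) / 3
    · exact Or.inl ⟨Poly.subset_Lz hu2 hz, h⟩
    · exact Or.inr ⟨Poly.subset_Lz hu2 hz, show (2 * b₁ + b) / 3 < z.1.2.re by linarith⟩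
  · rintro z (hz | hz)
    · show g' z 0 ∈ M
      rw [g2 z hz 0 h0]
      exact hm.mem z (hAP hz) _ (ball_subset_ball hδρ (h31_add_mem h0 (hs.bda z hz 0 h0) hκ))
    · show g' z 0 ∈ M
      rw [g3 z hz 0 h0]
      exact f2 z (hBP hz) _ (h31_add_mem h0 (hs.bdb z hz 0 h0) hκ)
  · have hz' : z ∈ Lz lf e T (u / 2) ∩ {z | z.1.2.re < (b₁ + 2 * b) / 3} :=
      ⟨Poly.subset_Lz hu2 ⟨hz.1, hz.2.1.trans hT, hz.2.2⟩,
        show z.1.2.re < (b₁ + 2 * b) / 3 by linarith [hz.2.1]⟩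
    show ‖g' z 0 - g z‖ ≤ ε
    rw [g2 z hz' 0 h0, ← hm.zero z (hKP hz)]
    refine (hm.lip z (hKP hz) _ (ball_subset_ball hδρ (h31_add_mem h0 (hs.bda z hz' 0 h0) hκ)) 0
      (mem_ball_self hm.ρ_pos)).trans (le_trans ?_ k2)
    rw [zero_add, sub_zero]
    exact mul_le_mul_of_nonneg_left (hs.bda z hz' 0 h0) (by linarith)

end Crest.Agent.R279
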