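import Crest.Agent.R279.Poly
import Crest.Agent.R279.CMain

/-! Row 279: the approximation property for all compact convex sets -/

set_option autoImplicit false

namespace Crest.Agent.R279

open Set Metric Filter Topology

variable {E : Type} [NormedAddCommGroup E] [NormedSpace ℂ E] {M : Set W}

theorem polyCAP (hM : HasModels M) (hc : IsLocallyClosed M) (hS : ∀ m ∈ M, PtSpray M m) :
    PolyCAP M := by
  intro ι _
  have h := cap_polyC hM hc hS ι (fun _ => 1) fun _ => one_pos
  convert h using 1
  ext z
  rw [mem_closedBall_zero_iff, pi_norm_le_iff_of_nonneg zero_le_one]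
  rfl

theorem cap_convex [FiniteDimensional ℂ E] (hM : HasModels M) (hc : IsLocallyClosed M)
    (hS : ∀ m ∈ M, PtSpray M m) {K : Set E} (hK : IsCompact K) (hKc : Convex ℝ K)
    (hKn : K.Nonempty) : CAP M K := by
  intro U g hU hKU hg hgM
  obtain ⟨z, hz⟩ := hKn
  exact cap_convex' hM ⟨g z, hgM (hKU hz)⟩ (polyCAP hM hc hS) hK hKc U g hU hKU hg hgM

end Crest.Agent.R279
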