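import Crest.Agent.R279.Defs

/-! Row 279: convex cutting induction -/

set_option autoImplicit false

namespace Crest.Agent.R279

open Set Metric Filter Topology

variable {E E' F : Type} [NormedAddCommGroup E] [NormedSpace ℂ E] [NormedAddCommGroup E']
  [NormedSpace ℂ E'] [NormedAddCommGroup F] [NormedSpace ℂ F] {M : Set W}

/-- gluing of two holomorphic maps. -/
theorem glue2 {A B : Set E} (hA : IsOpen A) (hB : IsOpen B) {f g : E → F}
    (hf : DifferentiableOn ℂ f A) (hg : DifferentiableOn ℂ g B) (h : ∀ z ∈ A, z ∈ B → f z = g z) :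
    ∃ k : E → F, DifferentiableOn ℂ k (A ∪ B) ∧ (∀ z ∈ A, k z = f z) ∧ ∀ z ∈ B, k z = g z := by
  classical
  have h1 : ∀ z ∈ A, A.piecewise f g z = f z := fun z hz => piecewise_eq_of_mem _ _ _ hz
  have h2 : ∀ z ∈ B, A.piecewise f g z = g z := fun z hz => by
    by_cases hz' : z ∈ A
    · rw [h1 z hz', h z hz' hz]
    · exact piecewise_eq_of_notMem _ _ _ hz'
  refine ⟨A.piecewise f g, fun z hz => ?_, h1, h2⟩
  rcases hz with hz | hz
  · exact (((hf.congr h1) z hz).differentiableAt (hA.mem_nhds hz)).differentiableWithinAt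
  · exact (((hg.congr h2) z hz).differentiableAt (hB.mem_nhds hz)).differentiableWithinAt

/-- the part of a compact convex set in a slab. -/
theorem slab_compact_convex {K : Set E} (hK : IsCompact K) (hKc : Convex ℝ K) (lam : E →L[ℝ] ℝ)
    (a b : ℝ) : IsCompact (K ∩ {z | a ≤ lam z ∧ lam z ≤ b}) ∧
      Convex ℝ (K ∩ {z | a ≤ lam z ∧ lam z ≤ b}) :=
  ⟨hK.inter_right ((isClosed_le continuous_const lam.continuous).inter
      (isClosed_le lam.continuous continuous_const)),
    hKc.inter ((convex_Icc a b).linear_preimage lam.toLinearMap)⟩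

/-- **CUT**.  Lebesgue number `h`; real basis functionals `λ_1, …, λ_d`; by induction on `j`: the
property holds for compact convex `K ⊆ K₀` on which `λ_i`, `i > j`, oscillate by at most `h'`
(inner induction on the number of slabs of `λ_j`). -/
theorem cut_induction [FiniteDimensional ℂ E] {K₀ : Set E} (hK : IsCompact K₀) (hKc : Convex ℝ K₀)
    {Pr : Set E → Prop}
    (hloc : ∀ z ∈ K₀, ∃ r : ℝ, 0 < r ∧ ∀ K, K ⊆ K₀ ∩ ball z r → IsCompact K → Convex ℝ K → Pr K)
    (hempty : Pr ∅)
    (hglue : ∀ K, K ⊆ K₀ → IsCompact K → Convex ℝ K → ∀ (lam : E →L[ℝ] ℝ) (a b : ℝ), a < b →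
      Pr (K ∩ {z | lam z ≤ b}) → Pr (K ∩ {z | a ≤ lam z}) → Pr K) : Pr K₀ := by
  classical
  choose! r hr hPr using hloc
  obtain ⟨d, hd, hleb⟩ := lebesgue_number_lemma_of_metric (c := fun z : K₀ => ball (z : E) (r z))
    hK (fun _ => isOpen_ball) fun z hz => mem_iUnion.2 ⟨⟨z, hz⟩, mem_ball_self (hr z hz)⟩
  have : FiniteDimensional ℝ E := FiniteDimensional.complexToReal E
  let b := Module.finBasis ℝ E
  let lam : Fin (Module.finrank ℝ E) → E →L[ℝ] ℝ := fun i =>
    LinearMap.toContinuousLinearMap (b.coord i)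
  have hS : 0 ≤ ∑ i, ‖b i‖ := Finset.sum_nonneg fun i _ => norm_nonneg _
  obtain ⟨h, hh, hhd⟩ : ∃ h : ℝ, 0 < h ∧ h * ∑ i, ‖b i‖ < d := by
    refine ⟨d / (∑ i, ‖b i‖ + 1), by positivity, ?_⟩
    rw [div_mul_eq_mul_div, div_lt_iff₀ (by positivity)]
    linarith
  have hnorm : ∀ x : E, (∀ i, |lam i x| ≤ h) → ‖x‖ < d := fun x hx => by
    refine lt_of_le_of_lt ?_ hhd
    rw [Finset.mul_sum]
    conv_lhs => rw [← b.sum_repr x]
    refine norm_sum_le_of_le _ fun i _ => ?_
    rw [norm_smul]
    exact mul_le_mul_of_nonneg_right (hx i) (norm_nonneg _)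
  have key : ∀ j : ℕ, ∀ K, K ⊆ K₀ → IsCompact K → Convex ℝ K →
      (∀ i : Fin (Module.finrank ℝ E), j ≤ i.val →
        ∃ c : ℝ, ∀ z ∈ K, c ≤ lam i z ∧ lam i z ≤ c + h) → Pr K := by
    intro j
    induction j with
    | zero =>
      intro K hK0 hK1 hK2 hosc
      rcases K.eq_empty_or_nonempty with rfl | ⟨x, hx⟩
      · exact hempty
      obtain ⟨⟨z, hz⟩, hi⟩ := hleb x (hK0 hx)
      refine hPr z hz K (fun y hy => ⟨hK0 hy, hi ?_⟩) hK1 hK2
      rw [mem_ball, dist_eq_norm]
      refine hnorm _ fun i => ?_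
      obtain ⟨c, hc⟩ := hosc i (Nat.zero_le _)
      have h1 := hc x hx
      have h2 := hc y hy
      rw [map_sub, abs_le]
      constructor <;> linarith [h1.1, h1.2, h2.1, h2.2]
    | succ j ih =>
      intro K hK0 hK1 hK2 hosc
      by_cases hj : j < Module.finrank ℝ E
      swap
      · exact ih K hK0 hK1 hK2 fun i hi => absurd (hi.trans_lt i.2) hj
      have inner : ∀ n : ℕ, ∀ K, K ⊆ K₀ → IsCompact K → Convex ℝ K →
          (∀ i : Fin (Module.finrank ℝ E), j + 1 ≤ i.val →
            ∃ c : ℝ, ∀ z ∈ K, c ≤ lam i z ∧ lam i z ≤ c + h) →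
          ∀ c : ℝ, (∀ z ∈ K, c ≤ lam ⟨j, hj⟩ z ∧ lam ⟨j, hj⟩ z ≤ c + h + n * (h / 2)) → Pr K := by
        intro n
        induction n with
        | zero =>
          intro K hK0 hK1 hK2 hosc c hc
          refine ih K hK0 hK1 hK2 fun i hi => ?_
          rcases hi.eq_or_lt with e | hlt
          · obtain rfl : i = ⟨j, hj⟩ := Fin.ext e.symm
            exact ⟨c, by simpa using hc⟩
          · exact hosc i hlt
        | succ n ihn =>
          intro K hK0 hK1 hK2 hosc c hc
          have hn : (0 : ℝ) ≤ n * (h / 2) := by positivity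
          push_cast at hc
          refine hglue K hK0 hK1 hK2 (lam ⟨j, hj⟩) (c + (n + 1) * (h / 2)) (c + h + n * (h / 2))
            (by linarith) ?_ ?_
          · exact ihn _ (inter_subset_left.trans hK0)
              (hK1.inter_right (isClosed_le (lam _).continuous continuous_const))
              (hK2.inter ((convex_Iic _).linear_preimage (lam _).toLinearMap))
              (fun i hi => (hosc i hi).imp fun c hc z hz => hc z hz.1) c
              fun z hz => ⟨(hc z hz.1).1, hz.2⟩
          · exact ihn _ (inter_subset_left.trans hK0)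
              (hK1.inter_right (isClosed_le continuous_const (lam _).continuous))
              (hK2.inter ((convex_Ici _).linear_preimage (lam _).toLinearMap))
              (fun i hi => (hosc i hi).imp fun c hc z hz => hc z hz.1) (c + (n + 1) * (h / 2))
              fun z hz => ⟨hz.2, by linarith [(hc z hz.1).2]⟩
      obtain ⟨B, hB⟩ := hK1.exists_bound_of_continuousOn (lam ⟨j, hj⟩).continuous.continuousOn
      obtain ⟨n, hn⟩ := exists_nat_ge (2 * B / (h / 2))
      rw [div_le_iff₀ (by positivity)] at hn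
      refine inner n K hK0 hK1 hK2 hosc (-B) fun z hz => ?_
      have := abs_le.1 ((Real.norm_eq_abs _).symm.trans_le (hB z hz))
      constructor <;> linarith [this.1, this.2]
  exact key (Module.finrank ℝ E) K₀ Subset.rfl hK hKc fun i hi => absurd i.2 (not_lt.2 hi)

end Crest.Agent.R279
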