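import Crest.Agent.R279.G2
import Crest.Agent.R279.Sec
import Crest.Agent.R279.CutA

/-! Row 279: convex cutting induction -/

set_option autoImplicit false

namespace Crest.Agent.R279

open Set Metric Filter Topology

variable {E E' F : Type} [NormedAddCommGroup E] [NormedSpace ℂ E] [NormedAddCommGroup E']
  [NormedSpace ℂ E'] [NormedAddCommGroup F] [NormedSpace ℂ F] {M : Set W}

/-- **SECCUT**: local sections of a family of atlases (quality `→ 0` as `ε → 0`) glue to a section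
near a compact convex set (`cut_induction`, `Sec.mono`, `Sec.trans`, `G2`, `Split.mono`,
`Sec.glue`). -/
theorem seccut [FiniteDimensional ℂ E] {K₀ : Set E} (hK : IsCompact K₀) (hKc : Convex ℝ K₀)
    {J : Type} {C : ℝ → J → Set E} {Ψ : ℝ → J → E → V → W} {ρ : ℝ} (hρ : 0 < ρ)
    (hA : ∀ ε, 0 < ε → Atlas M (C ε) (Ψ ε) ρ)
    (hloc : ∀ z ∈ K₀, ∃ (U : Set E) (δ : ℝ), z ∈ U ∧ IsOpen U ∧ 0 < δ ∧ ∀ ε' : ℝ, 0 < ε' →
      ∀ᶠ ε in 𝓝[>] (0 : ℝ), ∃ α, Sec (C ε) (Ψ ε) U δ ε' α) :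
    ∃ (U : Set E) (δ : ℝ), K₀ ⊆ U ∧ IsOpen U ∧ 0 < δ ∧ 2 * δ ≤ ρ ∧ ∀ ε' : ℝ, 0 < ε' →
      ∀ᶠ ε in 𝓝[>] (0 : ℝ), ∃ α, Sec (C ε) (Ψ ε) U δ ε' α := by
  refine cut_induction hK hKc (Pr := fun K => ∃ (U : Set E) (δ : ℝ), K ⊆ U ∧ IsOpen U ∧ 0 < δ ∧
    2 * δ ≤ ρ ∧ ∀ ε' : ℝ, 0 < ε' → ∀ᶠ ε in 𝓝[>] (0 : ℝ), ∃ α, Sec (C ε) (Ψ ε) U δ ε' α) ?_ ?_ ?_
  · intro z hz
    obtain ⟨U, δ, hzU, hU, hδ, h⟩ := hloc z hz
    obtain ⟨r, hr, hrU⟩ := Metric.isOpen_iff.1 hU z hzU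
    refine ⟨r, hr, fun K hKs _ _ => ⟨U, min δ (ρ / 2), fun w hw => hrU (hKs hw).2, hU,
      lt_min hδ (half_pos hρ), by linarith [min_le_right δ (ρ / 2)], fun ε' hε' => ?_⟩⟩
    filter_upwards [h ε' hε'] with ε ⟨α, hα⟩
    exact ⟨α, hα.mono hU Subset.rfl (min_le_left _ _) le_rfl⟩
  · refine ⟨∅, ρ / 2, Subset.rfl, isOpen_empty, half_pos hρ, by linarith, fun ε' _ =>
      Eventually.of_forall fun ε => ⟨fun _ _ y => y, isOpen_empty, empty_subset _, fun j => ?_,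
        fun _ _ h => h.elim, fun _ _ _ h => h.elim⟩⟩
    exact differentiable_snd.differentiableOn
  · rintro K - hKc' hKv lam a b hab ⟨U₁, δ₁, k1, o1, d1, r1, h1⟩ ⟨U₂, δ₂, k2, o2, d2, -, h2⟩
    set δ := min δ₁ δ₂ with hδdef
    have hδ : 0 < δ := lt_min d1 d2
    have hδ1 : δ ≤ δ₁ := min_le_left _ _
    have hδ2 : δ ≤ δ₂ := min_le_right _ _
    obtain ⟨A, B, δ', oA, oB, kA, kB, hAB, d', d'', hs⟩ := G2 hKc' hKv lam hab (o1.inter o2)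
      (fun z hz => ⟨k1 ⟨hz.1, hz.2.2⟩, k2 ⟨hz.1, hz.2.1⟩⟩) (half_pos hδ)
    refine ⟨A ∩ U₁ ∪ B ∩ U₂, δ', fun z hz => ?_, (oA.inter o1).union (oB.inter o2), d',
      by linarith, fun ε' hε' => ?_⟩
    · rcases le_total (lam z) b with h | h
      · exact Or.inl ⟨kA ⟨hz, h⟩, k1 ⟨hz, h⟩⟩
      · exact Or.inr ⟨kB ⟨hz, hab.le.trans h⟩, k2 ⟨hz, hab.le.trans h⟩⟩
    obtain ⟨ε₀, hε₀, hs⟩ := hs (min (ε' / 2) (δ / 4)) (lt_min (half_pos hε') (by positivity))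
    set η := min (min (ε' / 2) (ε₀ / 2)) (δ / 16) with hηdef
    have hη : 0 < η := lt_min (lt_min (half_pos hε') (half_pos hε₀)) (by positivity)
    have hη1 : η ≤ ε' / 2 := (min_le_left _ _).trans (min_le_left _ _)
    have hη2 : η ≤ ε₀ / 2 := (min_le_left _ _).trans (min_le_right _ _)
    have hη3 : η ≤ δ / 16 := min_le_right _ _
    filter_upwards [h1 η hη, h2 η hη, self_mem_nhdsWithin] with ε ⟨α, hα⟩ ⟨α', hα'⟩ hε
    have hα₁ := hα.mono o1 Subset.rfl hδ1 le_rfl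
    have hα₂ := hα'.mono o2 Subset.rfl hδ2 le_rfl
    obtain ⟨t, ht, ht'⟩ := Sec.trans (hA ε hε) hα₁ hα₂ (by linarith) (by linarith)
    obtain ⟨a', b', hsp⟩ := hs t ht fun z hz y hy => (ht' z hz y hy).1.trans (by linarith)
    obtain ⟨α'', h⟩ := Sec.glue (hA ε hε) hα₁ hα₂ (fun z hz y hy => (ht' z hz y hy).2)
      (oA.inter o1) (oB.inter o2) inter_subset_right inter_subset_right
      (hsp.mono inter_subset_left inter_subset_left le_rfl le_rfl)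
      (by linarith [min_le_right (ε' / 2) (δ / 4)])
    exact ⟨α'', h.mono h.op Subset.rfl le_rfl (by linarith [min_le_left (ε' / 2) (δ / 4)])⟩

end Crest.Agent.R279
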