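import Crest.Agent.R264.Osgood

/-!
# Row 279 (smooth quartic surfaces are Oka): definitions

Target: an abstract subset `M ⊆ W = V × ℂ` (`V = ℂ⁴`); in the end
`M = MQ Q = {(x, t) | Q x = 0, x ≠ 0}` (punctured cone times a dummy line, so that the local charts
`y ↦ e z y`, `y ∈ V`, are injective).
-/

set_option autoImplicit false

namespace Crest.Agent.R279

open Set Metric

abbrev V : Type := Fin 4 → ℂ
abbrev W : Type := V × ℂ

section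
variable {E F G : Type} [NormedAddCommGroup E] [NormedSpace ℂ E] [NormedAddCommGroup F]
  [NormedSpace ℂ F] [NormedAddCommGroup G] [NormedSpace ℂ G]

/-- a family `Ψ z y` jointly holomorphic for `z ∈ P`, `‖y‖ < ρ`. -/
def HolF (Ψ : E → F → G) (P : Set E) (ρ : ℝ) : Prop :=
  DifferentiableOn ℂ (fun x : E × F => Ψ x.1 x.2) (P ×ˢ ball 0 ρ)

/-- holomorphic charts `e z : ball 0 ρ → M` of `M` centred at `g z`, `z ∈ P`, with the affine left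
inverse `m ↦ π z (m - g z)`. -/
structure Model (M : Set W) (P : Set E) (g : E → W) (π : E → W →L[ℂ] V) (e : E → V → W)
    (ρ C : ℝ) : Prop where
  op : IsOpen P
  ρ_pos : 0 < ρ
  one_le : 1 ≤ C
  holg : DifferentiableOn ℂ g P
  holπ : DifferentiableOn ℂ π P
  hole : HolF e P ρ
  mem : ∀ z ∈ P, ∀ y ∈ ball (0 : V) ρ, e z y ∈ M
  zero : ∀ z ∈ P, e z 0 = g z
  inv : ∀ z ∈ P, ∀ y ∈ ball (0 : V) ρ, π z (e z y - g z) = y
  lip : ∀ z ∈ P, ∀ y ∈ ball (0 : V) ρ, ∀ y' ∈ ball (0 : V) ρ, ‖e z y - e z y'‖ ≤ C * ‖y - y'‖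
  bddπ : ∀ z ∈ P, ‖π z‖ ≤ C
  bddg : ∀ z ∈ P, ‖g z‖ ≤ C
  inj : ∀ z ∈ P, ∀ m ∈ M, ∀ m' ∈ M, ‖m - g z‖ < ρ → ‖m' - g z‖ < ρ → π z m = π z m' → m = m'

/-- a chain of holomorphic moves from `m₀ a` (time `0` of move `0`) to `m₁ a`; the moves are
defined for times `‖τ‖ < R`, stay `b`-close to `m₀ a` for `‖τ‖ < T`, and are constant from the
`N`-th one on. -/
structure Chain (M : Set W) (D : Set E) (m₀ m₁ : E → W) (N : ℕ) (T R b : ℝ)
    (ψ : ℕ → E → ℂ → W) : Prop where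
  hol : ∀ i, HolF (ψ i) D R
  mem : ∀ i, ∀ a ∈ D, ∀ τ ∈ ball (0 : ℂ) R, ψ i a τ ∈ M
  start : ∀ a ∈ D, ψ 0 a 0 = m₀ a
  link : ∀ i, ∀ a ∈ D, ψ i a 1 = ψ (i + 1) a 0
  stop : ∀ i, N ≤ i → ∀ a ∈ D, ∀ τ, ψ i a τ = m₁ a
  tame : ∀ i, ∀ a ∈ D, ∀ τ ∈ ball (0 : ℂ) T, ‖ψ i a τ - m₀ a‖ ≤ b

/-- quantitative spray system along `g` over `P`: constants independent of `R`. -/
def SprayData (M : Set W) (P : Set E) (g : E → W) (T ρ C s₀ : ℝ) (N : ℕ) : Prop :=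
  ∀ s : ℝ, 0 < s → s ≤ s₀ → ∀ R : ℝ, T ≤ R →
    ∀ (A : Type) [NormedAddCommGroup A] [NormedSpace ℂ A] [FiniteDimensional ℂ A]
      (D : Set A) (p : A → E) (m₀ m₁ : A → W), IsOpen D → DifferentiableOn ℂ p D → MapsTo p D P →
      DifferentiableOn ℂ m₀ D → DifferentiableOn ℂ m₁ D → MapsTo m₀ D M → MapsTo m₁ D M →
      (∀ a ∈ D, ‖m₀ a - g (p a)‖ < ρ) → (∀ a ∈ D, ‖m₁ a - m₀ a‖ ≤ s) →
      ∃ ψ : ℕ → A → ℂ → W, Chain M D m₀ m₁ N T R (C * s) ψ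

/-- `g` has spray systems near `K`. -/
def Spray (M : Set W) (K : Set E) (g : E → W) : Prop :=
  ∀ T : ℝ, 1 < T → ∃ (P : Set E) (ρ C s₀ : ℝ) (N : ℕ), IsOpen P ∧ K ⊆ P ∧ 0 < ρ ∧ 0 < C ∧ 0 < s₀ ∧
    SprayData M P g T ρ C s₀ N

/-- every holomorphic map to `M` defined near `K` has spray systems near `K`. -/
def SP (M : Set W) (K : Set E) : Prop :=
  ∀ (U : Set E) (g : E → W), IsOpen U → K ⊆ U → DifferentiableOn ℂ g U → MapsTo g U M →
    Spray M K g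

/-- approximation on `K` by entire maps to `M`. -/
def CAP (M : Set W) (K : Set E) : Prop :=
  ∀ (U : Set E) (g : E → W), IsOpen U → K ⊆ U → DifferentiableOn ℂ g U → MapsTo g U M →
    ∀ ε : ℝ, 0 < ε → ∃ f : E → W, Differentiable ℂ f ∧ (∀ z, f z ∈ M) ∧ ∀ z ∈ K, ‖f z - g z‖ ≤ ε

/-- families of maps to `M` on open pieces `C j`, injective in the fibre variable on overlaps. -/
structure Atlas (M : Set W) {J : Type} (C : J → Set E) (Ψ : J → E → V → W) (ρ : ℝ) : Prop where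
  op : ∀ j, IsOpen (C j)
  hol : ∀ j, HolF (Ψ j) (C j) ρ
  mem : ∀ j, ∀ z ∈ C j, ∀ y ∈ ball (0 : V) ρ, Ψ j z y ∈ M
  inj : ∀ j k, j ≠ k → ∀ z ∈ C j, z ∈ C k → InjOn (Ψ j z) (ball 0 ρ)

/-- a section of an atlas over `U`: compatible fibre maps `ε`-close to the identity. -/
structure Sec {J : Type} (C : J → Set E) (Ψ : J → E → V → W) (U : Set E) (δ ε : ℝ)
    (α : J → E → V → V) : Prop where
  op : IsOpen U
  cov : U ⊆ ⋃ j, C j
  hol : ∀ j, HolF (α j) (U ∩ C j) δ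
  near : ∀ j, ∀ z ∈ U, z ∈ C j → ∀ y ∈ ball (0 : V) δ, ‖α j z y - y‖ ≤ ε
  compat : ∀ j k, ∀ z ∈ U, z ∈ C j → z ∈ C k → ∀ y ∈ ball (0 : V) δ,
    Ψ j z (α j z y) = Ψ k z (α k z y)

/-- splitting of the fibre map `y ↦ y + h z y` given on `A ∩ B`:
`(id + h) ∘ (id + b) = id + a`. -/
structure Split (A B : Set E) (h : E → V → V) (δ κ : ℝ) (a b : E → V → V) : Prop where
  hola : HolF a A δ
  holb : HolF b B δ
  bda : ∀ z ∈ A, ∀ y ∈ ball (0 : V) δ, ‖a z y‖ ≤ κ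
  bdb : ∀ z ∈ B, ∀ y ∈ ball (0 : V) δ, ‖b z y‖ ≤ κ
  eq : ∀ z ∈ A, z ∈ B → ∀ y ∈ ball (0 : V) δ, y + a z y = (y + b z y) + h z (y + b z y)

end

/-- every holomorphic map to `M` has a `Model` near every compact convex set. -/
def HasModels (M : Set W) : Prop :=
  ∀ (E : Type) [NormedAddCommGroup E] [NormedSpace ℂ E] [FiniteDimensional ℂ E]
    (K U : Set E) (g : E → W), IsCompact K → Convex ℝ K → IsOpen U → K ⊆ U →
    DifferentiableOn ℂ g U → MapsTo g U M →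
    ∃ (P : Set E) (π : E → W →L[ℂ] V) (e : E → V → W) (ρ C : ℝ),
      K ⊆ P ∧ P ⊆ U ∧ Model M P g π e ρ C

/-- spray system at one point. -/
def PtSpray (M : Set W) (m : W) : Prop := Spray M (univ : Set ℂ) fun _ => m

/-- closed polydisc. -/
def polyC {ι : Type} (r : ι → ℝ) : Set (ι → ℂ) := {z | ∀ i, ‖z i‖ ≤ r i}

/-- a local family of entire curves in `M` through the points near `m`, with velocity `v` at `m`. -/
def Tube (M : Set W) (m v : W) : Prop :=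
  ∃ (O : Set W) (φ : W → ℂ → W), IsOpen O ∧ m ∈ O ∧
    DifferentiableOn ℂ (fun x : W × ℂ => φ x.1 x.2) (O ×ˢ univ) ∧
    (∀ m' ∈ O, m' ∈ M → φ m' 0 = m' ∧ ∀ τ, φ m' τ ∈ M) ∧ HasDerivAt (φ m) v 0

/-- the punctured cone times a line. -/
def MQ (Q : MvPolynomial (Fin 4) ℂ) : Set W :=
  {m | MvPolynomial.eval m.1 Q = 0 ∧ m.1 ≠ 0}

/-- a local family of entire curves in the punctured cone. -/
def XTube (Q : MvPolynomial (Fin 4) ℂ) (x v : V) : Prop :=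
  ∃ (O : Set V) (φ : V → ℂ → V), IsOpen O ∧ x ∈ O ∧
    DifferentiableOn ℂ (fun a : V × ℂ => φ a.1 a.2) (O ×ˢ univ) ∧
    (∀ x' ∈ O, MvPolynomial.eval x' Q = 0 →
      φ x' 0 = x' ∧ ∀ τ, MvPolynomial.eval (φ x' τ) Q = 0 ∧ φ x' τ ≠ 0) ∧ HasDerivAt (φ x) v 0

/-- smooth quartic. -/
structure SmoothQ (Q : MvPolynomial (Fin 4) ℂ) : Prop where
  hom : Q.IsHomogeneous 4
  smooth : ∀ p : Fin 4 → ℂ, p ≠ 0 → MvPolynomial.eval p Q = 0 →
    ∃ i : Fin 4, MvPolynomial.eval p (MvPolynomial.pderiv i Q) ≠ 0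

/-- the point `β t + i t` of the base curve. -/
noncomputable def cpt (β : ℝ → ℝ) (t : ℝ) : ℂ := (β t : ℂ) + (t : ℂ) * Complex.I

/-- the window `a < Im v < b`, `β (Im v) - c < Re v < R`. -/
def win (β : ℝ → ℝ) (a b c R : ℝ) : Set ℂ :=
  {v | a < v.im ∧ v.im < b ∧ β v.im - c < v.re ∧ v.re < R}

/-- the base piece of the atlas of the rectangle lemma. -/
def basePc {G : Type} (Ω : Set (G × ℂ)) (I : Set ℝ) (β : ℝ → ℝ) : Set (G × ℂ) :=
  {x | x ∈ Ω ∧ x.2.im ∈ I ∧ x.2.re < β x.2.im}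

/-- translation by `2πi` in the last variable. -/
noncomputable def shift {G : Type} (x : G × ℂ) : G × ℂ := (x.1, x.2 + 2 * Real.pi * Complex.I)

end Crest.Agent.R279
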