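import Crest.Agent.R279.G1c

/-! Row 279: planar Cauchy-Green splitting with passive holomorphic parameters -/

set_option autoImplicit false

namespace Crest.Agent.R279

open Set Metric Filter Topology

variable {E E' F : Type} [NormedAddCommGroup E] [NormedSpace ℂ E] [NormedAddCommGroup E']
  [NormedSpace ℂ E'] [NormedAddCommGroup F] [NormedSpace ℂ F] {M : Set W}

open MeasureTheory

theorem h99_int1 {α w : ℝ} (h0 : 0 < α) (h1 : α < 1) (hw : 0 < w) (s c : ℝ) :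
    ∫⁻ x in Ioo s (s + w), ENNReal.ofReal (|x - c| ^ (-α)) ≤
      ENNReal.ofReal ((2 / (1 - α) + 1) * w ^ (1 - α)) := by
  set g : ℝ → ENNReal := (Ioo 0 w).indicator fun x => ENNReal.ofReal (x ^ (-α)) with hg
  have hgm : Measurable g := Measurable.indicator (by fun_prop) measurableSet_Ioo
  have hα : 0 < 1 - α := by linarith
  have hI : ∫⁻ x, g x = ENNReal.ofReal (w ^ (1 - α) / (1 - α)) := by
    have hi : IntegrableOn (fun x : ℝ => x ^ (-α)) (Ioo 0 w) :=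
      (intervalIntegrable_iff_integrableOn_Ioo_of_le hw.le).1
        (intervalIntegral.intervalIntegrable_rpow' (by linarith))
    rw [hg, lintegral_indicator measurableSet_Ioo, ← ofReal_integral_eq_lintegral_ofReal hi
      ((ae_restrict_mem measurableSet_Ioo).mono fun x hx => Real.rpow_nonneg hx.1.le _),
      ← integral_Ioc_eq_integral_Ioo, ← intervalIntegral.integral_of_le hw.le,
      integral_rpow (Or.inl (by linarith)), Real.zero_rpow (by linarith), sub_zero,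
      neg_add_eq_sub]
  have hp : ∀ x, ENNReal.ofReal (|x - c| ^ (-α)) ≤
      g (x - c) + g (c - x) + ENNReal.ofReal (w ^ (-α)) := by
    intro x
    rcases le_or_gt w |x - c| with h | h
    · exact le_add_left (ENNReal.ofReal_le_ofReal
        (Real.rpow_le_rpow_of_nonpos hw h (by linarith)))
    rcases lt_trichotomy x c with h2 | rfl | h2
    · rw [abs_sub_comm, abs_of_pos (sub_pos.2 h2)] at h ⊢
      rw [hg, indicator_of_mem (show c - x ∈ Ioo 0 w from ⟨sub_pos.2 h2, h⟩)]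
      exact le_add_right le_add_self
    · rw [sub_self, abs_zero, Real.zero_rpow (by linarith), ENNReal.ofReal_zero]
      exact zero_le
    · rw [abs_of_pos (sub_pos.2 h2)] at h ⊢
      rw [hg, indicator_of_mem (show x - c ∈ Ioo 0 w from ⟨sub_pos.2 h2, h⟩)]
      exact le_add_right le_self_add
  have hw1 : 0 ≤ w ^ (1 - α) / (1 - α) := by positivity
  calc _ ≤ ∫⁻ x in Ioo s (s + w), (g (x - c) + g (c - x) + ENNReal.ofReal (w ^ (-α))) :=
        lintegral_mono hp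
    _ = (∫⁻ x in Ioo s (s + w), g (x - c)) + (∫⁻ x in Ioo s (s + w), g (c - x)) +
          ENNReal.ofReal (w ^ (-α)) * ENNReal.ofReal w := by
        rw [lintegral_add_right _ measurable_const, lintegral_add_left (by fun_prop),
          setLIntegral_const, Real.volume_Ioo, add_sub_cancel_left]
    _ ≤ (∫⁻ x, g (x - c)) + (∫⁻ x, g (c - x)) + ENNReal.ofReal (w ^ (-α)) * ENNReal.ofReal w := by
        gcongr <;> exact Measure.restrict_le_self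
    _ = _ := by
        rw [lintegral_sub_right_eq_self, lintegral_sub_left_eq_self, hI,
          ← ENNReal.ofReal_mul (by positivity), ← ENNReal.ofReal_add hw1 hw1,
          ← ENNReal.ofReal_add (by positivity) (by positivity), ← Real.rpow_add_one hw.ne',
          neg_add_eq_sub]
        congr 1
        ring

/-- integral of the Cauchy kernel over a graph strip of width `w` and height `L`
(`1 / |ζ| ≤ |x|^(-1/4) |y|^(-3/4)` and Tonelli). -/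
theorem strip_integral : ∃ C₀ : ℝ, 0 < C₀ ∧ ∀ (S : Set ℂ) (γ : ℝ → ℝ) (a L w : ℝ), MeasurableSet S →
    0 < L → 0 < w → (∀ v ∈ S, a < v.im ∧ v.im < a + L ∧ γ v.im < v.re ∧ v.re < γ v.im + w) →
    ∀ z : ℂ, ∫⁻ ζ in S, ENNReal.ofReal (1 / ‖ζ - z‖) ≤
      ENNReal.ofReal (C₀ * w ^ (3 / 4 : ℝ) * L ^ (1 / 4 : ℝ)) := by
  refine ⟨(2 / (1 - 1 / 4) + 1) * (2 / (1 - 3 / 4) + 1), by norm_num,
    fun S γ a L w hS hL hw h z => ?_⟩
  set f : ℂ → ENNReal := S.indicator fun ζ => ENNReal.ofReal (1 / ‖ζ - z‖) with hf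
  have hfm : Measurable f := Measurable.indicator (by fun_prop) hS
  have e := Complex.volume_preserving_equiv_real_prod.symm
  rw [← lintegral_indicator hS, ← hf, ← e.lintegral_comp hfm, Measure.volume_eq_prod,
    lintegral_prod_symm (fun p => f (Complex.measurableEquivRealProd.symm p))
      (hfm.comp e.measurable).aemeasurable]
  have key : ∀ᵐ y : ℝ, ∫⁻ x : ℝ, f (Complex.measurableEquivRealProd.symm (x, y)) ≤
      (Ioo a (a + L)).indicator (fun y => ENNReal.ofReal ((2 / (1 - 1 / 4) + 1) * w ^ (1 - 1 / 4 : ℝ)) *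
        ENNReal.ofReal (|y - z.im| ^ (-(3 / 4 : ℝ)))) y := by
    filter_upwards [Measure.ae_ne volume z.im] with y hy
    by_cases hy' : y ∈ Ioo a (a + L)
    swap
    · rw [indicator_of_notMem hy']
      refine le_of_eq (lintegral_eq_zero_of_ae_eq_zero (Eventually.of_forall fun x => ?_))
      exact indicator_of_notMem (fun hx => hy' ⟨(h _ hx).1, (h _ hx).2.1⟩) _
    rw [indicator_of_mem hy']
    refine le_trans ?_ (mul_le_mul_left (h99_int1 (by norm_num) (by norm_num) hw (γ y) z.re) _)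
    rw [← lintegral_mul_const _ (by fun_prop), ← lintegral_indicator measurableSet_Ioo]
    refine lintegral_mono_ae ?_
    filter_upwards [Measure.ae_ne volume z.re] with x hx
    by_cases hx' : Complex.measurableEquivRealProd.symm (x, y) ∈ S
    swap
    · rw [hf, indicator_of_notMem hx']
      exact zero_le
    rw [hf, indicator_of_mem hx', indicator_of_mem (show x ∈ Ioo (γ y) (γ y + w) from (h _ hx').2.2),
      ← ENNReal.ofReal_mul (by positivity)]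
    refine ENNReal.ofReal_le_ofReal ?_
    have h1 : |x - z.re| ≤ ‖Complex.measurableEquivRealProd.symm (x, y) - z‖ :=
      Complex.abs_re_le_norm (Complex.measurableEquivRealProd.symm (x, y) - z)
    have h2 : |y - z.im| ≤ ‖Complex.measurableEquivRealProd.symm (x, y) - z‖ :=
      Complex.abs_im_le_norm (Complex.measurableEquivRealProd.symm (x, y) - z)
    have h3 : 0 < |x - z.re| := abs_pos.2 (sub_ne_zero.2 hx)
    have h4 : 0 < |y - z.im| := abs_pos.2 (sub_ne_zero.2 hy)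
    refine le_trans (le_of_eq ?_) (mul_le_mul (Real.rpow_le_rpow_of_nonpos h3 h1 (by norm_num))
      (Real.rpow_le_rpow_of_nonpos h4 h2 (by norm_num)) (by positivity) (by positivity))
    rw [← Real.rpow_add (h3.trans_le h1), one_div, ← Real.rpow_neg_one]
    norm_num
  refine (lintegral_mono_ae key).trans ?_
  rw [lintegral_indicator measurableSet_Ioo, lintegral_const_mul _ (by fun_prop)]
  refine (mul_le_mul_right (h99_int1 (by norm_num) (by norm_num) hL a z.im) _).trans (le_of_eq ?_)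
  rw [← ENNReal.ofReal_mul (by positivity), show (1 - 1 / 4 : ℝ) = 3 / 4 by norm_num,
    show (1 - 3 / 4 : ℝ) = 1 / 4 by norm_num]
  congr 1
  ring

/-- fixed point of a contraction on bounded holomorphic maps -/
theorem h62_fix [CompleteSpace F] {D : Set E} (hD : IsOpen D) {Φ : (E → F) → E → F} {r : ℝ}
    (hr : 0 ≤ r)
    (h1 : ∀ b, DifferentiableOn ℂ b D → (∀ x ∈ D, ‖b x‖ ≤ r) →
      DifferentiableOn ℂ (Φ b) D ∧ ∀ x ∈ D, ‖Φ b x‖ ≤ r)
    (h2 : ∀ b b' d, DifferentiableOn ℂ b D → (∀ x ∈ D, ‖b x‖ ≤ r) → DifferentiableOn ℂ b' D →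
      (∀ x ∈ D, ‖b' x‖ ≤ r) → 0 ≤ d → (∀ x ∈ D, ‖b x - b' x‖ ≤ d) →
        ∀ x ∈ D, ‖Φ b x - Φ b' x‖ ≤ d / 2) :
    ∃ g, DifferentiableOn ℂ g D ∧ (∀ x ∈ D, ‖g x‖ ≤ r) ∧ ∀ x ∈ D, Φ g x = g x := by
  have a1 : ∀ n : ℕ, DifferentiableOn ℂ (Φ^[n] 0) D ∧ ∀ x ∈ D, ‖Φ^[n] 0 x‖ ≤ r := fun n => by
    induction n with
    | zero => exact ⟨differentiableOn_const 0, fun x _ => by simpa using hr⟩
    | succ n ih => rw [Function.iterate_succ_apply']; exact h1 _ ih.1 ih.2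
  have a2 : ∀ n : ℕ, ∀ x ∈ D, ‖Φ^[n + 1] 0 x - Φ^[n] 0 x‖ ≤ r / 2 ^ n := fun n => by
    induction n with
    | zero => intro x hx; simpa using (a1 1).2 x hx
    | succ n ih =>
      intro x hx
      have := h2 _ _ _ (a1 (n + 1)).1 (a1 (n + 1)).2 (a1 n).1 (a1 n).2 (by positivity) ih x hx
      rwa [← Function.iterate_succ_apply' Φ, ← Function.iterate_succ_apply' Φ, div_div,
        ← pow_succ] at this
  obtain ⟨g, g1, g2, g3⟩ := hol_limit hD (f := fun n => Φ^[n] 0) (fun n => (a1 n).1) a2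
  have g4 : ∀ x ∈ D, ‖g x‖ ≤ r := fun x hx =>
    le_of_tendsto' (g2 x hx).norm fun n => (a1 n).2 x hx
  refine ⟨g, g1, g4, fun x hx => ?_⟩
  have t1 : Tendsto (fun n : ℕ => Φ^[n + 1] 0 x) atTop (𝓝 (Φ g x)) := by
    rw [tendsto_iff_norm_sub_tendsto_zero]
    have t0 : Tendsto (fun n : ℕ => r * (1 / 2) ^ n) atTop (𝓝 0) := by
      simpa using (tendsto_pow_atTop_nhds_zero_of_lt_one (r := (1 / 2 : ℝ)) (by norm_num)
        (by norm_num)).const_mul r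
    refine squeeze_zero (fun _ => norm_nonneg _) (fun n => ?_) t0
    rw [norm_sub_rev, Function.iterate_succ_apply']
    refine (h2 _ _ _ g1 g4 (a1 n).1 (a1 n).2 (by positivity) (g3 n) x hx).trans (le_of_eq ?_)
    rw [one_div, inv_pow]
    ring
  exact tendsto_nhds_unique t1 ((g2 x hx).comp (tendsto_add_atTop_nat 1))

/-- **G1**.  For `c` on `A ∩ B` put `φ = c ∂̄χ`, `T φ (z) = -(1/π) ∫_{A ∩ B} φ(ζ) / (ζ - z)`,
`a = (1 - χ) c + T φ`, `b = -χ c + T φ` (extended by `T φ` off the overlap); holomorphy near a point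
of the overlap from Pompeiu's formula (`R080.dbc_pom`) for `χ c ϱ`, `ϱ` a bump.  Fixed point
`c = h (y + b(c))`, contraction constant `2 κ * 8 / ρ ≤ 1/2` (`lip_fibre`, `hol_limit`). -/
theorem G1 [FiniteDimensional ℂ E] {P : Set E} (hP : IsOpen P) {A B : Set ℂ} (hA : IsOpen A)
    (hB : IsOpen B) {χ ω : ℂ → ℝ} (hχ : ContDiffOn ℝ 1 χ (A ∩ B))
    (hχ01 : ∀ ζ ∈ A ∩ B, 0 ≤ χ ζ ∧ χ ζ ≤ 1)
    (hχA : ∀ ζ ∈ A, ζ ∉ B → ∀ᶠ ξ in 𝓝 ζ, ξ ∈ B → χ ξ = 1)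
    (hχB : ∀ ζ ∈ B, ζ ∉ A → ∀ᶠ ξ in 𝓝 ζ, ξ ∈ A → χ ξ = 0)
    {h : E × ℂ → V → V} {ρ κ : ℝ} (hh : HolF h (P ×ˢ (A ∩ B)) ρ)
    (hω : ∀ p ∈ P, ∀ ζ ∈ A ∩ B, ∀ y ∈ ball (0 : V) ρ, ‖h (p, ζ) y‖ ≤ ω ζ)
    (hωκ : ∀ ζ ∈ A ∩ B, ω ζ ≤ κ)
    (hint : ∀ z : ℂ, ∫⁻ ζ in A ∩ B, ENNReal.ofReal (ω ζ * ‖fderiv ℝ χ ζ‖ / ‖ζ - z‖) ≤
      ENNReal.ofReal κ) (hκ : 0 < κ) (hρ : 32 * κ ≤ ρ) :
    ∃ a b : E × ℂ → V → V, Split (P ×ˢ A) (P ×ˢ B) h (ρ / 2) (4 * κ) a b := by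
  rcases P.eq_empty_or_nonempty with rfl | ⟨p₀, hp₀⟩
  · exact ⟨fun _ _ => 0, fun _ _ => 0, differentiableOn_const _, differentiableOn_const _,
      fun z hz => hz.1.elim, fun z hz => hz.1.elim, fun z hz => hz.1.elim⟩
  have hρ0 : 0 < ρ := by linarith
  have hS := hA.inter hB
  have : Nonempty (P ×ˢ ball (0 : V) ρ : Set (E × V)) := ⟨⟨(p₀, 0), hp₀, mem_ball_self hρ0⟩⟩
  obtain ⟨ω', m1, m2, m3⟩ := exists_meas_profile (ω := ω) hS
    (ι := (P ×ˢ ball (0 : V) ρ : Set (E × V))) (f := fun i ζ => h (i.1.1, ζ) i.1.2)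
    (fun i => (hh.comp (p := fun ζ : ℂ => (i.1.1, ζ)) (y := fun _ => i.1.2) (by fun_prop)
      (differentiableOn_const _) (fun ζ hζ => ⟨i.2.1, hζ⟩)
      fun _ _ => mem_ball_zero_iff.1 i.2.2).continuousOn)
    fun i ζ hζ => hω _ i.2.1 ζ hζ _ i.2.2
  have hC : CutOK (A ∩ B) χ ω' κ := ⟨hS, hχ, hχ01, fun ζ hζ => (m2 ζ hζ).2.trans (hωκ ζ hζ),
    fun z => (setLIntegral_mono' hS.measurableSet fun ζ hζ => ENNReal.ofReal_le_ofReal (by
      gcongr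
      exact (m2 ζ hζ).2)).trans (hint z), hκ, m1⟩
  have hD : IsOpen (P ×ˢ ball (0 : V) (ρ / 2)) := hP.prod isOpen_ball
  have hin : ∀ {b : (E × V) × ℂ → V}, (∀ x ∈ (P ×ˢ ball (0 : V) (ρ / 2)) ×ˢ B, ‖b x‖ ≤ 2 * κ) →
      ∀ x ∈ (P ×ˢ ball (0 : V) (ρ / 2)) ×ˢ (A ∩ B), ‖x.1.2 + b x‖ < 3 * ρ / 4 := fun {b} hb x hx => by
    have h1 := mem_ball_zero_iff.1 hx.1.2
    have h2 := hb x ⟨hx.1, hx.2.2⟩
    linarith [norm_add_le x.1.2 (b x)]
  have F1 : ∀ {b : (E × V) × ℂ → V}, DifferentiableOn ℂ b ((P ×ˢ ball (0 : V) (ρ / 2)) ×ˢ B) →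
      (∀ x ∈ (P ×ˢ ball (0 : V) (ρ / 2)) ×ˢ B, ‖b x‖ ≤ 2 * κ) →
      DifferentiableOn ℂ (fun x : (E × V) × ℂ => h (x.1.1, x.2) (x.1.2 + b x))
        ((P ×ˢ ball (0 : V) (ρ / 2)) ×ˢ (A ∩ B)) ∧ ∀ a ∈ P ×ˢ ball (0 : V) (ρ / 2), ∀ ζ ∈ A ∩ B,
          ‖h (a.1, ζ) (a.2 + b (a, ζ))‖ ≤ 1 * ω' ζ := fun {b} b1 b2 => by
    refine ⟨hh.comp (by fun_prop) (DifferentiableOn.add (by fun_prop)
      (b1.mono (prod_mono_right inter_subset_right))) (fun x hx => ⟨hx.1.1, hx.2⟩)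
      fun x hx => by linarith [hin b2 x hx], fun a ha ζ hζ => ?_⟩
    rw [one_mul]
    exact m3 ⟨(a.1, a.2 + b (a, ζ)), ha.1, mem_ball_zero_iff.2 (by
      linarith [hin b2 (a, ζ) ⟨ha, hζ⟩])⟩ ζ hζ
  have hsl : ∀ {c : (E × V) × ℂ → V},
      DifferentiableOn ℂ c ((P ×ˢ ball (0 : V) (ρ / 2)) ×ˢ (A ∩ B)) →
      ∀ a ∈ P ×ˢ ball (0 : V) (ρ / 2), ContinuousOn (fun w => c (a, w)) (A ∩ B) :=
    fun hc a ha => hc.continuousOn.comp (by fun_prop) fun w hw => ⟨ha, hw⟩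
  obtain ⟨g, g1, g2, g3⟩ := h62_fix (hD.prod hB) (r := 2 * κ) (Φ := fun b x =>
    splB (A ∩ B) χ (fun w => h (x.1.1, w) (x.1.2 + b (x.1, w))) x.2) (by linarith)
    (fun b b1 b2 => ⟨(hC.hol_spl hA hB hχA hχB hD (F1 b1 b2).1 zero_le_one (F1 b1 b2).2).2,
      fun x hx => by
        simpa using (hC.norm_spl_le (hsl (F1 b1 b2).1 _ hx.1) zero_le_one
          ((F1 b1 b2).2 _ hx.1) x.2).2⟩)
    fun b b' d b1 b2 b1' b2' hd hbd x hx => by
      have c1 := hsl (F1 b1 b2).1 _ hx.1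
      have c2 := hsl (F1 b1' b2').1 _ hx.1
      rw [← (hC.spl_sub c1 c2 zero_le_one zero_le_one ((F1 b1 b2).2 _ hx.1)
        ((F1 b1' b2').2 _ hx.1) x.2).2]
      refine (hC.norm_spl_le (c1.sub c2) (l := 8 * d / ρ) (by positivity) (fun ζ hζ => ?_)
        x.2).2.trans ?_
      · refine (lip_fibre (h97_fibre hh (z := (x.1.1, ζ)) ⟨hx.1.1, hζ⟩)
          (fun y hy => m3 ⟨(x.1.1, y), hx.1.1, hy⟩ ζ hζ)
          (mem_ball_zero_iff.2 (hin b2 (x.1, ζ) ⟨hx.1, hζ⟩))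
          (mem_ball_zero_iff.2 (hin b2' (x.1, ζ) ⟨hx.1, hζ⟩))).trans ?_
        rw [add_sub_add_left_eq_sub]
        have h0 := (m2 ζ hζ).1
        refine (mul_le_mul_of_nonneg_left (hbd (x.1, ζ) ⟨hx.1, hζ.2⟩) (by positivity)).trans
          (le_of_eq ?_)
        ring
      · rw [show 2 * (8 * d / ρ) * κ = 16 * d * κ / ρ by ring, div_le_iff₀ hρ0]
        nlinarith
  have re : ∀ {T : Set ℂ} {u : (E × V) × ℂ → V},
      DifferentiableOn ℂ u ((P ×ˢ ball (0 : V) (ρ / 2)) ×ˢ T) →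
      HolF (fun (z : E × ℂ) y => u ((z.1, y), z.2)) (P ×ˢ T) (ρ / 2) := fun hu =>
    hu.comp (f := fun x : (E × ℂ) × V => ((x.1.1, x.2), x.1.2)) (by fun_prop)
      fun x hx => ⟨⟨hx.1.1, hx.2⟩, hx.1.2⟩
  refine ⟨fun z y => splA (A ∩ B) χ (fun w => h (z.1, w) (y + g ((z.1, y), w))) z.2,
    fun z y => g ((z.1, y), z.2),
    re (hC.hol_spl hA hB hχA hχB hD (F1 g1 g2).1 zero_le_one (F1 g1 g2).2).1, re g1,
    fun z hz y hy => ?_, fun z hz y hy => ?_, fun z hz hz' y hy => ?_⟩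
  · have := (hC.norm_spl_le (hsl (F1 g1 g2).1 (z.1, y) ⟨hz.1, hy⟩) zero_le_one
      ((F1 g1 g2).2 (z.1, y) ⟨hz.1, hy⟩) z.2).1
    linarith
  · linarith [g2 ((z.1, y), z.2) ⟨⟨hz.1, hy⟩, hz.2⟩]
  · have e1 := g3 ((z.1, y), z.2) ⟨⟨hz.1, hy⟩, hz'.2⟩
    have e2 := splA_sub_splB (χ := χ) (fun w => h (z.1, w) (y + g ((z.1, y), w)))
      (show z.2 ∈ A ∩ B from ⟨hz.2, hz'.2⟩)
    simp only at e1
    rw [e1, sub_eq_iff_eq_add'] at e2
    rw [e2, add_assoc]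

/-- **G1 with fixed geometry** (bounded overlap, bounded gradient): `ω = ε` constant. -/
theorem G1_fixed [FiniteDimensional ℂ E] {A B : Set ℂ} (hA : IsOpen A)
    (hB : IsOpen B) (hb : Bornology.IsBounded (A ∩ B)) {χ : ℂ → ℝ} (hχ : ContDiff ℝ 1 χ)
    (hχ01 : ∀ ζ, 0 ≤ χ ζ ∧ χ ζ ≤ 1)
    (hχA : ∀ ζ ∈ A, ζ ∉ B → ∀ᶠ ξ in 𝓝 ζ, ξ ∈ B → χ ξ = 1)
    (hχB : ∀ ζ ∈ B, ζ ∉ A → ∀ᶠ ξ in 𝓝 ζ, ξ ∈ A → χ ξ = 0) :
    ∃ K : ℝ, 1 ≤ K ∧ ∀ (P : Set E) (h : E × ℂ → V → V) (ρ ε : ℝ), IsOpen P →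
      HolF h (P ×ˢ (A ∩ B)) ρ → (∀ x ∈ P ×ˢ (A ∩ B), ∀ y ∈ ball (0 : V) ρ, ‖h x y‖ ≤ ε) → 0 < ε →
      8 * K * ε ≤ ρ → ∃ a b : E × ℂ → V → V, Split (P ×ˢ A) (P ×ˢ B) h (ρ / 2) (K * ε) a b := by
  obtain ⟨C₀, hC₀, hs⟩ := strip_integral
  obtain ⟨R, hR, hsub⟩ := hb.subset_ball_lt 0 0
  obtain ⟨D, hD⟩ := (isCompact_closedBall (0 : ℂ) R).exists_bound_of_continuousOn
    (hχ.continuous_fderiv one_ne_zero).continuousOn
  have hD0 : 0 ≤ D := (norm_nonneg _).trans (hD 0 (mem_closedBall_self hR.le))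
  set I : ℝ := C₀ * (2 * R) ^ (3 / 4 : ℝ) * (2 * R) ^ (1 / 4 : ℝ) with hI
  have hI0 : 0 ≤ D * I := by positivity
  refine ⟨4 * (1 + D * I), by linarith, fun P h ρ ε hP hh hε h0 hρ => ?_⟩
  have hm := (hA.inter hB).measurableSet
  have key := G1 (ω := fun _ => ε) (κ := (1 + D * I) * ε) hP hA hB hχ.contDiffOn
    (fun ζ _ => hχ01 ζ) hχA hχB hh (fun p hp ζ hζ => hε (p, ζ) ⟨hp, hζ⟩)
    (fun _ _ => le_mul_of_one_le_left h0.le (by linarith)) (fun z => ?_) (by positivity)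
    (by linarith)
  · rwa [← mul_assoc] at key
  have h1 := hs (A ∩ B) (fun _ => -R) (-R) (2 * R) (2 * R) hm (by positivity) (by positivity)
    (fun v hv => by
      have h2 := mem_ball_zero_iff.1 (hsub hv)
      have h3 := abs_lt.1 ((Complex.abs_re_le_norm v).trans_lt h2)
      have h4 := abs_lt.1 ((Complex.abs_im_le_norm v).trans_lt h2)
      exact ⟨h4.1, by linarith [h4.2], h3.1, by linarith [h3.2]⟩) z
  calc _ ≤ ∫⁻ ζ in A ∩ B, ENNReal.ofReal (ε * D) * ENNReal.ofReal (1 / ‖ζ - z‖) := by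
        refine setLIntegral_mono' hm fun ζ hζ => ?_
        rw [← ENNReal.ofReal_mul (by positivity), mul_one_div]
        refine ENNReal.ofReal_le_ofReal ?_
        gcongr
        exact hD ζ (ball_subset_closedBall (hsub hζ))
    _ ≤ ENNReal.ofReal (ε * D) * ENNReal.ofReal I := by
        rw [lintegral_const_mul _ (by fun_prop)]
        exact mul_le_mul_right h1 _
    _ ≤ _ := by
        rw [← ENNReal.ofReal_mul (by positivity)]
        exact ENNReal.ofReal_le_ofReal (by nlinarith)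

end Crest.Agent.R279
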