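import Crest.Agent.R279.E0a
import Crest.Agent.R279.G1

/-! Row 279: gluing the two windows over the annulus -/

set_option autoImplicit false

namespace Crest.Agent.R279

open Set Metric Filter Topology Complex

/-- the open annulus. -/
def ann (a b : ℝ) : Set ℂ := {z | a < ‖z‖ ∧ ‖z‖ < b}

theorem isOpen_ann (a b : ℝ) : IsOpen (ann a b) :=
  (isOpen_lt continuous_const continuous_norm).inter (isOpen_lt continuous_norm continuous_const)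

/-- exponential in the last variable. -/
noncomputable def expP {G : Type} (x : G × ℂ) : G × ℂ := (x.1, Complex.exp x.2)

theorem expP_shift {G : Type} (x : G × ℂ) : expP (shift x) = expP x := by
  simp [expP, shift, Complex.exp_add]

theorem e0_ann {G : Type} [NormedAddCommGroup G] [NormedSpace ℂ G] [FiniteDimensional ℂ G]
    {r₀ r R₁ : ℝ} (h0 : 0 < r₀) :
    ∃ K : ℝ, 1 ≤ K ∧ ∀ (M : Set W) (P : Set G) (Ω : Set (G × ℂ)) (e : G × ℂ → V → W)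
      (Cl : ℤ → Set (G × ℂ)) (Ψ : ℤ → G × ℂ → V → W) (δ ε : ℝ) (J : ℤ)
      (α₁ α₂ : Option ℤ → G × ℂ → V → V), IsOpen P → P ×ˢ ball (0 : ℂ) r ⊆ Ω →
      Atlas M (fun o : Option ℤ => o.elim (basePc (expP ⁻¹' Ω) univ fun _ => Real.log r) Cl)
        (fun o => o.elim (fun x => e (expP x)) Ψ) (2 * δ) →
      (∀ j x, (shift x ∈ Cl (j + J) ↔ x ∈ Cl j) ∧ ∀ y, Ψ (j + J) (shift x) y = Ψ j x y) →
      Sec (fun o : Option ℤ => o.elim (basePc (expP ⁻¹' Ω) univ fun _ => Real.log r) Cl)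
        (fun o => o.elim (fun x => e (expP x)) Ψ)
        (P ×ˢ win (fun _ => Real.log r) (-(Real.pi / 2)) (3 * Real.pi / 2)
          (Real.log r - Real.log r₀) (Real.log R₁)) δ ε α₁ →
      Sec (fun o : Option ℤ => o.elim (basePc (expP ⁻¹' Ω) univ fun _ => Real.log r) Cl)
        (fun o => o.elim (fun x => e (expP x)) Ψ)
        (P ×ˢ win (fun _ => Real.log r) (Real.pi / 2) (5 * Real.pi / 2)
          (Real.log r - Real.log r₀) (Real.log R₁)) δ ε α₂ →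
      0 < ε → 32 * K * ε ≤ δ →
      ∃ H : G × ℂ → V → W, HolF H (P ×ˢ ann r₀ R₁) (δ / 4) ∧
        (∀ x ∈ P ×ˢ ann r₀ R₁, ∀ y ∈ ball (0 : V) (δ / 4), H x y ∈ M) ∧
        ∀ x ∈ P ×ˢ ann r₀ R₁, ‖x.2‖ < r → ∀ y ∈ ball (0 : V) (δ / 4),
          ∃ u, ‖u - y‖ ≤ (1 + 2 * K) * ε ∧ H x y = e x u := by
  set A₁ : Set ℂ := ann r₀ R₁ ∩ {z | -r₀ < z.im} with hA₁
  set A₂ : Set ℂ := ann r₀ R₁ ∩ {z | z.im < r₀} with hA₂
  have hA₁o : IsOpen A₁ := (isOpen_ann _ _).inter (isOpen_lt continuous_const continuous_im)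
  have hA₂o : IsOpen A₂ := (isOpen_ann _ _).inter (isOpen_lt continuous_im continuous_const)
  have hbd : Bornology.IsBounded (A₁ ∩ A₂) :=
    (isBounded_ball (x := (0 : ℂ)) (r := R₁)).subset fun z hz => mem_ball_zero_iff.2 hz.1.1.2
  obtain ⟨χ, hχ, hχ01, hχ1, hχ0⟩ := e0_chi1 h0
  obtain ⟨K, hK, hG⟩ := G1_fixed (E := G) hA₁o hA₂o hbd hχ hχ01
    (fun ζ h1 h2 => (hχ1 ζ (not_lt.1 fun h => h2 ⟨h1.1, h⟩)).mono fun ξ h _ => h)
    (fun ζ h1 h2 => (hχ0 ζ (not_lt.1 fun h => h2 ⟨h1.1, h⟩)).mono fun ξ h _ => h)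
  refine ⟨K, hK, ?_⟩
  intro M P Ω e Cl Ψ δ ε J α₁ α₂ hP hΩ hA hper h1 h2 hε hKε
  have hKe : ε ≤ K * ε := by nlinarith
  have hρ : δ + ε ≤ 2 * δ := by nlinarith
  have h16 : 16 * ε ≤ δ := by nlinarith
  set C : Option ℤ → Set (G × ℂ) :=
    fun o => o.elim (basePc (expP ⁻¹' Ω) univ fun _ => Real.log r) Cl with hC
  set Φ : Option ℤ → G × ℂ → V → W := fun o => o.elim (fun x => e (expP x)) Ψ with hΦ
  set U₁ := P ×ˢ win (fun _ => Real.log r) (-(Real.pi / 2)) (3 * Real.pi / 2)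
          (Real.log r - Real.log r₀) (Real.log R₁) with hU₁
  set U₂ := P ×ˢ win (fun _ => Real.log r) (Real.pi / 2) (5 * Real.pi / 2)
          (Real.log r - Real.log r₀) (Real.log R₁) with hU₂
  obtain ⟨F₁, hF₁, hF₁M, hF₁e⟩ := Sec.map hA h1 hρ
  obtain ⟨F₂, hF₂, hF₂M, hF₂e⟩ := Sec.map hA h2 hρ
  -- the shifted section
  let σ : Option ℤ ≃ Option ℤ := Equiv.optionCongr (Equiv.addRight J)
  have hσC : ∀ j, ∀ z ∈ (univ : Set (G × ℂ)), (z ∈ C j ↔ shift z ∈ C (σ j)) := by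
    rintro (_ | j) z -
    · simp [σ, hC, basePc, expP_shift]
      simp [shift]
    · simpa [σ, hC] using ((hper j z).1).symm
  have hσΦ : ∀ j, ∀ z ∈ (univ : Set (G × ℂ)), z ∈ C j → ∀ y, Φ j z y = Φ (σ j) (shift z) y := by
    rintro (_ | j) z - _ y
    · simp [σ, hΦ, expP_shift]
    · simpa [σ, hΦ] using ((hper j z).2 y).symm
  have hsh : DifferentiableOn ℂ (shift : G × ℂ → G × ℂ) univ := by
    unfold shift; fun_prop
  have h2' := Sec.pull hA h2 isOpen_univ hsh σ hσC hσΦ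
  obtain ⟨t, ht, ht2⟩ := e0_trans hA h1 h2 hρ h16 hF₁e hF₂e
  obtain ⟨t', ht', ht2'⟩ := e0_trans (f' := fun x => F₂ (shift x)) hA h1 h2' hρ h16 hF₁e
    (fun j z hz hj y hy => by
      rw [hF₂e (σ j) (shift z) hz.2 ((hσC j z trivial).1 hj) y hy, hσΦ j z trivial hj])
  -- logarithms
  have hne : ∀ z ∈ ann r₀ R₁, z ≠ 0 := fun z hz h => by
    have := hz.1; rw [h, norm_zero] at this; linarith
  have hre : ∀ z ∈ ann r₀ R₁, Real.log r - (Real.log r - Real.log r₀) < Real.log ‖z‖ ∧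
      Real.log ‖z‖ < Real.log R₁ := fun z hz =>
    ⟨by linarith [Real.log_lt_log h0 hz.1], Real.log_lt_log (h0.trans hz.1) hz.2⟩
  let φ₁ : G × ℂ → G × ℂ := fun x => (x.1, lg1 x.2)
  let φ₂ : G × ℂ → G × ℂ := fun x => (x.1, lg2 x.2)
  have hφ₁ : DifferentiableOn ℂ φ₁ (P ×ˢ A₁) := fun x hx =>
    (differentiableAt_fst.prodMk
      ((lg1_diff (e0_slit1 hx.2.1.1 hx.2.2)).comp x differentiableAt_snd)).differentiableWithinAt
  have hφ₂ : DifferentiableOn ℂ φ₂ (P ×ˢ A₂) := fun x hx =>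
    (differentiableAt_fst.prodMk
      ((lg2_diff (e0_slit2 hx.2.1.1 hx.2.2)).comp x differentiableAt_snd)).differentiableWithinAt
  have hm₁ : MapsTo φ₁ (P ×ˢ A₁) U₁ := fun x hx => by
    have h3 := lg1_im_mem (e0_slit1 hx.2.1.1 hx.2.2)
    have h4 := hre _ hx.2.1
    exact ⟨hx.1, h3.1, h3.2, by simpa [φ₁, lg1_re] using h4.1, by simpa [φ₁, lg1_re] using h4.2⟩
  have hm₂ : MapsTo φ₂ (P ×ˢ A₂) U₂ := fun x hx => by
    have h3 := lg2_im_mem (e0_slit2 hx.2.1.1 hx.2.2)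
    have h4 := hre _ hx.2.1
    exact ⟨hx.1, h3.1, h3.2, by simpa [φ₂, lg2_re] using h4.1, by simpa [φ₂, lg2_re] using h4.2⟩
  have hneg : ∀ x ∈ P ×ˢ (A₁ ∩ A₂), x.2.re < 0 → φ₂ x = φ₁ x := fun x _ h => by
    simp only [φ₁, φ₂, lg2_eq_of_neg h]
  have hpos : ∀ x ∈ P ×ˢ (A₁ ∩ A₂), 0 < x.2.re → φ₂ x = shift (φ₁ x) := fun x _ h => by
    simp only [φ₁, φ₂, lg2_eq_of_pos h, shift]
  have hs1 : P ×ˢ (A₁ ∩ A₂) ⊆ P ×ˢ A₁ := prod_mono subset_rfl inter_subset_left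
  have hs2 : P ×ˢ (A₁ ∩ A₂) ⊆ P ×ˢ A₂ := prod_mono subset_rfl inter_subset_right
  have hmn : ∀ x ∈ P ×ˢ (A₁ ∩ A₂), x.2.re < 0 → φ₁ x ∈ U₁ ∩ U₂ := fun x hx h =>
    ⟨hm₁ (hs1 hx), hneg x hx h ▸ hm₂ (hs2 hx)⟩
  have hmp : ∀ x ∈ P ×ˢ (A₁ ∩ A₂), 0 < x.2.re → φ₁ x ∈ U₁ ∩ (univ ∩ shift ⁻¹' U₂) := fun x hx h =>
    ⟨hm₁ (hs1 hx), trivial, show shift (φ₁ x) ∈ U₂ from hpos x hx h ▸ hm₂ (hs2 hx)⟩
  have hcase : ∀ x ∈ P ×ˢ (A₁ ∩ A₂), x.2.re < 0 ∨ 0 < x.2.re := fun x hx =>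
    lt_or_gt_of_ne (e0_re_ne hx.2.1.1.1 hx.2.1.2 hx.2.2.2)
  classical
  let τ : G × ℂ → V → V := fun x => if x.2.re < 0 then t (φ₁ x) else t' (φ₁ x)
  have hO : IsOpen (P ×ˢ (A₁ ∩ A₂)) := hP.prod (hA₁o.inter hA₂o)
  have hcre : Continuous fun x : G × ℂ => x.2.re := continuous_re.comp continuous_snd
  have hτ : HolF τ (P ×ˢ (A₁ ∩ A₂)) (δ / 2) := by
    have hL : HolF τ (P ×ˢ (A₁ ∩ A₂) ∩ {x | x.2.re < 0}) (δ / 2) :=
      h31_hol_congr (h31_hol_pull ht (hφ₁.mono (inter_subset_left.trans hs1))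
        fun x hx => hmn x hx.1 hx.2) fun x hx y _ => by
          simp only [τ, if_pos (show x.2.re < 0 from hx.2)]
    have hR : HolF τ (P ×ˢ (A₁ ∩ A₂) ∩ {x | 0 < x.2.re}) (δ / 2) :=
      h31_hol_congr (h31_hol_pull ht' (hφ₁.mono (inter_subset_left.trans hs1))
        fun x hx => hmp x hx.1 hx.2) fun x hx y _ => by
          simp only [τ, if_neg (not_lt.2 (le_of_lt (show 0 < x.2.re from hx.2)))]
    refine h31_hol_mono (h31_hol_union (hO.inter (isOpen_lt hcre continuous_const))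
      (hO.inter (isOpen_lt continuous_const hcre)) hL hR) fun x hx => ?_
    rcases hcase x hx with h | h
    · exact Or.inl ⟨hx, h⟩
    · exact Or.inr ⟨hx, h⟩
  have hτ2 : ∀ x ∈ P ×ˢ (A₁ ∩ A₂), ∀ y ∈ ball (0 : V) (δ / 2),
      ‖τ x y‖ ≤ 2 * ε ∧ F₁ (φ₁ x) (y + τ x y) = F₂ (φ₂ x) y := by
    intro x hx y hy
    rcases hcase x hx with h | h
    · simp only [τ, if_pos h, hneg x hx h]
      exact ht2 _ (hmn x hx h) y hy
    · simp only [τ, if_neg (not_lt.2 h.le), hpos x hx h]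
      exact ht2' _ (hmp x hx h) y hy
  obtain ⟨a, b, hab⟩ := hG P τ (δ / 2) (2 * ε) hP hτ (fun x hx y hy => (hτ2 x hx y hy).1)
    (by linarith) (by linarith)
  have hκ : δ / 2 / 2 + K * (2 * ε) ≤ δ / 2 := by linarith
  obtain ⟨H, hH, hH1, hH2⟩ := glue_maps (hP.prod hA₁o) (hP.prod hA₂o)
    (h31_hol_pull hF₁ hφ₁ hm₁) (h31_hol_pull hF₂ hφ₂ hm₂)
    (fun x hx hx' y hy => (hτ2 x ⟨hx.1, hx.2, hx'.2⟩ y hy).2) hab hκ
  have hcov : ∀ x ∈ P ×ˢ ann r₀ R₁, x ∈ P ×ˢ A₁ ∨ x ∈ P ×ˢ A₂ := fun x hx => by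
    by_cases h : -r₀ < x.2.im
    · exact Or.inl ⟨hx.1, hx.2, h⟩
    · exact Or.inr ⟨hx.1, hx.2, show x.2.im < r₀ by linarith⟩
  have e4 : δ / 4 = δ / 2 / 2 := by ring
  rw [e4]
  have hbase : ∀ x ∈ P ×ˢ ann r₀ R₁, ‖x.2‖ < r → ∀ v : ℂ, Complex.exp v = x.2 →
      v.re = Real.log ‖x.2‖ → (x.1, v) ∈ C none ∧ expP (x.1, v) = x := by
    intro x hx hr v hv hv'
    have hx' : expP (x.1, v) = x := by simp [expP, hv]
    refine ⟨⟨?_, trivial, ?_⟩, hx'⟩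
    · show expP (x.1, v) ∈ Ω
      rw [hx']
      exact hΩ ⟨hx.1, mem_ball_zero_iff.2 hr⟩
    · show v.re < Real.log r
      rw [hv']
      exact Real.log_lt_log (h0.trans hx.2.1) hr
  have htri : ∀ u y a' : V, ‖u - (y + a')‖ ≤ ε → ‖a'‖ ≤ K * (2 * ε) →
      ‖u - y‖ ≤ (1 + 2 * K) * ε := by
    intro u y a' h3 h4
    have : u - y = (u - (y + a')) + a' := by abel
    rw [this]
    linarith [norm_add_le (u - (y + a')) a']
  refine ⟨H, h31_hol_mono hH fun x hx => hcov x hx, fun x hx y hy => ?_, fun x hx hr y hy => ?_⟩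
  · rcases hcov x hx with h | h
    · rw [hH1 x h y hy]
      exact hF₁M _ (hm₁ h) _ (h31_add_mem hy (hab.bda x h y hy) hκ)
    · rw [hH2 x h y hy]
      exact hF₂M _ (hm₂ h) _ (h31_add_mem hy (hab.bdb x h y hy) hκ)
  · rcases hcov x hx with h | h
    · obtain ⟨hb1, hb2⟩ := hbase x hx hr (lg1 x.2) (exp_lg1 (hne _ hx.2)) (lg1_re _)
      have hy' := h31_add_mem hy (hab.bda x h y hy) hκ
      refine ⟨α₁ none (φ₁ x) (y + a x y), htri _ _ _ (h1.near none _ (hm₁ h) hb1 _ hy')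
        (hab.bda x h y hy), ?_⟩
      rw [hH1 x h y hy, hF₁e none _ (hm₁ h) hb1 _ hy']
      simp only [hΦ, Option.elim, φ₁, hb2]
    · obtain ⟨hb1, hb2⟩ := hbase x hx hr (lg2 x.2) (exp_lg2 (hne _ hx.2)) (lg2_re _)
      have hy' := h31_add_mem hy (hab.bdb x h y hy) hκ
      refine ⟨α₂ none (φ₂ x) (y + b x y), htri _ _ _ (h2.near none _ (hm₂ h) hb1 _ hy')
        (hab.bdb x h y hy), ?_⟩
      rw [hH2 x h y hy, hF₂e none _ (hm₂ h) hb1 _ hy']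
      simp only [hΦ, Option.elim, φ₂, hb2]

end Crest.Agent.R279
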