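import Crest.Agent.R279.RL
import Crest.Agent.R279.E0b

/-! Row 279: extension in a disc variable -/

set_option autoImplicit false

namespace Crest.Agent.R279

open Set Metric Filter Topology

variable {E E' F : Type} [NormedAddCommGroup E] [NormedSpace ℂ E] [NormedAddCommGroup E']
  [NormedSpace ℂ E'] [NormedAddCommGroup F] [NormedSpace ℂ F] {M : Set W}

/-- **E0**.  `RL` with `Λ = 0`, `β = log r`, `I = univ`, `P t = P`, model pulled back by
`(p, v) ↦ (p, exp v)`.  Windows `(-1, π + 1)`, `(π - 1, 2 π + 1)`; `Sec.map` gives `F₁, F₂`,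
`Sec.trans` (with the shifted section from `Sec.pull`) gives the transitions on the two overlaps;
read in the `z`-plane on `A₁ = {Im z > -c₀}`, `A₂ = {Im z < c₀}` (inside the annulus), `G1_fixed`,
`glue_maps`; the result is close to `e` on the shell `r e^{-c'} < |z| < r`; `transloc`, `G1_fixed`
and `glue_maps` with `e` on the disc `ball 0 r`; put `y = 0`. -/
theorem E0 : ∃ T₀ : ℝ, 1 < T₀ ∧
    ∀ {G : Type} [NormedAddCommGroup G] [NormedSpace ℂ G] [FiniteDimensional ℂ G] (M : Set W)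
      (P : Set G) (Ω : Set (G × ℂ)) (g : G × ℂ → W)
      (π : G × ℂ → W →L[ℂ] V) (e : G × ℂ → V → W) (ρ C r c ρS CS s₀ : ℝ) (N : ℕ),
      IsOpen P → Model M Ω g π e ρ C → 0 < r → 0 < c → 0 < ρS → 0 < CS → 0 < s₀ →
      P ×ˢ ball (0 : ℂ) (r + c) ⊆ Ω →
      (∀ z : ℂ, ‖z‖ = r → SprayData M P (fun p => g (p, z)) T₀ ρS CS s₀ N) →
      ∀ ε R : ℝ, 0 < ε → r ≤ R → ∃ f : G × ℂ → W, DifferentiableOn ℂ f (P ×ˢ ball 0 R) ∧
        MapsTo f (P ×ˢ ball 0 R) M ∧ ∀ x ∈ P ×ˢ ball (0 : ℂ) r, ‖f x - g x‖ ≤ ε := by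
  obtain ⟨T₀, hT, hRL⟩ := RL 0 le_rfl
  refine ⟨T₀, hT, ?_⟩
  intro G _ _ _ M P Ω g π e ρ C r c ρS CS s₀ N hP hM hr hc hρS hCS hs₀ hΩ hS ε R hε hR
  have hrc : 0 < r + c := by linarith
  set r₀ : ℝ := r * r / (r + c) with hr₀
  have h0 : 0 < r₀ := by positivity
  have h0r : r₀ < r := by
    rw [hr₀, div_lt_iff₀ hrc]
    nlinarith
  have hlog : Real.log r - Real.log r₀ = Real.log (r + c) - Real.log r := by
    rw [hr₀, Real.log_div (by positivity) hrc.ne', Real.log_mul hr.ne' hr.ne']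
    ring
  have hc' : 0 < Real.log r - Real.log r₀ := sub_pos.2 (Real.log_lt_log h0 h0r)
  have hexp : Differentiable ℂ (expP : G × ℂ → G × ℂ) := by
    unfold expP; fun_prop
  have hM' := hM.pull (O := expP ⁻¹' Ω) (hM.op.preimage hexp.continuous) hexp.differentiableOn
    (fun x hx => hx)
  have hL : 0 < |Real.log r| + 2 * Real.pi := by positivity
  have hcpt : ∀ t : ℝ, (cpt (fun _ => Real.log r) t).re = Real.log r := fun t => by
    simp only [cpt, Complex.add_re, Complex.ofReal_re, Complex.mul_re, Complex.I_re,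
      Complex.ofReal_im, Complex.I_im]
    ring
  obtain ⟨δ, hδ, hδρ, hmain⟩ := hRL M univ (fun _ => Real.log r) (fun _ => P) (expP ⁻¹' Ω)
    (fun z => g (expP z)) (fun z => π (expP z)) (fun z => e (expP z)) ρ C
    (Real.log r - Real.log r₀) ρS CS s₀ (|Real.log r| + 2 * Real.pi) (Real.log (R + 1)) N
    isOpen_univ ordConnected_univ contDiffOn_const (fun t _ => by simp)
    (fun t _ => le_add_of_nonneg_right (by positivity)) hM' hc' hρS hCS hs₀ hL (fun _ _ => hP)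
    (fun t _ p hp v hv => by
      refine hΩ ⟨hp, mem_ball_zero_iff.2 ?_⟩
      have h1 : (v - cpt (fun _ => Real.log r) t).re ≤ ‖v - cpt (fun _ => Real.log r) t‖ :=
        Complex.re_le_norm _
      rw [Complex.sub_re, hcpt] at h1
      show ‖Complex.exp v‖ < r + c
      rw [Complex.norm_exp, ← Real.exp_log hrc]
      exact Real.exp_lt_exp.2 (by linarith))
    (fun t _ => hS (Complex.exp (cpt (fun _ => Real.log r) t))
      (by rw [Complex.norm_exp, hcpt, Real.exp_log hr]))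
  obtain ⟨K, hK, hann⟩ := e0_ann (G := G) (r₀ := r₀) (r := r) (R₁ := R + 1) h0
  obtain ⟨χ, hχ, hχ01, hχ1, hχ0⟩ := e0_chi2 h0.le h0r
  have hbd : Bornology.IsBounded (ball (0 : ℂ) r ∩ ann r₀ (R + 1)) :=
    isBounded_ball.subset inter_subset_left
  obtain ⟨K₂, hK₂, hG⟩ := G1_fixed (E := G) isOpen_ball (isOpen_ann r₀ (R + 1)) hbd hχ hχ01
    (fun ζ h1 h2 => (hχ1 ζ (not_lt.1 fun h => h2
      ⟨h, by linarith [mem_ball_zero_iff.1 h1]⟩)).mono fun ξ h _ => h)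
    (fun ζ _ h2 => (hχ0 ζ (not_lt.1 fun h => h2 (mem_ball_zero_iff.2 h))).mono fun ξ h _ => h)
  have hC := hM.one_le
  set K₃ : ℝ := K₂ * (1 + 2 * K) with hK₃
  have hK₃K : K ≤ K₃ := by nlinarith
  have hK₃0 : 0 < K₃ := by linarith
  set ε₁ : ℝ := min (δ / (64 * K₃)) (ε / (C * K₃)) with hε₁
  have hε₁0 : 0 < ε₁ := by positivity
  have hb1 : 64 * K₃ * ε₁ ≤ δ := by
    have := min_le_left (δ / (64 * K₃)) (ε / (C * K₃))
    rw [← hε₁, le_div_iff₀ (by positivity)] at this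
    linarith
  have hb2 : C * K₃ * ε₁ ≤ ε := by
    have := min_le_right (δ / (64 * K₃)) (ε / (C * K₃))
    rw [← hε₁, le_div_iff₀ (by positivity)] at this
    linarith
  obtain ⟨Cl, Ψ, hA, -, hper, hwin⟩ := hmain ε₁ hε₁0
  obtain ⟨J, hJ⟩ := hper (fun x y => by simp only [expP_shift]) (fun _ => rfl) (fun _ => rfl) rfl
  obtain ⟨α₁, hα₁⟩ := hwin (-(Real.pi / 2)) (3 * Real.pi / 2) P hP
    (by linarith [abs_nonneg (Real.log r)]) (subset_univ _) (fun _ _ => subset_rfl)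
  obtain ⟨α₂, hα₂⟩ := hwin (Real.pi / 2) (5 * Real.pi / 2) P hP
    (by linarith [abs_nonneg (Real.log r)]) (subset_univ _) (fun _ _ => subset_rfl)
  have hΩr : P ×ˢ ball (0 : ℂ) r ⊆ Ω :=
    (prod_mono subset_rfl (ball_subset_ball (by linarith))).trans hΩ
  have hKε : K * ε₁ ≤ K₃ * ε₁ := mul_le_mul_of_nonneg_right hK₃K hε₁0.le
  obtain ⟨H, hH, hHM, hHe⟩ := hann M P Ω e Cl Ψ δ ε₁ J α₁ α₂ hP hΩr hA hJ hα₁ hα₂ hε₁0
    (by nlinarith)
  have hK1 : (1 + 2 * K) * ε₁ ≤ K₃ * ε₁ := by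
    refine mul_le_mul_of_nonneg_right ?_ hε₁0.le
    nlinarith
  let t : G × ℂ → V → V := fun x y => π x (H x y - g x) - y
  set O := P ×ˢ (ball (0 : ℂ) r ∩ ann r₀ (R + 1)) with hO
  have hO1 : O ⊆ P ×ˢ ball (0 : ℂ) r := prod_mono subset_rfl inter_subset_left
  have hO2 : O ⊆ P ×ˢ ann r₀ (R + 1) := prod_mono subset_rfl inter_subset_right
  have ht : HolF t O (δ / 4 / 2) := by
    have h1 : HolF H O (δ / 4 / 2) := hH.mono hO2 (by linarith)
    have h2 : DifferentiableOn ℂ (fun x : (G × ℂ) × V => π x.1) (O ×ˢ ball 0 (δ / 4 / 2)) :=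
      hM.holπ.comp differentiableOn_fst fun x hx => hΩr (hO1 hx.1)
    have h3 : DifferentiableOn ℂ (fun x : (G × ℂ) × V => g x.1) (O ×ˢ ball 0 (δ / 4 / 2)) :=
      hM.holg.comp differentiableOn_fst fun x hx => hΩr (hO1 hx.1)
    exact (h2.clm_apply (DifferentiableOn.sub h1 h3)).sub differentiableOn_snd
  have ht2 : ∀ x ∈ O, ∀ y ∈ ball (0 : V) (δ / 4 / 2),
      ‖t x y‖ ≤ (1 + 2 * K) * ε₁ ∧ e x (y + t x y) = H x y := by
    intro x hx y hy
    obtain ⟨u, hu, hue⟩ := hHe x (hO2 hx) (mem_ball_zero_iff.1 hx.2.1) y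
      (ball_subset_ball (by linarith) hy)
    have hu' : u ∈ ball (0 : V) ρ := by
      rw [mem_ball_zero_iff]
      have h1 : ‖u‖ ≤ ‖u - y‖ + ‖y‖ := by simpa using norm_add_le (u - y) y
      have h2 := mem_ball_zero_iff.1 hy
      linarith
    have h3 : t x y = u - y := by
      simp only [t, hue, hM.inv x (hΩr (hO1 hx)) u hu']
    rw [h3, hue]
    exact ⟨hu, by simp⟩
  obtain ⟨a, b, hab⟩ := hG P t (δ / 4 / 2) ((1 + 2 * K) * ε₁) hP ht
    (fun x hx y hy => (ht2 x hx y hy).1) (by positivity) (by nlinarith)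
  have hκ' : K₂ * ((1 + 2 * K) * ε₁) = K₃ * ε₁ := by rw [hK₃]; ring
  rw [hκ'] at hab
  have hκ : δ / 4 / 2 / 2 + K₃ * ε₁ ≤ δ / 4 / 2 := by linarith
  have he : HolF e (P ×ˢ ball (0 : ℂ) r) (δ / 4) := hM.hole.mono hΩr (by linarith)
  obtain ⟨F, hF, hF1, hF2⟩ := glue_maps (hP.prod isOpen_ball) (hP.prod (isOpen_ann r₀ (R + 1)))
    he hH (fun x hx hx' y hy => (ht2 x ⟨hx.1, hx.2, hx'.2⟩ y hy).2) hab hκ
  have h00 : (0 : V) ∈ ball (0 : V) (δ / 4 / 2 / 2) := mem_ball_self (by linarith)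
  have hcov : ∀ x ∈ P ×ˢ ball (0 : ℂ) R, x ∈ P ×ˢ ball (0 : ℂ) r ∨ x ∈ P ×ˢ ann r₀ (R + 1) := by
    intro x hx
    by_cases h : ‖x.2‖ < r
    · exact Or.inl ⟨hx.1, mem_ball_zero_iff.2 h⟩
    · exact Or.inr ⟨hx.1, by linarith [not_lt.1 h], by linarith [mem_ball_zero_iff.1 hx.2]⟩
  have hain : ∀ x ∈ P ×ˢ ball (0 : ℂ) r, (0 : V) + a x 0 ∈ ball (0 : V) ρ := fun x hx =>
    ball_subset_ball (by linarith) (h31_add_mem h00 (hab.bda x hx 0 h00) hκ)
  refine ⟨fun x => F x 0, ?_, fun x hx => ?_, fun x hx => ?_⟩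
  · exact hF.comp (p := id) (y := fun _ => 0) differentiableOn_id (differentiableOn_const _)
      (fun x hx => hcov x hx) (fun _ _ => mem_ball_zero_iff.1 h00)
  · rcases hcov x hx with h | h
    · show F x 0 ∈ M
      rw [hF1 x h 0 h00]
      exact hM.mem x (hΩr h) _ (hain x h)
    · show F x 0 ∈ M
      rw [hF2 x h 0 h00]
      exact hHM x h _ (h31_add_mem h00 (hab.bdb x h 0 h00) hκ)
  · show ‖F x 0 - g x‖ ≤ ε
    rw [hF1 x hx 0 h00, ← hM.zero x (hΩr hx)]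
    have h1 := hM.lip x (hΩr hx) _ (hain x hx) 0 (mem_ball_self hM.ρ_pos)
    have h2 := hab.bda x hx 0 h00
    simp only [zero_add, sub_zero] at h1 ⊢
    have h3 : C * ‖a x 0‖ ≤ C * (K₃ * ε₁) := mul_le_mul_of_nonneg_left h2 (by linarith)
    linarith

end Crest.Agent.R279
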