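import Crest.Agent.R279.Sec

/-! Row 279: logarithm branches and small lemmas for `E0` -/

set_option autoImplicit false

namespace Crest.Agent.R279

open Set Metric Filter Topology Complex

variable {E : Type} [NormedAddCommGroup E] [NormedSpace ℂ E] {M : Set W}

/-- the transition between the maps defined by two sections. -/
theorem e0_trans {J : Type} {C : J → Set E} {Ψ : J → E → V → W} {ρ : ℝ} (hA : Atlas M C Ψ ρ)
    {U U' : Set E} {δ ε : ℝ} {α α' : J → E → V → V}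
    (h : Sec C Ψ U δ ε α) (h' : Sec C Ψ U' δ ε α') (hρ : δ + ε ≤ ρ) (hε : 16 * ε ≤ δ)
    {f f' : E → V → W}
    (hf : ∀ j, ∀ z ∈ U, z ∈ C j → ∀ y ∈ ball (0 : V) δ, f z y = Ψ j z (α j z y))
    (hf' : ∀ j, ∀ z ∈ U', z ∈ C j → ∀ y ∈ ball (0 : V) δ, f' z y = Ψ j z (α' j z y)) :
    ∃ t : E → V → V, HolF t (U ∩ U') (δ / 2) ∧ ∀ z ∈ U ∩ U', ∀ y ∈ ball (0 : V) (δ / 2),
      ‖t z y‖ ≤ 2 * ε ∧ f z (y + t z y) = f' z y := by
  obtain ⟨t, ht, ht2⟩ := Sec.trans hA h h' hρ hε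
  refine ⟨t, ht, fun z hz y hy => ⟨(ht2 z hz y hy).1, ?_⟩⟩
  obtain ⟨j, hj⟩ := mem_iUnion.1 (h.cov hz.1)
  have hy' := mem_ball_zero_iff.1 hy
  have hδ : 0 < δ := by linarith [norm_nonneg y]
  have hn := (ht2 z hz y hy).1
  have h1 : y + t z y ∈ ball (0 : V) δ := by
    rw [mem_ball_zero_iff]
    have := norm_add_le y (t z y)
    linarith
  rw [hf j z hz.1 hj _ h1, (ht2 z hz y hy).2 j hj,
    hf' j z hz.2 hj y (ball_subset_ball (by linarith) hy)]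

/-- branch of the logarithm with imaginary part in `(-π/2, 3π/2)`. -/
noncomputable def lg1 (z : ℂ) : ℂ := Complex.log (-(I * z)) + (Real.pi / 2 : ℝ) * I

/-- branch of the logarithm with imaginary part in `(π/2, 5π/2)`. -/
noncomputable def lg2 (z : ℂ) : ℂ := Complex.log (I * z) + (3 * Real.pi / 2 : ℝ) * I

theorem lg1_re (z : ℂ) : (lg1 z).re = Real.log ‖z‖ := by
  simp [lg1, Complex.log_re]

theorem lg2_re (z : ℂ) : (lg2 z).re = Real.log ‖z‖ := by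
  simp [lg2, Complex.log_re]

theorem lg1_im (z : ℂ) : (lg1 z).im = arg (-(I * z)) + Real.pi / 2 := by
  simp [lg1, Complex.log_im]

theorem lg2_im (z : ℂ) : (lg2 z).im = arg (I * z) + 3 * Real.pi / 2 := by
  simp [lg2, Complex.log_im]

theorem exp_lg1 {z : ℂ} (hz : z ≠ 0) : Complex.exp (lg1 z) = z := by
  have h : -(I * z) ≠ 0 := neg_ne_zero.2 (mul_ne_zero I_ne_zero hz)
  have h2 : Complex.exp (((Real.pi / 2 : ℝ) : ℂ) * I) = I := by
    push_cast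
    exact Complex.exp_pi_div_two_mul_I
  rw [lg1, Complex.exp_add, Complex.exp_log h, h2]
  linear_combination (-z) * I_mul_I

theorem exp_lg2 {z : ℂ} (hz : z ≠ 0) : Complex.exp (lg2 z) = z := by
  have h : I * z ≠ 0 := mul_ne_zero I_ne_zero hz
  have h2 : Complex.exp (((3 * Real.pi / 2 : ℝ) : ℂ) * I) = -I := by
    have : (((3 * Real.pi / 2 : ℝ) : ℂ) * I) = Real.pi * I + Real.pi / 2 * I := by
      push_cast; ring
    rw [this, Complex.exp_add, Complex.exp_pi_mul_I, Complex.exp_pi_div_two_mul_I]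
    ring
  rw [lg2, Complex.exp_add, Complex.exp_log h, h2]
  linear_combination (-z) * I_mul_I

theorem lg1_diff {z : ℂ} (hz : -(I * z) ∈ slitPlane) : DifferentiableAt ℂ lg1 z := by
  unfold lg1
  refine DifferentiableAt.add ?_ (differentiableAt_const _)
  exact DifferentiableAt.clog (by fun_prop) hz

theorem lg2_diff {z : ℂ} (hz : I * z ∈ slitPlane) : DifferentiableAt ℂ lg2 z := by
  unfold lg2
  refine DifferentiableAt.add ?_ (differentiableAt_const _)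
  exact DifferentiableAt.clog (by fun_prop) hz

theorem lg1_im_mem {z : ℂ} (hz : -(I * z) ∈ slitPlane) :
    -(Real.pi / 2) < (lg1 z).im ∧ (lg1 z).im < 3 * Real.pi / 2 := by
  rw [lg1_im]
  have h1 := neg_pi_lt_arg (-(I * z))
  have h2 := lt_of_le_of_ne (arg_le_pi (-(I * z))) (slitPlane_arg_ne_pi hz)
  constructor <;> linarith

theorem lg2_im_mem {z : ℂ} (hz : I * z ∈ slitPlane) :
    Real.pi / 2 < (lg2 z).im ∧ (lg2 z).im < 5 * Real.pi / 2 := by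
  rw [lg2_im]
  have h1 := neg_pi_lt_arg (I * z)
  have h2 := lt_of_le_of_ne (arg_le_pi (I * z)) (slitPlane_arg_ne_pi hz)
  constructor <;> linarith

theorem lg2_eq_of_neg {z : ℂ} (hz : z.re < 0) : lg2 z = lg1 z := by
  apply Complex.ext
  · rw [lg1_re, lg2_re]
  · rw [lg1_im, lg2_im, arg_neg_eq_arg_add_pi_of_im_neg (by simpa using hz)]
    ring

theorem lg2_eq_of_pos {z : ℂ} (hz : 0 < z.re) : lg2 z = lg1 z + 2 * Real.pi * I := by
  apply Complex.ext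
  · simp [lg1_re, lg2_re]
  · rw [add_im, lg1_im, lg2_im, arg_neg_eq_arg_sub_pi_of_im_pos (by simpa using hz)]
    simp
    ring

theorem e0_slit1 {z : ℂ} {c₀ : ℝ} (h1 : c₀ < ‖z‖) (h2 : -c₀ < z.im) : -(I * z) ∈ slitPlane := by
  rw [mem_slitPlane_iff]
  by_cases h : z.re = 0
  · left
    have h3 : ‖z‖ = |z.im| := by
      rw [← Complex.abs_im_eq_norm.2 h]
    have : 0 < z.im := by
      by_contra h4
      rw [abs_of_nonpos (not_lt.1 h4)] at h3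
      linarith
    simpa using this
  · right
    simpa using h

theorem e0_slit2 {z : ℂ} {c₀ : ℝ} (h1 : c₀ < ‖z‖) (h2 : z.im < c₀) : I * z ∈ slitPlane := by
  have := e0_slit1 (z := -z) (c₀ := c₀) (by simpa using h1) (by simpa using h2)
  simpa using this

theorem e0_re_ne {z : ℂ} {c₀ : ℝ} (h1 : c₀ < ‖z‖) (h2 : -c₀ < z.im) (h3 : z.im < c₀) :
    z.re ≠ 0 := by
  intro h
  have h4 : ‖z‖ = |z.im| := by rw [← Complex.abs_im_eq_norm.2 h]
  have := abs_lt.2 ⟨h2, h3⟩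
  linarith

/-- cut-off for the two halves of the annulus. -/
theorem e0_chi1 {c₀ : ℝ} (hc : 0 < c₀) : ∃ χ : ℂ → ℝ, ContDiff ℝ 1 χ ∧ (∀ ζ, 0 ≤ χ ζ ∧ χ ζ ≤ 1) ∧
    (∀ ζ : ℂ, c₀ ≤ ζ.im → ∀ᶠ ξ in 𝓝 ζ, χ ξ = 1) ∧ (∀ ζ : ℂ, ζ.im ≤ -c₀ → ∀ᶠ ξ in 𝓝 ζ, χ ξ = 0) := by
  refine ⟨fun ξ => Real.smoothTransition (ξ.im / c₀ + 1 / 2), ?_,
    fun ζ => ⟨Real.smoothTransition.nonneg _, Real.smoothTransition.le_one _⟩, fun ζ h => ?_,
    fun ζ h => ?_⟩
  · refine Real.smoothTransition.contDiff.comp ?_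
    exact ((imCLM.contDiff).div_const _).add contDiff_const
  · have : ∀ᶠ ξ in 𝓝 ζ, c₀ / 2 < ξ.im :=
      continuous_im.continuousAt.eventually (lt_mem_nhds (by linarith))
    filter_upwards [this] with ξ hξ
    apply Real.smoothTransition.one_of_one_le
    have : 1 / 2 ≤ ξ.im / c₀ := by rw [le_div_iff₀ hc]; linarith
    linarith
  · have : ∀ᶠ ξ in 𝓝 ζ, ξ.im < -(c₀ / 2) :=
      continuous_im.continuousAt.eventually (gt_mem_nhds (by linarith))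
    filter_upwards [this] with ξ hξ
    apply Real.smoothTransition.zero_of_nonpos
    have : ξ.im / c₀ ≤ -(1 / 2) := by rw [div_le_iff₀ hc]; linarith
    linarith

/-- radial cut-off. -/
theorem e0_chi2 {a b : ℝ} (ha : 0 ≤ a) (hab : a < b) : ∃ χ : ℂ → ℝ, ContDiff ℝ 1 χ ∧
    (∀ ζ, 0 ≤ χ ζ ∧ χ ζ ≤ 1) ∧
    (∀ ζ : ℂ, ‖ζ‖ ≤ a → ∀ᶠ ξ in 𝓝 ζ, χ ξ = 1) ∧ (∀ ζ : ℂ, b ≤ ‖ζ‖ → ∀ᶠ ξ in 𝓝 ζ, χ ξ = 0) := by
  have hd : 0 < b ^ 2 - a ^ 2 := by nlinarith
  refine ⟨fun ξ => Real.smoothTransition (3 * (b ^ 2 - ‖ξ‖ ^ 2) / (b ^ 2 - a ^ 2) - 1), ?_,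
    fun ζ => ⟨Real.smoothTransition.nonneg _, Real.smoothTransition.le_one _⟩, fun ζ h => ?_,
    fun ζ h => ?_⟩
  · refine Real.smoothTransition.contDiff.comp ?_
    exact ((contDiff_const.mul (contDiff_const.sub (contDiff_norm_sq ℝ))).div_const _).sub
      contDiff_const
  · have hc : Continuous fun ξ : ℂ => 3 * (b ^ 2 - ‖ξ‖ ^ 2) / (b ^ 2 - a ^ 2) - 1 := by fun_prop
    have h1 : 1 < 3 * (b ^ 2 - ‖ζ‖ ^ 2) / (b ^ 2 - a ^ 2) - 1 := by
      rw [lt_sub_iff_add_lt, lt_div_iff₀ hd]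
      nlinarith [norm_nonneg ζ]
    filter_upwards [hc.continuousAt.eventually (lt_mem_nhds h1)] with ξ hξ
    exact Real.smoothTransition.one_of_one_le hξ.le
  · have hc : Continuous fun ξ : ℂ => 3 * (b ^ 2 - ‖ξ‖ ^ 2) / (b ^ 2 - a ^ 2) - 1 := by fun_prop
    have h1 : 3 * (b ^ 2 - ‖ζ‖ ^ 2) / (b ^ 2 - a ^ 2) - 1 < 0 := by
      rw [sub_neg, div_lt_iff₀ hd]
      nlinarith [norm_nonneg ζ]
    filter_upwards [hc.continuousAt.eventually (gt_mem_nhds h1)] with ξ hξ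
    exact Real.smoothTransition.zero_of_nonpos hξ.le

end Crest.Agent.R279
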