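import Crest.Agent.R279.Inv
import Crest.Agent.R264.SCV3

/-! Row 279, flows: uniform local existence in complex time implies completeness -/

set_option autoImplicit false

namespace Crest.Agent.R279

open Set Metric Filter Topology

variable {G : Type} [NormedAddCommGroup G] [NormedSpace ℂ G]

/-- `γ` solves on `U` the implicit equation `Rel (γ τ) (γ' τ)` inside `Z`. -/
def IsSol (Z : Set G) (Rel : G → G → Prop) (γ : ℂ → G) (U : Set ℂ) : Prop :=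
  ∀ τ ∈ U, γ τ ∈ Z ∧ ∃ v, HasDerivAt γ v τ ∧ Rel (γ τ) v

/-- locally on `Z` the relation forces `v = X z` for a holomorphic vector field. -/
def LocDet (Z : Set G) (Rel : G → G → Prop) : Prop :=
  ∀ z₀ ∈ Z, ∃ (O : Set G) (X : G → G), IsOpen O ∧ z₀ ∈ O ∧ DifferentiableOn ℂ X O ∧
    ∀ z ∈ Z, z ∈ O → ∀ v, Rel z v → v = X z

/-- local solutions exist for time `ε` and depend holomorphically on the initial point. -/
def UnifEx (Z : Set G) (Rel : G → G → Prop) (ε : ℝ) : Prop :=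
  ∀ z₀ ∈ Z, ∃ (W : Set G) (Φ : G → ℂ → G), IsOpen W ∧ z₀ ∈ W ∧ HolF Φ W ε ∧
    ∀ z ∈ Z, z ∈ W → Φ z 0 = z ∧ IsSol Z Rel (Φ z) (ball 0 ε)

variable {Z : Set G} {Rel : G → G → Prop}

theorem IsSol.mono {γ : ℂ → G} {U U' : Set ℂ} (h : IsSol Z Rel γ U) (hU : U' ⊆ U) :
    IsSol Z Rel γ U' := fun τ hτ => h τ (hU hτ)

theorem IsSol.shift {γ : ℂ → G} {U : Set ℂ} (h : IsSol Z Rel γ U) (a : ℂ) :
    IsSol Z Rel (fun τ => γ (τ - a)) {τ | τ - a ∈ U} := fun τ hτ => by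
  obtain ⟨h1, v, h2, h3⟩ := h _ hτ
  exact ⟨h1, v, HasDerivAt.comp_sub_const τ a h2, h3⟩

theorem IsSol.congr {γ γ' : ℂ → G} {U : Set ℂ} (h : IsSol Z Rel γ U) (hU : IsOpen U)
    (e : EqOn γ' γ U) : IsSol Z Rel γ' U := fun τ hτ => by
  obtain ⟨h1, v, h2, h3⟩ := h _ hτ
  rw [e hτ]
  exact ⟨h1, v, h2.congr_of_eventuallyEq (e.eventuallyEq_of_mem (hU.mem_nhds hτ)), h3⟩

/-- uniqueness: near a common point use `Crest.Agent.R264.curve_unique` along segments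
(vector field `(τ₁ - τ₀) • X`), then the identity theorem
(`AnalyticOnNhd.eqOn_of_preconnected_of_eventuallyEq`). -/
theorem IsSol.unique [FiniteDimensional ℂ G] (hl : LocDet Z Rel) {γ γ' : ℂ → G} {U : Set ℂ}
    (hU : IsOpen U) (hc : IsPreconnected U) (h : IsSol Z Rel γ U) (h' : IsSol Z Rel γ' U)
    {τ₀ : ℂ} (h0 : τ₀ ∈ U) (e : γ τ₀ = γ' τ₀) : EqOn γ γ' U := by
  have := FiniteDimensional.complete ℂ G
  have han : ∀ {g : ℂ → G}, IsSol Z Rel g U → AnalyticOnNhd ℂ g U := fun hg =>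
    DifferentiableOn.analyticOnNhd (fun τ hτ =>
      (hg τ hτ).2.choose_spec.1.differentiableAt.differentiableWithinAt) hU
  obtain ⟨O, X, hO, hz, hX, hdet⟩ := hl _ (h τ₀ h0).1
  have hev : ∀ᶠ τ in 𝓝 τ₀, τ ∈ U ∧ γ τ ∈ O ∧ γ' τ ∈ O :=
    Filter.Eventually.and (hU.mem_nhds h0) (Filter.Eventually.and
      ((han h τ₀ h0).continuousAt.preimage_mem_nhds (hO.mem_nhds hz))
      ((han h' τ₀ h0).continuousAt.preimage_mem_nhds (hO.mem_nhds (e ▸ hz))))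
  obtain ⟨r, hr, hb⟩ := Metric.eventually_nhds_iff_ball.1 hev
  have hm : ∀ s ∈ Ioo (-r) r, τ₀ + (s : ℂ) ∈ ball τ₀ r := fun s hs => by
    rw [mem_ball, dist_self_add_left, Complex.norm_real, Real.norm_eq_abs, abs_lt]
    exact hs
  have hd : ∀ {g : ℂ → G}, IsSol Z Rel g U → ∀ s : ℝ, τ₀ + (s : ℂ) ∈ U → g (τ₀ + s) ∈ O →
      HasDerivAt (fun s : ℝ => g (τ₀ + s)) (X (g (τ₀ + s))) s := by
    intro g hg s hs hsO
    obtain ⟨h1, v, h2, h3⟩ := hg _ hs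
    rw [← hdet _ h1 hsO v h3]
    have h4 : HasDerivAt (fun s : ℝ => τ₀ + (s : ℂ)) 1 s :=
      (Complex.ofRealCLM.hasDerivAt (x := s)).const_add τ₀
    have h5 := h2.scomp s h4
    rw [one_smul] at h5
    exact h5
  have key := R264.curve_unique hO hX (c := fun s : ℝ => γ (τ₀ + s)) (c' := fun s : ℝ => γ' (τ₀ + s))
    (fun s hs => ⟨(hb _ (hm s hs)).2.1, hd h s (hb _ (hm s hs)).1 (hb _ (hm s hs)).2.1⟩)
    (fun s hs => ⟨(hb _ (hm s hs)).2.2, hd h' s (hb _ (hm s hs)).1 (hb _ (hm s hs)).2.2⟩)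
    (s := 0) ⟨by linarith, hr⟩ (by simpa using e)
  refine (han h).eqOn_of_preconnected_of_frequently_eq (han h') hc h0 ?_
  have ht : Tendsto (fun s : ℝ => τ₀ + (s : ℂ)) (𝓝[≠] 0) (𝓝[≠] τ₀) := by
    refine tendsto_nhdsWithin_iff.2 ⟨?_, eventually_mem_nhdsWithin.mono fun s hs => ?_⟩
    · have h1 : Continuous fun s : ℝ => τ₀ + (s : ℂ) := by fun_prop
      simpa using (h1.tendsto 0).mono_left nhdsWithin_le_nhds
    · simpa using hs
  refine ht.frequently (Filter.Eventually.frequently ?_)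
  exact mem_nhdsWithin_of_mem_nhds
    (mem_of_superset (Ioo_mem_nhds (by linarith) hr) fun s hs => key hs)

/-- extension by `ε`: for `τ₀ ∈ ball 0 R` the local solution `γ_{τ₀}` on `ball τ₀ ε` agrees with `γ`
on `ball τ₀ ε ∩ ball 0 R`; two of them agree on the intersection of their discs (it is convex and, if
non-empty, contains the midpoint of the centres, which lies in `ball 0 R`). -/
theorem IsSol.extend [FiniteDimensional ℂ G] (hl : LocDet Z Rel) {ε : ℝ} (hε : 0 < ε)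
    (hu : UnifEx Z Rel ε) {γ : ℂ → G} {R : ℝ} (hR : 0 < R) (h : IsSol Z Rel γ (ball 0 R)) :
    ∃ γ' : ℂ → G, γ' 0 = γ 0 ∧ IsSol Z Rel γ' (ball 0 (R + ε)) := by
  have h1 : ∀ a ∈ ball (0 : ℂ) R, ∃ σ : ℂ → G, σ a = γ a ∧ IsSol Z Rel σ (ball a ε) := by
    intro a ha
    obtain ⟨W, Φ, -, hW, -, hΦ⟩ := hu _ (h a ha).1
    obtain ⟨e0, e1⟩ := hΦ _ (h a ha).1 hW
    refine ⟨fun τ => Φ (γ a) (τ - a), by simpa using e0, (e1.shift a).mono fun τ hτ => ?_⟩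
    simpa [dist_eq_norm] using hτ
  choose! σ hσ0 hσ using h1
  have hA : ∀ a ∈ ball (0 : ℂ) R, EqOn (σ a) γ (ball a ε ∩ ball 0 R) := fun a ha =>
    IsSol.unique hl (isOpen_ball.inter isOpen_ball)
      ((convex_ball _ _).inter (convex_ball _ _)).isPreconnected
      ((hσ a ha).mono inter_subset_left) (h.mono inter_subset_right) ⟨mem_ball_self hε, ha⟩
      (hσ0 a ha)
  have hB : ∀ a ∈ ball (0 : ℂ) R, ∀ b ∈ ball (0 : ℂ) R,
      EqOn (σ a) (σ b) (ball a ε ∩ ball b ε) := by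
    intro a ha b hb τ hτ
    have hd : dist a b < ε + ε :=
      (dist_triangle_left a b τ).trans_lt (add_lt_add (mem_ball.1 hτ.1) (mem_ball.1 hτ.2))
    have hm : midpoint ℝ a b ∈ ball (0 : ℂ) R := (convex_ball _ _).midpoint_mem ha hb
    have hma : midpoint ℝ a b ∈ ball a ε := by
      rw [mem_ball, dist_midpoint_left]
      norm_num
      linarith
    have hmb : midpoint ℝ a b ∈ ball b ε := by
      rw [mem_ball, dist_midpoint_right]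
      norm_num
      linarith
    exact IsSol.unique hl (isOpen_ball.inter isOpen_ball)
      ((convex_ball _ _).inter (convex_ball _ _)).isPreconnected
      ((hσ a ha).mono inter_subset_left) ((hσ b hb).mono inter_subset_right) ⟨hma, hmb⟩
      ((hA a ha ⟨hma, hm⟩).trans (hA b hb ⟨hmb, hm⟩).symm) hτ
  have h2 : ∀ τ ∈ ball (0 : ℂ) (R + ε), ∃ a, a ∈ ball (0 : ℂ) R ∧ τ ∈ ball a ε := by
    intro τ hτ
    obtain ⟨a, h3, h4⟩ := exists_dist_lt_lt hε hR (mem_ball.1 hτ)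
    exact ⟨a, h4, h3⟩
  choose! c hc1 hc2 using h2
  have h0 : (0 : ℂ) ∈ ball (0 : ℂ) (R + ε) := mem_ball_self (by linarith)
  refine ⟨fun τ => σ (c τ) τ, hA _ (hc1 0 h0) ⟨hc2 0 h0, mem_ball_self hR⟩, fun τ hτ => ?_⟩
  exact ((hσ _ (hc1 τ hτ)).mono (inter_subset_left (t := ball 0 (R + ε)))).congr
    (isOpen_ball.inter isOpen_ball)
    (fun τ' hτ' => hB _ (hc1 τ' hτ'.2) _ (hc1 τ hτ) ⟨hc2 τ' hτ'.2, hτ'.1⟩) τ ⟨hc2 τ hτ, hτ⟩

theorem exists_entire_sol [FiniteDimensional ℂ G] (hl : LocDet Z Rel) {ε : ℝ} (hε : 0 < ε)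
    (hu : UnifEx Z Rel ε) {z : G} (hz : z ∈ Z) :
    ∃ γ : ℂ → G, γ 0 = z ∧ IsSol Z Rel γ univ := by
  have hp : ∀ n : ℕ, 0 < ((n : ℝ) + 1) * ε := fun n => by positivity
  have h1 : ∀ n : ℕ, ∃ γ : ℂ → G, γ 0 = z ∧ IsSol Z Rel γ (ball 0 ((n + 1) * ε)) := by
    intro n
    induction n with
    | zero =>
      obtain ⟨W, Φ, -, hW, -, hΦ⟩ := hu _ hz
      exact ⟨Φ z, (hΦ z hz hW).1, by simpa using (hΦ z hz hW).2⟩
    | succ n ih =>
      obtain ⟨γ, h0, h⟩ := ih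
      obtain ⟨γ', h0', h'⟩ := h.extend hl hε hu (hp n)
      refine ⟨γ', h0'.trans h0, ?_⟩
      convert h' using 2
      push_cast
      ring
  choose γ h0 h using h1
  have hB : ∀ n m : ℕ, EqOn (γ n) (γ m) (ball 0 ((n + 1) * ε) ∩ ball 0 ((m + 1) * ε)) :=
    fun n m => IsSol.unique hl (isOpen_ball.inter isOpen_ball)
      ((convex_ball _ _).inter (convex_ball _ _)).isPreconnected
      ((h n).mono inter_subset_left) ((h m).mono inter_subset_right)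
      ⟨mem_ball_self (hp n), mem_ball_self (hp m)⟩ ((h0 n).trans (h0 m).symm)
  have h2 : ∀ τ : ℂ, ∃ n : ℕ, τ ∈ ball (0 : ℂ) ((n + 1) * ε) := by
    intro τ
    obtain ⟨n, hn⟩ := exists_nat_gt (‖τ‖ / ε)
    refine ⟨n, mem_ball_zero_iff.2 ?_⟩
    rw [div_lt_iff₀ hε] at hn
    linarith
  choose N hN using h2
  exact ⟨fun τ => γ (N τ) τ, h0 _, fun τ _ =>
    (h (N τ)).congr isOpen_ball (fun τ' hτ' => hB _ _ ⟨hN τ', hτ'⟩) τ (hN τ)⟩

/-- joint holomorphy: fix `a₀ ∈ P`; the set of `τ₀` such that `(a, τ) ↦ Ψ (g a) τ` is differentiable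
near `(a₀, τ₀)` is open, contains `0`, and with `τ₀` it contains `ball τ₀ ε`, because
`Ψ (g a) τ = Φ (Ψ (g a) τ₀) (τ - τ₀)` for `a` near `a₀` (`IsSol.unique`). -/
theorem entire_sol_hol [FiniteDimensional ℂ G] (hl : LocDet Z Rel) {ε : ℝ} (hε : 0 < ε)
    (hu : UnifEx Z Rel ε) {Ψ : G → ℂ → G} (hΨ : ∀ z ∈ Z, Ψ z 0 = z ∧ IsSol Z Rel (Ψ z) univ)
    {E : Type} [NormedAddCommGroup E] [NormedSpace ℂ E] {P : Set E} (hP : IsOpen P) {g : E → G}
    (hg : DifferentiableOn ℂ g P) (hm : MapsTo g P Z) :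
    DifferentiableOn ℂ (fun x : E × ℂ => Ψ (g x.1) x.2) (P ×ˢ univ) := by
  rintro ⟨a₀, τ₁⟩ ⟨ha₀ : a₀ ∈ P, -⟩
  have step : ∀ τ₀ : ℂ, (∀ᶠ a in 𝓝 a₀, DifferentiableAt ℂ (fun a => Ψ (g a) τ₀) a) →
      ∀ τ ∈ ball τ₀ ε, ∀ᶠ x in 𝓝 (a₀, τ),
        DifferentiableAt ℂ (fun x : E × ℂ => Ψ (g x.1) x.2) x := by
    intro τ₀ h τ hτ
    obtain ⟨W, Φ, oW, hW, hΦ, hs⟩ := hu _ ((hΨ _ (hm ha₀)).2 τ₀ trivial).1
    obtain ⟨N, hN, oN, aN⟩ := _root_.mem_nhds_iff.1 (((hP.eventually_mem ha₀).and h).and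
      (h.self_of_nhds.continuousAt.eventually (oW.eventually_mem hW)))
    have oS : IsOpen (N ×ˢ ball τ₀ ε) := oN.prod isOpen_ball
    have hd : DifferentiableOn ℂ (fun x : E × ℂ => Φ (Ψ (g x.1) τ₀) (x.2 - τ₀))
        (N ×ˢ ball τ₀ ε) :=
      hΦ.comp (fun x hx => ((hN hx.1).1.2.comp x differentiableAt_fst).differentiableWithinAt)
        (by fun_prop) (fun x hx => (hN hx.1).2) fun x hx => mem_ball_iff_norm.1 hx.2
    refine (hd.congr fun x hx => ?_).eventually_differentiableAt (oS.mem_nhds ⟨aN, hτ⟩)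
    have h1 := (hΨ _ (hm (hN hx.1).1.1)).2
    obtain ⟨h2, h3⟩ := hs _ (h1 τ₀ trivial).1 (hN hx.1).2
    exact IsSol.unique hl isOpen_ball (convex_ball τ₀ ε).isPreconnected (h1.mono (subset_univ _))
      ((h3.shift τ₀).mono fun σ hσ => mem_ball_zero_iff.2 (mem_ball_iff_norm.1 hσ))
      (mem_ball_self hε) (by rw [sub_self, h2]) hx.2
  have step' : ∀ τ₀ : ℂ, (∀ᶠ a in 𝓝 a₀, DifferentiableAt ℂ (fun a => Ψ (g a) τ₀) a) →
      ∀ τ ∈ ball τ₀ ε, ∀ᶠ a in 𝓝 a₀, DifferentiableAt ℂ (fun a => Ψ (g a) τ) a := by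
    intro τ₀ h τ hτ
    filter_upwards [(Continuous.prodMk_left τ).continuousAt.eventually (step τ₀ h τ hτ)] with a ha
    exact ha.comp (f := fun a : E => (a, τ)) a (by fun_prop)
  have hcl : IsClopen {τ : ℂ | ∀ᶠ a in 𝓝 a₀, DifferentiableAt ℂ (fun a => Ψ (g a) τ) a} := by
    refine ⟨isClosed_of_closure_subset fun τ hτ => ?_,
      Metric.isOpen_iff.2 fun τ hτ => ⟨ε, hε, step' τ hτ⟩⟩
    obtain ⟨τ₀, h0, h1⟩ := Metric.mem_closure_iff.1 hτ ε hε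
    exact step' τ₀ h0 τ h1
  have h0 : ∀ᶠ a in 𝓝 a₀, DifferentiableAt ℂ (fun a => Ψ (g a) 0) a :=
    (hg.congr fun a ha => (hΨ _ (hm ha)).1).eventually_differentiableAt (hP.mem_nhds ha₀)
  have h1 : τ₁ ∈ {τ : ℂ | ∀ᶠ a in 𝓝 a₀, DifferentiableAt ℂ (fun a => Ψ (g a) τ) a} := by
    rw [hcl.eq_univ ⟨0, h0⟩]
    trivial
  exact (step τ₁ h1 τ₁ (mem_ball_self hε)).self_of_nhds.differentiableWithinAt

theorem complete_flow [FiniteDimensional ℂ G] (hl : LocDet Z Rel) {ε : ℝ} (hε : 0 < ε)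
    (hu : UnifEx Z Rel ε) {E : Type} [NormedAddCommGroup E] [NormedSpace ℂ E] {P : Set E}
    (hP : IsOpen P) {g : E → G} (hg : DifferentiableOn ℂ g P) (hm : MapsTo g P Z) :
    ∃ γ : E → ℂ → G, DifferentiableOn ℂ (fun x : E × ℂ => γ x.1 x.2) (P ×ˢ univ) ∧
      ∀ a ∈ P, γ a 0 = g a ∧ IsSol Z Rel (γ a) univ := by
  choose! Ψ h1 h2 using fun z (hz : z ∈ Z) => exists_entire_sol hl hε hu hz
  exact ⟨fun a => Ψ (g a), entire_sol_hol hl hε hu (fun z hz => ⟨h1 z hz, h2 z hz⟩) hP hg hm,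
    fun a ha => ⟨h1 _ (hm ha), h2 _ (hm ha)⟩⟩

end Crest.Agent.R279
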