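import Crest.Agent.R279.F1
import Crest.Agent.R279.AT
import Crest.Agent.R266.Frob1

/-!
# Row 279, flows: the bilinear ("Hirota") system of the curve `y² = D₄(s, t)`

State `(d, (s, t, p, q))`, `p = s'`, `q = t'`, `y = s q - t p`.  In the chart `s = λ`, `t = λ z`,
`λ' = A λ` the system reads `z'' = D₄'(z) / 2`, `A' = -(d₃ z / 2 + d₄ z²)`.  It is invariant under
`(s, t) ↦ c e^{κ τ} (s, t)` and under the swap `s ↔ t`, `dᵢ ↔ d₄₋ᵢ`.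
-/

set_option autoImplicit false

namespace Crest.Agent.R279

open Set Metric Filter Topology

abbrev HG : Type := (Fin 5 → ℂ) × (Fin 4 → ℂ)

noncomputable def hB11 (d : Fin 5 → ℂ) (s t : ℂ) : ℂ := -(d 3 * s * t / 2) - d 4 * t ^ 2
noncomputable def hB12 (d : Fin 5 → ℂ) (s t : ℂ) : ℂ := d 1 * s ^ 2 / 2 + d 2 * s * t + d 3 * t ^ 2 / 2
noncomputable def hB22 (d : Fin 5 → ℂ) (s t : ℂ) : ℂ := -(d 0 * s ^ 2) - d 1 * s * t / 2

theorem bf_four (d : Fin 5 → ℂ) (s t : ℂ) : bf 4 d s t =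
    d 0 * s ^ 4 + d 1 * s ^ 3 * t + d 2 * s ^ 2 * t ^ 2 + d 3 * s * t ^ 3 + d 4 * t ^ 4 := by
  simp [bf, Fin.sum_univ_five]

/-- the phase space. -/
def hZ (B : ℝ) : Set HG :=
  {z | ‖z.1‖ < B ∧ (z.2 0 ≠ 0 ∨ z.2 1 ≠ 0) ∧
    (z.2 0 * z.2 3 - z.2 1 * z.2 2) ^ 2 = bf 4 z.1 (z.2 0) (z.2 1)}

/-- the system. -/
def hRel (z v : HG) : Prop :=
  v.1 = 0 ∧ v.2 0 = z.2 2 ∧ v.2 1 = z.2 3 ∧
    z.2 0 * v.2 2 = z.2 2 ^ 2 + hB11 z.1 (z.2 0) (z.2 1) ∧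
    z.2 0 * v.2 3 + z.2 1 * v.2 2 = 2 * z.2 2 * z.2 3 + hB12 z.1 (z.2 0) (z.2 1) ∧
    z.2 1 * v.2 3 = z.2 3 ^ 2 + hB22 z.1 (z.2 0) (z.2 1)

/-- the vector field in the chart `s ≠ 0`. -/
noncomputable def hX (z : HG) : HG :=
  (0, ![z.2 2, z.2 3, (z.2 2 ^ 2 + hB11 z.1 (z.2 0) (z.2 1)) / z.2 0,
    (2 * z.2 2 * z.2 3 + hB12 z.1 (z.2 0) (z.2 1) -
      z.2 1 * ((z.2 2 ^ 2 + hB11 z.1 (z.2 0) (z.2 1)) / z.2 0)) / z.2 0])

/-- the swap. -/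
noncomputable def hSw : HG →L[ℂ] HG :=
  (ContinuousLinearMap.pi fun i : Fin 5 =>
    (ContinuousLinearMap.proj (R := ℂ) (φ := fun _ : Fin 5 => ℂ) i.rev).comp
      (ContinuousLinearMap.fst ℂ (Fin 5 → ℂ) (Fin 4 → ℂ))).prod
  (ContinuousLinearMap.pi fun i : Fin 4 =>
    (ContinuousLinearMap.proj (R := ℂ) (φ := fun _ : Fin 4 => ℂ) (![1, 0, 3, 2] i)).comp
      (ContinuousLinearMap.snd ℂ (Fin 5 → ℂ) (Fin 4 → ℂ)))

theorem hSw_apply (z : HG) :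
    hSw z = (![z.1 4, z.1 3, z.1 2, z.1 1, z.1 0], ![z.2 1, z.2 0, z.2 3, z.2 2]) := by
  refine Prod.ext (funext fun i => ?_) (funext fun i => ?_) <;> fin_cases i <;> rfl

theorem hSw_sw (z : HG) : hSw (hSw z) = z := by
  rw [hSw_apply (hSw z), hSw_apply z]
  refine Prod.ext (funext fun i => ?_) (funext fun i => ?_) <;> fin_cases i <;> rfl

theorem hSw_Z {B : ℝ} {z : HG} (h : z ∈ hZ B) : hSw z ∈ hZ B := by
  obtain ⟨h1, h2, h3⟩ := h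
  refine ⟨?_, ?_, ?_⟩
  · have hB : 0 < B := (norm_nonneg _).trans_lt h1
    rw [pi_norm_lt_iff hB] at h1 ⊢
    intro i
    exact h1 i.rev
  · exact h2.symm
  · rw [bf_four] at h3 ⊢
    change (z.2 1 * z.2 2 - z.2 0 * z.2 3) ^ 2 = z.1 4 * z.2 1 ^ 4 + z.1 3 * z.2 1 ^ 3 * z.2 0 +
      z.1 2 * z.2 1 ^ 2 * z.2 0 ^ 2 + z.1 1 * z.2 1 * z.2 0 ^ 3 + z.1 0 * z.2 0 ^ 4
    linear_combination h3

theorem hSw_rel {z v : HG} (h : hRel z v) : hRel (hSw z) (hSw v) := by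
  obtain ⟨h1, h2, h3, h4, h5, h6⟩ := h
  refine ⟨?_, h3, h2, ?_, ?_, ?_⟩
  · funext i
    exact congrFun h1 i.rev
  · change z.2 1 * v.2 3 = z.2 3 ^ 2 + (-(z.1 1 * z.2 1 * z.2 0 / 2) - z.1 0 * z.2 0 ^ 2)
    rw [h6, hB22]; ring
  · change z.2 1 * v.2 2 + z.2 0 * v.2 3 = 2 * z.2 3 * z.2 2 +
      (z.1 3 * z.2 1 ^ 2 / 2 + z.1 2 * z.2 1 * z.2 0 + z.1 1 * z.2 0 ^ 2 / 2)
    rw [hB12] at h5
    linear_combination h5
  · change z.2 0 * v.2 2 = z.2 2 ^ 2 + (-(z.1 4 * z.2 1 ^ 2) - z.1 3 * z.2 1 * z.2 0 / 2)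
    rw [h4, hB11]; ring

theorem hX_diff : DifferentiableOn ℂ hX {z | z.2 0 ≠ 0} := by
  intro z hz
  refine DifferentiableAt.differentiableWithinAt ?_
  have hz' : z.2 0 ≠ 0 := hz
  refine (differentiableAt_const _).prodMk (differentiableAt_pi.2 fun i => ?_)
  fin_cases i
  · change DifferentiableAt ℂ (fun z : HG => z.2 2) z
    fun_prop
  · change DifferentiableAt ℂ (fun z : HG => z.2 3) z
    fun_prop
  · change DifferentiableAt ℂ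
      (fun z : HG => (z.2 2 ^ 2 + hB11 z.1 (z.2 0) (z.2 1)) / z.2 0) z
    unfold hB11
    fun_prop (disch := exact hz')
  · change DifferentiableAt ℂ (fun z : HG => (2 * z.2 2 * z.2 3 + hB12 z.1 (z.2 0) (z.2 1) -
      z.2 1 * ((z.2 2 ^ 2 + hB11 z.1 (z.2 0) (z.2 1)) / z.2 0)) / z.2 0) z
    unfold hB11 hB12
    fun_prop (disch := exact hz')

theorem hX_of_rel {z v : HG} (hs : z.2 0 ≠ 0) (h : hRel z v) : v = hX z := by
  obtain ⟨h1, h2, h3, h4, h5, -⟩ := h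
  have e2 : v.2 2 = (z.2 2 ^ 2 + hB11 z.1 (z.2 0) (z.2 1)) / z.2 0 := by
    rw [eq_div_iff hs, ← h4]; ring
  refine Prod.ext h1 (funext fun i => ?_)
  fin_cases i
  · exact h2
  · exact h3
  · exact e2
  · change v.2 3 = (2 * z.2 2 * z.2 3 + hB12 z.1 (z.2 0) (z.2 1) -
      z.2 1 * ((z.2 2 ^ 2 + hB11 z.1 (z.2 0) (z.2 1)) / z.2 0)) / z.2 0
    rw [← e2, eq_div_iff hs, ← h5]; ring

theorem rel_hX {B : ℝ} {z : HG} (hz : z ∈ hZ B) (hs : z.2 0 ≠ 0) : hRel z (hX z) := by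
  obtain ⟨-, -, h3⟩ := hz
  rw [bf_four] at h3
  refine ⟨rfl, rfl, rfl, ?_, ?_, ?_⟩
  · change z.2 0 * ((z.2 2 ^ 2 + hB11 z.1 (z.2 0) (z.2 1)) / z.2 0) = _
    rw [mul_div_cancel₀ _ hs]
  · change z.2 0 * ((2 * z.2 2 * z.2 3 + hB12 z.1 (z.2 0) (z.2 1) -
      z.2 1 * ((z.2 2 ^ 2 + hB11 z.1 (z.2 0) (z.2 1)) / z.2 0)) / z.2 0) +
      z.2 1 * ((z.2 2 ^ 2 + hB11 z.1 (z.2 0) (z.2 1)) / z.2 0) = _
    rw [mul_div_cancel₀ _ hs]; ring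
  · change z.2 1 * ((2 * z.2 2 * z.2 3 + hB12 z.1 (z.2 0) (z.2 1) -
      z.2 1 * ((z.2 2 ^ 2 + hB11 z.1 (z.2 0) (z.2 1)) / z.2 0)) / z.2 0) = _
    rw [hB11, hB12, hB22]
    field_simp
    linear_combination (-2) * h3

theorem hZ_locDet (B : ℝ) : LocDet (hZ B) hRel := by
  intro z₀ hz₀
  have hO : ∀ i : Fin 4, IsOpen {z : HG | z.2 i ≠ 0} := fun i =>
    isOpen_ne_fun (by fun_prop) continuous_const
  rcases hz₀.2.1 with h | h
  · exact ⟨_, hX, hO 0, h, hX_diff, fun z _ hs v hv => hX_of_rel hs hv⟩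
  · refine ⟨_, fun z => hSw (hX (hSw z)), hO 1, h, ?_, fun z _ hs v hv => ?_⟩
    · exact hSw.differentiable.comp_differentiableOn
        (hX_diff.comp hSw.differentiable.differentiableOn fun z hz => hz)
    · have := hX_of_rel (z := hSw z) hs (hSw_rel hv)
      change v = hSw (hX (hSw z))
      rw [← this, hSw_sw]

/-- integral curves of `hX` starting in `hZ` stay there: `d` is constant and
`h = y² - D₄(s, t)` satisfies `h' = 4 (p / s) h` (`Crest.Agent.R266.lin_zero`). -/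
theorem hX_sol {B ε : ℝ} {γ : ℂ → HG} (h0 : γ 0 ∈ hZ B)
    (h : ∀ τ ∈ ball (0 : ℂ) ε, (γ τ).2 0 ≠ 0 ∧ HasDerivAt γ (hX (γ τ)) τ) :
    IsSol (hZ B) hRel γ (ball 0 ε) := by
  intro τ hτ
  have hε : (0 : ℂ) ∈ ball (0 : ℂ) ε := mem_ball_self (pos_of_mem_ball hτ)
  have hd : ∀ t ∈ ball (0 : ℂ) ε, HasDerivAt (fun t => (γ t).1) (hX (γ t)).1 t := fun t ht =>
    (ContinuousLinearMap.fst ℂ (Fin 5 → ℂ) (Fin 4 → ℂ)).hasFDerivAt.comp_hasDerivAt t (h t ht).2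
  have hx : ∀ t ∈ ball (0 : ℂ) ε, ∀ i, HasDerivAt (fun t => (γ t).2 i) ((hX (γ t)).2 i) t :=
    fun t ht => hasDerivAt_pi.1
      ((ContinuousLinearMap.snd ℂ (Fin 5 → ℂ) (Fin 4 → ℂ)).hasFDerivAt.comp_hasDerivAt t
        (h t ht).2)
  have h1 : (γ τ).1 - (γ 0).1 = 0 :=
    R266.lin_zero (W := fun t => (γ t).1 - (γ 0).1) (L := fun _ => 0) continuousOn_const
      (fun t ht => (hd t ht).sub_const _) hε (sub_self _) τ hτ
  have h2 : ((γ τ).2 0 * (γ τ).2 3 - (γ τ).2 1 * (γ τ).2 2) ^ 2 -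
      bf 4 (γ τ).1 ((γ τ).2 0) ((γ τ).2 1) = 0 := by
    refine R266.lin_zero (W := fun t => ((γ t).2 0 * (γ t).2 3 - (γ t).2 1 * (γ t).2 2) ^ 2 -
      bf 4 (γ t).1 ((γ t).2 0) ((γ t).2 1))
      (L := fun t => (4 * ((γ t).2 2 / (γ t).2 0)) • ContinuousLinearMap.id ℂ ℂ) ?_
      (fun t ht => ?_) hε (sub_eq_zero.2 h0.2.2) τ hτ
    · refine ContinuousOn.smul (continuousOn_const.mul (ContinuousOn.div ?_ ?_ fun t ht => (h t ht).1))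
        continuousOn_const
      · exact fun t ht => (hx t ht 2).continuousAt.continuousWithinAt
      · exact fun t ht => (hx t ht 0).continuousAt.continuousWithinAt
    · have hs := (h t ht).1
      have a : ∀ i, HasDerivAt (fun t => (γ t).1 i) 0 t := hasDerivAt_pi.1 (hd t ht)
      have b0 := hx t ht 0
      have b1 := hx t ht 1
      have b2 := hx t ht 2
      have b3 := hx t ht 3
      have key := (((b0.fun_mul b3).fun_sub (b1.fun_mul b2)).fun_pow 2).fun_sub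
        ((((((a 0).fun_mul (b0.fun_pow 4)).fun_add
          (((a 1).fun_mul (b0.fun_pow 3)).fun_mul b1)).fun_add
          (((a 2).fun_mul (b0.fun_pow 2)).fun_mul (b1.fun_pow 2))).fun_add
          (((a 3).fun_mul b0).fun_mul (b1.fun_pow 3))).fun_add ((a 4).fun_mul (b1.fun_pow 4)))
      simp only [bf_four]
      refine key.congr_deriv ?_
      simp only [hX, hB11, hB12, smul_apply, ContinuousLinearMap.id_apply,
        smul_eq_mul, Matrix.cons_val_zero, Matrix.cons_val_one, Matrix.cons_val]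
      generalize (γ t).2 0 = s at hs ⊢
      generalize (γ t).2 1 = u
      generalize (γ t).2 2 = p
      generalize (γ t).2 3 = q
      push_cast
      field_simp
      ring
  have hz : γ τ ∈ hZ B :=
    ⟨by rw [sub_eq_zero.1 h1]; exact h0.1, Or.inl (h τ hτ).1, sub_eq_zero.1 h2⟩
  exact ⟨hz, _, (h τ hτ).2, rel_hX hz (h τ hτ).1⟩

/-- the gauge `(s, t) ↦ c e^{κ τ} (s, t)`. -/
noncomputable def hGa (c κ τ : ℂ) (z : HG) : HG :=
  (z.1, ![c * Complex.exp (κ * τ) * z.2 0, c * Complex.exp (κ * τ) * z.2 1,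
    c * Complex.exp (κ * τ) * (z.2 2 + κ * z.2 0), c * Complex.exp (κ * τ) * (z.2 3 + κ * z.2 1)])

theorem hGa_sol {B : ℝ} {γ : ℂ → HG} {U : Set ℂ} (h : IsSol (hZ B) hRel γ U) {c : ℂ} (hc : c ≠ 0)
    (κ : ℂ) : IsSol (hZ B) hRel (fun τ => hGa c κ τ (γ τ)) U := by
  intro τ hτ
  obtain ⟨⟨h1, h2, h3⟩, v, hv, r1, r2, r3, r4, r5, r6⟩ := h τ hτ
  set l : ℂ := c * Complex.exp (κ * τ) with hl
  have hl0 : l ≠ 0 := mul_ne_zero hc (Complex.exp_ne_zero _)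
  have he : HasDerivAt (fun τ => c * Complex.exp (κ * τ)) (l * κ) τ := by
    have := (((hasDerivAt_id τ).const_mul κ).cexp).const_mul c
    simpa [hl, mul_assoc] using this
  have hv1 : HasDerivAt (fun τ => (γ τ).1) v.1 τ :=
    (ContinuousLinearMap.fst ℂ (Fin 5 → ℂ) (Fin 4 → ℂ)).hasFDerivAt.comp_hasDerivAt τ hv
  have hv2 : ∀ i, HasDerivAt (fun τ => (γ τ).2 i) (v.2 i) τ := hasDerivAt_pi.1
    ((ContinuousLinearMap.snd ℂ (Fin 5 → ℂ) (Fin 4 → ℂ)).hasFDerivAt.comp_hasDerivAt τ hv)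
  refine ⟨⟨h1, h2.imp (mul_ne_zero hl0) (mul_ne_zero hl0), ?_⟩,
    (v.1, ![l * κ * (γ τ).2 0 + l * v.2 0, l * κ * (γ τ).2 1 + l * v.2 1,
      l * κ * ((γ τ).2 2 + κ * (γ τ).2 0) + l * (v.2 2 + κ * v.2 0),
      l * κ * ((γ τ).2 3 + κ * (γ τ).2 1) + l * (v.2 3 + κ * v.2 1)]),
    hv1.prodMk (hasDerivAt_pi.2 fun i => ?_), r1, ?_⟩
  · rw [bf_four] at h3 ⊢
    simp only [hGa, ← hl, Matrix.cons_val]
    linear_combination l ^ 4 * h3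
  · fin_cases i
    · exact he.mul (hv2 0)
    · exact he.mul (hv2 1)
    · exact he.mul ((hv2 2).add ((hv2 0).const_mul κ))
    · exact he.mul ((hv2 3).add ((hv2 1).const_mul κ))
  · simp only [hB11, hB12, hB22] at r4 r5 r6
    simp only [hGa, ← hl, Matrix.cons_val, hB11, hB12, hB22, r2, r3]
    exact ⟨by ring, by ring, by linear_combination l ^ 2 * r4, by linear_combination l ^ 2 * r5,
      by linear_combination l ^ 2 * r6⟩

/-- normal form `s = 1`, `p = 0`. -/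
noncomputable def hNf (z : HG) : HG :=
  (z.1, ![1, z.2 1 / z.2 0, 0, (z.2 0 * z.2 3 - z.2 1 * z.2 2) / z.2 0 ^ 2])

theorem hGa_nf {z : HG} (hs : z.2 0 ≠ 0) : hGa (z.2 0) (z.2 2 / z.2 0) 0 (hNf z) = z := by
  refine Prod.ext rfl (funext fun i => ?_)
  fin_cases i <;> simp [hGa, hNf] <;> field_simp
  ring

theorem hNf_Z {B : ℝ} {z : HG} (hz : z ∈ hZ B) (hs : z.2 0 ≠ 0) : hNf z ∈ hZ B := by
  refine ⟨hz.1, Or.inl one_ne_zero, ?_⟩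
  have h := hz.2.2
  rw [bf_four] at h ⊢
  simp only [hNf, Matrix.cons_val_zero, Matrix.cons_val_one, Matrix.cons_val, mul_zero, sub_zero,
    one_mul, div_pow, h]
  field_simp

theorem h94_div {E : Type} [NormedAddCommGroup E] [NormedSpace ℂ E] {f g : E → ℂ} {s : Set E}
    (hf : DifferentiableOn ℂ f s) (hg : DifferentiableOn ℂ g s) (h : ∀ x ∈ s, g x ≠ 0) :
    DifferentiableOn ℂ (fun x => f x / g x) s := by
  simp only [div_eq_mul_inv]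
  exact hf.mul (hg.inv h)

theorem h94_nf_diff : DifferentiableOn ℂ hNf {z | z.2 0 ≠ 0} := by
  refine differentiableOn_fst.prodMk (differentiableOn_pi.2 fun i => ?_)
  fin_cases i
  · exact differentiableOn_const _
  · exact h94_div (f := fun z : HG => z.2 1) (g := fun z : HG => z.2 0)
      (by fun_prop) (by fun_prop) fun x hx => hx
  · exact differentiableOn_const _
  · exact h94_div (f := fun z : HG => z.2 0 * z.2 3 - z.2 1 * z.2 2)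
      (g := fun z : HG => z.2 0 ^ 2) (by fun_prop) (by fun_prop) fun x hx => pow_ne_zero 2 hx

theorem h94_ga_diff :
    Differentiable ℂ fun x : (ℂ × ℂ) × ℂ × HG => hGa x.1.1 x.1.2 x.2.1 x.2.2 := by
  refine Differentiable.prodMk (by fun_prop) (differentiable_pi.2 fun i => ?_)
  fin_cases i <;> simp only [Fin.zero_eta, Fin.mk_one, Fin.reduceFinMk, Matrix.cons_val] <;>
    fun_prop

theorem h94_nf_mem {B : ℝ} {z : HG} (hz : z ∈ hZ B) (hs : z.2 0 ≠ 0)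
    (hle : ‖z.2 1‖ ≤ ‖z.2 0‖) : hNf z ∈ closedBall (0 : HG) (5 * B + 1) := by
  have h1 := hz.1
  have hB : 0 ≤ B := (norm_nonneg _).trans h1.le
  have h2 := (hNf_Z hz hs).2.2
  have ht : ‖z.2 1 / z.2 0‖ ≤ 1 := by
    rw [norm_div]; exact div_le_one_of_le₀ hle (norm_nonneg _)
  rw [mem_closedBall_zero_iff, Prod.norm_def]
  refine max_le (by simp only [hNf]; linarith) ?_
  simp only [hNf, Matrix.cons_val, bf_four] at h2 ⊢
  generalize z.2 1 / z.2 0 = t at h2 ht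
  generalize (z.2 0 * z.2 3 - z.2 1 * z.2 2) / z.2 0 ^ 2 = q at h2
  have hd : ∀ i (k : ℕ), ‖z.1 i * t ^ k‖ ≤ B := fun i k => by
    rw [norm_mul, norm_pow]
    exact (mul_le_of_le_one_right (norm_nonneg _) (pow_le_one₀ (norm_nonneg _) ht)).trans
      ((norm_le_pi_norm _ i).trans h1.le)
  have hq : ‖q‖ ^ 2 ≤ 5 * B := by
    rw [← norm_pow, show q ^ 2 = z.1 0 * t ^ 0 + z.1 1 * t ^ 1 + z.1 2 * t ^ 2 + z.1 3 * t ^ 3 +
      z.1 4 * t ^ 4 by linear_combination h2]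
    have := norm_add₃_le (a := z.1 0 * t ^ 0 + z.1 1 * t ^ 1 + z.1 2 * t ^ 2) (b := z.1 3 * t ^ 3)
      (c := z.1 4 * t ^ 4)
    have := norm_add₃_le (a := z.1 0 * t ^ 0) (b := z.1 1 * t ^ 1) (c := z.1 2 * t ^ 2)
    linarith [hd 0 0, hd 1 1, hd 2 2, hd 3 3, hd 4 4]
  refine (pi_norm_le_iff_of_nonneg (by positivity)).2 fun i => ?_
  fin_cases i
  · simpa using hB
  · simpa using ht.trans (by linarith)
  · simpa using (by positivity : 0 ≤ 5 * B + 1)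
  · show ‖q‖ ≤ _
    nlinarith [norm_nonneg q]

/-- uniform time in the region `‖t‖ ≤ ‖s‖`: the normal forms lie in the compact set
`‖d‖ ≤ B, s = 1, ‖t‖ ≤ 1, p = 0, ‖q‖ ≤ 5 B + 1`; cover it by finitely many balls from
`Crest.Agent.R264.exists_local_flow` for `hX` on `{s ≠ 0}`;
`Φ z τ = hGa s (p / s) τ (Φₐ (τ, hNf z))`. -/
theorem hZ_unif_half (B : ℝ) : ∃ ε > 0, ∀ z₀ ∈ hZ B, ‖z₀.2 1‖ ≤ ‖z₀.2 0‖ →
    ∃ (W : Set HG) (Φ : HG → ℂ → HG), IsOpen W ∧ z₀ ∈ W ∧ HolF Φ W ε ∧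
      ∀ z ∈ hZ B, z ∈ W → Φ z 0 = z ∧ IsSol (hZ B) hRel (Φ z) (ball 0 ε) := by
  have hO : IsOpen {z : HG | z.2 0 ≠ 0} := isOpen_ne_fun (by fun_prop) continuous_const
  have hK : IsCompact (closedBall (0 : HG) (5 * B + 1) ∩ {z | z.2 0 = 1}) :=
    (isCompact_closedBall _ _).inter_right (isClosed_eq (by fun_prop) continuous_const)
  have h1 := hK.eventually_forall_of_forall_eventually (x₀ := (0 : ℝ))
    (P := fun ε x => ∃ (W : Set HG) (Φ : ℂ × HG → HG), IsOpen W ∧ x ∈ W ∧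
      DifferentiableOn ℂ Φ (ball 0 ε ×ˢ W) ∧ ∀ y ∈ W, Φ (0, y) = y ∧ ∀ ζ ∈ ball (0 : ℂ) ε,
        (Φ (ζ, y)).2 0 ≠ 0 ∧ HasDerivAt (fun s => Φ (s, y)) (hX (Φ (ζ, y))) ζ) fun a ha => by
    obtain ⟨ε, hε, Φ, h1, h2, h3⟩ := Crest.Agent.R264.exists_local_flow hO hX_diff
      (a := a) (by rw [mem_ofPred_eq, ha.2]; exact one_ne_zero)
    filter_upwards [prod_mem_nhds (Iio_mem_nhds hε) (ball_mem_nhds a hε)] with p hp
    have hs : ball (0 : ℂ) p.1 ⊆ ball 0 ε := ball_subset_ball (le_of_lt hp.1)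
    exact ⟨ball a ε, Φ, isOpen_ball, hp.2, h1.mono (prod_mono hs le_rfl), fun y hy =>
      ⟨(h3 y hy).1, fun ζ hζ => ⟨h2 (mk_mem_prod (hs hζ) hy), (h3 y hy).2 ζ (hs hζ)⟩⟩⟩
  obtain ⟨ε, hε, h2⟩ : ∃ ε : ℝ, 0 < ε ∧ _ :=
    ((eventually_mem_nhdsWithin (a := (0 : ℝ)) (s := Ioi 0)).and
      (h1.filter_mono nhdsWithin_le_nhds)).exists
  refine ⟨ε, hε, fun z₀ hz₀ hle => ?_⟩
  have hs₀ : z₀.2 0 ≠ 0 := by
    rcases hz₀.2.1 with h | h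
    · exact h
    · exact norm_pos_iff.1 ((norm_pos_iff.2 h).trans_le hle)
  obtain ⟨W, Φ, hW, hx, hd, hΦ⟩ := h2 (hNf z₀) ⟨h94_nf_mem hz₀ hs₀ hle, rfl⟩
  refine ⟨{z | z.2 0 ≠ 0} ∩ hNf ⁻¹' W,
    fun z τ => hGa (z.2 0) (z.2 2 / z.2 0) τ (Φ (τ, hNf z)),
    h94_nf_diff.continuousOn.isOpen_inter_preimage hO hW, ⟨hs₀, hx⟩, ?_, fun z hz hzW => ⟨?_, ?_⟩⟩
  · have e1 : DifferentiableOn ℂ (fun x : HG × ℂ => Φ (x.2, hNf x.1))
        (({z : HG | z.2 0 ≠ 0} ∩ hNf ⁻¹' W) ×ˢ ball (0 : ℂ) ε) :=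
      hd.comp (differentiableOn_snd.prodMk
        (h94_nf_diff.comp differentiableOn_fst fun x hx => hx.1.1))
        fun x hx => mk_mem_prod hx.2 hx.1.2
    have e2 : DifferentiableOn ℂ (fun x : HG × ℂ => x.1.2 2 / x.1.2 0)
        (({z : HG | z.2 0 ≠ 0} ∩ hNf ⁻¹' W) ×ˢ ball (0 : ℂ) ε) :=
      h94_div (by fun_prop) (by fun_prop) fun x hx => hx.1.1
    exact h94_ga_diff.comp_differentiableOn (f := fun x : HG × ℂ =>
      ((x.1.2 0, x.1.2 2 / x.1.2 0), (x.2, Φ (x.2, hNf x.1))))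
      (DifferentiableOn.prodMk (DifferentiableOn.prodMk (by fun_prop) e2)
        (differentiableOn_snd.prodMk e1))
  · show hGa (z.2 0) (z.2 2 / z.2 0) 0 (Φ (0, hNf z)) = z
    rw [(hΦ _ hzW.2).1, hGa_nf hzW.1]
  · refine hGa_sol (γ := fun τ => Φ (τ, hNf z)) (hX_sol ?_ (hΦ _ hzW.2).2) hzW.1 _
    rw [(hΦ _ hzW.2).1]
    exact hNf_Z hz hzW.1

theorem hZ_unif (B : ℝ) : ∃ ε > 0, UnifEx (hZ B) hRel ε := by
  obtain ⟨ε, hε, h⟩ := hZ_unif_half B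
  refine ⟨ε, hε, fun z₀ hz₀ => ?_⟩
  rcases le_total ‖z₀.2 1‖ ‖z₀.2 0‖ with hle | hle
  · exact h z₀ hz₀ hle
  · obtain ⟨W, Φ, hW, hz, hΦ, hs⟩ := h (hSw z₀) (hSw_Z hz₀) (by simpa [hSw_apply] using hle)
    refine ⟨hSw ⁻¹' W, fun z τ => hSw (Φ (hSw z) τ), hW.preimage hSw.continuous, hz, ?_,
      fun z hzZ hzW => ?_⟩
    · have h1 : DifferentiableOn ℂ (fun x : HG × ℂ => ((hSw x.1, x.2) : HG × ℂ))
          ((hSw ⁻¹' W) ×ˢ ball 0 ε) :=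
        ((hSw.differentiable.comp differentiable_fst).prodMk differentiable_snd).differentiableOn
      exact hSw.differentiable.comp_differentiableOn
        (DifferentiableOn.comp hΦ h1 fun x hx => ⟨hx.1, hx.2⟩)
    · obtain ⟨e0, hsol⟩ := hs (hSw z) (hSw_Z hzZ) hzW
      refine ⟨by simp only [e0, hSw_sw], fun τ hτ => ?_⟩
      obtain ⟨h1, v, h2, h3⟩ := hsol τ hτ
      exact ⟨hSw_Z h1, hSw v, hSw.hasFDerivAt.comp_hasDerivAt τ h2, hSw_rel h3⟩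

/-- **complete flow on the cone over `y² = D₄(s, t)`**. -/
theorem hirota {E : Type} [NormedAddCommGroup E] [NormedSpace ℂ E] {P : Set E} (hP : IsOpen P)
    {d : E → Fin 5 → ℂ} {s₀ t₀ y₀ : E → ℂ} {B : ℝ} (hd : DifferentiableOn ℂ d P)
    (hs : DifferentiableOn ℂ s₀ P) (ht : DifferentiableOn ℂ t₀ P) (hy : DifferentiableOn ℂ y₀ P)
    (hB : ∀ a ∈ P, ‖d a‖ < B) (hne : ∀ a ∈ P, t₀ a ≠ 0)
    (he : ∀ a ∈ P, y₀ a ^ 2 = bf 4 (d a) (s₀ a) (t₀ a)) :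
    ∃ s t y : E × ℂ → ℂ, DifferentiableOn ℂ s (P ×ˢ univ) ∧ DifferentiableOn ℂ t (P ×ˢ univ) ∧
      DifferentiableOn ℂ y (P ×ˢ univ) ∧ ∀ a ∈ P, s (a, 0) = s₀ a ∧ t (a, 0) = t₀ a ∧
        y (a, 0) = y₀ a ∧ (∀ τ, (s (a, τ) ≠ 0 ∨ t (a, τ) ≠ 0) ∧
          y (a, τ) ^ 2 = bf 4 (d a) (s (a, τ)) (t (a, τ))) ∧
        ∃ p q : ℂ, HasDerivAt (fun τ => s (a, τ)) p 0 ∧ HasDerivAt (fun τ => t (a, τ)) q 0 ∧
          s₀ a * q - t₀ a * p = y₀ a := by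
  obtain ⟨ε, hε, hu⟩ := hZ_unif B
  have hg : DifferentiableOn ℂ
      (fun a => ((d a, ![s₀ a, t₀ a, -y₀ a / t₀ a, 0]) : HG)) P := by
    refine hd.prodMk (differentiableOn_pi.2 fun i => ?_)
    fin_cases i
    · exact hs
    · exact ht
    · show DifferentiableOn ℂ (fun a => -y₀ a / t₀ a) P
      simp only [div_eq_mul_inv]
      exact hy.neg.mul (ht.inv hne)
    · exact differentiableOn_const 0
  have hy0 : ∀ a ∈ P, s₀ a * 0 - t₀ a * (-y₀ a / t₀ a) = y₀ a := fun a ha => by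
    have := hne a ha
    field_simp
    ring
  have hm : MapsTo (fun a => ((d a, ![s₀ a, t₀ a, -y₀ a / t₀ a, 0]) : HG)) P (hZ B) :=
    fun a ha => ⟨hB a ha, Or.inr (hne a ha), by
      show (s₀ a * 0 - t₀ a * (-y₀ a / t₀ a)) ^ 2 = bf 4 (d a) (s₀ a) (t₀ a)
      rw [hy0 a ha, he a ha]⟩
  obtain ⟨γ, hγ, hsol⟩ := complete_flow (hZ_locDet B) hε hu hP hg hm
  have hc : ∀ i : Fin 4, DifferentiableOn ℂ (fun x : E × ℂ => (γ x.1 x.2).2 i) (P ×ˢ univ) :=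
    fun i => differentiableOn_pi.1 hγ.snd i
  refine ⟨fun x => (γ x.1 x.2).2 0, fun x => (γ x.1 x.2).2 1,
    fun x => (γ x.1 x.2).2 0 * (γ x.1 x.2).2 3 - (γ x.1 x.2).2 1 * (γ x.1 x.2).2 2, hc 0, hc 1,
    ((hc 0).mul (hc 3)).sub ((hc 1).mul (hc 2)), fun a ha => ?_⟩
  obtain ⟨e0, hS⟩ := hsol a ha
  have hd1 : ∀ τ, HasDerivAt (fun τ => (γ a τ).1) 0 τ := fun τ => by
    obtain ⟨-, v, h2, h3⟩ := hS τ (mem_univ τ)
    have := (ContinuousLinearMap.fst ℂ (Fin 5 → ℂ) (Fin 4 → ℂ)).hasFDerivAt.comp_hasDerivAt τ h2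
    rw [← h3.1]
    exact this
  have hconst : ∀ τ, (γ a τ).1 = d a := fun τ => by
    have := is_const_of_deriv_eq_zero (f := fun τ => (γ a τ).1)
      (fun τ => (hd1 τ).differentiableAt) (fun τ => (hd1 τ).deriv) τ 0
    rw [this, e0]
  refine ⟨by simp only [e0]; rfl, by simp only [e0]; rfl, by simp only [e0]; exact hy0 a ha,
    fun τ => ?_, ?_⟩
  · obtain ⟨⟨-, h1, h2⟩, -⟩ := hS τ (mem_univ τ)
    exact ⟨h1, by rw [← hconst τ]; exact h2⟩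
  · obtain ⟨-, v, h2, h3⟩ := hS 0 (mem_univ 0)
    have h4 : HasDerivAt (fun τ => (γ a τ).2) v.2 0 :=
      (ContinuousLinearMap.snd ℂ (Fin 5 → ℂ) (Fin 4 → ℂ)).hasFDerivAt.comp_hasDerivAt 0 h2
    refine ⟨v.2 0, v.2 1, hasDerivAt_pi.1 h4 0, hasDerivAt_pi.1 h4 1, ?_⟩
    rw [h3.2.1, h3.2.2.1, e0]
    exact hy0 a ha

end Crest.Agent.R279
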