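import Crest.Agent.R279.Basic

/-! Row 279: quantitative inverse function lemma with holomorphic parameters -/

set_option autoImplicit false

namespace Crest.Agent.R279

open Set Metric Filter Topology

variable {E E' F : Type} [NormedAddCommGroup E] [NormedSpace ℂ E] [NormedAddCommGroup E']
  [NormedSpace ℂ E'] [NormedAddCommGroup F] [NormedSpace ℂ F] {M : Set W}

/-- a locally uniform geometric iteration of holomorphic maps has a holomorphic limit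
(`R264.SCV.weierstrass_ball`). -/
theorem hol_limit [CompleteSpace F] {D : Set E} (hD : IsOpen D) {f : ℕ → E → F} {c : ℝ}
    (hf : ∀ n, DifferentiableOn ℂ (f n) D) (hc : ∀ n, ∀ z ∈ D, ‖f (n + 1) z - f n z‖ ≤ c / 2 ^ n) :
    ∃ g : E → F, DifferentiableOn ℂ g D ∧ (∀ z ∈ D, Tendsto (fun n => f n z) atTop (𝓝 (g z))) ∧
      ∀ n, ∀ z ∈ D, ‖g z - f n z‖ ≤ 2 * c / 2 ^ n := by
  have hd : ∀ z ∈ D, ∀ n, dist (f n z) (f (n + 1) z) ≤ 2 * c / 2 / 2 ^ n := fun z hz n => by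
    rw [dist_comm, dist_eq_norm, mul_div_cancel_left₀ c two_ne_zero]
    exact hc n z hz
  have ht : ∀ z ∈ D, Tendsto (fun n => f n z) atTop (𝓝 (limUnder atTop fun n => f n z)) :=
    fun z hz => (cauchySeq_of_le_geometric_two (hd z hz)).tendsto_limUnder
  have hb : ∀ n, ∀ z ∈ D, ‖(limUnder atTop fun n => f n z) - f n z‖ ≤ 2 * c / 2 ^ n :=
    fun n z hz => by
      rw [← dist_eq_norm, dist_comm]
      exact dist_le_of_le_geometric_two_of_tendsto (hd z hz) (ht z hz) n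
  refine ⟨fun z => limUnder atTop fun n => f n z, fun x hx => ?_, ht, hb⟩
  obtain ⟨r, hr, hs⟩ := Metric.isOpen_iff.1 hD x hx
  have hu : TendstoUniformlyOn f (fun z => limUnder atTop fun n => f n z) atTop (ball x r) := by
    rw [Metric.tendstoUniformlyOn_iff]
    intro ε hε
    have h0 : Tendsto (fun n : ℕ => 2 * c / (2 : ℝ) ^ n) atTop (𝓝 0) :=
      tendsto_const_nhds.div_atTop (tendsto_pow_atTop_atTop_of_one_lt one_lt_two)
    filter_upwards [h0.eventually (gt_mem_nhds hε)] with n hn z hz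
    rw [dist_eq_norm]
    exact (hb n z (hs hz)).trans_lt hn
  exact ((R264.SCV.weierstrass_ball (Eventually.of_forall fun n => (hf n).mono hs) hu).1 x
    (mem_ball_self (half_pos hr))).differentiableWithinAt

/-- Cauchy: a family bounded by `m` at `z` on `ball 0 ρ` is `8 m / ρ`-Lipschitz on
`ball 0 (3 ρ / 4)` (`R264.SCV.norm_fderiv_le` on balls of radius `ρ / 4` + mean value). -/
theorem lip_fibre {G : Type} [NormedAddCommGroup G] [NormedSpace ℂ G] {f : F → G} {ρ m : ℝ}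
    (hf : DifferentiableOn ℂ f (ball 0 ρ)) (hm : ∀ y ∈ ball (0 : F) ρ, ‖f y‖ ≤ m) {y y' : F}
    (hy : y ∈ ball (0 : F) (3 * ρ / 4)) (hy' : y' ∈ ball (0 : F) (3 * ρ / 4)) :
    ‖f y - f y'‖ ≤ 8 * m / ρ * ‖y - y'‖ := by
  have hρ : 0 < ρ := by
    have := pos_of_mem_ball hy
    linarith
  have hs : ∀ x ∈ ball (0 : F) (3 * ρ / 4), ball x (ρ / 4) ⊆ ball (0 : F) ρ := fun x hx w hw => by
    rw [mem_ball] at hx hw ⊢
    linarith [dist_triangle w x 0]
  refine (convex_ball (0 : F) (3 * ρ / 4)).norm_image_sub_le_of_norm_fderiv_le (𝕜 := ℂ)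
    (fun x hx => hf.differentiableAt (isOpen_ball.mem_nhds (hs x hx (mem_ball_self (by linarith)))))
    (fun x hx => ?_) hy' hy
  refine (R264.SCV.norm_fderiv_le (by linarith : 0 < ρ / 4) (hf.mono (hs x hx))
    fun z hz => hm z (hs x hx hz)).trans (le_of_eq ?_)
  field_simp
  ring

/-- maps close to the identity are expanding (`β - id` is `1/2`-Lipschitz by `lip_fibre`). -/
theorem inv_expand {β : F → F} {ρ ε : ℝ} (hβ : DifferentiableOn ℂ β (ball 0 ρ))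
    (hε : 16 * ε ≤ ρ) (hb : ∀ y ∈ ball (0 : F) ρ, ‖β y - y‖ ≤ ε) {y y' : F}
    (hy : y ∈ ball (0 : F) (3 * ρ / 4)) (hy' : y' ∈ ball (0 : F) (3 * ρ / 4)) :
    ‖y - y'‖ ≤ 2 * ‖β y - β y'‖ := by
  have hρ : 0 < ρ := by
    have := pos_of_mem_ball hy
    linarith
  have h1 := lip_fibre (f := fun y => β y - y) (hβ.sub differentiableOn_id) hb hy hy'
  have h2 : 8 * ε / ρ ≤ 1 / 2 := by
    rw [div_le_iff₀ hρ]
    linarith
  have h3 := h1.trans (mul_le_mul_of_nonneg_right h2 (norm_nonneg _))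
  have h4 : y - y' = (β y - β y') - ((β y - y) - (β y' - y')) := by abel
  have h5 := norm_sub_le (β y - β y') ((β y - y) - (β y' - y'))
  rw [← h4] at h5
  linarith

theorem h97_fibre {G : Type} [NormedAddCommGroup G] [NormedSpace ℂ G] {Ψ : E → F → G} {P : Set E}
    {ρ : ℝ} (h : HolF Ψ P ρ) {z : E} (hz : z ∈ P) : DifferentiableOn ℂ (Ψ z) (ball 0 ρ) :=
  h.comp (p := fun _ => z) (y := fun y => y) (differentiableOn_const z) differentiableOn_id
    (fun _ _ => hz) fun _ hy => mem_ball_zero_iff.1 hy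

/-- **INV**.  Iterate `h₀ = 0`, `h_{n+1} = α y - y - (β - id) (y + h_n)`; `‖h_n‖ ≤ 2 ε ≤ ρ / 8`,
contraction constant `1/2`, `hol_limit` on `D ×ˢ ball 0 (ρ / 2)`; the last bound is `inv_expand`. -/
theorem inv [CompleteSpace F] {D : Set E} (hD : IsOpen D) {α β : E → F → F} {ρ ε : ℝ}
    (hα : HolF α D ρ) (hβ : HolF β D ρ) (hε : 16 * ε ≤ ρ)
    (ha : ∀ z ∈ D, ∀ y ∈ ball (0 : F) ρ, ‖α z y - y‖ ≤ ε)
    (hb : ∀ z ∈ D, ∀ y ∈ ball (0 : F) ρ, ‖β z y - y‖ ≤ ε) :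
    ∃ h : E → F → F, HolF h D (ρ / 2) ∧ ∀ z ∈ D, ∀ y ∈ ball (0 : F) (ρ / 2),
      ‖h z y‖ ≤ 2 * ε ∧ β z (y + h z y) = α z y ∧ ‖h z y‖ ≤ 2 * ‖α z y - β z y‖ := by
  let f : ℕ → E × F → F := fun n => Nat.rec (fun _ => 0)
    (fun _ g x => α x.1 x.2 - x.2 - (β x.1 (x.2 + g x) - (x.2 + g x))) n
  have f0 : ∀ x, f 0 x = 0 := fun _ => rfl
  have fs : ∀ n x, f (n + 1) x = α x.1 x.2 - x.2 - (β x.1 (x.2 + f n x) - (x.2 + f n x)) :=
    fun _ _ => rfl
  have hρ : ∀ y ∈ ball (0 : F) (ρ / 2), 0 < ρ := fun y hy => by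
    linarith [pos_of_mem_ball hy]
  have h1 : ∀ y ∈ ball (0 : F) (ρ / 2), y ∈ ball (0 : F) (3 * ρ / 4) := fun y hy =>
    ball_subset_ball (by linarith [hρ y hy]) hy
  have h2 : ∀ y ∈ ball (0 : F) (3 * ρ / 4), y ∈ ball (0 : F) ρ := fun y hy =>
    ball_subset_ball (by linarith [pos_of_mem_ball hy]) hy
  have h3 : ∀ y ∈ ball (0 : F) (ρ / 2), ∀ v : F, ‖v‖ ≤ 2 * ε → y + v ∈ ball (0 : F) (3 * ρ / 4) :=
    fun y hy v hv => by
      have := hρ y hy
      rw [mem_ball_zero_iff] at hy ⊢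
      linarith [norm_add_le y v]
  have hε0 : ∀ x ∈ D ×ˢ ball (0 : F) (ρ / 2), 0 ≤ ε := fun x hx =>
    (norm_nonneg _).trans (ha _ hx.1 _ (h2 _ (h1 _ hx.2)))
  have hbd : ∀ n, ∀ x ∈ D ×ˢ ball (0 : F) (ρ / 2), ‖f n x‖ ≤ 2 * ε := fun n x hx => by
    induction n with
    | zero => rw [f0, norm_zero]; linarith [hε0 x hx]
    | succ n ih =>
      rw [fs]
      linarith [norm_sub_le (α x.1 x.2 - x.2) (β x.1 (x.2 + f n x) - (x.2 + f n x)),
        ha _ hx.1 _ (h2 _ (h1 _ hx.2)), hb _ hx.1 _ (h2 _ (h3 _ hx.2 _ ih))]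
  have hd : ∀ n, DifferentiableOn ℂ (f n) (D ×ˢ ball (0 : F) (ρ / 2)) := fun n => by
    induction n with
    | zero => exact differentiableOn_const 0
    | succ n ih =>
      have hA : DifferentiableOn ℂ (fun x : E × F => α x.1 x.2) (D ×ˢ ball (0 : F) (ρ / 2)) :=
        DifferentiableOn.mono hα fun x hx => ⟨hx.1, h2 _ (h1 _ hx.2)⟩
      have hy : DifferentiableOn ℂ (fun x : E × F => x.2 + f n x) (D ×ˢ ball (0 : F) (ρ / 2)) :=
        differentiableOn_snd.add ih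
      exact (hA.sub differentiableOn_snd).sub ((hβ.comp differentiableOn_fst hy
        (fun x hx => hx.1) fun x hx =>
          mem_ball_zero_iff.1 (h2 _ (h3 _ hx.2 _ (hbd n x hx)))).sub hy)
  have hc : ∀ n, ∀ x ∈ D ×ˢ ball (0 : F) (ρ / 2), ‖f (n + 1) x - f n x‖ ≤ 2 * ε / 2 ^ n :=
    fun n x hx => by
      induction n with
      | zero => simpa [f0] using hbd 1 x hx
      | succ n ih =>
        have h4 := lip_fibre (f := fun y => β x.1 y - y)
          ((h97_fibre hβ hx.1).sub differentiableOn_id) (hb _ hx.1)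
          (h3 _ hx.2 _ (hbd n x hx)) (h3 _ hx.2 _ (hbd (n + 1) x hx))
        have h5 : 8 * ε / ρ ≤ 1 / 2 := by
          rw [div_le_iff₀ (hρ _ hx.2)]
          linarith
        rw [add_sub_add_left_eq_sub, norm_sub_rev (f n x)] at h4
        have h6 := mul_le_mul h5 ih (norm_nonneg _) (by norm_num)
        have e : f (n + 1 + 1) x - f (n + 1) x = β x.1 (x.2 + f n x) - (x.2 + f n x) -
            (β x.1 (x.2 + f (n + 1) x) - (x.2 + f (n + 1) x)) := by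
          rw [fs (n + 1) x]
          nth_rw 3 [fs n x]
          abel
        rw [e, pow_succ, ← div_div]
        linarith
  obtain ⟨g, hg, hlim, -⟩ := hol_limit (hD.prod isOpen_ball) hd hc
  refine ⟨fun z y => g (z, y), hg, fun z hz y hy => ?_⟩
  have hx : (z, y) ∈ D ×ˢ ball (0 : F) (ρ / 2) := ⟨hz, hy⟩
  have hgb : ‖g (z, y)‖ ≤ 2 * ε := le_of_tendsto' (hlim _ hx).norm fun n => hbd n _ hx
  have hm := h3 _ hy _ hgb
  have hcont : ContinuousAt (β z) (y + g (z, y)) :=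
    (h97_fibre hβ hz).continuousOn.continuousAt (isOpen_ball.mem_nhds (h2 _ hm))
  have ht : Tendsto (fun n => y + f n (z, y)) atTop (𝓝 (y + g (z, y))) :=
    (hlim _ hx).const_add y
  have he : g (z, y) = α z y - y - (β z (y + g (z, y)) - (y + g (z, y))) :=
    tendsto_nhds_unique ((tendsto_add_atTop_iff_nat 1).2 (hlim _ hx))
      (((hcont.tendsto.comp ht).sub ht).const_sub (α z y - y))
  have he' : β z (y + g (z, y)) = α z y := by
    have : β z (y + g (z, y)) - α z y =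
        g (z, y) - (α z y - y - (β z (y + g (z, y)) - (y + g (z, y)))) - 0 := by abel
    rw [← sub_eq_zero, this, ← he, sub_self, sub_self]
  refine ⟨hgb, he', ?_⟩
  have := inv_expand (h97_fibre hβ hz) hε (hb z hz) hm (h1 _ hy)
  rwa [add_sub_cancel_left, he'] at this

/-- **TRANSLOC**: transition between two tame families, read in a reference chart `(π, g)`.
Apply `inv` to `α = π (Ψ - g)`, `β = π (Ψ' - g)` and use `hinj`. -/
theorem transloc {D : Set E} (hD : IsOpen D) {Ψ Ψ' : E → V → W} {g : E → W}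
    {π : E → W →L[ℂ] V} {ρ r ε B : ℝ} (hΨ : HolF Ψ D ρ) (hΨ' : HolF Ψ' D ρ)
    (hg : DifferentiableOn ℂ g D) (hπ : DifferentiableOn ℂ π D) (hB : ∀ z ∈ D, ‖π z‖ ≤ B)
    (hinj : ∀ z ∈ D, ∀ m ∈ M, ∀ m' ∈ M, ‖m - g z‖ < r → ‖m' - g z‖ < r → π z m = π z m' → m = m')
    (hM : ∀ z ∈ D, ∀ y ∈ ball (0 : V) ρ, Ψ z y ∈ M ∧ Ψ' z y ∈ M)
    (hr : ∀ z ∈ D, ∀ y ∈ ball (0 : V) ρ, ‖Ψ z y - g z‖ < r ∧ ‖Ψ' z y - g z‖ < r)
    (hε : 16 * ε ≤ ρ)
    (hid : ∀ z ∈ D, ∀ y ∈ ball (0 : V) ρ,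
      ‖π z (Ψ z y - g z) - y‖ ≤ ε ∧ ‖π z (Ψ' z y - g z) - y‖ ≤ ε) :
    (∀ z ∈ D, InjOn (Ψ z) (ball 0 (3 * ρ / 4)) ∧ InjOn (Ψ' z) (ball 0 (3 * ρ / 4))) ∧
    ∃ h : E → V → V, HolF h D (ρ / 2) ∧ ∀ z ∈ D, ∀ y ∈ ball (0 : V) (ρ / 2),
      ‖h z y‖ ≤ 2 * ε ∧ Ψ' z (y + h z y) = Ψ z y ∧ ‖h z y‖ ≤ 2 * B * ‖Ψ z y - Ψ' z y‖ := by
  have hol : ∀ {Φ : E → V → W}, HolF Φ D ρ → HolF (fun z y => π z (Φ z y - g z)) D ρ :=
    fun hΦ => (hπ.comp differentiableOn_fst fun x hx => hx.1).clm_apply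
      (DifferentiableOn.sub hΦ (hg.comp differentiableOn_fst fun x hx => hx.1))
  have h2 : ∀ y ∈ ball (0 : V) (3 * ρ / 4), y ∈ ball (0 : V) ρ := fun y hy =>
    ball_subset_ball (by linarith [pos_of_mem_ball hy]) hy
  refine ⟨fun z hz => ⟨fun y hy y' hy' h => ?_, fun y hy y' hy' h => ?_⟩, ?_⟩
  · have := inv_expand (h97_fibre (hol hΨ) hz) hε (fun y hy => (hid z hz y hy).1) hy hy'
    simp only [h, sub_self, norm_zero, mul_zero] at this
    exact sub_eq_zero.1 (norm_le_zero_iff.1 this)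
  · have := inv_expand (h97_fibre (hol hΨ') hz) hε (fun y hy => (hid z hz y hy).2) hy hy'
    simp only [h, sub_self, norm_zero, mul_zero] at this
    exact sub_eq_zero.1 (norm_le_zero_iff.1 this)
  obtain ⟨h, hh, H⟩ := inv hD (hol hΨ) (hol hΨ') hε (fun z hz y hy => (hid z hz y hy).1)
    fun z hz y hy => (hid z hz y hy).2
  refine ⟨h, hh, fun z hz y hy => ?_⟩
  obtain ⟨h3, h4, h5⟩ := H z hz y hy
  have hρ := pos_of_mem_ball hy
  have hy1 : y ∈ ball (0 : V) ρ := ball_subset_ball (by linarith) hy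
  have hy2 : y + h z y ∈ ball (0 : V) ρ := by
    rw [mem_ball_zero_iff] at hy ⊢
    linarith [norm_add_le y (h z y)]
  refine ⟨h3, hinj z hz _ (hM z hz _ hy2).2 _ (hM z hz _ hy1).1 (hr z hz _ hy2).2
    (hr z hz _ hy1).1 ?_, h5.trans ?_⟩
  · simpa only [map_sub, sub_left_inj] using h4
  · rw [← map_sub, sub_sub_sub_cancel_right, mul_assoc]
    exact mul_le_mul_of_nonneg_left ((π z).le_of_opNorm_le (hB z hz) _) zero_le_two

end Crest.Agent.R279
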