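import Crest.Agent.R279.XProd

/-! Row 279, block X: Stein neighbourhoods of compact convex sets -/

set_option autoImplicit false

namespace Crest.Agent.R279

open Set Metric Filter Topology

variable {E : Type} [NormedAddCommGroup E] [NormedSpace ℂ E]

theorem slab_nhds {K O : Set E} (hK : IsCompact K) (lam : E →L[ℝ] ℝ) {a b : ℝ} (hab : a ≤ b)
    (hO : IsOpen O) (hKO : K ∩ {z | a ≤ lam z ∧ lam z ≤ b} ⊆ O) :
    ∃ η : ℝ, 0 < η ∧ ∀ z ∈ thickening η K, a - η < lam z → lam z < b + η → z ∈ O := by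
  have hW : IsOpen ({x : E × ℝ | x.2 = lam x.1}ᶜ ∪ Prod.fst ⁻¹' O) :=
    (isClosed_eq continuous_snd (by fun_prop)).isOpen_compl.union (hO.preimage continuous_fst)
  obtain ⟨η, hη, h⟩ := (hK.prod (isCompact_Icc (a := a) (b := b))).exists_thickening_subset_open hW
    (fun x hx => by
      by_cases he : x.2 = lam x.1
      · exact Or.inr (hKO ⟨hx.1, he ▸ hx.2.1, he ▸ hx.2.2⟩)
      · exact Or.inl he)
  refine ⟨η, hη, fun z hz h1 h2 => ?_⟩
  obtain ⟨k, hk, hd⟩ := mem_thickening_iff.1 hz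
  have : (z, lam z) ∈ thickening η (K ×ˢ Icc a b) := by
    refine mem_thickening_iff.2 ⟨(k, max a (min b (lam z))),
      ⟨hk, le_max_left _ _, max_le hab (min_le_left _ _)⟩, ?_⟩
    rw [Prod.dist_eq]
    refine max_lt hd ?_
    rw [Real.dist_eq, abs_lt]
    rcases le_total b (lam z) with h3 | h3
    · rw [min_eq_left h3, max_eq_right hab]; constructor <;> linarith
    · rw [min_eq_right h3]
      rcases le_total a (lam z) with h4 | h4
      · rw [max_eq_right h4]; constructor <;> linarith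
      · rw [max_eq_left h4]; constructor <;> linarith
  exact (h this).resolve_left fun h' => h' rfl

theorem exists_St_nhds [FiniteDimensional ℂ E] {K U : Set E} (hK : IsCompact K) (hc : Convex ℝ K)
    (hU : IsOpen U) (hKU : K ⊆ U) :
    ∃ Λ : Set E, St Λ ∧ Bornology.IsBounded Λ ∧ K ⊆ Λ ∧ Λ ⊆ U := by
  have := FiniteDimensional.proper ℂ E
  let e := (Module.finBasis ℂ E).equivFunL
  obtain ⟨R, hR0, hR⟩ := (hK.image e.continuous).isBounded.subset_ball_lt 0 0
  set Λ₀ : Set E := {z ∈ univ | ∀ i, ‖e z i‖ < R} with hΛ₀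
  have h0 : St Λ₀ := St.univ.forall_norm_lt (f := fun i z => e z i)
    (fun i => by fun_prop) fun _ => R
  have hb : Bornology.IsBounded Λ₀ := by
    refine ((e.symm : (Fin (Module.finrank ℂ E) → ℂ) →L[ℂ] E).lipschitz.isBounded_image
      (isBounded_ball (x := 0) (r := R))).subset fun z hz => ⟨e z, ?_, by simp⟩
    rw [mem_ball_zero_iff, pi_norm_lt_iff hR0]
    exact hz.2
  have hS : IsCompact (closure Λ₀ \ U) := hb.isCompact_closure.diff hU
  have hsep : ∀ x : ↥(closure Λ₀ \ U), ∃ (f : StrongDual ℂ E) (u : ℝ),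
      (∀ a ∈ K, (f a).re < u) ∧ u < (f x).re := fun x =>
    RCLike.geometric_hahn_banach_closed_point (𝕜 := ℂ) hc hK.isClosed fun h => x.2.2 (hKU h)
  choose f u h1 h2 using hsep
  obtain ⟨t, ht⟩ := hS.elim_finite_subcover (fun x => {z | u x < (f x z).re})
    (fun x => isOpen_lt continuous_const (by fun_prop)) fun x hx => mem_iUnion.2 ⟨⟨x, hx⟩, h2 _⟩
  refine ⟨{z ∈ Λ₀ | ∀ j : t, 0 < ((u j : ℂ) - f j z).re},
    h0.forall_re_pos (g := fun (j : t) z => (u j : ℂ) - f j z) fun j => by fun_prop,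
    hb.subset fun z hz => hz.1, fun z hz => ⟨⟨trivial, fun i => ?_⟩, fun j => ?_⟩,
    fun z hz => by_contra fun hn => ?_⟩
  · exact (norm_le_pi_norm (e z) i).trans_lt (mem_ball_zero_iff.1 (hR ⟨z, hz, rfl⟩))
  · simpa using h1 j z hz
  · obtain ⟨j, hj, hz'⟩ := mem_iUnion₂.1 (ht ⟨subset_closure hz.1, hn⟩)
    have h3 := hz.2 ⟨j, hj⟩
    simp only [Complex.sub_re, Complex.ofReal_re, sub_pos] at h3
    exact lt_asymm h3 hz'

end Crest.Agent.R279
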