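import Crest.Agent.R279.XG2
import Crest.Agent.R279.XNb

/-! Row 279: splitting on convex pairs in several variables -/

set_option autoImplicit false

namespace Crest.Agent.R279

open Set Metric Filter Topology

variable {E E' F : Type} [NormedAddCommGroup E] [NormedSpace ℂ E] [NormedAddCommGroup E']
  [NormedSpace ℂ E'] [NormedAddCommGroup F] [NormedSpace ℂ F] {M : Set W}

/-- **G2** (codimension one extension of the transition to `Λ × strip`, then `G1_fixed`, then
restriction to the graph of `ℓ`, `lam = Re ℓ`). -/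
theorem G2 [FiniteDimensional ℂ E] {K O : Set E} (hK : IsCompact K) (hKc : Convex ℝ K)
    (lam : E →L[ℝ] ℝ) {a b ρ : ℝ} (hab : a < b) (hO : IsOpen O)
    (hKO : K ∩ {z | a ≤ lam z ∧ lam z ≤ b} ⊆ O) (hρ : 0 < ρ) :
    ∃ (A B : Set E) (δ : ℝ), IsOpen A ∧ IsOpen B ∧ K ∩ {z | lam z ≤ b} ⊆ A ∧
      K ∩ {z | a ≤ lam z} ⊆ B ∧ A ∩ B ⊆ O ∧ 0 < δ ∧ δ ≤ ρ / 2 ∧
      ∀ κ : ℝ, 0 < κ → ∃ ε : ℝ, 0 < ε ∧ ∀ h : E → V → V, HolF h O ρ →
        (∀ z ∈ O, ∀ y ∈ ball (0 : V) ρ, ‖h z y‖ ≤ ε) → ∃ a' b', Split A B h δ κ a' b' := by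
  obtain ⟨η, hη, hsl⟩ := slab_nhds hK lam hab.le hO hKO
  obtain ⟨Λ, hΛ, hΛb, hKΛ, hΛU⟩ := exists_St_nhds hK hKc isOpen_thickening
    (self_subset_thickening hη K)
  obtain ⟨r, hr, hrΛ⟩ := hK.exists_cthickening_subset_open hΛ.isOpen hKΛ
  let l₀ : StrongDual ℂ E := StrongDual.extendRCLike (𝕜 := ℂ) lam
  let l : E → ℂ := fun z => Complex.I * l₀ z
  have hl : Differentiable ℂ l := by fun_prop
  have him : ∀ z, (l z).im = lam z := fun z => by
    have : (l₀ z).re = lam z := StrongDual.re_extendRCLike_apply (𝕜 := ℂ) lam z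
    simp only [l, Complex.I_mul_im, this]
  obtain ⟨C, hC, h⟩ := G2cut (Λ' := thickening r K) hΛ hΛb isOpen_thickening
    ((closure_thickening_subset_cthickening r K).trans hrΛ) hl
    (a' := a - η) (a := a - η / 2) (b := b + η / 2) (b' := b + η) (by linarith) (by linarith)
    (by linarith) hρ
  have hsub : Λ ∩ {z | a - η < (l z).im ∧ (l z).im < b + η} ⊆ O := fun z hz =>
    hsl z (hΛU hz.1) (by simpa [him] using hz.2.1) (by simpa [him] using hz.2.2)
  have hlc : Continuous fun z => (l z).im := Complex.continuous_im.comp hl.continuous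
  refine ⟨thickening r K ∩ {z | (l z).im < b + η / 2}, thickening r K ∩ {z | a - η / 2 < (l z).im},
    ρ / 4, isOpen_thickening.inter (isOpen_lt hlc continuous_const),
    isOpen_thickening.inter (isOpen_lt continuous_const hlc), fun z hz => ⟨?_, ?_⟩,
    fun z hz => ⟨?_, ?_⟩, fun z hz => hsub ⟨?_, ?_, ?_⟩, by positivity, by linarith,
    fun κ hκ => ⟨min κ ρ / C, by have := lt_min hκ hρ; positivity, fun t ht hb => ?_⟩⟩
  · exact self_subset_thickening hr K hz.1
  · have : lam z ≤ b := hz.2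
    change (l z).im < _
    rw [him]; linarith
  · exact self_subset_thickening hr K hz.1
  · have : a ≤ lam z := hz.2
    change _ < (l z).im
    rw [him]; linarith
  · exact hrΛ (thickening_subset_cthickening r K hz.1.1)
  · have : a - η / 2 < (l z).im := hz.2.2
    linarith
  · have : (l z).im < b + η / 2 := hz.1.2
    linarith
  · have hC0 : 0 < C := by linarith
    have e1 : C * (min κ ρ / C) = min κ ρ := by field_simp
    obtain ⟨α, β, hs⟩ := h t (min κ ρ / C) (by have := lt_min hκ hρ; positivity)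
      (by rw [e1]; exact min_le_right _ _) (ht.mono hsub le_rfl) fun z hz => hb z (hsub hz)
    exact ⟨α, β, hs.mono Subset.rfl Subset.rfl le_rfl (by rw [e1]; exact min_le_left _ _)⟩

/-- additive Cousin problem (`G2` with `h z y = t c z e₀`, `t` small, after shrinking `O`). -/
theorem cousin [FiniteDimensional ℂ E] {K O : Set E} (hK : IsCompact K) (hKc : Convex ℝ K)
    (lam : E →L[ℝ] ℝ) {a b : ℝ} (hab : a < b) (hO : IsOpen O)
    (hKO : K ∩ {z | a ≤ lam z ∧ lam z ≤ b} ⊆ O) :
    ∃ A B : Set E, IsOpen A ∧ IsOpen B ∧ K ∩ {z | lam z ≤ b} ⊆ A ∧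
      K ∩ {z | a ≤ lam z} ⊆ B ∧ A ∩ B ⊆ O ∧ ∀ c : E → ℂ, DifferentiableOn ℂ c O →
        ∃ α β : E → ℂ, DifferentiableOn ℂ α A ∧ DifferentiableOn ℂ β B ∧
          ∀ z ∈ A ∩ B, α z - β z = c z := by
  have := FiniteDimensional.proper ℂ E
  have hK' : IsCompact (K ∩ {z | a ≤ lam z ∧ lam z ≤ b}) :=
    hK.inter_right ((isClosed_le continuous_const lam.continuous).inter
      (isClosed_le lam.continuous continuous_const))
  obtain ⟨r, hr, hrO⟩ := hK'.exists_cthickening_subset_open hO hKO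
  obtain ⟨A, B, δ, oA, oB, kA, kB, hAB, hδ, -, h⟩ := G2 hK hKc lam hab isOpen_thickening
    (self_subset_thickening hr _) one_pos
  have hO' := (thickening_subset_cthickening r _).trans hrO
  refine ⟨A, B, oA, oB, kA, kB, hAB.trans hO', fun c hc => ?_⟩
  obtain ⟨ε, hε, h⟩ := h 1 one_pos
  obtain ⟨N, hN⟩ := (hK'.cthickening (r := r)).exists_bound_of_continuousOn
    (hc.continuousOn.mono hrO)
  have hN1 : 0 < max N 1 := lt_of_lt_of_le one_pos (le_max_right _ _)
  set t : ℝ := ε / max N 1 with ht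
  have ht0 : 0 < t := by positivity
  obtain ⟨α, β, hs⟩ := h (fun z _ _ => (t : ℂ) * c z) (differentiableOn_pi.2 fun _ =>
    ((hc.mono hO').comp differentiableOn_fst fun x hx => hx.1).const_mul _) (by
      intro z hz y _
      refine (pi_norm_le_iff_of_nonneg hε.le).2 fun _ => ?_
      rw [norm_mul, Complex.norm_real, Real.norm_of_nonneg ht0.le, ht, div_mul_eq_mul_div,
        div_le_iff₀ hN1]
      exact mul_le_mul_of_nonneg_left
        ((hN z (thickening_subset_cthickening r _ hz)).trans (le_max_left _ _)) hε.le)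
  have h0 : (0 : V) ∈ ball (0 : V) δ := mem_ball_self hδ
  have hd : ∀ {S : Set E} {f : E → V → V}, HolF f S δ →
      DifferentiableOn ℂ (fun z => (t : ℂ)⁻¹ * f z 0 0) S := fun {S f} hf => by
    have h1 : DifferentiableOn ℂ (fun z => f z 0) S :=
      hf.comp differentiableOn_id (differentiableOn_const 0) (mapsTo_id S) fun _ _ => by simpa
    exact (differentiableOn_pi.1 h1 0).const_mul _
  refine ⟨_, _, hd hs.hola, hd hs.holb, fun z hz => ?_⟩
  have h1 := congrFun (hs.eq z hz.1 hz.2 0 h0) 0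
  simp only [zero_add, Pi.add_apply, Pi.zero_apply] at h1
  have h2 : (t : ℂ) ≠ 0 := by exact_mod_cast ht0.ne'
  rw [h1]
  field_simp
  ring

end Crest.Agent.R279
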