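import Crest.Agent.R279.LiftA
import Crest.Agent.R279.G2
import Crest.Prelude.Def_ProjHolo

/-! Row 279: lifting to the cone -/

set_option autoImplicit false

namespace Crest.Agent.R279

open Set Metric Filter Topology

variable {E E' F : Type} [NormedAddCommGroup E] [NormedSpace ℂ E] [NormedAddCommGroup E']
  [NormedSpace ℂ E'] [NormedAddCommGroup F] [NormedSpace ℂ F] {M : Set W}

open Crest.AlgGeometry

theorem h97_ratio {O : Set E} (hO : IsOpen O) {g₁ g₂ : E → V} (h₁ : DifferentiableOn ℂ g₁ O)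
    (h₂ : DifferentiableOn ℂ g₂ O) (h0 : ∀ z ∈ O, g₂ z ≠ 0) {u : E → ℂ}
    (hu : ∀ z ∈ O, u z • g₂ z = g₁ z) : DifferentiableOn ℂ u O := by
  intro z hz
  obtain ⟨i, hi⟩ := Function.ne_iff.1 (h0 z hz)
  have d₁ : DifferentiableAt ℂ (fun w => g₁ w i) z :=
    differentiableAt_pi.1 (h₁.differentiableAt (hO.mem_nhds hz)) i
  have d₂ : DifferentiableAt ℂ (fun w => g₂ w i) z :=
    differentiableAt_pi.1 (h₂.differentiableAt (hO.mem_nhds hz)) i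
  have d₃ : DifferentiableAt ℂ (fun w => g₁ w i * (g₂ w i)⁻¹) z := d₁.mul (d₂.inv hi)
  refine (d₃.congr_of_eventuallyEq ?_).differentiableWithinAt
  filter_upwards [hO.mem_nhds hz, d₂.continuousAt.eventually_ne hi] with w hw hw'
  rw [eq_mul_inv_iff_mul_eq₀ hw', ← hu w hw]
  rfl

theorem h97_mk_smul {v : V} (hv : v ≠ 0) {c : ℂ} (hc : c ≠ 0) :
    ∃ h : c • v ≠ 0, Projectivization.mk ℂ v hv = Projectivization.mk ℂ (c • v) h :=
  ⟨smul_ne_zero hc hv, ((Projectivization.mk_eq_mk_iff' ℂ _ _ _ hv).2 ⟨c, rfl⟩).symm⟩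

/-- **LIFT** (`cut_induction`, `hol_log`, `cousin`). -/
theorem lift {m : ℕ} {K U : Set (Fin m → ℂ)} (hK : IsCompact K) (hKc : Convex ℝ K) (hU : IsOpen U)
    (hKU : K ⊆ U) {f : (Fin m → ℂ) → Projectivization ℂ (Fin 4 → ℂ)} (hf : ProjHolomorphicOn f U) :
    ∃ (U' : Set (Fin m → ℂ)) (g : (Fin m → ℂ) → V), IsOpen U' ∧ K ⊆ U' ∧ U' ⊆ U ∧
      DifferentiableOn ℂ g U' ∧ ∀ z ∈ U', ∃ h : g z ≠ 0, f z = Projectivization.mk ℂ (g z) h := by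
  refine cut_induction (Pr := fun K => ∃ (U' : Set (Fin m → ℂ)) (g : (Fin m → ℂ) → V),
    IsOpen U' ∧ K ⊆ U' ∧ U' ⊆ U ∧ DifferentiableOn ℂ g U' ∧
      ∀ z ∈ U', ∃ h : g z ≠ 0, f z = Projectivization.mk ℂ (g z) h) hK hKc (fun z hz => ?_)
    ⟨∅, 0, isOpen_empty, Subset.rfl, empty_subset _, differentiableOn_empty, by simp⟩ ?_
  · obtain ⟨O, hO, hzO, g, hg, h⟩ := hf z (hKU hz)
    obtain ⟨r, hr, hb⟩ := Metric.isOpen_iff.1 hO z hzO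
    exact ⟨r, hr, fun K' hK' _ _ => ⟨O ∩ U, g, hO.inter hU,
      fun w hw => ⟨hb (hK' hw).2, hKU (hK' hw).1⟩, inter_subset_right, hg.mono inter_subset_left,
      fun w hw => h w hw.1⟩⟩
  rintro K' - hK' hKc' lam a b hab ⟨U₁, g₁, o₁, k₁, s₁, d₁, e₁⟩ ⟨U₂, g₂, o₂, k₂, s₂, d₂, e₂⟩
  have hu : ∀ z ∈ U₁ ∩ U₂, ∃ c : ℂ, c • g₂ z = g₁ z := fun z hz => by
    obtain ⟨h₁, e₁⟩ := e₁ z hz.1
    obtain ⟨h₂, e₂⟩ := e₂ z hz.2
    exact (Projectivization.mk_eq_mk_iff' ℂ _ _ h₁ h₂).1 (e₁.symm.trans e₂)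
  choose! u hu using hu
  obtain ⟨hs, hsc⟩ := slab_compact_convex hK' hKc' lam a b
  obtain ⟨O, l, hO, hKO, hOU, hl, hlu⟩ := hol_log hs hsc (o₁.inter o₂)
    (fun z hz => ⟨k₁ ⟨hz.1, hz.2.2⟩, k₂ ⟨hz.1, hz.2.1⟩⟩)
    (h97_ratio (o₁.inter o₂) (d₁.mono inter_subset_left) (d₂.mono inter_subset_right)
      (fun z hz => (e₂ z hz.2).1) hu)
    fun z hz h0 => (e₁ z hz.1).1 (by rw [← hu z hz, h0, zero_smul])
  obtain ⟨A, B, hA, hB, kA, kB, hAB, H⟩ := cousin hK' hKc' lam hab hO hKO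
  obtain ⟨α, β, hα, hβ, hαβ⟩ := H l hl
  obtain ⟨g, hg, gA, gB⟩ := glue2 (hA.inter o₁) (hB.inter o₂)
    (f := fun z => Complex.exp (-α z) • g₁ z) (g := fun z => Complex.exp (-β z) • g₂ z)
    ((hα.mono inter_subset_left).neg.cexp.smul (d₁.mono inter_subset_right))
    ((hβ.mono inter_subset_left).neg.cexp.smul (d₂.mono inter_subset_right)) fun z hz hz' => by
      rw [← hu z ⟨hz.2, hz'.2⟩, ← hlu z (hAB ⟨hz.1, hz'.1⟩), ← hαβ z ⟨hz.1, hz'.1⟩, smul_smul,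
        ← Complex.exp_add]
      congr 2
      ring
  refine ⟨_, g, (hA.inter o₁).union (hB.inter o₂), fun z hz => ?_,
    union_subset (inter_subset_right.trans s₁) (inter_subset_right.trans s₂), hg, ?_⟩
  · rcases le_total (lam z) b with h | h
    · exact Or.inl ⟨kA ⟨hz, h⟩, k₁ ⟨hz, h⟩⟩
    · exact Or.inr ⟨kB ⟨hz, hab.le.trans h⟩, k₂ ⟨hz, hab.le.trans h⟩⟩
  · rintro z (hz | hz)
    · obtain ⟨h, e⟩ := e₁ z hz.2
      rw [gA z hz, e]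
      exact h97_mk_smul h (Complex.exp_ne_zero _)
    · obtain ⟨h, e⟩ := e₂ z hz.2
      rw [gB z hz, e]
      exact h97_mk_smul h (Complex.exp_ne_zero _)

end Crest.Agent.R279
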