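import Crest.Agent.R279.LiftA
import Crest.Agent.R279.LiftB
import Crest.Agent.R279.Inv

/-! Row 279, flows: lifting a family of entire curves to `ℂ⁴ ∖ 0` -/

set_option autoImplicit false

namespace Crest.Agent.R279

open Set Metric Filter Topology

/-- `N` is a multiple of `N₁` (resp. `N₂`) wherever that vector is non-zero. -/
def Par2 (N N₁ N₂ : V) : Prop :=
  N ≠ 0 ∧ (N₁ ≠ 0 → ∃ c : ℂ, N = c • N₁) ∧ (N₂ ≠ 0 → ∃ c : ℂ, N = c • N₂)

theorem runge_tau {E : Type} [NormedAddCommGroup E] [NormedSpace ℂ E] [FiniteDimensional ℂ E]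
    {P : Set E} (hP : IsOpen P) {l : E × ℂ → ℂ} {R ρ M ε : ℝ} (hR : 0 < R) (hρ : R < ρ)
    (hε : 0 < ε) (hl : DifferentiableOn ℂ l (P ×ˢ ball 0 ρ)) (hM : ∀ x ∈ P ×ˢ ball (0 : ℂ) ρ, ‖l x‖ ≤ M) :
    ∃ h : E × ℂ → ℂ, DifferentiableOn ℂ h (P ×ˢ univ) ∧
      ∀ x ∈ P ×ˢ ball (0 : ℂ) R, ‖l x - h x‖ ≤ ε := by
  obtain ⟨ρ', h1, h2⟩ := exists_between hρ
  have hρ' : 0 < ρ' := hR.trans h1
  have hρ0 : 0 < ρ := hρ'.trans h2
  have hs : IsOpen (P ×ˢ ball (0 : ℂ) ρ) := hP.prod isOpen_ball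
  set q : ℝ := R / ρ' with hq
  have hq0 : 0 ≤ q := by positivity
  have hq1 : q < 1 := (div_lt_one hρ').2 h1
  have ht : Tendsto (fun n : ℕ => |M| * q ^ n / (1 - q)) atTop (𝓝 0) := by
    have := ((tendsto_pow_atTop_nhds_zero_of_lt_one hq0 hq1).const_mul |M|).div_const (1 - q)
    simpa using this
  obtain ⟨n, hn⟩ := (ht.eventually (ge_mem_nhds hε)).exists
  set c : ℕ → E → ℂ := fun k a => iteratedFDeriv ℂ k l (a, 0) (fun _ => ((0 : E), (1 : ℂ))) with hc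
  have hcd : ∀ k, ∀ a ∈ P, DifferentiableAt ℂ (c k) a := by
    intro k a ha
    have hx : ((a, 0) : E × ℂ) ∈ P ×ˢ ball (0 : ℂ) ρ := ⟨ha, mem_ball_self hρ0⟩
    have h3 := R264.SCV.differentiableAt_iteratedFDeriv hs hl k hx
    have h4 : DifferentiableAt ℂ (fun a : E => ((a, 0) : E × ℂ)) a := by fun_prop
    have h5 := DifferentiableAt.comp (g := iteratedFDeriv ℂ k l) a h3 h4
    exact h5.continuousMultilinear_apply_const _
  refine ⟨fun x => ∑ k ∈ Finset.range n, ((k.factorial : ℂ))⁻¹ • (x.2 - 0) ^ k • c k x.1, ?_, ?_⟩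
  · intro x hx
    refine DifferentiableAt.differentiableWithinAt ?_
    refine DifferentiableAt.fun_sum fun k _ => ?_
    have h6 : DifferentiableAt ℂ (fun x : E × ℂ => c k x.1) x :=
      DifferentiableAt.comp (g := c k) x (hcd k x.1 hx.1) differentiableAt_fst
    have h7 : DifferentiableAt ℂ (fun x : E × ℂ => (x.2 - 0) ^ k) x := by fun_prop
    exact (h7.smul h6).const_smul ((k.factorial : ℂ))⁻¹
  · rintro ⟨a, z⟩ ⟨ha, hz⟩
    set g : ℂ → ℂ := fun w => l ((a, 0) + w • ((0 : E), (1 : ℂ))) with hg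
    have hpt : ∀ w : ℂ, ((a, 0) : E × ℂ) + w • ((0 : E), (1 : ℂ)) = (a, w) := by
      intro w; simp
    have hgd : DifferentiableOn ℂ g (ball 0 ρ) := by
      intro w hw
      have hx : ((a, 0) : E × ℂ) + w • ((0 : E), (1 : ℂ)) ∈ P ×ˢ ball (0 : ℂ) ρ := by
        rw [hpt]; exact ⟨ha, hw⟩
      have h7 := hl.differentiableAt (hs.mem_nhds hx)
      have h8 : DifferentiableAt ℂ (fun w : ℂ => ((a, 0) : E × ℂ) + w • ((0 : E), (1 : ℂ))) w := by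
        fun_prop
      exact (DifferentiableAt.comp (g := l) w h7 h8).differentiableWithinAt
    have hid : ∀ k, iteratedDeriv k g 0 = c k a := by
      intro k
      have hx : ((a, 0) : E × ℂ) + (0 : ℂ) • ((0 : E), (1 : ℂ)) ∈ P ×ˢ ball (0 : ℂ) ρ := by
        rw [hpt]; exact ⟨ha, mem_ball_self hρ0⟩
      rw [hg, R264.SCV.iteratedDeriv_line hs hl (a, 0) ((0 : E), (1 : ℂ)) k 0 hx, hpt]
    have hzρ : z ∈ ball (0 : ℂ) ρ := ball_subset_ball hρ.le hz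
    have hsum := Complex.hasSum_taylorSeries_on_ball hgd hzρ
    have hcl : DiffContOnCl ℂ g (ball 0 ρ') := by
      refine DifferentiableOn.diffContOnCl ?_
      rw [closure_ball _ hρ'.ne']
      exact hgd.mono (closedBall_subset_ball h2)
    have hb : ∀ k : ℕ, ‖((k.factorial : ℂ))⁻¹ • (z - 0) ^ k • iteratedDeriv k g 0‖ ≤ |M| * q ^ k := by
      intro k
      have h9 := Complex.norm_iteratedDeriv_le_of_forall_mem_sphere_norm_le (C := |M|) k hρ' hcl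
        (fun w hw => by
          have hx : ((a, 0) : E × ℂ) + w • ((0 : E), (1 : ℂ)) ∈ P ×ˢ ball (0 : ℂ) ρ := by
            rw [hpt]; exact ⟨ha, closedBall_subset_ball h2 (sphere_subset_closedBall hw)⟩
          exact (hM _ hx).trans (le_abs_self M))
      have hzR : ‖z‖ ≤ R := by simpa using (mem_ball_zero_iff.1 hz).le
      have hf : (0 : ℝ) < k.factorial := by exact_mod_cast k.factorial_pos
      rw [norm_smul, norm_smul, norm_inv, norm_pow, sub_zero, Complex.norm_natCast]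
      calc (k.factorial : ℝ)⁻¹ * (‖z‖ ^ k * ‖iteratedDeriv k g 0‖)
          ≤ (k.factorial : ℝ)⁻¹ * (R ^ k * (k.factorial * |M| / ρ' ^ k)) := by gcongr
        _ = |M| * q ^ k := by rw [hq, div_pow]; field_simp
    have hfin := norm_sub_le_of_geometric_bound_of_hasSum hq1 hb hsum n
    have hgz : g z = l (a, z) := by simp only [hg, hpt]
    rw [norm_sub_rev]
    simp only [hid, hgz] at hfin
    exact hfin.trans hn

/-- `lift`, transported along `V × ℂ ≃L (Fin 5 → ℂ)`. -/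
theorem lift_cpt {K U : Set (V × ℂ)} (hK : IsCompact K) (hKc : Convex ℝ K) (hU : IsOpen U)
    (hKU : K ⊆ U) {N₁ N₂ : V × ℂ → V} (h₁ : DifferentiableOn ℂ N₁ U) (h₂ : DifferentiableOn ℂ N₂ U)
    (hne : ∀ x ∈ U, N₁ x ≠ 0 ∨ N₂ x ≠ 0) (hpar : ∀ x ∈ U, ∀ i j, N₁ x i * N₂ x j = N₁ x j * N₂ x i) :
    ∃ (U' : Set (V × ℂ)) (N : V × ℂ → V), IsOpen U' ∧ K ⊆ U' ∧ U' ⊆ U ∧ DifferentiableOn ℂ N U' ∧
      ∀ x ∈ U', Par2 (N x) (N₁ x) (N₂ x) := by
  classical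
  let e : (Fin 5 → ℂ) ≃L[ℂ] V × ℂ := ContinuousLinearEquiv.ofFinrankEq (by simp)
  have h1 : (fun _ => 1 : V) ≠ 0 := fun h => one_ne_zero (congrFun h 0)
  obtain ⟨f, hf₁, hf₂⟩ : ∃ f : V × ℂ → Projectivization ℂ V,
      (∀ x (h : N₁ x ≠ 0), f x = Projectivization.mk ℂ (N₁ x) h) ∧
      ∀ x ∈ U, ∀ h : N₂ x ≠ 0, f x = Projectivization.mk ℂ (N₂ x) h := by
    refine ⟨fun x => if h : N₁ x ≠ 0 then Projectivization.mk ℂ (N₁ x) h else
      if h' : N₂ x ≠ 0 then Projectivization.mk ℂ (N₂ x) h' else Projectivization.mk ℂ _ h1,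
      fun x h => dif_pos h, fun x hx h => ?_⟩
    by_cases h' : N₁ x ≠ 0
    · simp only [dif_pos h']
      obtain ⟨j, hj⟩ := Function.ne_iff.1 h
      have hj' : N₂ x j ≠ 0 := hj
      refine (Projectivization.mk_eq_mk_iff' ℂ _ _ h' h).2 ⟨N₁ x j / N₂ x j, funext fun i => ?_⟩
      rw [Pi.smul_apply, smul_eq_mul, div_mul_eq_mul_div, ← hpar x hx i j,
        mul_div_cancel_right₀ _ hj']
    · simp only [dif_neg h', dif_pos h]
  have hU' : IsOpen (e ⁻¹' U) := hU.preimage e.continuous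
  have hd : ∀ {N : V × ℂ → V}, DifferentiableOn ℂ N U →
      DifferentiableOn ℂ (fun z => N (e z)) (e ⁻¹' U) := fun hN =>
    hN.comp e.differentiableOn fun z hz => hz
  have ho : ∀ {N : V × ℂ → V}, DifferentiableOn ℂ N U →
      IsOpen (e ⁻¹' U ∩ (fun z => N (e z)) ⁻¹' {0}ᶜ) := fun hN =>
    (hd hN).continuousOn.isOpen_inter_preimage hU' isOpen_compl_singleton
  obtain ⟨U', g, o, k, s, d, hg⟩ := lift (K := e ⁻¹' K) (U := e ⁻¹' U) (f := fun z => f (e z))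
    (e.toHomeomorph.isCompact_preimage.2 hK)
    (hKc.linear_preimage ((e : (Fin 5 → ℂ) →L[ℂ] V × ℂ).restrictScalars ℝ).toLinearMap) hU'
    (preimage_mono hKU) (by
      intro z hz
      rcases hne _ hz with h | h
      · exact ⟨_, ho h₁, ⟨hz, h⟩, fun z => N₁ (e z), (hd h₁).mono inter_subset_left,
          fun w hw => ⟨hw.2, hf₁ _ hw.2⟩⟩
      · exact ⟨_, ho h₂, ⟨hz, h⟩, fun z => N₂ (e z), (hd h₂).mono inter_subset_left,
          fun w hw => ⟨hw.2, hf₂ _ hw.1 hw.2⟩⟩)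
  have hs : e.symm ⁻¹' U' ⊆ U := fun x hx => by simpa using s hx
  refine ⟨e.symm ⁻¹' U', fun x => g (e.symm x), o.preimage e.symm.continuous,
    fun x hx => k (by simpa using hx), hs, d.comp e.symm.differentiableOn fun z hz => hz,
    fun x hx => ?_⟩
  obtain ⟨h0, h⟩ := hg _ hx
  simp only [ContinuousLinearEquiv.apply_symm_apply] at h
  refine ⟨h0, fun h' => ?_, fun h' => ?_⟩
  · obtain ⟨c, hc⟩ := (Projectivization.mk_eq_mk_iff' ℂ _ _ h0 h').1 (h.symm.trans (hf₁ x h'))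
    exact ⟨c, hc.symm⟩
  · obtain ⟨c, hc⟩ := (Projectivization.mk_eq_mk_iff' ℂ _ _ h0 h').1
      (h.symm.trans (hf₂ x (hs hx) h'))
    exact ⟨c, hc.symm⟩

/-- two proportional nowhere vanishing maps differ by a holomorphic unit. -/
theorem unit_of_par {E : Type} [NormedAddCommGroup E] [NormedSpace ℂ E] {U : Set E} (hU : IsOpen U)
    {N N' : E → V} (h : DifferentiableOn ℂ N U) (h' : DifferentiableOn ℂ N' U)
    (hne : ∀ x ∈ U, N x ≠ 0) (hne' : ∀ x ∈ U, N' x ≠ 0) (hp : ∀ x ∈ U, ∃ c : ℂ, N' x = c • N x) :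
    ∃ u : E → ℂ, DifferentiableOn ℂ u U ∧ ∀ x ∈ U, u x ≠ 0 ∧ N' x = u x • N x := by
  choose! u hu using hp
  refine ⟨u, h97_ratio hU h' h hne fun z hz => (hu z hz).symm, fun x hx => ⟨fun h0 => ?_, hu x hx⟩⟩
  exact hne' x hx (by rw [hu x hx, h0, zero_smul])

/-- one step of the exhaustion, `K n = closedBall a r ×ˢ closedBall 0 (n + 1)`. -/
theorem lift_step {a : V} {r : ℝ} {n : ℕ} {U U' : Set (V × ℂ)} (hU : IsOpen U) (hU' : IsOpen U')
    {N N' : V × ℂ → V} (hK : closedBall a r ×ˢ closedBall (0 : ℂ) (n + 1) ⊆ U ∩ U')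
    (h : DifferentiableOn ℂ N U) (h' : DifferentiableOn ℂ N' U')
    (hne : ∀ x ∈ U, N x ≠ 0) (hne' : ∀ x ∈ U', N' x ≠ 0)
    (hp : ∀ x ∈ U, x ∈ U' → ∃ c : ℂ, N' x = c • N x) :
    ∃ l : V × ℂ → ℂ, DifferentiableOn ℂ l (ball a r ×ˢ ball 0 (n + 1)) ∧
      (∀ x ∈ ball a r ×ˢ ball (0 : ℂ) (n + 1), N' x = Complex.exp (l x) • N x) ∧
      ∃ M, ∀ x ∈ ball a r ×ˢ ball (0 : ℂ) (n + 1), ‖l x‖ ≤ M := by
  obtain ⟨u, hu, hu'⟩ := unit_of_par (hU.inter hU') (h.mono inter_subset_left)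
    (h'.mono inter_subset_right) (fun x hx => hne x hx.1) (fun x hx => hne' x hx.2)
    (fun x hx => hp x hx.1 hx.2)
  have hc : IsCompact (closedBall a r ×ˢ closedBall (0 : ℂ) (n + 1)) :=
    (isCompact_closedBall a r).prod (isCompact_closedBall 0 _)
  obtain ⟨O', l, -, hKO, hO', hl, he⟩ := hol_log hc
    ((convex_closedBall a r).prod (convex_closedBall 0 _)) (hU.inter hU') hK hu
    fun x hx => (hu' x hx).1
  have hsub : ball a r ×ˢ ball (0 : ℂ) (n + 1) ⊆ closedBall a r ×ˢ closedBall (0 : ℂ) (n + 1) :=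
    prod_mono ball_subset_closedBall ball_subset_closedBall
  obtain ⟨M, hM⟩ := hc.exists_bound_of_continuousOn (hl.continuousOn.mono hKO)
  refine ⟨l, hl.mono (hsub.trans hKO), fun x hx => ?_, M, fun x hx => hM x (hsub hx)⟩
  rw [he x (hKO (hsub hx))]
  exact (hu' x (hK (hsub hx))).2

/-- Mittag-Leffler: `N n` on `ball a r ×ˢ ball 0 (n + 1)`, `N (n + 1) = exp (l n) • N n`.  With
`h n` from `runge_tau` (`‖l n - h n‖ ≤ 2⁻ⁿ` on `ball 0 (n + 1 / 2)`) put `H n = ∑_{k < n} h k`,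
`Ñ n = exp (-H n) • N n`, so `Ñ (n + 1) = exp (l n - h n) • Ñ n`; the limit is
`exp (∑_{k ≥ n} (l k - h k)) • Ñ n` on `ball 0 (n + 1 / 2)` (`hol_limit`). -/
theorem lift_limit {P : Set V} (hP : IsOpen P) {N : ℕ → V × ℂ → V} {l : ℕ → V × ℂ → ℂ}
    (hN : ∀ n : ℕ, DifferentiableOn ℂ (N n) (P ×ˢ ball 0 (n + 1)))
    (hl : ∀ n : ℕ, DifferentiableOn ℂ (l n) (P ×ˢ ball 0 (n + 1)))
    (he : ∀ n : ℕ, ∀ x ∈ P ×ˢ ball (0 : ℂ) (n + 1), N (n + 1) x = Complex.exp (l n x) • N n x)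
    (hb : ∀ n : ℕ, ∃ M, ∀ x ∈ P ×ˢ ball (0 : ℂ) (n + 1), ‖l n x‖ ≤ M) :
    ∃ L : V × ℂ → V, DifferentiableOn ℂ L (P ×ˢ univ) ∧
      ∀ x ∈ P ×ˢ (univ : Set ℂ), ∃ (n : ℕ) (c : ℂ), x.2 ∈ ball (0 : ℂ) (n + 1) ∧ c ≠ 0 ∧
        L x = c • N n x := by
  choose M hM using hb
  have hr : ∀ n : ℕ, ∃ h : V × ℂ → ℂ, DifferentiableOn ℂ h (P ×ˢ univ) ∧
      ∀ x ∈ P ×ˢ ball (0 : ℂ) (n + 1 / 2), ‖l n x - h x‖ ≤ 1 / 2 ^ n := fun n =>
    runge_tau hP (by positivity) (by linarith) (by positivity) (hl n) (hM n)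
  choose h hh hlh using hr
  have hD : ∀ {n m : ℕ}, n ≤ m → P ×ˢ ball (0 : ℂ) (n + 1 / 2) ⊆ P ×ˢ ball (0 : ℂ) (m + 1 / 2) :=
    fun hnm => prod_mono subset_rfl (ball_subset_ball (by
      have := (Nat.cast_le (α := ℝ)).2 hnm
      linarith))
  have hD' : ∀ n : ℕ, P ×ˢ ball (0 : ℂ) (n + 1 / 2) ⊆ P ×ˢ ball (0 : ℂ) (n + 1) :=
    fun n => prod_mono subset_rfl (ball_subset_ball (by linarith))
  have hD'' : ∀ n : ℕ, P ×ˢ ball (0 : ℂ) (n + 1 / 2) ⊆ P ×ˢ (univ : Set ℂ) :=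
    fun n => prod_mono subset_rfl (subset_univ _)
  have hg : ∀ n : ℕ, ∃ g : V × ℂ → ℂ, DifferentiableOn ℂ g (P ×ˢ ball 0 (n + 1 / 2)) ∧
      ∀ x ∈ P ×ˢ ball (0 : ℂ) (n + 1 / 2), Tendsto
        (fun m => ∑ k ∈ Finset.range m, (l (k + n) x - h (k + n) x)) atTop (𝓝 (g x)) := fun n => by
    obtain ⟨g, h1, h2, -⟩ := hol_limit (c := 1) (hP.prod isOpen_ball)
      (f := fun m x => ∑ k ∈ Finset.range m, (l (k + n) x - h (k + n) x))
      (fun m => DifferentiableOn.fun_sum fun k _ =>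
        ((hl _).mono ((hD (Nat.le_add_left n k)).trans (hD' _))).sub ((hh _).mono (hD'' n)))
      fun m x hx => by
        rw [Finset.sum_range_succ, add_sub_cancel_left]
        refine (hlh _ x (hD (Nat.le_add_left n m) hx)).trans ?_
        exact one_div_le_one_div_of_le (by positivity)
          (pow_le_pow_right₀ one_le_two (Nat.le_add_right m n))
    exact ⟨g, h1, h2⟩
  choose g hg hgt using hg
  have hgs : ∀ n : ℕ, ∀ x ∈ P ×ˢ ball (0 : ℂ) (n + 1 / 2),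
      g n x = g (n + 1) x + (l n x - h n x) := fun n x hx => by
    refine tendsto_nhds_unique ((tendsto_add_atTop_iff_nat 1).2 (hgt n x hx))
      (((hgt (n + 1) x (hD n.le_succ hx)).add_const _).congr fun m => ?_)
    rw [Finset.sum_range_succ', zero_add]
    simp only [add_assoc, add_comm 1 n]
  obtain ⟨A, hA⟩ : ∃ A : ℕ → V × ℂ → V, ∀ n x,
      A n x = Complex.exp (g n x - ∑ k ∈ Finset.range n, h k x) • N n x := ⟨_, fun _ _ => rfl⟩
  have hAm : ∀ n : ℕ, ∀ x ∈ P ×ˢ ball (0 : ℂ) (n + 1 / 2), ∀ m, n ≤ m → A m x = A n x := by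
    intro n x hx m hm
    induction m, hm using Nat.le_induction with
    | base => rfl
    | succ m hm ih =>
      rw [← ih, hA, hA, he m x (hD' m (hD hm hx)), smul_smul, ← Complex.exp_add,
        hgs m x (hD hm hx), Finset.sum_range_succ]
      congr 2
      ring
  have hx0 : ∀ x ∈ P ×ˢ (univ : Set ℂ), x ∈ P ×ˢ ball (0 : ℂ) ((⌈‖x.2‖⌉₊ : ℕ) + 1 / 2) :=
    fun x hx => ⟨hx.1, mem_ball_zero_iff.2 (by linarith [Nat.le_ceil ‖x.2‖])⟩
  refine ⟨fun x => A ⌈‖x.2‖⌉₊ x, fun x hx => ?_, fun x hx =>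
    ⟨_, _, (hD' _ (hx0 x hx)).2, Complex.exp_ne_zero _, hA _ _⟩⟩
  have ho := (hP.prod isOpen_ball).mem_nhds (hx0 x hx)
  have hd : DifferentiableOn ℂ (A ⌈‖x.2‖⌉₊) (P ×ˢ ball 0 ((⌈‖x.2‖⌉₊ : ℕ) + 1 / 2)) := by
    rw [funext (hA _)]
    exact ((hg _).sub (DifferentiableOn.fun_sum fun k _ => (hh k).mono (hD'' _))).cexp.smul
      ((hN _).mono (hD' _))
  refine ((hd.differentiableAt ho).congr_of_eventuallyEq ?_).differentiableWithinAt
  filter_upwards [ho] with y hy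
  rw [← hAm _ y hy _ (le_max_left _ ⌈‖y.2‖⌉₊), hAm _ y (hx0 y (hD'' _ hy)) _ (le_max_right _ _)]

private theorem h14_par {N N' N₁ N₂ : V} (h : Par2 N N₁ N₂) (h' : Par2 N' N₁ N₂)
    (hne : N₁ ≠ 0 ∨ N₂ ≠ 0) : ∃ c : ℂ, N' = c • N := by
  have key : ∀ X : V, (∃ c : ℂ, N = c • X) → (∃ c : ℂ, N' = c • X) → ∃ c : ℂ, N' = c • N := by
    rintro X ⟨c, hc⟩ ⟨c', hc'⟩
    have hc0 : c ≠ 0 := by
      rintro rfl
      exact h.1 (by rw [hc, zero_smul])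
    exact ⟨c' / c, by rw [hc, hc', smul_smul, div_mul_cancel₀ _ hc0]⟩
  rcases hne with h0 | h0
  · exact key _ (h.2.1 h0) (h'.2.1 h0)
  · exact key _ (h.2.2 h0) (h'.2.2 h0)

theorem lift_entire {O : Set V} (hO : IsOpen O) {a : V} (ha : a ∈ O) {N₁ N₂ : V × ℂ → V}
    (h₁ : DifferentiableOn ℂ N₁ (O ×ˢ univ)) (h₂ : DifferentiableOn ℂ N₂ (O ×ˢ univ))
    (hne : ∀ x ∈ O ×ˢ (univ : Set ℂ), N₁ x ≠ 0 ∨ N₂ x ≠ 0)
    (hpar : ∀ x ∈ O ×ˢ (univ : Set ℂ), ∀ i j, N₁ x i * N₂ x j = N₁ x j * N₂ x i) :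
    ∃ (O' : Set V) (N : V × ℂ → V), IsOpen O' ∧ a ∈ O' ∧ O' ⊆ O ∧
      DifferentiableOn ℂ N (O' ×ˢ univ) ∧ ∀ x ∈ O' ×ˢ (univ : Set ℂ), Par2 (N x) (N₁ x) (N₂ x) := by
  obtain ⟨r, hr, hrO⟩ := Metric.nhds_basis_closedBall.mem_iff.1 (hO.mem_nhds ha)
  have hex := fun n : ℕ => lift_cpt (K := closedBall a r ×ˢ closedBall (0 : ℂ) (n + 1))
    ((isCompact_closedBall _ _).prod (isCompact_closedBall _ _))
    ((convex_closedBall _ _).prod (convex_closedBall _ _)) (hO.prod isOpen_univ)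
    (Set.prod_mono hrO (subset_univ _)) h₁ h₂ hne hpar
  choose U N hU hKU hUO hN hP using hex
  have hb : ∀ n : ℕ, ball a r ×ˢ ball (0 : ℂ) (n + 1) ⊆ U n := fun n =>
    (Set.prod_mono ball_subset_closedBall ball_subset_closedBall).trans (hKU n)
  have hstep := fun n : ℕ => lift_step (a := a) (r := r) (n := n) (hU n) (hU (n + 1))
    (subset_inter (hKU n) ((Set.prod_mono subset_rfl
      (closedBall_subset_closedBall (by push_cast; linarith))).trans (hKU (n + 1))))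
    (hN n) (hN (n + 1)) (fun x hx => (hP n x hx).1) (fun x hx => (hP (n + 1) x hx).1)
    (fun x hx hx' => h14_par (hP n x hx) (hP (n + 1) x hx') (hne x (hUO n hx)))
  choose l hl he hM using hstep
  obtain ⟨L, hL, hLc⟩ := lift_limit isOpen_ball (fun n => (hN n).mono (hb n)) hl he hM
  refine ⟨ball a r, L, isOpen_ball, mem_ball_self hr, ball_subset_closedBall.trans hrO, hL,
    fun x hx => ?_⟩
  obtain ⟨n, c, hn, hc, hx'⟩ := hLc x hx
  obtain ⟨p0, p1, p2⟩ := hP n x (hb n ⟨hx.1, hn⟩)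
  rw [hx']
  refine ⟨smul_ne_zero hc p0, fun h => ?_, fun h => ?_⟩
  · obtain ⟨d, hd⟩ := p1 h
    exact ⟨c * d, by rw [hd, smul_smul]⟩
  · obtain ⟨d, hd⟩ := p2 h
    exact ⟨c * d, by rw [hd, smul_smul]⟩

end Crest.Agent.R279
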