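import Crest.Agent.R279.CutA
import Crest.Agent.R279.G2

/-! Row 279: Bezout -/

set_option autoImplicit false

namespace Crest.Agent.R279

open Set Metric Filter Topology

variable {E E' F : Type} [NormedAddCommGroup E] [NormedSpace ℂ E] [NormedAddCommGroup E']
  [NormedSpace ℂ E'] [NormedAddCommGroup F] [NormedSpace ℂ F] {M : Set W}

/-- **BEZ** (`cut_induction`, `cousin`; `d = n_A - n_B` satisfies
`d_j = ∑ i, k_i (n_{A,i} d_j - n_{A,j} d_i)`, split the antisymmetric matrix). -/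
theorem bezout [FiniteDimensional ℂ E] {K U : Set E} (hK : IsCompact K) (hKc : Convex ℝ K)
    (hU : IsOpen U) (hKU : K ⊆ U) {k : E → V} (hk : DifferentiableOn ℂ k U)
    (h0 : ∀ z ∈ U, k z ≠ 0) :
    ∃ (U' : Set E) (n : E → V), IsOpen U' ∧ K ⊆ U' ∧ U' ⊆ U ∧ DifferentiableOn ℂ n U' ∧
      ∀ z ∈ U', ∑ i, k z i * n z i = 1 := by
  refine cut_induction hK hKc (Pr := fun K => ∃ (U' : Set E) (n : E → V), IsOpen U' ∧ K ⊆ U' ∧
    U' ⊆ U ∧ DifferentiableOn ℂ n U' ∧ ∀ z ∈ U', ∑ i, k z i * n z i = 1) ?_ ?_ ?_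
  · intro z₀ hz₀
    obtain ⟨i, hi⟩ := Function.ne_iff.1 (h0 z₀ (hKU hz₀))
    have hki : DifferentiableOn ℂ (fun z => k z i) U := differentiableOn_pi.1 hk i
    have hO : IsOpen (U ∩ (fun z => k z i) ⁻¹' {0}ᶜ) :=
      hki.continuousOn.isOpen_inter_preimage hU isOpen_compl_singleton
    obtain ⟨r, hr, hb⟩ := Metric.isOpen_iff.1 hO z₀ ⟨hKU hz₀, hi⟩
    refine ⟨r, hr, fun K' hK' _ _ => ⟨_, fun z => Pi.single i (k z i)⁻¹, hO,
      fun z hz => hb (hK' hz).2, inter_subset_left, ?_, fun z hz => ?_⟩⟩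
    · refine differentiableOn_pi.2 fun j => ?_
      by_cases hj : j = i
      · subst hj
        simp only [Pi.single_eq_same]
        exact (hki.mono inter_subset_left).inv fun z hz => hz.2
      · simp only [Pi.single_eq_of_ne hj]
        exact differentiableOn_const _
    · rw [Finset.sum_eq_single i (fun j _ hj => by simp [hj]) (by simp)]
      simp only [Pi.single_eq_same]
      exact mul_inv_cancel₀ hz.2
  · exact ⟨∅, 0, isOpen_empty, Subset.rfl, empty_subset _, differentiableOn_empty, by simp⟩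
  rintro K' - hK' hK'c lam a b hab ⟨U₁, n₁, hU₁, hK₁, hs₁, hn₁, e₁⟩ ⟨U₂, n₂, hU₂, hK₂, hs₂, hn₂, e₂⟩
  obtain ⟨A, B, hA, hB, hKA, hKB, hAB, hc⟩ := cousin hK' hK'c lam hab (hU₁.inter hU₂)
    fun z hz => ⟨hK₁ ⟨hz.1, hz.2.2⟩, hK₂ ⟨hz.1, hz.2.1⟩⟩
  have d₁ := fun i => (differentiableOn_pi.1 hn₁ i).mono (inter_subset_left (t := U₂))
  have d₂ := fun i => (differentiableOn_pi.1 hn₂ i).mono (inter_subset_right (s := U₁))
  choose α β hα hβ hαβ using fun i j : Fin 4 =>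
    hc (fun z => n₁ z i * n₂ z j - n₁ z j * n₂ z i)
      (((d₁ i).mul (d₂ j)).sub ((d₁ j).mul (d₂ i)))
  have key : ∀ (P Q : Set E) (n : E → V) (γ : Fin 4 → Fin 4 → E → ℂ), Q ⊆ U →
      DifferentiableOn ℂ n Q → (∀ i j, DifferentiableOn ℂ (γ i j) P) →
      DifferentiableOn ℂ (fun z j => n z j + ∑ i, k z i * ((γ i j z - γ j i z) / 2) : E → V)
        (P ∩ Q) := by
    intro P Q n γ hQ hn hγ
    refine differentiableOn_pi.2 fun j =>
      ((differentiableOn_pi.1 hn j).mono inter_subset_right).add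
        (DifferentiableOn.fun_sum fun i _ => ?_)
    exact ((differentiableOn_pi.1 hk i).mono (inter_subset_right.trans hQ)).mul
      (by simpa only [div_eq_mul_inv] using
        (((hγ i j).fun_sub (hγ j i)).mono inter_subset_left).mul_const (2 : ℂ)⁻¹)
  have key2 : ∀ (x n : V) (γ : Fin 4 → Fin 4 → ℂ), ∑ i, x i * n i = 1 →
      ∑ j, x j * (n j + ∑ i, x i * ((γ i j - γ j i) / 2)) = 1 := by
    intro x n γ h
    simp only [Fin.sum_univ_four] at h ⊢
    linear_combination h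
  obtain ⟨n, hn, hnA, hnB⟩ := glue2 (hA.inter hU₁) (hB.inter hU₂) (key A U₁ n₁ α hs₁ hn₁ hα)
    (key B U₂ n₂ β hs₂ hn₂ hβ) (fun z hz hz' => by
      funext j
      have h₁ := e₁ z hz.2
      have h₂ := e₂ z hz'.2
      have h₃ := fun i i' => hαβ i i' z ⟨hz.1, hz'.1⟩
      have h₄ : ∑ i, k z i * ((α i j z - α j i z) / 2) - ∑ i, k z i * ((β i j z - β j i z) / 2) =
          (∑ i, k z i * n₁ z i) * n₂ z j - (∑ i, k z i * n₂ z i) * n₁ z j := by
        rw [Finset.sum_mul, Finset.sum_mul, ← Finset.sum_sub_distrib, ← Finset.sum_sub_distrib]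
        refine Finset.sum_congr rfl fun i _ => ?_
        linear_combination (k z i / 2) * (h₃ i j - h₃ j i)
      rw [h₁, h₂] at h₄
      linear_combination h₄)
  refine ⟨_, n, (hA.inter hU₁).union (hB.inter hU₂), fun z hz => ?_,
    union_subset (inter_subset_right.trans hs₁) (inter_subset_right.trans hs₂), hn, ?_⟩
  · rcases le_total (lam z) b with h | h
    · exact Or.inl ⟨hKA ⟨hz, h⟩, hK₁ ⟨hz, h⟩⟩
    · exact Or.inr ⟨hKB ⟨hz, hab.le.trans h⟩, hK₂ ⟨hz, hab.le.trans h⟩⟩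
  · rintro z (hz | hz)
    · rw [hnA z hz]
      exact key2 _ _ (fun i j => α i j z) (e₁ z hz.2)
    · rw [hnB z hz]
      exact key2 _ _ (fun i j => β i j z) (e₂ z hz.2)

end Crest.Agent.R279
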