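import Crest.Agent.R279.Cut
import Crest.Agent.R279.LiftB
import Crest.Agent.R279.LiftC

/-! Row 279: lifting to the cone, Bezout, models -/

set_option autoImplicit false

namespace Crest.Agent.R279

open Set Metric Filter Topology

variable {E E' F : Type} [NormedAddCommGroup E] [NormedSpace ℂ E] [NormedAddCommGroup E']
  [NormedSpace ℂ E'] [NormedAddCommGroup F] [NormedSpace ℂ F] {M : Set W}

open Crest.AlgGeometry

theorem h40_hasFDerivAt_eval (f : MvPolynomial (Fin 4) ℂ) (x : V) :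
    HasFDerivAt (fun y : V => MvPolynomial.eval y f)
      (∑ b, MvPolynomial.eval x (MvPolynomial.pderiv b f) •
        (ContinuousLinearMap.proj b : V →L[ℂ] ℂ)) x := by
  induction f using MvPolynomial.induction_on with
  | C c =>
    simp only [MvPolynomial.eval_C]
    refine (hasFDerivAt_const (𝕜 := ℂ) c x).congr_fderiv (ContinuousLinearMap.ext fun v => ?_)
    simp
  | add a b ha hb =>
    simp only [map_add]
    refine (ha.add hb).congr_fderiv (ContinuousLinearMap.ext fun v => ?_)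
    simp [add_mul, Finset.sum_add_distrib]
  | mul_X a i ha =>
    simp only [map_mul, MvPolynomial.eval_X]
    refine (ha.mul (hasFDerivAt_apply i x)).congr_fderiv (ContinuousLinearMap.ext fun v => ?_)
    simp [Derivation.leibniz, MvPolynomial.pderiv_X, Pi.single_apply, add_mul,
      Finset.sum_add_distrib, Finset.mul_sum, mul_assoc, apply_ite]

theorem h40_diff_eval (f : MvPolynomial (Fin 4) ℂ) :
    Differentiable ℂ fun y : V => MvPolynomial.eval y f :=
  fun x => (h40_hasFDerivAt_eval f x).differentiableAt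

theorem h40_fderiv_eval (f : MvPolynomial (Fin 4) ℂ) (x v : V) :
    fderiv ℂ (fun y : V => MvPolynomial.eval y f) x v =
      ∑ b, MvPolynomial.eval x (MvPolynomial.pderiv b f) * v b := by
  rw [(h40_hasFDerivAt_eval f x).fderiv]
  simp

/-- the implicit function `σ`: `q (x + y - σ n) = 0`. -/
theorem h40_core {P : Set E} (hP : IsOpen P) {x n : E → V} {q : V → ℂ} (hq : Differentiable ℂ q)
    (hx : DifferentiableOn ℂ x P) (hn : DifferentiableOn ℂ n P) {B : ℝ} (hB : 1 ≤ B)
    (hxB : ∀ z ∈ P, ‖x z‖ ≤ B) (hnB : ∀ z ∈ P, ‖n z‖ ≤ B) (h0 : ∀ z ∈ P, q (x z) = 0)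
    (h1 : ∀ z ∈ P, fderiv ℂ q (x z) (n z) = 1) {r₀ : ℝ} (hr₀ : 0 < r₀) :
    ∃ (r ρ : ℝ) (σ : E → V → ℂ), 0 < ρ ∧ ρ ≤ r ∧ r ≤ r₀ ∧ HolF σ P ρ ∧
      (∀ z ∈ P, ∀ y ∈ ball (0 : V) ρ, ‖σ z y‖ ≤ r ∧ q (x z + y - σ z y • n z) = 0) ∧
      (∀ z ∈ P, σ z 0 = 0) ∧
      ∀ z ∈ P, ∀ y ∈ ball (0 : V) ρ, ∀ s ∈ ball (0 : ℂ) (r / 2), ∀ s' ∈ ball (0 : ℂ) (r / 2),
        q (x z + y - s • n z) = 0 → q (x z + y - s' • n z) = 0 → s = s' := by
  obtain ⟨M₀, hM₀⟩ := (isCompact_closedBall (0 : V) (B + 1)).exists_bound_of_continuousOn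
    hq.continuous.continuousOn
  set Mq := max M₀ 1 with hMqdef
  have hMq : 1 ≤ Mq := le_max_right _ _
  have hbd : ∀ z ∈ P, ∀ w ∈ ball (x z) 1, ‖q w‖ ≤ Mq := by
    intro z hz w hw
    refine (hM₀ w ?_).trans (le_max_left _ _)
    rw [mem_closedBall_zero_iff]
    have h2 := norm_le_norm_add_norm_sub' w (x z)
    have h3 := mem_ball_iff_norm.1 hw
    linarith [hxB z hz]
  have hpos : 0 < 512 * Mq * B ^ 2 := by positivity
  set r := min r₀ (1 / (512 * Mq * B ^ 2)) with hrdef
  have hr : 0 < r := lt_min hr₀ (by positivity)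
  have hr1 : r * (512 * Mq * B ^ 2) ≤ 1 := by
    rw [← le_div_iff₀ hpos]
    exact min_le_right _ _
  set ρ := r / (64 * Mq) with hρdef
  have hρ : 0 < ρ := by positivity
  have hρ1 : ρ * (64 * Mq) = r := div_mul_cancel₀ _ (by positivity)
  have hρr : ρ ≤ r := by nlinarith
  have hrB : 2 * r * B < 1 := by
    have : 1 * B ≤ Mq * B ^ 2 := by nlinarith
    nlinarith
  set D : Set (E × V) := P ×ˢ ball (0 : V) ρ with hD
  have hDo : IsOpen D := hP.prod isOpen_ball
  set β : E × V → ℂ → ℂ := fun a s => -q (x a.1 + a.2 - s • n a.1) with hβdef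
  have hβ : HolF β D r := by
    refine (hq.comp_differentiableOn (f := fun a : (E × V) × ℂ => x a.1.1 + a.1.2 - a.2 • n a.1.1)
      ?_).neg
    have hf : DifferentiableOn ℂ (fun a : (E × V) × ℂ => a.1.1) (D ×ˢ ball (0 : ℂ) r) := by fun_prop
    have hm : MapsTo (fun a : (E × V) × ℂ => a.1.1) (D ×ˢ ball (0 : ℂ) r) P := fun a ha => ha.1.1
    exact ((hx.comp hf hm).add (by fun_prop)).sub
      ((differentiable_snd.differentiableOn).smul (hn.comp hf hm))
  have hb : ∀ a ∈ D, ∀ s ∈ ball (0 : ℂ) r, ‖β a s - s‖ ≤ r / 16 := by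
    rintro ⟨z, y⟩ ⟨hz, hy⟩ s hs
    have hy' : ‖y‖ < ρ := mem_ball_zero_iff.1 hy
    have hs' : ‖s‖ < r := mem_ball_zero_iff.1 hs
    have hw : ‖y - s • n z‖ ≤ 2 * r * B := by
      refine (norm_sub_le _ _).trans ?_
      rw [norm_smul]
      have : ‖s‖ * ‖n z‖ ≤ r * B := mul_le_mul hs'.le (hnB z hz) (norm_nonneg _) hr.le
      nlinarith
    have e1 : x z + y - s • n z - x z = y - s • n z := by abel
    have h2 := R264.SCV.norm_sub_sub_fderiv_le (c := x z) (z := x z + y - s • n z) (r := 1)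
      hq.differentiableOn (hbd z hz) (by rw [mem_ball_iff_norm, e1]; linarith)
    have h3 := R264.SCV.norm_fderiv_le (c := x z) one_pos hq.differentiableOn (hbd z hz)
    rw [e1, h0 z hz, sub_zero, map_sub, map_smul, h1 z hz, div_one, smul_eq_mul, mul_one] at h2
    have h4 : ‖fderiv ℂ q (x z) y‖ ≤ 2 * Mq * ρ := by
      refine ((fderiv ℂ q (x z)).le_opNorm y).trans ?_
      rw [div_one] at h3
      exact mul_le_mul h3 hy'.le (norm_nonneg _) (by positivity)
    have h5 : ‖y - s • n z‖ ^ 2 ≤ (2 * r * B) ^ 2 := by gcongr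
    have e2 : β (z, y) s - s =
        -((q (x z + y - s • n z) - (fderiv ℂ q (x z) y - s)) + fderiv ℂ q (x z) y) := by
      simp only [hβdef]
      ring
    rw [e2, norm_neg]
    refine (norm_add_le _ _).trans ?_
    have h6 : 4 * Mq * ‖y - s • n z‖ ^ 2 ≤ 4 * Mq * (2 * r * B) ^ 2 := by gcongr
    nlinarith
  obtain ⟨h, hh, hh'⟩ := inv hDo (α := fun _ s => s) (β := β) (ρ := r) (ε := r / 16)
    differentiable_snd.differentiableOn hβ (by linarith)
    (fun _ _ s _ => by rw [sub_self, norm_zero]; positivity) hb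
  have h00 : (0 : ℂ) ∈ ball (0 : ℂ) (r / 2) := mem_ball_self (half_pos hr)
  refine ⟨r, ρ, fun z y => h (z, y) 0, hρ, hρr, min_le_left _ _, ?_, fun z hz y hy => ?_,
    fun z hz => ?_, fun z hz y hy s hs s' hs' e e' => ?_⟩
  · exact hh.comp (p := fun a : E × V => a) (y := fun _ => (0 : ℂ)) differentiableOn_id
      (differentiableOn_const _) (mapsTo_id _) fun _ _ => by rw [norm_zero]; exact half_pos hr
  · obtain ⟨k1, k2, -⟩ := hh' (z, y) ⟨hz, hy⟩ 0 h00
    refine ⟨k1.trans (by linarith), ?_⟩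
    rw [zero_add] at k2
    exact neg_eq_zero.1 k2
  · obtain ⟨-, -, k3⟩ := hh' (z, 0) ⟨hz, mem_ball_self hρ⟩ 0 h00
    simpa [hβdef, h0 z hz] using k3
  · have hd : DifferentiableOn ℂ (β (z, y)) (ball 0 r) :=
      hβ.comp (p := fun _ : ℂ => (z, y)) (y := fun s => s) (differentiableOn_const _)
        differentiableOn_id (fun _ _ => ⟨hz, hy⟩) fun s hs => mem_ball_zero_iff.1 hs
    have k := inv_expand hd (ε := r / 16) (by linarith) (hb (z, y) ⟨hz, hy⟩)
      (ball_subset_ball (by linarith) hs) (ball_subset_ball (by linarith) hs')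
    simp only [hβdef, e, e', sub_self, norm_zero, mul_zero, norm_le_zero_iff] at k
    exact sub_eq_zero.1 k

/-- **LM**.  `π z (x, t) = x + t n z`, `n` from `bezout` for `k = ∇Q (g z).1`; `P` a relatively
compact open neighbourhood of `K`.  `Φ_z m = (π (m - g), Q m.1)` has at `g z` the derivative
`(δx, δt) ↦ (δx + δt n, dQ δx)` with inverse `(y, s) ↦ (y - (dQ y - s) n, dQ y - s)`; apply `inv` in
`V × ℂ` to `β z w = Φ_z (g z + (DΦ_z)⁻¹ w) = w + O(‖w‖²)`; `inj` from `inv_expand`. -/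
theorem hasModels_MQ {Q : MvPolynomial (Fin 4) ℂ} (hQ : SmoothQ Q) : HasModels (MQ Q) := by
  intro E _ _ _ K U g hK hKc hU hKU hg hgM
  have := FiniteDimensional.proper ℂ E
  obtain ⟨U', n, hU', hKU', hU'U, hn, hkn⟩ := bezout hK hKc hU hKU
    (k := fun z i => MvPolynomial.eval (g z).1 (MvPolynomial.pderiv i Q))
    (differentiableOn_pi.2 fun i => (h40_diff_eval _).comp_differentiableOn hg.fst) fun z hz h => by
      obtain ⟨i, hi⟩ := hQ.smooth _ (hgM hz).2 (hgM hz).1
      exact hi (congrFun h i)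
  obtain ⟨d, hd, hL⟩ := hK.exists_cthickening_subset_open hU' hKU'
  have hLc : IsCompact (cthickening d K) := hK.cthickening
  have hgc : ContinuousOn g (cthickening d K) := hg.continuousOn.mono (hL.trans hU'U)
  obtain ⟨B₁, hB₁⟩ := hLc.exists_bound_of_continuousOn hgc
  obtain ⟨B₂, hB₂⟩ := hLc.exists_bound_of_continuousOn (hn.continuousOn.mono hL)
  obtain ⟨c, hc, hc'⟩ := hLc.exists_forall_le' hgc.fst.norm (a := 0)
    fun z hz => norm_pos_iff.2 (hgM (hU'U (hL hz))).2
  set B := max (max B₁ B₂) 1 with hBdef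
  have hB : 1 ≤ B := le_max_right _ _
  set P := thickening d K with hPdef
  have hPL : P ⊆ cthickening d K := thickening_subset_cthickening _ _
  have hPU' : P ⊆ U' := hPL.trans hL
  have hPU : P ⊆ U := hPU'.trans hU'U
  have hgB : ∀ z ∈ P, ‖g z‖ ≤ B := fun z hz =>
    (hB₁ z (hPL hz)).trans ((le_max_left _ _).trans (le_max_left _ _))
  have hnB : ∀ z ∈ P, ‖n z‖ ≤ B := fun z hz =>
    (hB₂ z (hPL hz)).trans ((le_max_right _ _).trans (le_max_left _ _))
  obtain ⟨r, ρ, σ, hρ, hρr, hr, hσ, h1, h2, h3⟩ := h40_core (P := P) isOpen_thickening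
    (h40_diff_eval Q) (hg.mono hPU).fst (hn.mono hPU') hB
    (fun z hz => (norm_fst_le _).trans (hgB z hz)) hnB (fun z hz => (hgM (hPU hz)).1)
    (fun z hz => by rw [h40_fderiv_eval]; exact hkn z (hPU' hz)) (r₀ := c / (4 * B)) (by positivity)
  have hr0 : 0 < r := hρ.trans_le hρr
  have hrc : r * (4 * B) ≤ c := (le_div_iff₀ (by positivity)).1 hr
  set π : E → W →L[ℂ] V := fun z => ContinuousLinearMap.fst ℂ V ℂ +
    ContinuousLinearMap.smulRightL ℂ W V (ContinuousLinearMap.snd ℂ V ℂ) (n z) with hπdef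
  have hπ : ∀ z m, π z m = m.1 + m.2 • n z := fun z m => by simp [hπdef]
  set e : E → V → W := fun z y => ((g z).1 + y - σ z y • n z, (g z).2 + σ z y) with hedef
  have hole : HolF e P ρ := by
    have hf : DifferentiableOn ℂ (fun a : E × V => a.1) (P ×ˢ ball (0 : V) ρ) := by fun_prop
    have hm : MapsTo (fun a : E × V => a.1) (P ×ˢ ball (0 : V) ρ) P := fun a ha => ha.1
    have hg' := (hg.mono hPU).comp hf hm
    exact ((hg'.fst.add differentiable_snd.differentiableOn).sub
      (DifferentiableOn.smul hσ ((hn.mono hPU').comp hf hm))).prodMk (hg'.snd.add hσ)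
  have hw : ∀ z ∈ P, ∀ y ∈ ball (0 : V) ρ, ‖y - σ z y • n z‖ ≤ 2 * r * B := by
    intro z hz y hy
    have hy' : ‖y‖ < ρ := mem_ball_zero_iff.1 hy
    refine (norm_sub_le _ _).trans ?_
    rw [norm_smul]
    have : ‖σ z y‖ * ‖n z‖ ≤ r * B := mul_le_mul (h1 z hz y hy).1 (hnB z hz) (norm_nonneg _) hr0.le
    nlinarith
  have hsub : ∀ z y, e z y - g z = (y - σ z y • n z, σ z y) := fun z y => by
    ext <;> simp [hedef, add_sub_assoc]
  have hρ' : ρ / (4 * B) ≤ ρ / 4 := by
    gcongr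
    linarith
  have hρB : ρ / (4 * B) * (4 * B) = ρ := div_mul_cancel₀ _ (by positivity)
  have hC : 0 ≤ 8 * (2 * r * B) / ρ := by positivity
  refine ⟨P, π, e, ρ / (4 * B), 1 + B + 8 * (2 * r * B) / ρ, self_subset_thickening hd K, hPU,
    isOpen_thickening, by positivity, by linarith, hg.mono hPU, ?_,
    hole.mono Subset.rfl (by linarith), fun z hz y hy => ?_, fun z hz => ?_, fun z hz y hy => ?_,
    fun z hz y hy y' hy' => ?_, fun z hz => ?_, fun z hz => (hgB z hz).trans (by linarith),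
    fun z hz m hm m' hm' k k' hmm => ?_⟩
  · exact (differentiableOn_const _).add ((ContinuousLinearMap.smulRightL ℂ W V
      (ContinuousLinearMap.snd ℂ V ℂ)).differentiable.comp_differentiableOn (hn.mono hPU'))
  · have hy' : y ∈ ball (0 : V) ρ := ball_subset_ball (by linarith) hy
    refine ⟨(h1 z hz y hy').2, fun h => ?_⟩
    have h4 : (g z).1 = -(y - σ z y • n z) := by
      rw [eq_neg_iff_add_eq_zero, ← add_sub_assoc]
      exact h
    have h5 := hc' z (hPL hz)
    rw [h4, norm_neg] at h5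
    nlinarith [hw z hz y hy']
  · simp [hedef, h2 z hz]
  · rw [hsub, hπ]
    simp
  · have hd : DifferentiableOn ℂ (fun y => e z y - g z) (ball 0 ρ) :=
      (hole.comp (p := fun _ : V => z) (y := fun y => y) (differentiableOn_const _)
        differentiableOn_id (fun _ _ => hz) fun y hy => mem_ball_zero_iff.1 hy).sub_const _
    have h4 := lip_fibre hd (m := 2 * r * B) (fun y hy => by
      rw [hsub, Prod.norm_mk]
      exact max_le (hw z hz y hy) ((h1 z hz y hy).1.trans (by nlinarith)))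
      (ball_subset_ball (by linarith) hy) (ball_subset_ball (by linarith) hy')
    rw [sub_sub_sub_cancel_right] at h4
    refine h4.trans (mul_le_mul_of_nonneg_right (by linarith) (norm_nonneg _))
  · refine ContinuousLinearMap.opNorm_le_bound _ (by linarith) fun m => ?_
    rw [hπ]
    refine (norm_add_le _ _).trans ?_
    rw [norm_smul]
    have k1 : ‖m.2‖ * ‖n z‖ ≤ ‖m‖ * B :=
      mul_le_mul (norm_snd_le m) (hnB z hz) (norm_nonneg _) (norm_nonneg _)
    have k2 := norm_fst_le m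
    have k3 := mul_nonneg hC (norm_nonneg m)
    nlinarith
  · rw [hπ, hπ] at hmm
    set y : V := m.1 - (g z).1 + (m.2 - (g z).2) • n z with hydef
    have k1 : ‖m.1 - (g z).1‖ < ρ / (4 * B) := (norm_fst_le (m - g z)).trans_lt k
    have k2 : ‖m.2 - (g z).2‖ < ρ / (4 * B) := (norm_snd_le (m - g z)).trans_lt k
    have k2' : ‖m'.2 - (g z).2‖ < ρ / (4 * B) := (norm_snd_le (m' - g z)).trans_lt k'
    have hy : y ∈ ball (0 : V) ρ := by
      rw [mem_ball_zero_iff]
      refine (norm_add_le _ _).trans_lt ?_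
      rw [norm_smul]
      have : ‖m.2 - (g z).2‖ * ‖n z‖ ≤ ρ / (4 * B) * B :=
        mul_le_mul k2.le (hnB z hz) (norm_nonneg _) (by positivity)
      nlinarith
    have e1 : (g z).1 + y - (m.2 - (g z).2) • n z = m.1 := by
      rw [hydef]
      abel
    have e2 : (g z).1 + y - (m'.2 - (g z).2) • n z = m'.1 := by
      rw [hydef, sub_smul, sub_smul, eq_sub_of_add_eq hmm]
      abel
    have k3 := h3 z hz y hy _ (mem_ball_zero_iff.2 (k2.trans_le (by linarith))) _
      (mem_ball_zero_iff.2 (k2'.trans_le (by linarith))) (by rw [e1]; exact hm.1)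
      (by rw [e2]; exact hm'.1)
    have k4 : m.2 = m'.2 := sub_left_injective k3
    rw [k4] at hmm
    exact Prod.ext (add_right_cancel hmm) k4

theorem isLocallyClosed_MQ (Q : MvPolynomial (Fin 4) ℂ) : IsLocallyClosed (MQ Q) := by
  refine ⟨{m | m.1 ≠ 0}, {m | MvPolynomial.eval m.1 Q = 0}, isOpen_ne_fun continuous_fst
    continuous_const, isClosed_eq ((h40_diff_eval Q).continuous.comp continuous_fst)
    continuous_const, ?_⟩
  ext m
  exact and_comm

end Crest.Agent.R279
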