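import Crest.Agent.R279.F2
import Crest.Agent.R279.F3
import Crest.Agent.R279.Lift
import Crest.Agent.R279.AB
import Crest.Agent.R279.ALa

/-! Row 279, flows: a family of entire curves in the cone from elliptic data -/

set_option autoImplicit false

namespace Crest.Agent.R279

open Set Metric Filter Topology Matrix

theorem bf_smul {R : Type} [CommRing R] (n : ℕ) (a : Fin 5 → R) (l s t : R) :
    bf n a (l * s) (l * t) = l ^ n * bf n a s t := by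
  unfold bf
  rw [Finset.mul_sum]
  refine Finset.sum_congr rfl fun i _ => ?_
  split_ifs with h
  · obtain ⟨k, hk⟩ := Nat.exists_eq_add_of_le h
    rw [hk, Nat.add_sub_cancel_left, mul_pow, mul_pow, pow_add]; ring
  · simp

theorem bf_diff {E : Type} [NormedAddCommGroup E] [NormedSpace ℂ E] {U : Set E} (n : ℕ)
    {a : E → Fin 5 → ℂ} {s t : E → ℂ} (ha : DifferentiableOn ℂ a U) (hs : DifferentiableOn ℂ s U)
    (ht : DifferentiableOn ℂ t U) : DifferentiableOn ℂ (fun x => bf n (a x) (s x) (t x)) U := by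
  unfold bf
  refine DifferentiableOn.fun_sum fun i _ => ?_
  split_ifs with h
  · exact ((differentiableOn_pi.1 ha i).mul (hs.pow _)).mul (ht.pow _)
  · exact differentiableOn_const _

/-- a holomorphic retraction onto the cone. -/
theorem exists_retr {c : Ten} (hc : c.Sm) {O : Set V} (hO : IsOpen O) {ξ₀ : V} (h0 : ξ₀ ∈ O)
    (hq : c.q ξ₀ = 0) (hne : ξ₀ ≠ 0) : ∃ (O₁ : Set V) (ρ : V → V), IsOpen O₁ ∧ ξ₀ ∈ O₁ ∧
      DifferentiableOn ℂ ρ O₁ ∧ ∀ ξ ∈ O₁, ρ ξ ∈ O ∧ c.q (ρ ξ) = 0 ∧ (c.q ξ = 0 → ρ ξ = ξ) := by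
  obtain ⟨i, hi⟩ := Function.ne_iff.1 (hc ℂ ξ₀ hne)
  have hi' : c.al ξ₀ i ≠ 0 := hi
  set n : V := Pi.single i (4 * c.al ξ₀ i)⁻¹ with hn
  obtain ⟨δ, hδ, hδO⟩ := Metric.isOpen_iff.1 hO ξ₀ h0
  set B : ℝ := max 1 (max ‖ξ₀‖ ‖n‖) with hB
  have hB1 : 1 ≤ B := le_max_left _ _
  have hnB : ‖n‖ ≤ B := (le_max_right _ _).trans (le_max_right _ _)
  obtain ⟨r, ρ, σ, hρ, hρr, hr, hσ, h1, h2, h3⟩ := h40_core (E := ℂ) (P := univ) isOpen_univ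
    (x := fun _ => ξ₀) (n := fun _ => n) (q := fun y : V => MvPolynomial.eval y (c.poly ℂ))
    (h40_diff_eval _) (differentiableOn_const _) (differentiableOn_const _) hB1
    (fun _ _ => (le_max_left _ _).trans (le_max_right _ _)) (fun _ _ => hnB)
    (fun _ _ => by rw [c.eval_poly, hq])
    (fun _ _ => by
      rw [h40_fderiv_eval, Finset.sum_eq_single i]
      · rw [c.eval_pderiv_poly, hn, Pi.single_eq_same]; field_simp
      · intro b _ hb; rw [hn, Pi.single_eq_of_ne hb, mul_zero]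
      · simp)
    (r₀ := δ / (2 * (1 + B))) (by positivity)
  have hr0 : 0 < r := hρ.trans_le hρr
  have hσd : DifferentiableOn ℂ (fun ξ : V => σ 0 (ξ - ξ₀)) (ball ξ₀ ρ) :=
    hσ.comp (p := fun _ => (0 : ℂ)) (differentiableOn_const _) (by fun_prop)
      (mapsTo_univ _ _) fun a ha => by rwa [mem_ball, dist_eq_norm] at ha
  have hop : IsOpen (ball ξ₀ ρ ∩ (fun ξ : V => σ 0 (ξ - ξ₀)) ⁻¹' ball 0 (r / 2)) :=
    hσd.continuousOn.isOpen_inter_preimage isOpen_ball isOpen_ball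
  refine ⟨_, fun ξ => ξ - σ 0 (ξ - ξ₀) • n, hop, ⟨mem_ball_self hρ, ?_⟩, ?_, fun ξ hξ => ?_⟩
  · simp [h2 0 (mem_univ _), hr0]
  · exact differentiableOn_id.sub ((hσd.mono inter_subset_left).smul_const n)
  have hy : ξ - ξ₀ ∈ ball (0 : V) ρ := by
    have := hξ.1; rwa [mem_ball, dist_eq_norm, ← mem_ball_zero_iff] at this
  obtain ⟨e1, e2⟩ := h1 0 (mem_univ _) _ hy
  simp only [add_sub_cancel] at e2
  refine ⟨hδO ?_, by rwa [c.eval_poly] at e2, fun hξq => ?_⟩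
  · rw [mem_ball, dist_eq_norm]
    have e3 : ‖ξ - σ 0 (ξ - ξ₀) • n - ξ₀‖ ≤ ‖ξ - ξ₀‖ + ‖σ 0 (ξ - ξ₀)‖ * ‖n‖ := by
      rw [sub_right_comm, ← norm_smul]; exact norm_sub_le _ _
    have e4 := mem_ball_zero_iff.1 hy
    have e5 : ‖σ 0 (ξ - ξ₀)‖ * ‖n‖ ≤ r * B := mul_le_mul e1 hnB (norm_nonneg _) hr0.le
    rw [le_div_iff₀ (by positivity)] at hr
    nlinarith
  · have := h3 0 (mem_univ _) _ hy _ hξ.2 0 (mem_ball_self (by positivity))
      (by simpa using e2) (by simp [c.eval_poly, hξq])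
    simp [this]

/-- first chart of the map from the curve to the plane section. -/
noncomputable def eN1 (d : ℕ) (D : EllDat ℂ) (s t y : ℂ) : V :=
  (t ^ d * y - bf (2 + d) (D.2.1 1) s t) • D.1 0 + (2 * bf (1 + d) (D.2.1 0) s t * s) • D.1 1 +
    (2 * bf (1 + d) (D.2.1 0) s t * t) • D.1 2

/-- second chart. -/
noncomputable def eN2 (d : ℕ) (D : EllDat ℂ) (s t y : ℂ) : V :=
  (-2 * bf (3 + d) (D.2.1 2) s t) • D.1 0 + ((t ^ d * y + bf (2 + d) (D.2.1 1) s t) * s) • D.1 1 +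
    ((t ^ d * y + bf (2 + d) (D.2.1 1) s t) * t) • D.1 2

section pt
variable {c : Ten} {d : ℕ} {ξ : V} {D : EllDat ℂ} {s t y : ℂ}

theorem Ten.Ell.key (h : c.Ell d ξ D) (hy : y ^ 2 = bf 4 (D.2.1 3) s t) :
    (t ^ d * y) ^ 2 = bf (2 + d) (D.2.1 1) s t ^ 2 -
      4 * bf (1 + d) (D.2.1 0) s t * bf (3 + d) (D.2.1 2) s t := by
  rw [h.disc, mul_pow, hy]

theorem Ten.Ell.coef (h : c.Ell d ξ D) {a b e : ℂ} (h0 : a • D.1 0 + b • D.1 1 + e • D.1 2 = 0) :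
    a = 0 ∧ b = 0 ∧ e = 0 := by
  have := Fintype.linearIndependent_iff.1 h.ind ![a, b, e] (by simpa [Fin.sum_univ_three] using h0)
  exact ⟨this 0, this 1, this 2⟩

theorem Ten.Ell.ne (h : c.Ell d ξ D) (hst : s ≠ 0 ∨ t ≠ 0) :
    eN1 d D s t y ≠ 0 ∨ eN2 d D s t y ≠ 0 := by
  by_contra hh
  push Not at hh
  obtain ⟨a1, a2, a3⟩ := h.coef hh.1
  obtain ⟨b1, b2, b3⟩ := h.coef hh.2
  have e2 : bf (1 + d) (D.2.1 0) s t = 0 := by
    rcases hst with hs | ht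
    · simpa [hs] using a2
    · simpa [ht] using a3
  have e3 : t ^ d * y + bf (2 + d) (D.2.1 1) s t = 0 := by
    rcases hst with hs | ht
    · simpa [hs] using b2
    · simpa [ht] using b3
  have := h.nocom s t e2 (by linear_combination (e3 - a1) / 2) (by linear_combination -b1 / 2)
  rcases hst with hs | ht
  exacts [hs this.1, ht this.2]

theorem Ten.Ell.par (h : c.Ell d ξ D) (hy : y ^ 2 = bf 4 (D.2.1 3) s t) (i j : Fin 4) :
    eN1 d D s t y i * eN2 d D s t y j = eN1 d D s t y j * eN2 d D s t y i := by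
  have k := h.key hy
  simp only [eN1, eN2, Pi.add_apply, Pi.smul_apply, smul_eq_mul]
  linear_combination (D.1 0 i * (s * D.1 1 j + t * D.1 2 j) -
    D.1 0 j * (s * D.1 1 i + t * D.1 2 i)) * k

theorem Ten.Ell.q1 (h : c.Ell d ξ D) (hy : y ^ 2 = bf 4 (D.2.1 3) s t) :
    c.q (eN1 d D s t y) = 0 := by
  have k := h.key hy
  rw [eN1, h.sec, bf_smul, bf_smul, bf_smul]
  refine mul_eq_zero_of_right _ ?_
  generalize bf (1 + d) (D.2.1 0) s t = a₂ at k ⊢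
  rw [pow_add, pow_add, pow_add]
  linear_combination 2 * a₂ ^ 2 * (2 * a₂) ^ d * k

theorem Ten.Ell.q2 (h : c.Ell d ξ D) (hy : y ^ 2 = bf 4 (D.2.1 3) s t) :
    c.q (eN2 d D s t y) = 0 := by
  have k := h.key hy
  rw [eN2, h.sec, bf_smul, bf_smul, bf_smul]
  refine mul_eq_zero_of_right _ ?_
  generalize hY : t ^ d * y = Y at k ⊢
  generalize bf (2 + d) (D.2.1 1) s t = a₃ at k ⊢
  rw [pow_add, pow_add, pow_add]
  linear_combination (Y + a₃) * (Y + a₃) ^ d * bf (3 + d) (D.2.1 2) s t * k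

theorem Ten.Ell.init1 (h : c.Ell d ξ D) : ∃ a : ℂ,
    eN1 d D (D.2.2 1) (D.2.2 2) (D.2.2 3) = a • ξ := by
  refine ⟨2 * bf (1 + d) (D.2.1 0) (D.2.2 1) (D.2.2 2), ?_⟩
  rw [eN1, h.y_eq]
  conv_rhs => rw [h.pt]
  simp only [smul_add, smul_smul]
  congr 2
  ring_nf

theorem Ten.Ell.init2 (h : c.Ell d ξ D) (hq : c.q ξ = 0) : ∃ a : ℂ,
    eN2 d D (D.2.2 1) (D.2.2 2) (D.2.2 3) = a • ξ := by
  have k := h.sec (D.2.2 0) (D.2.2 1) (D.2.2 2)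
  rw [← h.pt, hq] at k
  have k' := (mul_eq_zero.1 k.symm).resolve_left (pow_ne_zero _ h.t_ne)
  refine ⟨2 * (D.2.2 0 * bf (1 + d) (D.2.1 0) (D.2.2 1) (D.2.2 2) +
    bf (2 + d) (D.2.1 1) (D.2.2 1) (D.2.2 2)), ?_⟩
  rw [eN2, h.y_eq]
  conv_rhs => rw [h.pt]
  simp only [smul_add, smul_smul]
  congr 2
  · congr 1; linear_combination -2 * k'
  · ring_nf
  · ring

theorem Ten.Ell.xi_ne (h : c.Ell d ξ D) : ξ ≠ 0 := fun h0 =>
  h.t_ne (h.coef (h.pt.symm.trans h0)).2.2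

/-- a vector on the line of `eN1`, `eN2`. -/
theorem Ten.Ell.of_par (h : c.Ell d ξ D) (hst : s ≠ 0 ∨ t ≠ 0) (hy : y ^ 2 = bf 4 (D.2.1 3) s t)
    {N : V} (hN : Par2 N (eN1 d D s t y) (eN2 d D s t y)) :
    c.q N = 0 ∧ ∃ a b : ℂ, N = a • D.1 0 + (b * s) • D.1 1 + (b * t) • D.1 2 := by
  rcases h.ne (y := y) hst with h1 | h1
  · obtain ⟨a, ha⟩ := hN.2.1 h1
    refine ⟨by rw [ha, c.q_smul, h.q1 hy, mul_zero],
      a * (t ^ d * y - bf (2 + d) (D.2.1 1) s t), a * (2 * bf (1 + d) (D.2.1 0) s t), ?_⟩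
    rw [ha, eN1]; simp only [smul_add, smul_smul, mul_assoc]
  · obtain ⟨a, ha⟩ := hN.2.2 h1
    refine ⟨by rw [ha, c.q_smul, h.q2 hy, mul_zero],
      a * (-2 * bf (3 + d) (D.2.1 2) s t), a * (t ^ d * y + bf (2 + d) (D.2.1 1) s t), ?_⟩
    rw [ha, eN2]; simp only [smul_add, smul_smul, mul_assoc]

theorem Ten.Ell.of_par_init (h : c.Ell d ξ D) (hq : c.q ξ = 0) {N : V}
    (hN : Par2 N (eN1 d D (D.2.2 1) (D.2.2 2) (D.2.2 3)) (eN2 d D (D.2.2 1) (D.2.2 2) (D.2.2 3))) :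
    ∃ a : ℂ, N = a • ξ := by
  rcases h.ne (y := D.2.2 3) (Or.inr h.t_ne : D.2.2 1 ≠ 0 ∨ _) with h1 | h1
  · obtain ⟨a, ha⟩ := hN.2.1 h1
    obtain ⟨b, hb⟩ := h.init1
    exact ⟨a * b, by rw [ha, hb, smul_smul]⟩
  · obtain ⟨a, ha⟩ := hN.2.2 h1
    obtain ⟨b, hb⟩ := h.init2 hq
    exact ⟨a * b, by rw [ha, hb, smul_smul]⟩

end pt

theorem hasDerivAt_dot (β : V) {f : ℂ → V} {v : V} {τ : ℂ} (h : HasDerivAt f v τ) :
    HasDerivAt (fun τ => β ⬝ᵥ f τ) (β ⬝ᵥ v) τ := by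
  unfold dotProduct
  exact HasDerivAt.fun_sum fun i _ => (hasDerivAt_pi.1 h i).const_mul (β i)

theorem eN_diff {E : Type} [NormedAddCommGroup E] [NormedSpace ℂ E] {U : Set E} (d : ℕ)
    {D : E → EllDat ℂ} {s t y : E → ℂ} (hD : DifferentiableOn ℂ D U) (hs : DifferentiableOn ℂ s U)
    (ht : DifferentiableOn ℂ t U) (hy : DifferentiableOn ℂ y U) :
    DifferentiableOn ℂ (fun x => eN1 d (D x) (s x) (t x) (y x)) U ∧
      DifferentiableOn ℂ (fun x => eN2 d (D x) (s x) (t x) (y x)) U := by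
  have h1 : ∀ i, DifferentiableOn ℂ (fun x => (D x).1 i) U := fun i =>
    differentiableOn_pi.1 hD.fst i
  have h2 : ∀ n i, DifferentiableOn ℂ (fun x => bf n ((D x).2.1 i) (s x) (t x)) U := fun n i =>
    bf_diff n (differentiableOn_pi.1 hD.snd.fst i) hs ht
  have hY : DifferentiableOn ℂ (fun x => t x ^ d * y x) U := (ht.pow d).mul hy
  exact ⟨(((hY.sub (h2 _ _)).smul (h1 0)).add ((((h2 _ _).const_mul 2).mul hs).smul (h1 1))).add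
      ((((h2 _ _).const_mul 2).mul ht).smul (h1 2)),
    ((((h2 _ _).const_mul (-2)).smul (h1 0)).add (((hY.add (h2 _ _)).mul hs).smul (h1 1))).add
      (((hY.add (h2 _ _)).mul ht).smul (h1 2))⟩

theorem tube_of_ell {c : Ten} (hc : c.Sm) {d : ℕ} (_hd : d ≤ 1) {O : Set V} (hO : IsOpen O) {ξ₀ : V}
    (h0 : ξ₀ ∈ O) (hq : c.q ξ₀ = 0) {D : V → EllDat ℂ} (hD : DifferentiableOn ℂ D O)
    (hE : ∀ ξ ∈ O, c.q ξ = 0 → c.Ell d ξ (D ξ)) :
    ∃ v : V, XTube (c.poly ℂ) ξ₀ v ∧ c.al ((D ξ₀).1 0) ⬝ᵥ v = 0 ∧ ∀ a : ℂ, v ≠ a • ξ₀ := by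
  obtain ⟨O₁, ρ, hO₁, h1, hρ, hρ'⟩ := exists_retr hc hO h0 hq (hE ξ₀ h0 hq).xi_ne
  have hρ0 : ρ ξ₀ = ξ₀ := (hρ' ξ₀ h1).2.2 hq
  have hD' : DifferentiableOn ℂ (fun a => D (ρ a)) O₁ := hD.comp hρ fun a ha => (hρ' a ha).1
  have hE' : ∀ a ∈ O₁, c.Ell d (ρ a) (D (ρ a)) := fun a ha => hE _ (hρ' a ha).1 (hρ' a ha).2.1
  have hd3 : DifferentiableOn ℂ (fun a => (D (ρ a)).2.1 3) O₁ :=
    differentiableOn_pi.1 hD'.snd.fst 3
  have hsc : ∀ i, DifferentiableOn ℂ (fun a => (D (ρ a)).2.2 i) O₁ := fun i =>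
    differentiableOn_pi.1 hD'.snd.snd i
  set B : ℝ := ‖(D (ρ ξ₀)).2.1 3‖ + 1 with hB
  set P : Set V := O₁ ∩ (fun a => (D (ρ a)).2.1 3) ⁻¹' ball 0 B with hPd
  have hP : IsOpen P := hd3.continuousOn.isOpen_inter_preimage hO₁ isOpen_ball
  have hPO : P ⊆ O₁ := inter_subset_left
  have hP0 : ξ₀ ∈ P := ⟨h1, by simp [hB]⟩
  obtain ⟨s, t, y, hs, ht, hy, H⟩ := hirota hP (hd3.mono hPO) ((hsc 1).mono hPO)
    ((hsc 2).mono hPO) ((hsc 3).mono hPO) (B := B) (fun a ha => mem_ball_zero_iff.1 ha.2)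
    (fun a ha => (hE' a (hPO ha)).t_ne) (fun a ha => (hE' a (hPO ha)).y_sq)
  have hD'' : DifferentiableOn ℂ (fun x : V × ℂ => D (ρ x.1)) (P ×ˢ univ) :=
    hD'.comp differentiableOn_fst fun x hx => hPO hx.1
  obtain ⟨hN1, hN2⟩ := eN_diff d hD'' hs ht hy
  obtain ⟨O', N, hO', h0', hO'P, hN, hpar⟩ := lift_entire hP hP0 hN1 hN2
    (fun x hx => (hE' _ (hPO hx.1)).ne ((H _ hx.1).2.2.2.1 x.2).1)
    (fun x hx => (hE' _ (hPO hx.1)).par ((H _ hx.1).2.2.2.1 x.2).2)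
  have hN0 : DifferentiableOn ℂ (fun a => N (a, 0)) O' :=
    hN.comp (by fun_prop) fun a ha => ⟨ha, mem_univ _⟩
  obtain ⟨u, hu, hu'⟩ := unit_of_par hO' (hρ.mono (hO'P.trans hPO)) hN0
    (fun a ha => (hE' a (hPO (hO'P ha))).xi_ne) (fun a ha => (hpar (a, 0) ⟨ha, mem_univ _⟩).1)
    fun a ha => by
      have h2 := hpar (a, 0) ⟨ha, mem_univ _⟩
      obtain ⟨e1, e2, e3, -⟩ := H a (hO'P ha)
      simp only [e1, e2, e3] at h2
      exact (hE' a (hPO (hO'P ha))).of_par_init (hρ' a (hPO (hO'P ha))).2.1 h2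
  have hφ : DifferentiableOn ℂ (fun x : V × ℂ => (u x.1)⁻¹ • N (x.1, x.2)) (O' ×ˢ univ) :=
    ((hu.comp differentiableOn_fst fun x hx => hx.1).inv fun x hx => (hu' _ hx.1).1).smul hN
  have hφ0 : ∀ a ∈ O', (u a)⁻¹ • N (a, 0) = ρ a := fun a ha => by
    rw [(hu' a ha).2, smul_smul, inv_mul_cancel₀ (hu' a ha).1, one_smul]
  have hof : ∀ a ∈ O', ∀ τ : ℂ, c.q (N (a, τ)) = 0 ∧ ∃ α β : ℂ, N (a, τ) = α • (D (ρ a)).1 0 +
      (β * s (a, τ)) • (D (ρ a)).1 1 + (β * t (a, τ)) • (D (ρ a)).1 2 := fun a ha τ =>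
    (hE' a (hPO (hO'P ha))).of_par ((H _ (hO'P ha)).2.2.2.1 τ).1 ((H _ (hO'P ha)).2.2.2.1 τ).2
      (hpar (a, τ) ⟨ha, mem_univ _⟩)
  have hdiff : DifferentiableAt ℂ (fun τ : ℂ => (u ξ₀)⁻¹ • N (ξ₀, τ)) 0 :=
    (hφ.differentiableAt ((hO'.prod isOpen_univ).mem_nhds
      (⟨h0', mem_univ _⟩ : (ξ₀, (0 : ℂ)) ∈ O' ×ˢ univ))).comp (0 : ℂ)
      (f := fun τ : ℂ => (ξ₀, τ)) (by fun_prop)
  have hv := hdiff.hasDerivAt
  set v := deriv (fun τ : ℂ => (u ξ₀)⁻¹ • N (ξ₀, τ)) 0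
  have hE0 := hE ξ₀ h0 hq
  refine ⟨v, ⟨O', fun a τ => (u a)⁻¹ • N (a, τ), hO', h0', hφ, fun a ha haq => ⟨?_, fun τ =>
    ⟨?_, ?_⟩⟩, hv⟩, ?_, fun a hva => ?_⟩
  · rw [c.eval_poly] at haq
    exact (hφ0 a ha).trans ((hρ' a (hPO (hO'P ha))).2.2 haq)
  · rw [c.eval_poly, c.q_smul, (hof a ha τ).1, mul_zero]
  · exact smul_ne_zero (inv_ne_zero (hu' a ha).1) (hpar (a, τ) ⟨ha, mem_univ _⟩).1
  · refine (hasDerivAt_dot _ hv).unique ((hasDerivAt_const (0 : ℂ) (0 : ℂ)).congr_of_eventuallyEq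
      (Eventually.of_forall fun τ => ?_))
    obtain ⟨α, β, e⟩ := (hof ξ₀ h0' τ).2
    rw [hρ0] at e
    simp only [e, dotProduct_smul, dotProduct_add, hE0.tan, smul_zero, add_zero]
  · obtain ⟨Bv, hBv⟩ := la_dual hE0.ind
    obtain ⟨e1, e2, -, -, p, q, hp, hq', hpq⟩ := H ξ₀ hP0
    rw [hρ0] at e1 e2 hpq
    have k := ((hasDerivAt_dot (Bv 1) hv).mul hq').sub ((hasDerivAt_dot (Bv 2) hv).mul hp)
    have k0 := k.unique ((hasDerivAt_const (0 : ℂ) (0 : ℂ)).congr_of_eventuallyEq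
      (Eventually.of_forall fun τ => by
        obtain ⟨α, β, e⟩ := (hof ξ₀ h0' τ).2
        rw [hρ0] at e
        simp only [Pi.sub_apply, Pi.mul_apply, e, dotProduct_smul, dotProduct_add, hBv, smul_eq_mul]
        simp
        ring))
    have b1 : Bv 1 ⬝ᵥ ξ₀ = (D ξ₀).2.2 1 := by
      conv_lhs => rw [hE0.pt]
      simp [dotProduct_add, dotProduct_smul, hBv]
    have b2 : Bv 2 ⬝ᵥ ξ₀ = (D ξ₀).2.2 2 := by
      conv_lhs => rw [hE0.pt]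
      simp [dotProduct_add, dotProduct_smul, hBv]
    rw [hφ0 ξ₀ h0', hρ0, hva, dotProduct_smul, dotProduct_smul, b1, b2, e1, e2] at k0
    exact hE0.y_ne (by simp only [smul_eq_mul] at k0; linear_combination k0 - hpq)

end Crest.Agent.R279
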