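import Crest.Agent.R279.Inv

/-! Row 279: the Cauchy-Green operator -/

set_option autoImplicit false

namespace Crest.Agent.R279

open Set Metric Filter Topology MeasureTheory

variable {E F : Type} [NormedAddCommGroup E] [NormedSpace ℂ E] [NormedAddCommGroup F]
  [NormedSpace ℂ F]

/-- `∂̄ χ`. -/
noncomputable def dbχ (χ : ℂ → ℝ) (ζ : ℂ) : ℂ :=
  ((fderiv ℝ χ ζ 1 : ℝ) + Complex.I * (fderiv ℝ χ ζ Complex.I : ℝ)) / 2

/-- `T (c ∂̄χ) (z) = -(1/π) ∫_S c ∂̄χ / (ζ - z)`. -/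
noncomputable def cgT (S : Set ℂ) (χ : ℂ → ℝ) (c : ℂ → V) (z : ℂ) : V :=
  (-(Real.pi : ℂ)⁻¹) • ∫ ζ in S, (dbχ χ ζ / (ζ - z)) • c ζ

/-- the piece on `A`. -/
noncomputable def splA (S : Set ℂ) (χ : ℂ → ℝ) (c : ℂ → V) (z : ℂ) : V :=
  S.indicator (fun w => ((1 - χ w : ℝ) : ℂ) • c w) z + cgT S χ c z

/-- the piece on `B`. -/
noncomputable def splB (S : Set ℂ) (χ : ℂ → ℝ) (c : ℂ → V) (z : ℂ) : V :=
  S.indicator (fun w => ((-χ w : ℝ) : ℂ) • c w) z + cgT S χ c z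

/-- the hypotheses on the cut-off and the profile. -/
structure CutOK (S : Set ℂ) (χ ω : ℂ → ℝ) (κ : ℝ) : Prop where
  op : IsOpen S
  c1 : ContDiffOn ℝ 1 χ S
  bd : ∀ ζ ∈ S, 0 ≤ χ ζ ∧ χ ζ ≤ 1
  ωκ : ∀ ζ ∈ S, ω ζ ≤ κ
  int : ∀ z : ℂ, ∫⁻ ζ in S, ENNReal.ofReal (ω ζ * ‖fderiv ℝ χ ζ‖ / ‖ζ - z‖) ≤ ENNReal.ofReal κ
  pos : 0 < κ
  meas : AEMeasurable ω (volume.restrict S)

variable {S : Set ℂ} {χ ω : ℂ → ℝ} {κ : ℝ}

theorem norm_dbχ_le (χ : ℂ → ℝ) (ζ : ℂ) : ‖dbχ χ ζ‖ ≤ ‖fderiv ℝ χ ζ‖ := by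
  have h1 := (fderiv ℝ χ ζ).le_opNorm 1
  have h2 := (fderiv ℝ χ ζ).le_opNorm Complex.I
  rw [norm_one, mul_one] at h1
  rw [Complex.norm_I, mul_one] at h2
  rw [dbχ, norm_div, Complex.norm_ofNat, div_le_iff₀ (by norm_num)]
  refine (norm_add_le _ _).trans ?_
  rw [norm_mul, Complex.norm_I, one_mul, Complex.norm_real, Complex.norm_real]
  linarith

theorem CutOK.cont_dbχ (h : CutOK S χ ω κ) : ContinuousOn (dbχ χ) S := by
  have h1 : ContinuousOn (fderiv ℝ χ) S := h.c1.continuousOn_fderiv_of_isOpen h.op le_rfl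
  exact ((Complex.continuous_ofReal.comp_continuousOn (h1.clm_apply continuousOn_const)).add
    (continuousOn_const.mul (Complex.continuous_ofReal.comp_continuousOn
      (h1.clm_apply continuousOn_const)))).div_const 2

/-- integrability and the bound of the integrand. -/
theorem CutOK.integrable (h : CutOK S χ ω κ) {c : ℂ → V} (hc : ContinuousOn c S) {l : ℝ}
    (hl : 0 ≤ l) (hb : ∀ ζ ∈ S, ‖c ζ‖ ≤ l * ω ζ) (z : ℂ) :
    IntegrableOn (fun ζ => (dbχ χ ζ / (ζ - z)) • c ζ) S ∧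
      ∫ ζ in S, ‖(dbχ χ ζ / (ζ - z)) • c ζ‖ ≤ l * κ := by
  have hS := h.op.measurableSet
  have hm : AEStronglyMeasurable (fun ζ => (dbχ χ ζ / (ζ - z)) • c ζ) (volume.restrict S) :=
    ((h.cont_dbχ.aemeasurable hS).div (measurable_id.sub_const z).aemeasurable).aestronglyMeasurable.smul
      (hc.aestronglyMeasurable hS)
  have h1 : ∫⁻ ζ in S, ENNReal.ofReal ‖(dbχ χ ζ / (ζ - z)) • c ζ‖ ≤ ENNReal.ofReal (l * κ) := by
    calc _ ≤ ∫⁻ ζ in S, ENNReal.ofReal l * ENNReal.ofReal (ω ζ * ‖fderiv ℝ χ ζ‖ / ‖ζ - z‖) := by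
          refine setLIntegral_mono' hS fun ζ hζ => ?_
          rw [← ENNReal.ofReal_mul hl, norm_smul, norm_div]
          refine ENNReal.ofReal_le_ofReal ?_
          calc _ ≤ ‖fderiv ℝ χ ζ‖ / ‖ζ - z‖ * (l * ω ζ) := by
                gcongr
                exacts [norm_dbχ_le χ ζ, hb ζ hζ]
            _ = _ := by ring
      _ ≤ _ := by
          rw [lintegral_const_mul' _ _ ENNReal.ofReal_ne_top, ENNReal.ofReal_mul hl]
          gcongr
          exact h.int z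
  refine ⟨⟨hm, ?_⟩, ?_⟩
  · rw [hasFiniteIntegral_iff_norm]
    exact h1.trans_lt ENNReal.ofReal_lt_top
  · rw [integral_eq_lintegral_of_nonneg_ae (Eventually.of_forall fun _ => norm_nonneg _) hm.norm]
    exact ENNReal.toReal_le_of_le_ofReal (mul_nonneg hl h.pos.le) h1

theorem CutOK.norm_spl_le (h : CutOK S χ ω κ) {c : ℂ → V} (hc : ContinuousOn c S) {l : ℝ}
    (hl : 0 ≤ l) (hb : ∀ ζ ∈ S, ‖c ζ‖ ≤ l * ω ζ) (z : ℂ) :
    ‖splA S χ c z‖ ≤ 2 * l * κ ∧ ‖splB S χ c z‖ ≤ 2 * l * κ := by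
  have h0 : 0 ≤ l * κ := mul_nonneg hl h.pos.le
  have h1 : ‖cgT S χ c z‖ ≤ l * κ := by
    rw [cgT, norm_smul, norm_neg, norm_inv, Complex.norm_real, Real.norm_of_nonneg Real.pi_pos.le]
    have h2 : Real.pi⁻¹ ≤ 1 := inv_le_one_of_one_le₀ (by linarith [Real.pi_gt_three])
    calc _ ≤ 1 * (l * κ) := by
          gcongr
          exact (norm_integral_le_integral_norm _).trans (h.integrable hc hl hb z).2
      _ = _ := one_mul _
  have h3 : ∀ t : ℂ → ℝ, (∀ w ∈ S, |t w| ≤ 1) →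
      ‖S.indicator (fun w => ((t w : ℝ) : ℂ) • c w) z‖ ≤ l * κ := fun t ht => by
    by_cases hz : z ∈ S
    · rw [indicator_of_mem hz, norm_smul, Complex.norm_real, Real.norm_eq_abs]
      calc _ ≤ 1 * (l * κ) := by
            gcongr
            exacts [ht z hz, (hb z hz).trans (mul_le_mul_of_nonneg_left (h.ωκ z hz) hl)]
        _ = _ := one_mul _
    · rwa [indicator_of_notMem hz, norm_zero]
  constructor
  · refine (norm_add_le _ _).trans ?_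
    linarith [h3 (fun w => 1 - χ w) fun w hw =>
      abs_le.2 ⟨by linarith [(h.bd w hw).2], by linarith [(h.bd w hw).1]⟩]
  · refine (norm_add_le _ _).trans ?_
    linarith [h3 (fun w => -χ w) fun w hw =>
      abs_le.2 ⟨by linarith [(h.bd w hw).2], by linarith [(h.bd w hw).1]⟩]

theorem CutOK.spl_sub (h : CutOK S χ ω κ) {c c' : ℂ → V} (hc : ContinuousOn c S)
    (hc' : ContinuousOn c' S) {l l' : ℝ} (hl : 0 ≤ l) (hl' : 0 ≤ l')
    (hb : ∀ ζ ∈ S, ‖c ζ‖ ≤ l * ω ζ) (hb' : ∀ ζ ∈ S, ‖c' ζ‖ ≤ l' * ω ζ) (z : ℂ) :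
    splA S χ (fun w => c w - c' w) z = splA S χ c z - splA S χ c' z ∧
      splB S χ (fun w => c w - c' w) z = splB S χ c z - splB S χ c' z := by
  have h1 : cgT S χ (fun w => c w - c' w) z = cgT S χ c z - cgT S χ c' z := by
    simp only [cgT, smul_sub]
    rw [integral_sub (h.integrable hc hl hb z).1 (h.integrable hc' hl' hb' z).1, smul_sub]
  simp only [splA, splB, h1]
  by_cases hz : z ∈ S
  · simp only [indicator_of_mem hz, smul_sub]
    constructor <;> abel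
  · simp only [indicator_of_notMem hz]
    constructor <;> abel

/-- a measurable profile below a given one: `ω' ζ = ⨆ i, ‖f i ζ‖` is lower semicontinuous on `S`
(`lowerSemicontinuousOn_ciSup`; `ω' = 0` resp. any if `ι` is empty). -/
theorem exists_meas_profile (hS : IsOpen S) {ι : Type} [Nonempty ι] {f : ι → ℂ → V}
    (hf : ∀ i, ContinuousOn (f i) S) (hb : ∀ i, ∀ ζ ∈ S, ‖f i ζ‖ ≤ ω ζ) :
    ∃ ω' : ℂ → ℝ, AEMeasurable ω' (volume.restrict S) ∧ (∀ ζ ∈ S, 0 ≤ ω' ζ ∧ ω' ζ ≤ ω ζ) ∧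
      ∀ i, ∀ ζ ∈ S, ‖f i ζ‖ ≤ ω' ζ := by
  have hbd : ∀ ζ ∈ S, BddAbove (range fun i => ‖f i ζ‖) := fun ζ hζ =>
    ⟨ω ζ, by rintro _ ⟨i, rfl⟩; exact hb i ζ hζ⟩
  have hl : LowerSemicontinuousOn (fun ζ => ⨆ i, ‖f i ζ‖) S :=
    lowerSemicontinuousOn_ciSup hbd fun i => (hf i).norm.lowerSemicontinuousOn
  refine ⟨fun ζ => ⨆ i, ‖f i ζ‖, ?_, fun ζ hζ => ⟨Real.iSup_nonneg fun _ => norm_nonneg _,
    ciSup_le fun i => hb i ζ hζ⟩, fun i ζ hζ => le_ciSup (hbd ζ hζ) i⟩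
  refine aemeasurable_restrict_of_measurable_subtype hS.measurableSet ?_
  exact (lowerSemicontinuous_restrict_iff.2 hl).measurable

theorem splA_sub_splB (c : ℂ → V) {z : ℂ} (hz : z ∈ S) : splA S χ c z - splB S χ c z = c z := by
  simp only [splA, splB, indicator_of_mem hz, add_sub_add_right_eq_sub, ← sub_smul]
  simp

theorem spl_congr (hS : MeasurableSet S) {c c' : ℂ → V} (h : EqOn c c' S) (z : ℂ) :
    splA S χ c z = splA S χ c' z ∧ splB S χ c z = splB S χ c' z := by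
  have h1 : cgT S χ c z = cgT S χ c' z := by
    rw [cgT, cgT, setIntegral_congr_fun hS (g := fun ζ => (dbχ χ ζ / (ζ - z)) • c' ζ)
      fun ζ hζ => by simp only [h hζ]]
  simp only [splA, splB, h1]
  by_cases hz : z ∈ S
  · simp only [indicator_of_mem hz, h hz, and_self]
  · simp only [indicator_of_notMem hz, and_self]

end Crest.Agent.R279
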