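import Crest.Agent.R279.Inv

/-! Row 279: holomorphic parameter integrals -/

set_option autoImplicit false

namespace Crest.Agent.R279

open Set Metric Filter Topology MeasureTheory

variable {E F : Type} [NormedAddCommGroup E] [NormedSpace ℂ E] [NormedAddCommGroup F]
  [NormedSpace ℂ F]

/-- a dominated integral of holomorphic maps is holomorphic
(`hasFDerivAt_integral_of_dominated_loc_of_lip`; the Lipschitz bound is `R264.SCV.norm_fderiv_le` /
`norm_sub_le`; the derivative at `x₀` is measurable in `ζ` as a limit of difference quotients along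
a basis). -/
theorem hol_integral [FiniteDimensional ℂ E] [CompleteSpace F] {α : Type} [MeasurableSpace α]
    {μ : Measure α} {N : Set E} (hN : IsOpen N) {Φ : E → α → F} {bd : α → ℝ}
    (hm : ∀ x ∈ N, AEStronglyMeasurable (Φ x) μ)
    (hh : ∀ᵐ ζ ∂μ, DifferentiableOn ℂ (fun x => Φ x ζ) N)
    (hb : ∀ᵐ ζ ∂μ, ∀ x ∈ N, ‖Φ x ζ‖ ≤ bd ζ) (hi : Integrable bd μ) :
    DifferentiableOn ℂ (fun x => ∫ ζ, Φ x ζ ∂μ) N := by
  classical
  intro x₀ hx₀
  obtain ⟨r, hr, hrN⟩ := Metric.isOpen_iff.1 hN x₀ hx₀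
  have hd : ∀ᵐ ζ ∂μ, HasFDerivAt (fun x => Φ x ζ) (fderiv ℂ (fun x => Φ x ζ) x₀) x₀ :=
    hh.mono fun ζ h => (h.differentiableAt (hN.mem_nhds hx₀)).hasFDerivAt
  have hv : ∀ v : E, AEStronglyMeasurable (fun ζ => fderiv ℂ (fun x => Φ x ζ) x₀ v) μ := by
    intro v
    have hc : Tendsto (fun n : ℕ => ‖(n : ℂ)‖) atTop atTop := by
      simpa using tendsto_natCast_atTop_atTop (R := ℝ)
    have hev : ∀ᶠ n : ℕ in atTop, x₀ + (n : ℂ)⁻¹ • v ∈ N := by
      have h0 : Tendsto (fun n : ℕ => (n : ℂ)⁻¹) atTop (𝓝 0) := tendsto_inv_atTop_nhds_zero_nat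
      have h1 : Tendsto (fun n : ℕ => x₀ + (n : ℂ)⁻¹ • v) atTop (𝓝 x₀) := by
        simpa using (h0.smul_const v).const_add x₀
      exact h1.eventually (hN.mem_nhds hx₀)
    refine aestronglyMeasurable_of_tendsto_ae atTop (f := fun (n : ℕ) ζ =>
      if x₀ + (n : ℂ)⁻¹ • v ∈ N then (n : ℂ) • (Φ (x₀ + (n : ℂ)⁻¹ • v) ζ - Φ x₀ ζ) else 0)
      (fun n => ?_) (hd.mono fun ζ h => ?_)
    · split_ifs with h
      · exact ((hm _ h).sub (hm _ hx₀)).const_smul (n : ℂ)
      · exact aestronglyMeasurable_const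
    · refine (h.lim v hc).congr' (hev.mono fun n hn => ?_)
      simp only [if_pos hn]
  have hF : AEStronglyMeasurable (fun ζ => fderiv ℂ (fun x => Φ x ζ) x₀) μ := by
    let b := Module.finBasis ℂ E
    have e : (fun ζ => fderiv ℂ (fun x => Φ x ζ) x₀) = fun ζ => ∑ i,
        ContinuousLinearMap.smulRightL ℂ E F (LinearMap.toContinuousLinearMap (b.coord i))
          (fderiv ℂ (fun x => Φ x ζ) x₀ (b i)) := by
      funext ζ
      ext v
      conv_lhs => rw [← b.sum_repr v, map_sum]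
      simp
    rw [e]
    exact Finset.aestronglyMeasurable_fun_sum _ fun i _ =>
      (ContinuousLinearMap.continuous _).comp_aestronglyMeasurable (hv _)
  refine (hasFDerivAt_integral_of_dominated_loc_of_lip' (bound := fun ζ => 2 * bd ζ / r)
    (ball_mem_nhds x₀ hr) (fun x hx => hm x (hrN hx))
    (hi.mono' (hm _ hx₀) (hb.mono fun ζ h => h _ hx₀)) hF ?_ ((hi.const_mul 2).div_const r)
    hd).2.differentiableAt.differentiableWithinAt
  filter_upwards [hh, hb] with ζ h1 h2 x hx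
  exact R264.SCV.norm_sub_le (f := fun x => Φ x ζ) (h1.mono hrN) (fun z hz => h2 z (hrN hz)) hx

end Crest.Agent.R279
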