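import Crest.Agent.R279.G1a
import Crest.Agent.R279.G1b
import Crest.Agent.R080.DBc

/-! Row 279: holomorphy of the two pieces -/

set_option autoImplicit false

namespace Crest.Agent.R279

open Set Metric Filter Topology MeasureTheory

variable {E F : Type} [NormedAddCommGroup E] [NormedSpace ℂ E] [NormedAddCommGroup F]
  [NormedSpace ℂ F]

variable {S : Set ℂ} {χ ω : ℂ → ℝ} {κ : ℝ}

theorem h40_far {u : ℂ → ℂ} (hs : HasCompactSupport u) (z : ℂ) :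
    ∃ R : ℝ, 0 < R ∧ ∀ w : ℂ, R ≤ ‖w‖ → u (w + z) = 0 := by
  obtain ⟨R, hR, h⟩ := hs.isCompact.isBounded.subset_ball_lt 0 z
  refine ⟨R, hR, fun w hw => image_eq_zero_of_notMem_tsupport fun h' => ?_⟩
  have := mem_ball_iff_norm.1 (h h')
  rw [add_sub_cancel_right] at this
  linarith

theorem h40_int {g : ℂ → ℂ} (hg : Continuous g) (hs : HasCompactSupport g) (z : ℂ) :
    Integrable fun ζ : ℂ => g ζ / (ζ - z) := by
  obtain ⟨R, -, h⟩ := h40_far hs z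
  have := (R080.dbc_int (g := fun w => g (w + z)) (by fun_prop) h).comp_sub_right z
  refine this.congr (Eventually.of_forall fun ζ => ?_)
  simp only [sub_add_cancel]
  rw [div_eq_inv_mul]

/-- Pompeiu's formula for a `C¹` function with compact support (translate `R080.dbc_pom`). -/
theorem pompeiu_cc {u : ℂ → ℂ} (hu : ContDiff ℝ 1 u) (hs : HasCompactSupport u) (z : ℂ) :
    ∫ ζ : ℂ, ((fderiv ℝ u ζ 1 + Complex.I * fderiv ℝ u ζ Complex.I) / 2) / (ζ - z) =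
      -(Real.pi : ℂ) * u z := by
  obtain ⟨R, hR, h⟩ := h40_far hs z
  have key := R080.dbc_pom (G := fun w => u (w + z)) (hu.comp (contDiff_id.add contDiff_const)) hR h
  rw [← integral_add_right_eq_self _ z]
  simp only [fderiv_comp_add_right, zero_add] at key
  have e : ∀ w : ℂ, (fderiv ℝ u (w + z) 1 + Complex.I * fderiv ℝ u (w + z) Complex.I) / 2 /
      (w + z - z) = 2⁻¹ * (w⁻¹ * (fderiv ℝ u (w + z) 1 +
        Complex.I * fderiv ℝ u (w + z) Complex.I)) := fun w => by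
    rw [add_sub_cancel_right]
    ring
  simp only [e]
  rw [integral_const_mul, key]
  ring

theorem h40_scalar (hS : IsOpen S) (hχ : ContDiffOn ℝ 1 χ S) {c : ℂ → ℂ}
    (hc : DifferentiableOn ℂ c S) {ϱ : ℂ → ℝ} (hϱ : ContDiff ℝ 1 ϱ) (hϱc : HasCompactSupport ϱ)
    (hϱS : tsupport ϱ ⊆ S) (z : ℂ) :
    IntegrableOn (fun ζ => (((ϱ ζ : ℂ) * dbχ χ ζ + (χ ζ : ℂ) * dbχ ϱ ζ) / (ζ - z)) * c ζ) S ∧
      ∫ ζ in S, (((ϱ ζ : ℂ) * dbχ χ ζ + (χ ζ : ℂ) * dbχ ϱ ζ) / (ζ - z)) * c ζ =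
        -(Real.pi : ℂ) * (((χ z * ϱ z : ℝ) : ℂ) * c z) := by
  set u : ℂ → ℂ := fun ζ => ((χ ζ * ϱ ζ : ℝ) : ℂ) * c ζ with hudef
  have h0 : ∀ ζ, ζ ∉ tsupport ϱ → u =ᶠ[𝓝 ζ] fun _ => 0 := fun ζ hζ => by
    filter_upwards [notMem_tsupport_iff_eventuallyEq.1 hζ] with w hw
    simp [hudef, hw]
  have hu : ContDiff ℝ 1 u := by
    refine contDiff_iff_contDiffAt.2 fun ζ => ?_
    by_cases hζ : ζ ∈ S
    · have h1 : ContDiffAt ℝ 1 c ζ :=
        ((hc.contDiffOn hS).contDiffAt (hS.mem_nhds hζ)).restrict_scalars ℝ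
      exact (Complex.ofRealCLM.contDiff.contDiffAt.comp ζ
        ((hχ.contDiffAt (hS.mem_nhds hζ)).mul hϱ.contDiffAt)).mul h1
    · exact contDiffAt_const.congr_of_eventuallyEq (h0 ζ fun h => hζ (hϱS h))
  have hus : HasCompactSupport u :=
    HasCompactSupport.intro hϱc.isCompact fun ζ hζ => (h0 ζ hζ).eq_of_nhds
  set g : ℂ → ℂ := fun ζ => (fderiv ℝ u ζ 1 + Complex.I * fderiv ℝ u ζ Complex.I) / 2 with hgdef
  have hg0 : ∀ ζ, ζ ∉ tsupport ϱ → g ζ = 0 := fun ζ hζ => by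
    simp [hgdef, (h0 ζ hζ).fderiv_eq]
  have hgc : Continuous g := by
    have := hu.continuous_fderiv one_ne_zero
    fun_prop
  have hgs : HasCompactSupport g := HasCompactSupport.intro hϱc.isCompact hg0
  have hg : ∀ ζ ∈ S, g ζ / (ζ - z) =
      (((ϱ ζ : ℂ) * dbχ χ ζ + (χ ζ : ℂ) * dbχ ϱ ζ) / (ζ - z)) * c ζ := fun ζ hζ => by
    have a1 := ((hχ.contDiffAt (hS.mem_nhds hζ)).differentiableAt one_ne_zero).hasFDerivAt
    have a2 := (hϱ.differentiable one_ne_zero ζ).hasFDerivAt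
    have a3 := (hc.differentiableAt (hS.mem_nhds hζ)).hasDerivAt.hasFDerivAt.restrictScalars ℝ
    have a4 := (Complex.ofRealCLM.hasFDerivAt.comp ζ (a1.mul a2)).mul a3
    have a5 : HasFDerivAt u _ ζ := a4
    have : g ζ = ((ϱ ζ : ℂ) * dbχ χ ζ + (χ ζ : ℂ) * dbχ ϱ ζ) * c ζ := by
      simp only [hgdef, a5.fderiv, dbχ]
      simp
      linear_combination (χ ζ * ϱ ζ * deriv c ζ / 2) * Complex.I_mul_I
    rw [this]
    ring
  refine ⟨((h40_int hgc hgs z).integrableOn).congr_fun hg hS.measurableSet, ?_⟩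
  rw [← setIntegral_congr_fun hS.measurableSet hg, setIntegral_eq_integral_of_forall_compl_eq_zero
    fun ζ hζ => by rw [hg0 ζ fun h => hζ (hϱS h), zero_div]]
  exact pompeiu_cc hu hus z

/-- localisation: for a bump `ϱ` (real `C¹`, compact support in `S`) and `c` holomorphic on `S`,
`T (c ∂̄χ) z - χ z ϱ z c z = -(1/π) ∫_S ((1 - ϱ) ∂̄χ - χ ∂̄ϱ) c / (ζ - z)`
(`pompeiu_cc` for the components of `χ ϱ c`, `∂̄ (χ ϱ c) = (ϱ ∂̄χ + χ ∂̄ϱ) c`). -/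
theorem CutOK.cgT_loc (h : CutOK S χ ω κ) {c : ℂ → V} (hc : DifferentiableOn ℂ c S) {l : ℝ}
    (hl : 0 ≤ l) (hb : ∀ ζ ∈ S, ‖c ζ‖ ≤ l * ω ζ) {ϱ : ℂ → ℝ} (hϱ : ContDiff ℝ 1 ϱ)
    (hϱc : HasCompactSupport ϱ) (hϱS : tsupport ϱ ⊆ S) (z : ℂ) :
    cgT S χ c z - ((χ z * ϱ z : ℝ) : ℂ) • c z = (-(Real.pi : ℂ)⁻¹) •
      ∫ ζ in S, ((((1 - ϱ ζ : ℝ) : ℂ) * dbχ χ ζ - (χ ζ : ℂ) * dbχ ϱ ζ) / (ζ - z)) • c ζ := by
  have h1 := (h.integrable hc.continuousOn hl hb z).1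
  have h2 := fun i => h40_scalar h.op h.c1 (differentiableOn_pi.1 hc i) hϱ hϱc hϱS z
  have h3 : IntegrableOn
      (fun ζ => (((ϱ ζ : ℂ) * dbχ χ ζ + (χ ζ : ℂ) * dbχ ϱ ζ) / (ζ - z)) • c ζ) S :=
    integrable_pi_iff.2 fun i => (h2 i).1
  have h4 : ∫ ζ in S, (((ϱ ζ : ℂ) * dbχ χ ζ + (χ ζ : ℂ) * dbχ ϱ ζ) / (ζ - z)) • c ζ =
      (-(Real.pi : ℂ)) • ((χ z * ϱ z : ℝ) : ℂ) • c z := by
    funext i
    exact (eval_integral (fun i => (h2 i).1) i).trans (h2 i).2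
  have e : ∀ ζ, ((((1 - ϱ ζ : ℝ) : ℂ) * dbχ χ ζ - (χ ζ : ℂ) * dbχ ϱ ζ) / (ζ - z)) • c ζ =
      (dbχ χ ζ / (ζ - z)) • c ζ -
        (((ϱ ζ : ℂ) * dbχ χ ζ + (χ ζ : ℂ) * dbχ ϱ ζ) / (ζ - z)) • c ζ := fun ζ => by
    rw [← sub_smul]
    congr 1
    push_cast
    ring
  simp only [e]
  have hπ : (Real.pi : ℂ) ≠ 0 := by exact_mod_cast Real.pi_ne_zero
  rw [integral_sub h1 h3, h4, smul_sub, smul_smul, neg_mul_neg, inv_mul_cancel₀ hπ, one_smul, cgT]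

/-- an integral whose kernel vanishes near `z₀` is jointly holomorphic near `(a, z₀)`
(`hol_integral` on `D ×ˢ ball z₀ (r / 2)`, `‖ζ - z‖ ≥ ‖ζ - z₀‖ / 2`). -/
theorem hol_far [FiniteDimensional ℂ E] (hS : IsOpen S) {D : Set E} (hD : IsOpen D)
    {c : E × ℂ → V} (hc : DifferentiableOn ℂ c (D ×ˢ S)) {k : ℂ → ℂ} (hk : ContinuousOn k S)
    {z₀ : ℂ} {r : ℝ} (hr : 0 < r) (h0 : ∀ ζ ∈ S, ‖ζ - z₀‖ < r → k ζ = 0) {bd : ℂ → ℝ}
    (hb : ∀ a ∈ D, ∀ ζ ∈ S, ‖(k ζ / (ζ - z₀)) • c (a, ζ)‖ ≤ bd ζ) (hi : IntegrableOn bd S) :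
    DifferentiableOn ℂ (fun x : E × ℂ => ∫ ζ in S, (k ζ / (ζ - x.2)) • c (x.1, ζ))
      (D ×ˢ ball z₀ (r / 2)) := by
  refine hol_integral (μ := volume.restrict S) (hD.prod isOpen_ball)
    (Φ := fun (x : E × ℂ) ζ => (k ζ / (ζ - x.2)) • c (x.1, ζ)) (bd := fun ζ => 2 * bd ζ)
    (fun x hx => ?_) ?_ ?_ (hi.const_mul 2)
  · refine AEStronglyMeasurable.smul (f := fun ζ => k ζ / (ζ - x.2)) (g := fun ζ => c (x.1, ζ))
      ?_ ?_
    · exact ((hk.aestronglyMeasurable hS.measurableSet).aemeasurable.div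
        (measurable_id.sub_const _).aemeasurable).aestronglyMeasurable
    · refine ContinuousOn.aestronglyMeasurable ?_ hS.measurableSet
      exact hc.continuousOn.comp (by fun_prop) fun ζ hζ => ⟨hx.1, hζ⟩
  · refine ae_restrict_of_forall_mem hS.measurableSet fun ζ hζ => ?_
    by_cases h : ‖ζ - z₀‖ < r
    · simp only [h0 ζ hζ h, zero_div, zero_smul]
      exact differentiableOn_const _
    · refine DifferentiableOn.smul (c := fun x : E × ℂ => k ζ / (ζ - x.2)) ?_ ?_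
      · simp only [div_eq_mul_inv]
        refine DifferentiableOn.const_mul (DifferentiableOn.inv (by fun_prop) fun x hx h1 => ?_) _
        rw [sub_eq_zero.1 h1] at h
        exact h ((mem_ball_iff_norm.1 hx.2).trans (half_lt_self hr))
      · exact hc.comp (by fun_prop) fun x hx => ⟨hx.1, hζ⟩
  · refine ae_restrict_of_forall_mem hS.measurableSet fun ζ hζ x hx => ?_
    have h1 := hb x.1 hx.1 ζ hζ
    by_cases h : ‖ζ - z₀‖ < r
    · simp only [h0 ζ hζ h, zero_div, zero_smul, norm_zero] at h1 ⊢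
      linarith
    · refine le_trans ?_ (mul_le_mul_of_nonneg_left h1 zero_le_two)
      have h2 : ‖x.2 - z₀‖ < r / 2 := mem_ball_iff_norm.1 hx.2
      have h3 : ‖ζ - z₀‖ ≤ ‖ζ - x.2‖ + ‖x.2 - z₀‖ := norm_sub_le_norm_sub_add_norm_sub _ _ _
      have h4 := not_lt.1 h
      rw [norm_smul, norm_smul, norm_div, norm_div, ← mul_assoc]
      refine mul_le_mul_of_nonneg_right ?_ (norm_nonneg _)
      rw [← mul_div_assoc, div_le_div_iff₀ (by linarith) (by linarith)]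
      nlinarith [norm_nonneg (k ζ)]

private theorem h15_bd (h : CutOK S χ ω κ) (z : ℂ) :
    IntegrableOn (fun ζ => max (ω ζ * ‖fderiv ℝ χ ζ‖ / ‖ζ - z‖) 0) S := by
  have h1 : AEMeasurable (fun ζ => ENNReal.ofReal (ω ζ * ‖fderiv ℝ χ ζ‖ / ‖ζ - z‖))
      (volume.restrict S) :=
    ((h.meas.mul (measurable_fderiv ℝ χ).norm.aemeasurable).div
      (measurable_id.sub_const z).norm.aemeasurable).ennreal_ofReal
  have h2 := integrable_toReal_of_lintegral_ne_top h1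
    (ne_top_of_le_ne_top ENNReal.ofReal_ne_top (h.int z))
  simp only [ENNReal.toReal_ofReal'] at h2
  exact h2

private theorem h15_le {v : V} {l : ℝ} (hl : 0 ≤ l) {ζ : ℂ} (hv : ‖v‖ ≤ l * ω ζ) (z : ℂ) :
    ‖(dbχ χ ζ / (ζ - z)) • v‖ ≤ l * max (ω ζ * ‖fderiv ℝ χ ζ‖ / ‖ζ - z‖) 0 := by
  refine le_trans ?_ (mul_le_mul_of_nonneg_left (le_max_left _ _) hl)
  rw [norm_smul, norm_div, ← mul_div_assoc, ← mul_assoc, div_mul_eq_mul_div, mul_comm]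
  exact div_le_div_of_nonneg_right
    (mul_le_mul hv (norm_dbχ_le χ ζ) (norm_nonneg _) ((norm_nonneg _).trans hv)) (norm_nonneg _)

private theorem h15_db_zero {ϱ : ℂ → ℝ} {t : ℝ} {ζ : ℂ} (h : ϱ =ᶠ[𝓝 ζ] fun _ => t) :
    dbχ ϱ ζ = 0 := by
  simp [dbχ, h.fderiv_eq]

private theorem h15_out [FiniteDimensional ℂ E] (h : CutOK S χ ω κ) {D : Set E} (hD : IsOpen D)
    {c : E × ℂ → V} (hc : DifferentiableOn ℂ c (D ×ˢ S)) {l : ℝ} (hl : 0 ≤ l)
    (hb : ∀ a ∈ D, ∀ ζ ∈ S, ‖c (a, ζ)‖ ≤ l * ω ζ) {x₀ : E × ℂ} (hx₀ : x₀.1 ∈ D) {t : ℝ}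
    (ht : ∀ᶠ ξ in 𝓝 x₀.2, ξ ∈ S → χ ξ = t) :
    DifferentiableAt ℂ (fun x : E × ℂ => cgT S χ (fun w => c (x.1, w)) x.2) x₀ := by
  obtain ⟨r, hr, hrt⟩ := Metric.eventually_nhds_iff_ball.1 ht
  have h1 := hol_far h.op hD hc h.cont_dbχ (z₀ := x₀.2) hr (fun ζ hζ hζr => h15_db_zero (t := t) (by
      filter_upwards [h.op.mem_nhds hζ, isOpen_ball.mem_nhds (mem_ball_iff_norm.2 hζr)] with ξ a b
      exact hrt ξ b a))
    (fun a ha ζ hζ => h15_le hl (hb a ha ζ hζ) x₀.2) ((h15_bd h x₀.2).const_mul l)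
  exact (h1.differentiableAt ((hD.prod isOpen_ball).mem_nhds
    ⟨hx₀, mem_ball_self (half_pos hr)⟩)).const_smul (-(Real.pi : ℂ)⁻¹)

private theorem h15_in [FiniteDimensional ℂ E] (h : CutOK S χ ω κ) {D : Set E} (hD : IsOpen D)
    {c : E × ℂ → V} (hc : DifferentiableOn ℂ c (D ×ˢ S)) {l : ℝ} (hl : 0 ≤ l)
    (hb : ∀ a ∈ D, ∀ ζ ∈ S, ‖c (a, ζ)‖ ≤ l * ω ζ) {x₀ : E × ℂ} (hx₀ : x₀.1 ∈ D) (hz : x₀.2 ∈ S) :
    DifferentiableAt ℂ
      (fun x : E × ℂ => cgT S χ (fun w => c (x.1, w)) x.2 - ((χ x.2 : ℝ) : ℂ) • c x) x₀ := by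
  obtain ⟨ε, hε, hεS⟩ := Metric.isOpen_iff.1 h.op _ hz
  let f : ContDiffBump x₀.2 := ⟨ε / 3, 2 * ε / 3, by positivity, by linarith⟩
  have hr : 0 < ε / 3 := by positivity
  have hf1 : ContDiff ℝ 1 f := f.contDiff
  have hfS : tsupport f ⊆ S := by
    rw [f.tsupport_eq]
    exact (closedBall_subset_ball (show 2 * ε / 3 < ε by linarith)).trans hεS
  have hdf : Continuous (fderiv ℝ f) := hf1.continuous_fderiv one_ne_zero
  have hdb : Continuous (dbχ f) := by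
    unfold dbχ
    fun_prop
  have hone : ∀ ζ, ‖ζ - x₀.2‖ < ε / 3 → (f : ℂ → ℝ) =ᶠ[𝓝 ζ] fun _ => 1 := fun ζ hζ =>
    f.eventuallyEq_one_of_mem_ball (mem_ball_iff_norm.2 hζ)
  have hi2 : Integrable fun ζ => ‖fderiv ℝ f ζ‖ :=
    hdf.norm.integrable_of_hasCompactSupport (f.hasCompactSupport.fderiv (𝕜 := ℝ)).norm
  have hχc : ContinuousOn χ S := h.c1.continuousOn
  have h1 := hol_far h.op hD hc
    (k := fun ζ => ((1 - f ζ : ℝ) : ℂ) * dbχ χ ζ - (χ ζ : ℂ) * dbχ f ζ)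
    (((Complex.continuous_ofReal.comp (continuous_const.sub hf1.continuous)).continuousOn.mul
      h.cont_dbχ).sub ((Complex.continuous_ofReal.comp_continuousOn hχc).mul hdb.continuousOn))
    (z₀ := x₀.2) hr (fun ζ _ hζr => by
      simp only [h15_db_zero (hone ζ hζr), (hone ζ hζr).self_of_nhds]
      simp)
    (bd := fun ζ => l * max (ω ζ * ‖fderiv ℝ χ ζ‖ / ‖ζ - x₀.2‖) 0 +
      l * κ / (ε / 3) * ‖fderiv ℝ f ζ‖) (fun a ha ζ hζ => by
      have a1 := h15_le (χ := χ) hl (hb a ha ζ hζ) x₀.2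
      have a2 : ‖c (a, ζ)‖ ≤ l * κ :=
        (hb a ha ζ hζ).trans (mul_le_mul_of_nonneg_left (h.ωκ ζ hζ) hl)
      have a3 : ‖((1 - f ζ : ℝ) : ℂ)‖ ≤ 1 := by
        rw [Complex.norm_real, Real.norm_eq_abs, abs_le]
        constructor <;> linarith [f.nonneg' ζ, (f.le_one : f ζ ≤ 1)]
      have a4 : ‖(χ ζ : ℂ)‖ ≤ 1 := by
        rw [Complex.norm_real, Real.norm_eq_abs, abs_le]
        constructor <;> linarith [h.bd ζ hζ]
      rw [sub_div, sub_smul, mul_div_assoc, mul_div_assoc, mul_smul, mul_smul]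
      refine (norm_sub_le _ _).trans (add_le_add ?_ ?_)
      · rw [norm_smul]
        exact (mul_le_of_le_one_left (norm_nonneg _) a3).trans a1
      · rw [norm_smul]
        refine (mul_le_of_le_one_left (norm_nonneg _) a4).trans ?_
        have hlκ : 0 ≤ l * κ := (norm_nonneg _).trans a2
        by_cases hζr : ‖ζ - x₀.2‖ < ε / 3
        · rw [h15_db_zero (hone ζ hζr), zero_div, zero_smul, norm_zero]
          positivity
        · rw [norm_smul, norm_div, div_mul_eq_mul_div, div_mul_eq_mul_div, mul_comm]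
          exact div_le_div₀ (by positivity)
            (mul_le_mul a2 (norm_dbχ_le f ζ) (norm_nonneg _) hlκ) hr (not_lt.1 hζr))
    (((h15_bd h x₀.2).const_mul l).add (hi2.const_mul _).integrableOn)
  have hn : D ×ˢ ball x₀.2 (ε / 3 / 2) ∈ 𝓝 x₀ :=
    (hD.prod isOpen_ball).mem_nhds ⟨hx₀, mem_ball_self (half_pos hr)⟩
  refine ((h1.differentiableAt hn).const_smul (-(Real.pi : ℂ)⁻¹)).congr_of_eventuallyEq ?_
  filter_upwards [hn] with x hx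
  have h2 := h.cgT_loc (c := fun w => c (x.1, w))
    (hc.comp (by fun_prop) fun w hw => ⟨hx.1, hw⟩) hl (hb x.1 hx.1) hf1 f.hasCompactSupport hfS x.2
  rw [(hone x.2 ((mem_ball_iff_norm.1 hx.2).trans (half_lt_self hr))).self_of_nhds, mul_one] at h2
  exact h2

/-- joint holomorphy of the two pieces.  Near `z₀ ∈ S`: bump `ϱ = 1` near `z₀`, `cgT_loc`,
`hol_far` (shrink `D` to a neighbourhood where `c` is bounded on `tsupport ϱ`; or use
`‖c‖ ≤ l κ`), and `splA = (cgT - χ c) + c`.  Near `z₀ ∈ A \ B`: `χ = 1` on `S` near `z₀`, so the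
indicator term and `∂̄χ` vanish there. -/
theorem CutOK.hol_spl [FiniteDimensional ℂ E] {A B : Set ℂ} (hA : IsOpen A) (hB : IsOpen B)
    (h : CutOK (A ∩ B) χ ω κ) (hχA : ∀ ζ ∈ A, ζ ∉ B → ∀ᶠ ξ in 𝓝 ζ, ξ ∈ B → χ ξ = 1)
    (hχB : ∀ ζ ∈ B, ζ ∉ A → ∀ᶠ ξ in 𝓝 ζ, ξ ∈ A → χ ξ = 0) {D : Set E} (hD : IsOpen D)
    {c : E × ℂ → V} (hc : DifferentiableOn ℂ c (D ×ˢ (A ∩ B))) {l : ℝ} (hl : 0 ≤ l)
    (hb : ∀ a ∈ D, ∀ ζ ∈ A ∩ B, ‖c (a, ζ)‖ ≤ l * ω ζ) :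
    DifferentiableOn ℂ (fun x : E × ℂ => splA (A ∩ B) χ (fun w => c (x.1, w)) x.2) (D ×ˢ A) ∧
      DifferentiableOn ℂ (fun x : E × ℂ => splB (A ∩ B) χ (fun w => c (x.1, w)) x.2) (D ×ˢ B) := by
  have hsnd : ∀ x₀ : E × ℂ, Tendsto Prod.snd (𝓝 x₀) (𝓝 x₀.2) := fun x₀ => continuous_snd.tendsto x₀
  constructor
  · intro x₀ hx₀
    refine DifferentiableAt.differentiableWithinAt ?_
    by_cases hz : x₀.2 ∈ B
    · have hS : x₀.2 ∈ A ∩ B := ⟨hx₀.2, hz⟩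
      refine ((h15_in h hD hc hl hb hx₀.1 hS).add
        (hc.differentiableAt ((hD.prod h.op).mem_nhds ⟨hx₀.1, hS⟩))).congr_of_eventuallyEq ?_
      filter_upwards [(hsnd x₀).eventually (h.op.eventually_mem hS)] with x hx
      simp only [splA, indicator_of_mem hx, Pi.add_apply, Complex.ofReal_sub, Complex.ofReal_one,
        sub_smul, one_smul]
      abel
    · have ht : ∀ᶠ ξ in 𝓝 x₀.2, ξ ∈ A ∩ B → χ ξ = 1 :=
        (hχA _ hx₀.2 hz).mono fun ξ h1 h2 => h1 h2.2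
      refine (h15_out h hD hc hl hb hx₀.1 ht).congr_of_eventuallyEq ?_
      filter_upwards [(hsnd x₀).eventually ht] with x hx
      by_cases h1 : x.2 ∈ A ∩ B
      · simp [splA, indicator_of_mem h1, hx h1]
      · simp [splA, indicator_of_notMem h1]
  · intro x₀ hx₀
    refine DifferentiableAt.differentiableWithinAt ?_
    by_cases hz : x₀.2 ∈ A
    · have hS : x₀.2 ∈ A ∩ B := ⟨hz, hx₀.2⟩
      refine (h15_in h hD hc hl hb hx₀.1 hS).congr_of_eventuallyEq ?_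
      filter_upwards [(hsnd x₀).eventually (h.op.eventually_mem hS)] with x hx
      simp only [splB, indicator_of_mem hx, Complex.ofReal_neg, neg_smul]
      abel
    · have ht : ∀ᶠ ξ in 𝓝 x₀.2, ξ ∈ A ∩ B → χ ξ = 0 :=
        (hχB _ hx₀.2 hz).mono fun ξ h1 h2 => h1 h2.1
      refine (h15_out h hD hc hl hb hx₀.1 ht).congr_of_eventuallyEq ?_
      filter_upwards [(hsnd x₀).eventually ht] with x hx
      by_cases h1 : x.2 ∈ A ∩ B
      · simp [splB, indicator_of_mem h1, hx h1]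
      · simp [splB, indicator_of_notMem h1]

end Crest.Agent.R279
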