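import Crest.Agent.R279.Inv
import Crest.Agent.R279.GenD
import Crest.Agent.R279.AOut
import Crest.Agent.R279.Flow

/-! Row 279: two transverse families of entire curves through a generic point -/

set_option autoImplicit false

namespace Crest.Agent.R279

open Set Metric Filter Topology

variable {E E' F : Type} [NormedAddCommGroup E] [NormedSpace ℂ E] [NormedAddCommGroup E']
  [NormedSpace ℂ E'] [NormedAddCommGroup F] [NormedSpace ℂ F] {M : Set W}

/-- **GEN** (step (4)). -/
theorem gen_tubes {Q : MvPolynomial (Fin 4) ℂ} (hQ : SmoothQ Q) :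
    ∃ r : MvPolynomial (Fin 4) ℂ, ¬ Q ∣ r ∧ ∀ x : V, x ≠ 0 → MvPolynomial.eval x Q = 0 →
      MvPolynomial.eval x r ≠ 0 →
      ∃ v₁ v₂ : V, LinearIndependent ℂ ![x, v₁, v₂] ∧ XTube Q x v₁ ∧ XTube Q x v₂ :=
  gen_tubes_of_flow hQ fun _ hc _ hd _ _ _ hO h0 _ hq hD hE => tube_of_ell hc hd hO h0 hq hD hE

/-- the complement of a proper hypersurface section is dense in the cone (`Q` is prime; if `r`
vanished on an open piece of the cone then, by a resultant / implicit function argument, `Q ∣ r`). -/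
theorem dense_MQ {Q : MvPolynomial (Fin 4) ℂ} (hQ : SmoothQ Q) {r : MvPolynomial (Fin 4) ℂ}
    (hr : ¬ Q ∣ r) : ∀ m ∈ MQ Q, m ∈ closure (MQ Q ∩ {m' | MvPolynomial.eval m'.1 r ≠ 0}) :=
  dense_MQ' hQ hr

end Crest.Agent.R279
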