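import Crest.Agent.R279.Defs

/-! Row 279: logarithmic coordinates for the half-space step -/

set_option autoImplicit false

namespace Crest.Agent.R279

open Set Metric Filter Topology

variable {E : Type} [NormedAddCommGroup E] [NormedSpace ℂ E]

/-- the base curve `Re (exp v) = 1`. -/
noncomputable def hsβ (t : ℝ) : ℝ := -Real.log (Real.cos t)

/-- `(p, v) ↦ (e^v p, e^v)`. -/
noncomputable def hsΦ (x : E × ℂ) : E × ℂ := (Complex.exp x.2 • x.1, Complex.exp x.2)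

/-- `(k, u) ↦ (k / u, log u)`. -/
noncomputable def hsL (x : E × ℂ) : E × ℂ := (x.2⁻¹ • x.1, Complex.log x.2)

theorem hsΦ_diff : Differentiable ℂ (hsΦ : E × ℂ → E × ℂ) := by
  unfold hsΦ
  fun_prop

theorem hsL_diff : DifferentiableOn ℂ (hsL : E × ℂ → E × ℂ) {x | 0 < x.2.re} := by
  intro x hx
  have h0 : x.2 ≠ 0 := fun h => by simp [h] at hx
  have h1 : x.2 ∈ Complex.slitPlane := Or.inl hx
  refine DifferentiableAt.differentiableWithinAt ?_
  exact ((differentiableAt_snd.inv h0).smul differentiableAt_fst).prodMk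
    (differentiableAt_snd.clog h1)

theorem hsΦ_L {x : E × ℂ} (hx : 0 < x.2.re) : hsΦ (hsL x) = x := by
  have h0 : x.2 ≠ 0 := fun h => by simp [h] at hx
  simp [hsΦ, hsL, Complex.exp_log h0, smul_smul, mul_inv_cancel₀ h0]

theorem hs_key {u : ℂ} (hu : 0 < u.re) :
    (Complex.log u).re - hsβ (Complex.log u).im = Real.log u.re := by
  have h0 : u ≠ 0 := fun h => by simp [h] at hu
  rw [Complex.log_re, Complex.log_im, hsβ, Complex.cos_arg h0,
    Real.log_div hu.ne' (norm_ne_zero_iff.2 h0)]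
  ring

theorem hs_exp_re {t : ℝ} (ht : 0 < Real.cos t) : (Complex.exp (cpt hsβ t)).re = 1 := by
  rw [Complex.exp_re]
  have h1 : (cpt hsβ t).re = hsβ t := by simp [cpt]
  have h2 : (cpt hsβ t).im = t := by simp [cpt]
  rw [h1, h2, hsβ, Real.exp_neg, Real.exp_log ht, inv_mul_cancel₀ ht.ne']

theorem hs_exp_cpt {u : ℂ} (hu : 0 < u.re) :
    Complex.exp (cpt hsβ (Complex.log u).im) = ((u.re⁻¹ : ℝ) : ℂ) * u := by
  have h0 : u ≠ 0 := fun h => by simp [h] at hu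
  have h1 : cpt hsβ (Complex.log u).im = Complex.log u - (Real.log u.re : ℝ) := by
    have := hs_key hu
    apply Complex.ext
    · simp only [cpt, Complex.add_re, Complex.ofReal_re, Complex.mul_re, Complex.I_re, mul_zero,
        Complex.ofReal_im, Complex.I_im, mul_one, sub_self, add_zero, Complex.sub_re]
      linarith
    · simp [cpt]
  rw [h1, Complex.exp_sub, Complex.exp_log h0, ← Complex.ofReal_exp, Real.exp_log hu]
  push_cast
  ring

theorem hs_cos_pos {t₁ t : ℝ} (h1 : t₁ < Real.pi / 2) (ht : t ∈ Icc (-t₁) t₁) :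
    0 < Real.cos t :=
  Real.cos_pos_of_mem_Ioo ⟨by linarith [ht.1], by linarith [ht.2]⟩

theorem hs_cos_ge {t₁ t : ℝ} (h1 : t₁ < Real.pi / 2) (ht : t ∈ Icc (-t₁) t₁) :
    Real.cos t₁ ≤ Real.cos t := by
  rw [← Real.cos_abs t]
  exact Real.cos_le_cos_of_nonneg_of_le_pi (abs_nonneg t) (by linarith [Real.pi_pos])
    (abs_le.2 ht)

theorem hsβ_contDiffOn {t₁ : ℝ} (h1 : t₁ < Real.pi / 2) : ContDiffOn ℝ 1 hsβ (Icc (-t₁) t₁) :=
  (Real.contDiff_cos.contDiffOn.log fun _ ht => (hs_cos_pos h1 ht).ne').neg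

theorem hsβ_deriv {t₁ t : ℝ} (h1 : t₁ < Real.pi / 2) (ht : t ∈ Icc (-t₁) t₁) :
    |deriv hsβ t| ≤ (Real.cos t₁)⁻¹ := by
  have hc := hs_cos_pos h1 ht
  have hc1 : 0 < Real.cos t₁ := hs_cos_pos h1 ⟨by linarith [ht.1, ht.2], le_rfl⟩
  have hd : HasDerivAt hsβ (-(-Real.sin t / Real.cos t)) t :=
    ((Real.hasDerivAt_cos t).log hc.ne').neg
  rw [hd.deriv, abs_neg, abs_div, abs_neg, abs_of_pos hc, div_eq_mul_inv]
  calc |Real.sin t| * (Real.cos t)⁻¹ ≤ 1 * (Real.cos t₁)⁻¹ :=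
        mul_le_mul (Real.abs_sin_le_one t) (inv_anti₀ hc1 (hs_cos_ge h1 ht)) (by positivity)
          zero_le_one
    _ = _ := one_mul _

theorem hsβ_abs {t₁ t : ℝ} (h1 : t₁ < Real.pi / 2) (ht : t ∈ Icc (-t₁) t₁) :
    |hsβ t| ≤ (Real.cos t₁)⁻¹ := by
  have hc := hs_cos_pos h1 ht
  have hc1 : 0 < Real.cos t₁ := hs_cos_pos h1 ⟨by linarith [ht.1, ht.2], le_rfl⟩
  have h2 : Real.log (Real.cos t) ≤ 0 := Real.log_nonpos hc.le (Real.cos_le_one t)
  have h3 := Real.log_le_sub_one_of_pos (inv_pos.2 hc)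
  rw [Real.log_inv] at h3
  have h4 := inv_anti₀ hc1 (hs_cos_ge h1 ht)
  rw [hsβ, abs_of_nonneg (by linarith)]
  linarith

theorem hs_cpt_cont {t₁ : ℝ} (h1 : t₁ < Real.pi / 2) : ContinuousOn (cpt hsβ) (Icc (-t₁) t₁) := by
  have h := (hsβ_contDiffOn h1).continuousOn
  exact (Complex.continuous_ofReal.comp_continuousOn h).add
    (Complex.continuous_ofReal.mul continuous_const).continuousOn

/-- the arguments of the points of a bounded set with `Re u ≥ 1` stay away from `± π / 2`. -/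
theorem hs_arg {B : ℝ} (hB : 0 < B) : ∃ t₀ : ℝ, 0 ≤ t₀ ∧ t₀ < Real.pi / 2 ∧
    ∀ u : ℂ, 1 ≤ u.re → ‖u‖ ≤ B → |(Complex.log u).im| ≤ t₀ := by
  refine ⟨Real.arccos B⁻¹, Real.arccos_nonneg _, Real.arccos_lt_pi_div_two.2 (inv_pos.2 hB),
    fun u hu hn => ?_⟩
  have h0 : u ≠ 0 := fun h => by simp [h] at hu; linarith
  have hp : 0 < ‖u‖ := norm_pos_iff.2 h0
  rw [Complex.log_im, ← Real.arccos_cos (abs_nonneg u.arg) (Complex.abs_arg_le_pi u),
    Real.cos_abs, Complex.cos_arg h0]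
  refine Real.arccos_le_arccos ?_
  rw [div_eq_mul_inv]
  calc B⁻¹ = 1 * B⁻¹ := (one_mul _).symm
    _ ≤ u.re * ‖u‖⁻¹ := mul_le_mul hu (inv_anti₀ hp hn) (by positivity) (by linarith)

theorem hs_compact {K : Set (E × ℂ)} (hK : IsCompact K) {Γ : Set ℂ} (hΓ : IsCompact Γ) :
    IsCompact (hsΦ ⁻¹' K ∩ Prod.snd ⁻¹' Γ) := by
  have hc : Continuous fun a : (E × ℂ) × ℂ => ((Complex.exp (-a.2) • a.1.1, a.2) : E × ℂ) := by
    fun_prop
  refine ((hK.prod hΓ).image hc).of_isClosed_subset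
    ((hK.isClosed.preimage hsΦ_diff.continuous).inter (hΓ.isClosed.preimage continuous_snd)) ?_
  rintro x ⟨hx, hx'⟩
  refine ⟨(hsΦ x, x.2), ⟨hx, hx'⟩, ?_⟩
  simp [hsΦ, smul_smul, ← Complex.exp_add]

/-- radial projection onto `Re u = 1`. -/
theorem hs_radial {K : Set (E × ℂ)} (hKc : Convex ℝ K) (h0 : (0 : E × ℂ) ∈ K) {x : E × ℂ}
    (hx : x ∈ K) (hu : 1 ≤ x.2.re) : hsΦ ((hsL x).1, cpt hsβ (hsL x).2.im) ∈ K := by
  have hp : 0 < x.2.re := by linarith
  have hne : x.2 ≠ 0 := fun h => by simp [h] at hp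
  have h1 : hsΦ ((hsL x).1, cpt hsβ (hsL x).2.im) = x.2.re⁻¹ • x := by
    simp only [hsΦ, hsL, hs_exp_cpt hp]
    refine Prod.ext ?_ ?_
    · simp only [Prod.smul_fst]
      rw [smul_smul, mul_assoc, mul_inv_cancel₀ hne, mul_one, Complex.coe_smul]
    · simp
  rw [h1]
  exact hKc.smul_mem_of_zero_mem h0 hx ⟨by positivity, inv_le_one_of_one_le₀ hu⟩

end Crest.Agent.R279
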