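import Crest.Agent.R279.RL
import Crest.Agent.R279.Cut
import Crest.Agent.R279.Unif
import Crest.Agent.R279.HSA

/-! Row 279: removing one half-space constraint -/

set_option autoImplicit false

namespace Crest.Agent.R279

open Set Metric Filter Topology

variable {E E' F : Type} [NormedAddCommGroup E] [NormedSpace ℂ E] [NormedAddCommGroup E']
  [NormedSpace ℂ E'] [NormedAddCommGroup F] [NormedSpace ℂ F] {M : Set W}

theorem hs_base {P₁ : Set (E × ℂ)} {I : Set ℝ} {x : E × ℂ} (hx : 0 < x.2.re)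
    (hI : (hsL x).2.im ∈ I) :
    x ∈ P₁ ∩ {x : E × ℂ | x.2.re < 1} ↔ hsL x ∈ basePc (hsΦ ⁻¹' P₁) I hsβ := by
  have hk : (hsL x).2.re - hsβ (hsL x).2.im = Real.log x.2.re := hs_key hx
  constructor
  · rintro ⟨h1, h2⟩
    refine ⟨?_, hI, ?_⟩
    · rwa [mem_preimage, hsΦ_L hx]
    · have := Real.log_neg hx h2
      linarith
  · rintro ⟨h1, -, h2⟩
    rw [mem_preimage, hsΦ_L hx] at h1
    exact ⟨h1, (Real.log_neg_iff hx).1 (by linarith)⟩

/-- the atlas on `E × ℂ`. -/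
theorem hs_atlas {P₁ : Set (E × ℂ)} {f : E × ℂ → W} {π : E × ℂ → W →L[ℂ] V} {e : E × ℂ → V → W}
    {ρ C δ : ℝ} (hm : Model M P₁ f π e ρ C) (hδ : δ ≤ ρ) {I : Set ℝ} {Cl : ℤ → Set (E × ℂ)}
    {Ψ : ℤ → E × ℂ → V → W}
    (hA : Atlas M (fun o : Option ℤ => o.elim (basePc (hsΦ ⁻¹' P₁) I hsβ) Cl)
      (fun o => o.elim (fun x => e (hsΦ x)) Ψ) δ) (hI : ∀ j, ∀ x ∈ Cl j, x.2.im ∈ I) :
    Atlas M (fun o : Option ℤ => o.elim (P₁ ∩ {x : E × ℂ | x.2.re < 1})
        fun j => {x : E × ℂ | 0 < x.2.re} ∩ hsL ⁻¹' Cl j)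
      (fun o => o.elim e fun j x => Ψ j (hsL x)) δ := by
  have hc : Continuous fun x : E × ℂ => x.2.re := by fun_prop
  have hB := hA.pull (isOpen_lt continuous_const hc) hsL_diff
  refine ⟨fun o => ?_, fun o => ?_, fun o => ?_, fun o o' hne x hx hx' => ?_⟩
  · cases o with
    | none => exact hm.op.inter (isOpen_lt hc continuous_const)
    | some j => exact hB.op (some j)
  · cases o with
    | none => exact hm.hole.mono inter_subset_left hδ
    | some j => exact hB.hol (some j)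
  · cases o with
    | none => exact fun x hx y hy => hm.mem x hx.1 y (ball_subset_ball hδ hy)
    | some j => exact hB.mem (some j)
  · cases o with
    | none =>
      intro y hy y' hy' h
      have h1 := hm.inv x hx.1 y (ball_subset_ball hδ hy)
      have h2 := hm.inv x hx.1 y' (ball_subset_ball hδ hy')
      have h' : e x y = e x y' := h
      rw [← h1, ← h2, h']
    | some j =>
      cases o' with
      | none => exact hB.inj (some j) none hne x hx ⟨hx.1, (hs_base hx.1 (hI j _ hx.2)).1 hx'⟩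
      | some k => exact hB.inj (some j) (some k) hne x hx hx'

/-- **HS**.  Coordinates `(k, u) = (e^v p, e^v)`, `β t = -log (cos t)`, `I = Ioo (-t₁) t₁`.
Model of `f` near the compact convex set `K ∩ {Re u ≤ 1}`, pulled back to the `(p, v)` space;
`unif` along the curve; `RL`; the atlas on `E × ℂ`: base piece `P ∩ {Re u < 1}`, cells pulled back
by `(k, u) ↦ (k / u, log u)` on `Re u > 0`; `seccut`: near a point with `Re u₀ ≥ 1` use the window
`ball p₀ c ×ˢ win` and `Sec.pull`, elsewhere `Sec.triv`; finally `Sec.map` at `y = 0`. -/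
theorem halfspace [FiniteDimensional ℂ E] (hM : HasModels M) {K U : Set (E × ℂ)}
    (hK : IsCompact K) (hKc : Convex ℝ K) (h0 : (0 : E × ℂ) ∈ K) (hU : IsOpen U)
    (hKU : K ∩ {x | x.2.re ≤ 1} ⊆ U) {f : E × ℂ → W} (hf : DifferentiableOn ℂ f U)
    (hfM : MapsTo f U M)
    (hS : ∀ u : ℂ, u.re = 1 → Spray M {p : E | (u • p, u) ∈ K} fun p => f (u • p, u))
    {ε : ℝ} (hε : 0 < ε) :
    ∃ (U' : Set (E × ℂ)) (f' : E × ℂ → W), IsOpen U' ∧ K ⊆ U' ∧ DifferentiableOn ℂ f' U' ∧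
      MapsTo f' U' M ∧ ∀ x ∈ K, x.2.re < 1 → ‖f' x - f x‖ ≤ ε := by
  have hre : Continuous fun x : E × ℂ => x.2.re := by fun_prop
  have hH : Convex ℝ {x : E × ℂ | x.2.re ≤ 1} :=
    (convex_Iic (1 : ℝ)).linear_preimage (Complex.reLm.comp (LinearMap.snd ℝ E ℂ))
  obtain ⟨P₁, π, e, ρ, C, hKP, -, hm⟩ := hM (E × ℂ) _ U f
    (hK.inter_right (isClosed_le hre continuous_const)) (hKc.inter hH) hU hKU hf hfM
  obtain ⟨B, hB, hKB⟩ := hK.isBounded.exists_pos_norm_le
  obtain ⟨t₀, ht0, ht0', harg⟩ := hs_arg hB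
  obtain ⟨t₁, ht01, ht1⟩ := exists_between ht0'
  have hc1 : 0 < Real.cos t₁ := hs_cos_pos ht1 ⟨by linarith, le_rfl⟩
  obtain ⟨T₀, hT₀, hRL⟩ := RL (Real.cos t₁)⁻¹ (by positivity)
  have hΩ : IsOpen (hsΦ ⁻¹' P₁ : Set (E × ℂ)) := hm.op.preimage hsΦ_diff.continuous
  have hm' := hm.pull hΩ hsΦ_diff.differentiableOn (mapsTo_preimage _ _)
  have hΓ : IsCompact (cpt hsβ '' Icc (-t₁) t₁) :=
    isCompact_Icc.image_of_continuousOn (hs_cpt_cont ht1)
  have hΓ1 : ∀ z ∈ cpt hsβ '' Icc (-t₁) t₁, (Complex.exp z).re = 1 := by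
    rintro _ ⟨t, ht, rfl⟩
    exact hs_exp_re (hs_cos_pos ht1 ht)
  obtain ⟨P, c, ρS, CS, s₀, N, hc, hρS, hCS, hs₀, hP⟩ := unif (M := M)
    (H := fun x => f (hsΦ x)) (hs_compact hK hΓ) hΓ hΩ
    (fun x hx hx' => hKP ⟨hx.1, (hΓ1 _ hx').le⟩) hm'.holg.continuousOn
    (fun z hz => (hS _ (hΓ1 z hz)).mono fun p hp => hp.1) hT₀
  obtain ⟨d, hd, hdc⟩ := Metric.uniformContinuousOn_iff_le.1
    (isCompact_Icc.uniformContinuousOn_of_continuous (hs_cpt_cont ht1)) (c / 2) (half_pos hc)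
  obtain ⟨c', hc', h1, h2, h3⟩ : ∃ c' : ℝ, 0 < c' ∧ c' ≤ c ∧ 2 * c' ≤ d ∧ t₀ + 2 * c' < t₁ :=
    ⟨min c (min (d / 2) ((t₁ - t₀) / 4)), by positivity, min_le_left _ _,
      by linarith [min_le_right c (min (d / 2) ((t₁ - t₀) / 4)),
        min_le_left (d / 2) ((t₁ - t₀) / 4)],
      by linarith [min_le_right c (min (d / 2) ((t₁ - t₀) / 4)),
        min_le_right (d / 2) ((t₁ - t₀) / 4)]⟩
  have hmem : ∀ t ∈ Ioo (-t₁) t₁, cpt hsβ t ∈ cpt hsβ '' Icc (-t₁) t₁ := fun t ht =>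
    mem_image_of_mem _ (Ioo_subset_Icc_self ht)
  obtain ⟨δ, hδ, hδρ, hR⟩ := hRL M (Ioo (-t₁) t₁) hsβ (fun t => P (cpt hsβ t)) _ _ _ _ ρ C c' ρS
    CS s₀ ((Real.cos t₁)⁻¹ + 2 * c') B N isOpen_Ioo ordConnected_Ioo
    ((hsβ_contDiffOn ht1).mono Ioo_subset_Icc_self)
    (fun t ht => hsβ_deriv ht1 (Ioo_subset_Icc_self ht))
    (fun t ht => (hsβ_abs ht1 (Ioo_subset_Icc_self ht)).trans (by linarith)) hm' hc' hρS hCS hs₀
    (by positivity) (fun t ht => (hP _ (hmem t ht)).1)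
    (fun t ht p hp v hv => (hP _ (hmem t ht)).2.2.1 p hp v (hv.trans_le h1))
    (fun t ht => (hP _ (hmem t ht)).2.1)
  choose! Cl Ψ hA hCl hper hsec using hR
  have hA' := fun η hη => hs_atlas hm hδρ (hA η hη) fun j x hx => (hCl η hη j x hx).1
  obtain ⟨U', δ', hKU', hU', hδ', hδδ, hev⟩ := seccut (M := M) hK hKc (by linarith) hA' (by
    intro x hx
    rcases lt_or_ge x.2.re 1 with hu | hu
    · obtain ⟨s, hs1, hs2⟩ := exists_between hu
      refine ⟨P₁ ∩ {x | x.2.re < s}, 1, ⟨hKP ⟨hx, hu.le⟩, hs1⟩,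
        hm.op.inter (isOpen_lt hre continuous_const), one_pos, fun ε' hε' => ?_⟩
      have hlim : ∀ᶠ η in 𝓝 (0 : ℝ), s < Real.exp (-η) :=
        (by fun_prop : Continuous fun η : ℝ => Real.exp (-η)).continuousAt.eventually
          (lt_mem_nhds (by simpa using hs2))
      filter_upwards [mem_nhdsWithin_of_mem_nhds hlim, self_mem_nhdsWithin] with η hη hη0
      refine ⟨_, Sec.triv (hm.op.inter (isOpen_lt hre continuous_const)) (j₀ := none)
        (fun z hz => And.intro hz.1 (lt_trans hz.2 hs2)) (fun j hj => ?_) 1 hε'.le⟩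
      cases j with
      | none => exact absurd rfl hj
      | some j =>
        refine disjoint_left.2 fun z hz hz' => ?_
        have h4 := (hCl η hη0 j _ hz'.2).2
        have hk : (hsL z).2.re - hsβ (hsL z).2.im = Real.log z.2.re := hs_key hz'.1
        have h5 : Real.exp (-η) < z.2.re := (Real.lt_log_iff_exp_lt hz'.1).1 (by linarith)
        have h6 : z.2.re < s := hz.2
        have h7 : s < Real.exp (-η) := hη
        linarith
    · have hp : 0 < x.2.re := by linarith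
      have hxB : ‖x.2‖ ≤ B := (norm_snd_le x).trans (hKB x hx)
      have ht : |(hsL x).2.im| ≤ t₀ := harg x.2 hu hxB
      obtain ⟨ht', ht''⟩ := abs_le.1 ht
      have hO : IsOpen ({z : E × ℂ | 0 < z.2.re} ∩ hsL ⁻¹' {z | z.2.im ∈ Ioo (-t₁) t₁}) :=
        hsL_diff.continuousOn.isOpen_inter_preimage (isOpen_lt continuous_const hre)
          (isOpen_Ioo.preimage (by fun_prop : Continuous fun z : E × ℂ => z.2.im))
      have hIcc : Icc ((hsL x).2.im - c' - c') ((hsL x).2.im + c' + c') ⊆ Ioo (-t₁) t₁ :=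
        fun t h => ⟨by linarith [h.1], by linarith [h.2]⟩
      have hI0 : (hsL x).2.im ∈ Ioo (-t₁) t₁ := ⟨by linarith, by linarith⟩
      have hsec' : ∀ η, 0 < η → ∃ α, Sec (fun o : Option ℤ => o.elim
          (P₁ ∩ {x : E × ℂ | x.2.re < 1}) fun j => {x : E × ℂ | 0 < x.2.re} ∩ hsL ⁻¹' Cl η j)
          (fun o => o.elim e fun j x => Ψ η j (hsL x)) (({z : E × ℂ | 0 < z.2.re} ∩
          hsL ⁻¹' {z | z.2.im ∈ Ioo (-t₁) t₁}) ∩ hsL ⁻¹' (ball (hsL x).1 c ×ˢ
            win hsβ ((hsL x).2.im - c') ((hsL x).2.im + c') c' B)) δ η α := by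
        intro η hη
        obtain ⟨α, hα⟩ := hsec η hη ((hsL x).2.im - c') ((hsL x).2.im + c') (ball (hsL x).1 c)
          isOpen_ball (by have := inv_pos.2 hc1; linarith) hIcc fun t h => by
            refine (hP _ (hmem t (hIcc h))).2.2.2 ((hsL x).1, cpt hsβ (hsL x).2.im)
              ⟨hs_radial hKc h0 hx hu, hmem _ hI0⟩ ?_
            have := hdc _ (Ioo_subset_Icc_self hI0) _ (Ioo_subset_Icc_self (hIcc h))
              (by rw [Real.dist_eq, abs_le]; constructor <;> linarith [h.1, h.2])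
            rw [dist_eq_norm] at this
            linarith
        refine ⟨_, hα.pull (hA η hη) hO (hsL_diff.mono inter_subset_left) (Equiv.refl _)
          (fun o z hz => ?_) fun o z hz _ y => ?_⟩
        · cases o with
          | none => exact hs_base hz.1 hz.2
          | some j => exact ⟨fun h => h.2, fun h => ⟨hz.1, h⟩⟩
        · cases o with
          | none =>
            change e z y = e (hsΦ (hsL z)) y
            rw [hsΦ_L hz.1]
          | some j => rfl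
      obtain ⟨α₁, hα₁⟩ := hsec' 1 one_pos
      refine ⟨_, δ, ?_, hα₁.op, hδ, fun ε' hε' => ?_⟩
      · refine ⟨⟨hp, hI0⟩, mem_ball_self hc, ?_⟩
        have hk : (hsL x).2.re - hsβ (hsL x).2.im = Real.log x.2.re := hs_key hp
        have h4 := Real.log_nonneg hu
        have h5 : (hsL x).2.re = Real.log ‖x.2‖ := Complex.log_re _
        have h6 := Real.log_le_sub_one_of_pos (hp.trans_le (Complex.re_le_norm x.2))
        exact ⟨by linarith, by linarith, by linarith, by linarith⟩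
      · filter_upwards [Ioc_mem_nhdsGT hε'] with η hη
        obtain ⟨α, hα⟩ := hsec' η hη.1
        exact ⟨α, hα.mono hα.op Subset.rfl le_rfl hη.2⟩)
  have hC : 0 < C := one_pos.trans_le hm.one_le
  obtain ⟨η, ⟨α, hα⟩, hη⟩ :=
    ((hev (min δ' (ε / C)) (by positivity)).and self_mem_nhdsWithin).exists
  obtain ⟨g, hg, hgM, hge⟩ := hα.map (hA' η hη) (by linarith [min_le_left δ' (ε / C)])
  have h00 : (0 : V) ∈ ball (0 : V) δ' := mem_ball_self hδ'
  refine ⟨U', fun x => g x 0, hU', hKU', hg.comp differentiableOn_id (differentiableOn_const _)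
    (mapsTo_id _) (fun _ _ => by simpa using hδ'), fun x hx => hgM x hx 0 h00, fun x hx hu => ?_⟩
  have hxP : x ∈ P₁ := hKP ⟨hx, hu.le⟩
  have h4 : g x 0 = e x (α none x 0) := hge none x (hKU' hx) ⟨hxP, hu⟩ 0 h00
  have h5 := hα.near none x (hKU' hx) ⟨hxP, hu⟩ 0 h00
  have h6 := hm.lip x hxP (α none x 0) (mem_ball_zero_iff.2 (by
    rw [sub_zero] at h5
    linarith [min_le_left δ' (ε / C)])) 0 (mem_ball_self hm.ρ_pos)
  rw [hm.zero x hxP] at h6
  change ‖g x 0 - f x‖ ≤ ε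
  rw [h4]
  refine h6.trans ?_
  rw [← le_div_iff₀' hC]
  exact h5.trans (min_le_right _ _)

end Crest.Agent.R279
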