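import Crest.Agent.R279.CutA

/-! Row 279: holomorphic logarithm -/

set_option autoImplicit false

namespace Crest.Agent.R279

open Set Metric Filter Topology

variable {E E' F : Type} [NormedAddCommGroup E] [NormedSpace ℂ E] [NormedAddCommGroup E']
  [NormedSpace ℂ E'] [NormedAddCommGroup F] [NormedSpace ℂ F] {M : Set W}

/-- holomorphic logarithm near a compact convex set. -/
theorem hol_log [FiniteDimensional ℂ E] {K O : Set E} (hK : IsCompact K) (hKc : Convex ℝ K)
    (hO : IsOpen O) (hKO : K ⊆ O) {u : E → ℂ} (hu : DifferentiableOn ℂ u O)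
    (h0 : ∀ z ∈ O, u z ≠ 0) :
    ∃ (O' : Set E) (l : E → ℂ), IsOpen O' ∧ K ⊆ O' ∧ O' ⊆ O ∧ DifferentiableOn ℂ l O' ∧
      ∀ z ∈ O', Complex.exp (l z) = u z := by
  rcases K.eq_empty_or_nonempty with rfl | hne
  · exact ⟨∅, fun _ => 0, isOpen_empty, Subset.rfl, empty_subset _, differentiableOn_empty,
      fun _ h => h.elim⟩
  obtain ⟨δ, hδ, hδO⟩ := hK.exists_thickening_subset_open hO hKO
  have hsub := self_subset_thickening hδ K
  have hcv : Convex ℝ (thickening δ K) := hKc.thickening δ
  have hsc : IsSimplyConnected (thickening δ K) := by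
    have := hcv.contractibleSpace (hne.mono hsub)
    exact SimplyConnectedSpace.ofContractible _
  obtain ⟨l, hl, he⟩ := Complex.exists_continuousOn_eqOn_exp_comp hsc isOpen_thickening
    (hu.continuousOn.mono hδO) (by
      rintro ⟨z, hz, hz0⟩
      exact h0 z (hδO hz) hz0)
  refine ⟨thickening δ K, l, isOpen_thickening, hsub, hδO, fun z₀ hz₀ => ?_, fun z hz => he hz⟩
  have hn : thickening δ K ∈ 𝓝 z₀ := isOpen_thickening.mem_nhds hz₀
  have hu0 := h0 z₀ (hδO hz₀)
  have hud : DifferentiableAt ℂ u z₀ := hu.differentiableAt (hO.mem_nhds (hδO hz₀))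
  have h1 : DifferentiableAt ℂ (fun z => l z₀ + Complex.log (u z / u z₀)) z₀ := by
    have h5 : DifferentiableAt ℂ (fun z => u z / u z₀) z₀ := by
      simp only [div_eq_mul_inv]
      exact hud.mul_const _
    refine (h5.clog ?_).const_add _
    rw [div_self hu0]
    exact Complex.one_mem_slitPlane
  refine (h1.congr_of_eventuallyEq ?_).differentiableWithinAt
  have h2 : ∀ᶠ z in 𝓝 z₀, dist (l z) (l z₀) < Real.pi :=
    Metric.tendsto_nhds.1 (hl.continuousAt hn) _ Real.pi_pos
  filter_upwards [hn, h2] with z hz hd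
  have h3 : |(l z - l z₀).im| < Real.pi :=
    (Complex.abs_im_le_norm _).trans_lt (by rwa [← dist_eq_norm])
  have h4 : u z / u z₀ = Complex.exp (l z - l z₀) := by
    rw [Complex.exp_sub, ← he hz, ← he hz₀]; rfl
  rw [h4, Complex.log_exp (abs_lt.1 h3).1 (abs_lt.1 h3).2.le, add_sub_cancel]

end Crest.Agent.R279
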