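import Crest.Agent.R279.Inv

/-! Row 279: four independent tubes give a spray system at a point -/

set_option autoImplicit false

namespace Crest.Agent.R279

open Set Metric Filter Topology

variable {E E' F : Type} [NormedAddCommGroup E] [NormedSpace ℂ E] [NormedAddCommGroup E']
  [NormedSpace ℂ E'] [NormedAddCommGroup F] [NormedSpace ℂ F] {M : Set W}

/-- the stages of the composed spray -/
noncomputable def h68_st (φ : Fin 4 → W → ℂ → W) : ℕ → W → V → W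
  | 0, m', _ => m'
  | i + 1, m', y => φ (Fin.ofNat 4 i) (h68_st φ i m' y) (y (Fin.ofNat 4 i))

/-- four tubes on a common ball, with a Lipschitz bound in time -/
structure h68_Dat (M : Set W) (m : W) (φ : Fin 4 → W → ℂ → W) (r L : ℝ) : Prop where
  r_pos : 0 < r
  L_pos : 0 < L
  hol : ∀ i, DifferentiableOn ℂ (fun x : W × ℂ => φ i x.1 x.2) (ball m r ×ˢ univ)
  mem : ∀ i, ∀ m' ∈ ball m r, m' ∈ M → ∀ τ, φ i m' τ ∈ M
  lip : ∀ i, ∀ m' ∈ ball m r, m' ∈ M → ∀ τ : ℂ, ‖τ‖ < r → ‖φ i m' τ - m'‖ ≤ L * ‖τ‖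

theorem h68_Dat.zero {m : W} {φ : Fin 4 → W → ℂ → W} {r L : ℝ} (h : h68_Dat M m φ r L) (i : Fin 4)
    {m' : W} (h1 : m' ∈ ball m r) (h2 : m' ∈ M) : φ i m' 0 = m' := by
  have := h.lip i m' h1 h2 0 (by simpa using h.r_pos)
  rw [norm_zero, mul_zero] at this
  exact sub_eq_zero.1 (norm_le_zero_iff.1 this)

theorem h68_exists_dat {m : W} {v : Fin 4 → W} (hT : ∀ i, Tube M m (v i)) {ρ : ℝ} (hρ : 0 < ρ) :
    ∃ (φ : Fin 4 → W → ℂ → W) (r L : ℝ), r ≤ ρ ∧ h68_Dat M m φ r L ∧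
      ∀ i, HasDerivAt (φ i m) (v i) 0 := by
  choose O φ hO hmO hφ hM hv using hT
  have h1 : ∀ i, ∃ B : ℝ, ∀ᶠ x : W × ℂ in 𝓝 (m, 0), x.1 ∈ O i ∧ ‖φ i x.1 x.2‖ ≤ B := by
    intro i
    obtain ⟨r, hr, B, h1, h2⟩ := R264.SCV.exists_ball_bound ((hO i).prod isOpen_univ) (hφ i)
      (x := (m, 0)) ⟨hmO i, mem_univ _⟩
    exact ⟨B, mem_of_superset (ball_mem_nhds _ hr) fun x hx => ⟨(h1 hx).1, h2 x hx⟩⟩
  choose B hB using h1
  obtain ⟨r₀, hr₀, h2⟩ := Metric.eventually_nhds_iff_ball.1 (Filter.eventually_all.2 hB)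
  have hr : 0 < min r₀ ρ := lt_min hr₀ hρ
  have h3 : ∀ m' ∈ ball m (min r₀ ρ), ∀ τ ∈ ball (0 : ℂ) (min r₀ ρ), ∀ i,
      m' ∈ O i ∧ ‖φ i m' τ‖ ≤ ∑ j, |B j| + 1 := by
    intro m' hm' τ hτ i
    have := h2 (m', τ) (by
      rw [← ball_prod_same]
      exact ⟨ball_subset_ball (min_le_left _ _) hm', ball_subset_ball (min_le_left _ _) hτ⟩) i
    refine ⟨this.1, this.2.trans ?_⟩
    have h4 := Finset.single_le_sum (f := fun j => |B j|) (fun j _ => abs_nonneg _)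
      (Finset.mem_univ i)
    linarith [le_abs_self (B i)]
  have h5 : ∀ i, ball m (min r₀ ρ) ⊆ O i := fun i m' hm' => (h3 m' hm' 0 (mem_ball_self hr) i).1
  have hS : 0 ≤ ∑ j, |B j| := Finset.sum_nonneg fun j _ => abs_nonneg _
  refine ⟨φ, min r₀ ρ, 2 * (∑ j, |B j| + 1) / min r₀ ρ, min_le_right _ _, ⟨hr, by positivity,
    fun i => (hφ i).mono (prod_mono (h5 i) subset_rfl),
    fun i m' h1 h2 => (hM i m' (h5 i h1) h2).2, fun i m' h1 h2 τ hτ => ?_⟩, hv⟩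
  have hd : DifferentiableOn ℂ (φ i m') (ball 0 (min r₀ ρ)) :=
    DifferentiableOn.comp (g := fun x : W × ℂ => φ i x.1 x.2) (f := fun τ : ℂ => (m', τ)) (hφ i)
      ((differentiableOn_const _).prodMk differentiableOn_id) fun τ _ => ⟨h5 i h1, mem_univ _⟩
  have := R264.SCV.norm_sub_le hd (fun τ hτ => (h3 m' h1 τ hτ i).2) (mem_ball_zero_iff.2 hτ)
  rwa [(hM i m' (h5 i h1) h2).1, sub_zero] at this

theorem h68_Dat.bound {m : W} {φ : Fin 4 → W → ℂ → W} {r L : ℝ} (h : h68_Dat M m φ r L)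
    {m₀ : W} (h1 : m₀ ∈ M) (h2 : ‖m₀ - m‖ < r / 2) {y : V} (h3 : ‖y‖ < r)
    (h4 : 4 * (L * ‖y‖) ≤ r / 2) {i : ℕ} (hi : i ≤ 4) :
    h68_st φ i m₀ y ∈ M ∧ ‖h68_st φ i m₀ y - m₀‖ ≤ i * (L * ‖y‖) ∧ h68_st φ i m₀ y ∈ ball m r := by
  have hL : 0 ≤ L * ‖y‖ := mul_nonneg h.L_pos.le (norm_nonneg _)
  have key : ∀ w : W, ∀ j : ℕ, j ≤ 4 → ‖w - m₀‖ ≤ j * (L * ‖y‖) → w ∈ ball m r := by
    intro w j hj hw
    have h5 : (j : ℝ) ≤ 4 := by exact_mod_cast hj
    have h6 := mul_le_mul_of_nonneg_right h5 hL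
    rw [mem_ball, dist_eq_norm]
    linarith [norm_sub_le_norm_sub_add_norm_sub w m₀ m]
  induction i with
  | zero =>
    have : ‖h68_st φ 0 m₀ y - m₀‖ ≤ (0 : ℕ) * (L * ‖y‖) := by simp [h68_st]
    exact ⟨h1, this, key _ 0 hi this⟩
  | succ i ih =>
    obtain ⟨a1, a2, a3⟩ := ih (by omega)
    have hy := norm_le_pi_norm y (Fin.ofNat 4 i)
    have b1 := h.lip (Fin.ofNat 4 i) _ a3 a1 _ (hy.trans_lt h3)
    have b2 := mul_le_mul_of_nonneg_left hy h.L_pos.le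
    have : ‖h68_st φ (i + 1) m₀ y - m₀‖ ≤ (i + 1 : ℕ) * (L * ‖y‖) := by
      have := norm_sub_le_norm_sub_add_norm_sub (h68_st φ (i + 1) m₀ y) (h68_st φ i m₀ y) m₀
      push_cast
      simp only [h68_st] at this ⊢
      linarith
    exact ⟨h.mem _ _ a3 a1 _, this, key _ _ hi this⟩

theorem h68_Dat.hol_st {m : W} {φ : Fin 4 → W → ℂ → W} {r L : ℝ} (h : h68_Dat M m φ r L)
    {D : Set E} {m₀ : E → W} {y : E → V} (d1 : DifferentiableOn ℂ m₀ D)
    (d2 : DifferentiableOn ℂ y D) (h1 : ∀ a ∈ D, m₀ a ∈ M) (h2 : ∀ a ∈ D, ‖m₀ a - m‖ < r / 2)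
    (h3 : ∀ a ∈ D, ‖y a‖ < r) (h4 : ∀ a ∈ D, 4 * (L * ‖y a‖) ≤ r / 2) {i : ℕ} (hi : i ≤ 4) :
    DifferentiableOn ℂ (fun a => h68_st φ i (m₀ a) (y a)) D := by
  induction i with
  | zero => exact d1
  | succ i ih =>
    exact DifferentiableOn.comp (g := fun x : W × ℂ => φ (Fin.ofNat 4 i) x.1 x.2)
      (f := fun a => (h68_st φ i (m₀ a) (y a), y a (Fin.ofNat 4 i))) (h.hol _)
      ((ih (by omega)).prodMk (differentiableOn_pi.1 d2 _)) fun a ha =>
        ⟨(h.bound (h1 a ha) (h2 a ha) (h3 a ha) (h4 a ha) (by omega)).2.2, mem_univ _⟩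

theorem h68_Dat.diff_st {m : W} {φ : Fin 4 → W → ℂ → W} {r L : ℝ} (h : h68_Dat M m φ r L)
    (hm : m ∈ M) (i : ℕ) : h68_st φ i m 0 = m ∧
      DifferentiableAt ℂ (fun x : W × V => h68_st φ i x.1 x.2) (m, 0) := by
  induction i with
  | zero => exact ⟨rfl, differentiableAt_fst⟩
  | succ i ih =>
    have hb := mem_ball_self (x := m) h.r_pos
    refine ⟨?_, ?_⟩
    · simp only [h68_st, ih.1, Pi.zero_apply]
      exact h.zero _ hb hm
    · refine DifferentiableAt.comp (g := fun x : W × ℂ => φ (Fin.ofNat 4 i) x.1 x.2)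
        (f := fun x : W × V => (h68_st φ i x.1 x.2, x.2 (Fin.ofNat 4 i))) (m, 0) ?_
        (ih.2.prodMk (differentiableAt_pi.1 differentiableAt_snd _))
      refine (h.hol _).differentiableAt ((isOpen_ball.prod isOpen_univ).mem_nhds ⟨?_, mem_univ _⟩)
      simpa only [ih.1] using hb

theorem h68_Dat.single {m : W} {φ : Fin 4 → W → ℂ → W} {r L : ℝ} (h : h68_Dat M m φ r L)
    (hm : m ∈ M) (j : Fin 4) {τ : ℂ} (hτ : φ j m τ ∈ ball m r) {i : ℕ} (hi : i ≤ 4) :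
    h68_st φ i m (Pi.single j τ) = if i ≤ j then m else φ j m τ := by
  have hb := mem_ball_self (x := m) h.r_pos
  induction i with
  | zero => simp [h68_st]
  | succ i ih =>
    have hk : (Fin.ofNat 4 i).val = i := Nat.mod_eq_of_lt (by omega)
    simp only [h68_st, ih (by omega)]
    rcases lt_trichotomy i j with hij | hij | hij
    · have hne : Fin.ofNat 4 i ≠ j := fun e => by rw [e] at hk; omega
      rw [if_pos hij.le, if_pos (by omega), Pi.single_eq_of_ne hne]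
      exact h.zero _ hb hm
    · have he : Fin.ofNat 4 i = j := Fin.ext (by omega)
      rw [if_pos hij.le, if_neg (by omega), he, Pi.single_eq_same]
    · have hne : Fin.ofNat 4 i ≠ j := fun e => by rw [e] at hk; omega
      rw [if_neg (by omega), if_neg (by omega), Pi.single_eq_of_ne hne]
      exact h.zero _ hτ (h.mem _ _ hb hm _)

theorem h68_Dat.deriv {m : W} {φ : Fin 4 → W → ℂ → W} {r L : ℝ} (h : h68_Dat M m φ r L)
    (hm : m ∈ M) {v : Fin 4 → W} (hv : ∀ i, HasDerivAt (φ i m) (v i) 0) {S : V →L[ℂ] W}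
    (hS : HasFDerivAt (fun y => h68_st φ 4 m y) S 0) (y : V) : S y = ∑ j, y j • v j := by
  have hb := mem_ball_self (x := m) h.r_pos
  have key : ∀ j, S (Pi.single j 1) = v j := by
    intro j
    have h1 : HasDerivAt (fun τ : ℂ => τ • (Pi.single j 1 : V)) (Pi.single j 1) 0 := by
      simpa using (hasDerivAt_id (0 : ℂ)).smul_const (Pi.single j 1 : V)
    have h2 := HasFDerivAt.comp_hasDerivAt (0 : ℂ) (by rwa [zero_smul]) h1
    refine h2.unique ((hv j).congr_of_eventuallyEq ?_)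
    have h3 : ∀ᶠ τ in 𝓝 (0 : ℂ), φ j m τ ∈ ball m r :=
      (hv j).continuousAt.eventually_mem (by rw [h.zero j hb hm]; exact ball_mem_nhds _ h.r_pos)
    filter_upwards [h3] with τ hτ
    have h4 := h.single hm j hτ le_rfl
    rw [if_neg (by omega)] at h4
    rw [← h4]
    simp only [Function.comp]
    congr 1
    ext k
    by_cases hk : k = j
    · subst hk; simp
    · simp [hk]
  conv_lhs => rw [← Finset.univ_sum_single y]
  rw [map_sum]
  refine Finset.sum_congr rfl fun j _ => ?_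
  rw [← key j, ← map_smul]
  congr 1
  ext k
  by_cases hk : k = j
  · subst hk; simp
  · simp [hk]

theorem h68_Dat.key {m : W} {φ : Fin 4 → W → ℂ → W} {r L : ℝ} (h : h68_Dat M m φ r L)
    (hm : m ∈ M) {v : Fin 4 → W} (hv : ∀ i, HasDerivAt (φ i m) (v i) 0)
    (hli : LinearIndependent ℂ v) {P : Set ℂ} {π : ℂ → W →L[ℂ] V} {e : ℂ → V → W} {ρ C : ℝ}
    (hP : (0 : ℂ) ∈ P) (hMod : Model M P (fun _ => m) π e ρ C) :
    ∃ Λ : W →L[ℂ] V, (∀ w, Λ w = 0 → π 0 w = 0) ∧ ∀ η : ℝ, 0 < η → ∃ ρ₁ ρ₂ : ℝ, 0 < ρ₁ ∧ ρ₁ ≤ η ∧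
      0 < ρ₂ ∧ ∀ m' y, ‖m' - m‖ < ρ₂ → ‖y‖ < ρ₁ →
        ‖Λ (h68_st φ 4 m' y - m') - y‖ ≤ ρ₁ / 16 := by
  obtain ⟨h0, hd⟩ := h.diff_st hm 4
  obtain ⟨S, hS⟩ := hd
  have hS₂ : HasFDerivAt (fun y => h68_st φ 4 m y) (S.comp (ContinuousLinearMap.inr ℂ W V)) 0 :=
    HasFDerivAt.comp (g := fun x : W × V => h68_st φ 4 x.1 x.2) (f := fun y : V => (m, y)) 0 hS
      (hasFDerivAt_prodMk_right m 0)
  set S₂ := S.comp (ContinuousLinearMap.inr ℂ W V) with hS₂def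
  have he : DifferentiableAt ℂ (e 0) 0 :=
    (h97_fibre hMod.hole hP).differentiableAt (ball_mem_nhds _ hMod.ρ_pos)
  have h1 : HasFDerivAt (fun y => e 0 (π 0 (h68_st φ 4 m y - m)))
      ((fderiv ℂ (e 0) 0).comp ((π 0).comp S₂)) 0 := by
    refine HasFDerivAt.comp (g := e 0) (f := fun y => π 0 (h68_st φ 4 m y - m)) 0 ?_
      ((π 0).hasFDerivAt.comp 0 (hS₂.sub_const m))
    simpa only [h0, sub_self, map_zero] using he.hasFDerivAt
  have h2 : (fun y => h68_st φ 4 m y) =ᶠ[𝓝 0] fun y => e 0 (π 0 (h68_st φ 4 m y - m)) := by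
    have a1 : ∀ᶠ y : V in 𝓝 0, ‖y‖ < r :=
      continuous_norm.continuousAt.eventually_lt continuousAt_const (by simpa using h.r_pos)
    have a2 : ∀ᶠ y : V in 𝓝 0, 4 * (L * ‖y‖) < r / 2 :=
      (show Continuous fun y : V => 4 * (L * ‖y‖) by fun_prop).continuousAt.eventually_lt
        continuousAt_const (by simpa using h.r_pos)
    have a3 : ∀ᶠ y : V in 𝓝 0, C * C * ‖h68_st φ 4 m y - m‖ < ρ :=
      (continuousAt_const.mul (hS₂.continuousAt.sub continuousAt_const).norm).eventually_lt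
        continuousAt_const (by simpa [h0] using hMod.ρ_pos)
    filter_upwards [a1, a2, a3] with y b1 b2 b3
    exact (hMod.eq_e hP (h.bound hm (by simpa using h.r_pos) b1 b2.le le_rfl).1 b3).symm
  have h3 : S₂ = (fderiv ℂ (e 0) 0).comp ((π 0).comp S₂) :=
    hS₂.unique (h1.congr_of_eventuallyEq h2)
  have hinj : Function.Injective ((π 0).comp S₂ : V →ₗ[ℂ] V) := by
    rw [injective_iff_map_eq_zero]
    intro y hy
    have hy' : π 0 (S₂ y) = 0 := hy
    have h4 : S₂ y = 0 := by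
      rw [h3]
      simp only [ContinuousLinearMap.comp_apply, hy', map_zero]
    rw [h.deriv hm hv hS₂] at h4
    exact funext (Fintype.linearIndependent_iff.1 hli y h4)
  let A : V ≃L[ℂ] V := (LinearEquiv.ofInjectiveEndo _ hinj).toContinuousLinearEquiv
  have hA : ∀ y, A y = π 0 (S₂ y) := fun _ => rfl
  let Λ : W →L[ℂ] V := (A.symm : V →L[ℂ] V).comp (π 0)
  have hΛ : ∀ y, Λ (S₂ y) = y := fun y => by
    show A.symm (π 0 (S₂ y)) = y
    rw [← hA, A.symm_apply_apply]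
  refine ⟨Λ, fun w hw => ?_, fun η hη => ?_⟩
  · have hw' : A.symm (π 0 w) = 0 := hw
    simpa using hw'
  let G' : W × V →L[ℂ] V := Λ.comp (S - ContinuousLinearMap.fst ℂ W V) - ContinuousLinearMap.snd ℂ W V
  have hG : HasFDerivAt (fun x : W × V => Λ (h68_st φ 4 x.1 x.2 - x.1) - x.2) G' (m, 0) :=
    (Λ.hasFDerivAt.comp (m, (0 : V)) (hS.sub hasFDerivAt_fst)).sub hasFDerivAt_snd
  have hG' : ∀ x : W × V, ‖G' x‖ ≤ ‖G'‖ * ‖x.1‖ := by
    intro x
    have e1 : G' (0, x.2) = 0 := by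
      have := hΛ x.2
      simp only [hS₂def, ContinuousLinearMap.comp_apply, ContinuousLinearMap.inr_apply] at this
      simp [G', this]
    have e2 : G' x = G' (x.1, 0) := by
      rw [show x = (x.1, 0) + (0, x.2) by simp, map_add, e1]
      simp
    rw [e2]
    simpa using G'.le_opNorm (x.1, 0)
  obtain ⟨δ, hδ, hb⟩ := Metric.eventually_nhds_iff_ball.1
    (hG.isLittleO.def (show (0 : ℝ) < 1 / 32 by norm_num))
  have hN : 0 < ‖G'‖ + 1 := by positivity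
  have hρ₁ : 0 < min η δ := lt_min hη hδ
  refine ⟨min η δ, min η δ / 32 / (‖G'‖ + 1), hρ₁, min_le_left _ _, by positivity,
    fun m' y b1 b2 => ?_⟩
  rw [lt_div_iff₀ hN] at b1
  have b3 := norm_nonneg (m' - m)
  have b4 : 0 ≤ ‖m' - m‖ * ‖G'‖ := by positivity
  have b5 : ‖((m', y) : W × V) - (m, 0)‖ < min η δ := by
    rw [Prod.mk_sub_mk, sub_zero, Prod.norm_mk, max_lt_iff]
    exact ⟨by nlinarith, b2⟩
  have b6 := hb (m', y) (by
    rw [mem_ball, dist_eq_norm]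
    exact b5.trans_le (min_le_right _ _))
  have b7 := hG' ((m', y) - (m, 0))
  simp only [h0, sub_self, map_zero, sub_zero, Prod.fst_sub] at b6 b7
  have b8 := norm_le_norm_sub_add (Λ (h68_st φ 4 m' y - m') - y) (G' ((m', y) - (m, 0)))
  nlinarith

/-- **TUBES**.  `s (m', t) = φ₃ (φ₂ (φ₁ (φ₀ m' t₀) t₁) t₂) t₃`; in a model at `m` the map
`t ↦ π (s (m', t) - m')` has at `(m, 0)` the invertible derivative `t ↦ ∑ t_i π v_i`
(`v_i = De(0) π v_i`); `inv` solves `s (m₀, t) = m₁` with `‖t‖ ≤ C s`; moves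
`ψ_i τ = φ_i (m^{(i)}) (t_i τ)`, `N = 4`. -/
theorem ptSpray_of_tubes (hM : HasModels M) {m : W} (hm : m ∈ M) {v : Fin 4 → W}
    (hv : LinearIndependent ℂ v) (hT : ∀ i, Tube M m (v i)) : PtSpray M m := by
  obtain ⟨P, π, e, ρ, C, hP, -, hMod⟩ := hM ℂ {0} univ (fun _ => m) isCompact_singleton
    (convex_singleton _) isOpen_univ (subset_univ _) (differentiableOn_const _) fun _ _ => hm
  have hP0 : (0 : ℂ) ∈ P := hP rfl
  obtain ⟨φ, r, L, hrρ, h, hd⟩ := h68_exists_dat hT hMod.ρ_pos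
  obtain ⟨Λ, hΛ, hkey⟩ := h.key hm hd hv hP0 hMod
  have hr := h.r_pos
  have hL := h.L_pos
  obtain ⟨ρ₁, ρ₂, hρ₁, hρ₁η, hρ₂, hest⟩ := hkey (min r (r / 8 / L)) (by positivity)
  have hρ₁r : ρ₁ ≤ r := hρ₁η.trans (min_le_left _ _)
  have hρ₁L : ρ₁ * L ≤ r / 8 := (le_div_iff₀ hL).1 (hρ₁η.trans (min_le_right _ _))
  have hy4 : ∀ y : V, ‖y‖ < ρ₁ → 4 * (L * ‖y‖) ≤ r / 2 := fun y hy => by nlinarith
  intro T hT1
  obtain ⟨K, hK⟩ : ∃ K : ℝ, K = ‖Λ‖ + 1 := ⟨_, rfl⟩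
  have hK0 : 0 < K := by rw [hK]; positivity
  refine ⟨univ, min ρ₂ (r / 2), 2 * K * L * (4 + T) + 1,
    min (ρ₁ / 16 / K) (min (r / 2) (r / (2 * K * T))), 4, isOpen_univ, Subset.rfl, by positivity,
    by positivity, by positivity, ?_⟩
  intro s hs0 hs R hR A _ _ _ D p m₀ m₁ hD _ _ d0 d1 k0 k1 hn0 hn1
  have s1 : s * K ≤ ρ₁ / 16 := (le_div_iff₀ hK0).1 (hs.trans (min_le_left _ _))
  have s2 : s ≤ r / 2 := hs.trans ((min_le_right _ _).trans (min_le_left _ _))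
  have s3 : s * (2 * K * T) ≤ r :=
    (le_div_iff₀ (by positivity)).1 (hs.trans ((min_le_right _ _).trans (min_le_right _ _)))
  have n1 : ∀ a ∈ D, ‖m₀ a - m‖ < ρ₂ := fun a ha => (hn0 a ha).trans_le (min_le_left _ _)
  have n2 : ∀ a ∈ D, ‖m₀ a - m‖ < r / 2 := fun a ha => (hn0 a ha).trans_le (min_le_right _ _)
  have n3 : ∀ a ∈ D, ‖Λ (m₁ a - m₀ a)‖ ≤ s * K := fun a ha => by
    have := (Λ.le_opNorm _).trans (mul_le_mul_of_nonneg_left (hn1 a ha) (norm_nonneg Λ))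
    rw [hK]
    linarith
  have f0 : DifferentiableOn ℂ (fun x : A × V => m₀ x.1) (D ×ˢ ball 0 ρ₁) :=
    d0.comp differentiableOn_fst fun x hx => hx.1
  have f1 : DifferentiableOn ℂ (fun x : A × V => m₁ x.1) (D ×ˢ ball 0 ρ₁) :=
    d1.comp differentiableOn_fst fun x hx => hx.1
  have hα : HolF (fun a y => y + Λ (m₁ a - m₀ a)) D ρ₁ :=
    differentiableOn_snd.add (Λ.differentiable.comp_differentiableOn (f1.sub f0))
  have hβ : HolF (fun a y => Λ (h68_st φ 4 (m₀ a) y - m₀ a)) D ρ₁ :=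
    Λ.differentiable.comp_differentiableOn ((h.hol_st f0 differentiableOn_snd
      (fun x hx => k0 hx.1) (fun x hx => n2 _ hx.1)
      (fun x hx => (mem_ball_zero_iff.1 hx.2).trans_le hρ₁r)
      (fun x hx => hy4 _ (mem_ball_zero_iff.1 hx.2)) le_rfl).sub f0)
  obtain ⟨g, hg, H⟩ := inv (ε := ρ₁ / 16) hD hα hβ (by linarith)
    (fun a ha y _ => by rw [add_sub_cancel_left]; exact (n3 a ha).trans s1)
    fun a ha y hy => hest _ _ (n1 a ha) (mem_ball_zero_iff.1 hy)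
  have z0 : (0 : V) ∈ ball (0 : V) (ρ₁ / 2) := mem_ball_self (by positivity)
  have dt : DifferentiableOn ℂ (fun a => g a 0) D :=
    hg.comp (p := fun a => a) (y := fun _ => 0) differentiableOn_id (differentiableOn_const _)
      (fun _ ha => ha) fun _ _ => mem_ball_zero_iff.1 z0
  have t1 : ∀ a ∈ D, ‖g a 0‖ ≤ 2 * (s * K) := fun a ha => by
    have a1 := (H a ha 0 z0).2.2
    have a2 := (h.bound (k0 ha) (n2 a ha) (y := 0) (by simpa using hr) (by simp; linarith)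
      le_rfl).2.1
    rw [norm_zero, mul_zero, mul_zero, norm_le_zero_iff] at a2
    simp only [a2, map_zero, zero_add, sub_zero] at a1
    linarith [n3 a ha]
  have t2 : ∀ a ∈ D, ‖g a 0‖ < ρ₁ := fun a ha => by linarith [t1 a ha]
  have hb : ∀ a ∈ D, ∀ i ≤ 4, h68_st φ i (m₀ a) (g a 0) ∈ M ∧
      ‖h68_st φ i (m₀ a) (g a 0) - m₀ a‖ ≤ i * (L * ‖g a 0‖) ∧
        h68_st φ i (m₀ a) (g a 0) ∈ ball m r := fun a ha i hi =>
    h.bound (k0 ha) (n2 a ha) ((t2 a ha).trans_le hρ₁r) (hy4 _ (t2 a ha)) hi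
  have t3 : ∀ a ∈ D, h68_st φ 4 (m₀ a) (g a 0) = m₁ a := fun a ha => by
    have a1 := (H a ha 0 z0).2.1
    simp only [zero_add] at a1
    have a2 : Λ (h68_st φ 4 (m₀ a) (g a 0) - m₁ a) = 0 := by
      rw [← sub_sub_sub_cancel_right _ _ (m₀ a), map_sub, a1, sub_self]
    have a3 := hΛ _ a2
    rw [map_sub, sub_eq_zero] at a3
    obtain ⟨b1, -, b3⟩ := hb a ha 4 le_rfl
    rw [mem_ball, dist_eq_norm] at b3
    refine hMod.inj 0 hP0 _ b1 _ (k1 ha) (b3.trans_le hrρ) ?_ a3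
    linarith [norm_sub_le_norm_sub_add_norm_sub (m₁ a) (m₀ a) m, hn1 a ha, n2 a ha]
  refine ⟨fun i a τ => if i < 4 then
    φ (Fin.ofNat 4 i) (h68_st φ i (m₀ a) (g a 0)) (g a 0 (Fin.ofNat 4 i) * τ) else m₁ a,
    fun i => ?_, fun i a ha τ _ => ?_, fun a ha => ?_, fun i a ha => ?_, fun i hi a _ τ => ?_,
    fun i a ha τ hτ => ?_⟩
  · by_cases hi : i < 4
    · simp only [if_pos hi]
      have c1 := h.hol_st d0 dt (fun a ha => k0 ha) n2 (fun a ha => (t2 a ha).trans_le hρ₁r)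
        (fun a ha => hy4 _ (t2 a ha)) hi.le
      exact DifferentiableOn.comp (g := fun x : W × ℂ => φ (Fin.ofNat 4 i) x.1 x.2)
        (f := fun x : A × ℂ => (h68_st φ i (m₀ x.1) (g x.1 0), g x.1 0 (Fin.ofNat 4 i) * x.2))
        (h.hol _) ((c1.comp differentiableOn_fst fun x hx => hx.1).prodMk
          (((differentiableOn_pi.1 dt _).comp differentiableOn_fst fun x hx => hx.1).mul
            differentiableOn_snd)) fun x hx => ⟨(hb _ hx.1 i hi.le).2.2, mem_univ _⟩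
    · simp only [if_neg hi]
      exact d1.comp differentiableOn_fst fun x hx => hx.1
  · by_cases hi : i < 4
    · simp only [if_pos hi]
      exact h.mem _ _ (hb a ha i hi.le).2.2 (hb a ha i hi.le).1 _
    · simp only [if_neg hi]
      exact k1 ha
  · simp only [if_pos (show 0 < 4 by norm_num), mul_zero]
    exact h.zero _ (hb a ha 0 (by norm_num)).2.2 (hb a ha 0 (by norm_num)).1
  · by_cases hi : i + 1 < 4
    · simp only [if_pos hi, if_pos (show i < 4 by omega), mul_zero, mul_one]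
      exact (h.zero _ (hb a ha _ hi.le).2.2 (hb a ha _ hi.le).1).symm
    · by_cases hi' : i < 4
      · obtain rfl : i = 3 := by omega
        simp only [if_neg hi, if_pos hi', mul_one]
        exact t3 a ha
      · simp only [if_neg hi, if_neg hi']
  · simp only [if_neg (not_lt.2 hi)]
  · have c0 : 0 ≤ 2 * K * L * (4 + T) * s := by positivity
    by_cases hi : i < 4
    · simp only [if_pos hi]
      obtain ⟨b1, b2, b3⟩ := hb a ha i hi.le
      rw [mem_ball_zero_iff] at hτ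
      have c1 : ‖g a 0 (Fin.ofNat 4 i)‖ ≤ 2 * (s * K) := (norm_le_pi_norm _ _).trans (t1 a ha)
      have c2 : ‖g a 0 (Fin.ofNat 4 i) * τ‖ < 2 * (s * K) * T := by
        rw [norm_mul]
        exact (mul_le_mul_of_nonneg_right c1 (norm_nonneg _)).trans_lt
          (mul_lt_mul_of_pos_left hτ (by positivity))
      have c3 := h.lip (Fin.ofNat 4 i) _ b3 b1 _ (c2.trans_le (by linarith))
      have c4 := mul_le_mul_of_nonneg_left c2.le hL.le
      have c5 : (i : ℝ) ≤ 4 := by exact_mod_cast hi.le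
      have c6 := mul_le_mul c5 (mul_le_mul_of_nonneg_left (t1 a ha) hL.le) (by positivity)
        (by norm_num)
      have c7 := norm_sub_le_norm_sub_add_norm_sub (φ (Fin.ofNat 4 i) (h68_st φ i (m₀ a) (g a 0))
        (g a 0 (Fin.ofNat 4 i) * τ)) (h68_st φ i (m₀ a) (g a 0)) (m₀ a)
      linarith
    · simp only [if_neg hi]
      linarith [hn1 a ha]

theorem h68_eval_smul {Q : MvPolynomial (Fin 4) ℂ} {n : ℕ} (hQ : Q.IsHomogeneous n) (c : ℂ)
    (x : V) : MvPolynomial.eval (c • x) Q = c ^ n * MvPolynomial.eval x Q := by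
  rw [MvPolynomial.eval_eq', MvPolynomial.eval_eq', Finset.mul_sum]
  refine Finset.sum_congr rfl fun d hd => ?_
  have h1 : ∑ i, d i = n := by
    have := hQ (MvPolynomial.mem_support_iff.1 hd)
    rw [← this, Finsupp.weight_apply, Finsupp.sum_fintype _ _ (by simp)]
    simp
  simp only [Pi.smul_apply, smul_eq_mul, mul_pow, Finset.prod_mul_distrib,
    Finset.prod_pow_eq_pow_sum, h1]
  ring

theorem h68_tube_of_x {Q : MvPolynomial (Fin 4) ℂ} {m : W} {v : V} (h : XTube Q m.1 v) :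
    Tube (MQ Q) m (v, 0) := by
  obtain ⟨O, φ, h1, h2, h3, h4, h5⟩ := h
  refine ⟨Prod.fst ⁻¹' O, fun m' τ => (φ m'.1 τ, m'.2), h1.preimage continuous_fst, h2, ?_,
    fun m' a1 a2 => ⟨?_, fun τ => (h4 _ a1 a2.1).2 τ⟩, h5.prodMk (hasDerivAt_const _ _)⟩
  · refine DifferentiableOn.prodMk ?_ (by fun_prop)
    exact DifferentiableOn.comp (g := fun a : V × ℂ => φ a.1 a.2)
      (f := fun x : W × ℂ => (x.1.1, x.2)) h3 (by fun_prop) fun x hx => ⟨hx.1, mem_univ _⟩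
  · simp only [(h4 _ a1 a2.1).1]

/-- scaling `(e^τ x, t)`, translation `(x, t + τ)` and two `XTube`s. -/
theorem ptSpray_MQ {Q : MvPolynomial (Fin 4) ℂ} (hQ : SmoothQ Q) (hM : HasModels (MQ Q)) {m : W}
    (hm : m ∈ MQ Q) {v₁ v₂ : V} (hv : LinearIndependent ℂ ![m.1, v₁, v₂])
    (h₁ : XTube Q m.1 v₁) (h₂ : XTube Q m.1 v₂) : PtSpray (MQ Q) m := by
  refine ptSpray_of_tubes hM hm (v := ![(m.1, 0), (v₁, 0), (v₂, 0), (0, 1)]) ?_ fun i => ?_
  · rw [Fintype.linearIndependent_iff] at hv ⊢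
    intro g hg
    rw [Fin.sum_univ_four] at hg
    have h1 := congrArg Prod.fst hg
    have h2 := congrArg Prod.snd hg
    have h3 := hv ![g 0, g 1, g 2] (by
      rw [Fin.sum_univ_three]
      simpa using h1)
    intro i
    fin_cases i
    · exact h3 0
    · exact h3 1
    · exact h3 2
    · simpa using h2
  · fin_cases i
    · refine ⟨univ, fun m' τ => (Complex.exp τ • m'.1, m'.2), isOpen_univ, mem_univ _, by fun_prop,
        fun m' _ a2 => ⟨by simp, fun τ => ⟨?_, smul_ne_zero (Complex.exp_ne_zero τ) a2.2⟩⟩, ?_⟩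
      · show MvPolynomial.eval (Complex.exp τ • m'.1) Q = 0
        rw [h68_eval_smul hQ.hom, a2.1, mul_zero]
      · have := ((Complex.hasDerivAt_exp 0).smul_const m.1).prodMk (hasDerivAt_const (0 : ℂ) m.2)
        simpa using this
    · exact h68_tube_of_x h₁
    · exact h68_tube_of_x h₂
    · refine ⟨univ, fun m' τ => (m'.1, m'.2 + τ), isOpen_univ, mem_univ _, by fun_prop,
        fun m' _ a2 => ⟨by simp, fun τ => a2⟩, ?_⟩
      exact (hasDerivAt_const (0 : ℂ) m.1).prodMk ((hasDerivAt_id (0 : ℂ)).const_add m.2)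

end Crest.Agent.R279
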