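import Crest.Agent.R279.Core
import Crest.Agent.R279.Lift
import Crest.Agent.R279.Tubes
import Crest.Agent.R279.Gen

/-! Row 279: assembly -/

set_option autoImplicit false

namespace Crest.Agent.R279

open Set Metric Filter Topology

variable {E E' F : Type} [NormedAddCommGroup E] [NormedSpace ℂ E] [NormedAddCommGroup E']
  [NormedSpace ℂ E'] [NormedAddCommGroup F] [NormedSpace ℂ F] {M : Set W}

open Crest.AlgGeometry

theorem ptSpray_all {Q : MvPolynomial (Fin 4) ℂ} (hQ : SmoothQ Q) :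
    ∀ m ∈ MQ Q, PtSpray (MQ Q) m := by
  obtain ⟨r, hr, h⟩ := gen_tubes hQ
  refine ptSpray_of_generic (hasModels_MQ hQ) (r := fun m => MvPolynomial.eval m.1 r) ?_
    (dense_MQ hQ hr) fun m hm h0 => ?_
  · have h1 : Differentiable ℂ fun x : V => MvPolynomial.eval x r := fun x =>
      (AnalyticOnNhd.eval_mvPolynomial r x (mem_univ x)).differentiableAt
    exact h1.comp differentiable_fst
  · obtain ⟨v₁, v₂, hv, h₁, h₂⟩ := h m.1 hm.2 hm.1 h0
    exact ptSpray_MQ hQ (hasModels_MQ hQ) hm hv h₁ h₂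

theorem h38_eval_smul {Q : MvPolynomial (Fin 4) ℂ} {n : ℕ} (hQ : Q.IsHomogeneous n) (a : ℂ)
    (x : V) : MvPolynomial.eval (a • x) Q = a ^ n * MvPolynomial.eval x Q := by
  rw [MvPolynomial.eval_eq', MvPolynomial.eval_eq', Finset.mul_sum]
  refine Finset.sum_congr rfl fun d hd => ?_
  have hd' : ∑ i, d i = n := by
    have := hQ (MvPolynomial.mem_support_iff.1 hd)
    rw [← this]
    simp [Finsupp.weight_apply, Finsupp.sum_fintype]
  simp only [Pi.smul_apply, smul_eq_mul, mul_pow, Finset.prod_mul_distrib,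
    Finset.prod_pow_eq_pow_sum, hd']
  ring

theorem h38_eval_rep {Q : MvPolynomial (Fin 4) ℂ} {n : ℕ} (hQ : Q.IsHomogeneous n) {v : V}
    (hv : v ≠ 0) :
    MvPolynomial.eval (Projectivization.mk ℂ v hv).rep Q = 0 ↔ MvPolynomial.eval v Q = 0 := by
  obtain ⟨a, ha⟩ := Projectivization.exists_smul_eq_mk_rep ℂ v hv
  rw [← ha, Units.smul_def, h38_eval_smul hQ]
  simp

theorem h38_herm_self (v : V) : (hermProd v v).re = ∑ i, ‖v i‖ ^ 2 := by
  simp only [hermProd, Complex.re_sum, Complex.conj_mul']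
  refine Finset.sum_congr rfl fun i _ => ?_
  norm_cast

theorem h38_herm_im (v : V) : (hermProd v v).im = 0 := by
  simp only [hermProd, Complex.im_sum, Complex.conj_mul']
  refine Finset.sum_eq_zero fun i _ => ?_
  norm_cast

theorem h38_herm_smul (a b : ℂ) (v w : V) :
    hermProd (a • v) (b • w) = (starRingEnd ℂ) a * b * hermProd v w := by
  simp only [hermProd, Finset.mul_sum, Pi.smul_apply, smul_eq_mul, map_mul]
  exact Finset.sum_congr rfl fun i _ => by ring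

theorem h38_gap_smul {a b : ℂ} (ha : a ≠ 0) (hb : b ≠ 0) (v w : V) :
    vecGap (a • v) (b • w) = vecGap v w := by
  have h1 : ∀ (c : ℂ) (u : V), (hermProd (c • u) (c • u)).re = ‖c‖ ^ 2 * (hermProd u u).re := by
    intro c u
    simp only [h38_herm_self, Finset.mul_sum, Pi.smul_apply, smul_eq_mul, norm_mul, mul_pow]
  have h2 : (‖a‖ ^ 2 * ‖b‖ ^ 2) ≠ 0 := by
    have := norm_pos_iff.2 ha
    have := norm_pos_iff.2 hb
    positivity
  unfold vecGap
  rw [h1, h1, h38_herm_smul, norm_mul, norm_mul, RCLike.norm_conj,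
    ← mul_div_mul_left (‖hermProd v w‖ ^ 2) _ h2]
  congr 2 <;> ring

theorem h38_projGap_mk {v w : V} (hv : v ≠ 0) (hw : w ≠ 0) :
    projGap (Projectivization.mk ℂ v hv) (Projectivization.mk ℂ w hw) = vecGap v w := by
  obtain ⟨a, ha⟩ := Projectivization.exists_smul_eq_mk_rep ℂ v hv
  obtain ⟨b, hb⟩ := Projectivization.exists_smul_eq_mk_rep ℂ w hw
  rw [projGap, ← ha, ← hb, Units.smul_def, Units.smul_def, h38_gap_smul a.ne_zero b.ne_zero]

theorem h38_sq_le (v : V) : ‖v‖ ^ 2 ≤ (hermProd v v).re := by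
  rw [h38_herm_self]
  have h0 : 0 ≤ ∑ i, ‖v i‖ ^ 2 := Finset.sum_nonneg fun i _ => sq_nonneg _
  have : ‖v‖ ≤ √(∑ i, ‖v i‖ ^ 2) := by
    refine (pi_norm_le_iff_of_nonneg (Real.sqrt_nonneg _)).2 fun i => ?_
    exact Real.le_sqrt_of_sq_le
      (Finset.single_le_sum (f := fun i => ‖v i‖ ^ 2) (fun i _ => sq_nonneg _) (Finset.mem_univ i))
  calc ‖v‖ ^ 2 ≤ √(∑ i, ‖v i‖ ^ 2) ^ 2 := by gcongr
    _ = _ := Real.sq_sqrt h0

theorem h38_le_sq (v : V) : (hermProd v v).re ≤ 4 * ‖v‖ ^ 2 := by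
  rw [h38_herm_self]
  calc ∑ i, ‖v i‖ ^ 2 ≤ ∑ _i : Fin 4, ‖v‖ ^ 2 :=
        Finset.sum_le_sum fun i _ => by gcongr; exact norm_le_pi_norm v i
    _ = 4 * ‖v‖ ^ 2 := by simp

theorem h38_lagrange (d w : V) :
    (hermProd (w + d) (w + d)).re * (hermProd w w).re - (hermProd d d).re * (hermProd w w).re ≤
      ‖hermProd (w + d) w‖ ^ 2 := by
  have h1 : hermProd (w + d) w = hermProd w w + hermProd d w := by
    simp only [hermProd, Pi.add_apply, map_add, add_mul, Finset.sum_add_distrib]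
  have h2 : (hermProd (w + d) (w + d)).re =
      (hermProd w w).re + (hermProd d d).re + 2 * (hermProd d w).re := by
    simp only [hermProd, Complex.re_sum, Finset.mul_sum, ← Finset.sum_add_distrib]
    refine Finset.sum_congr rfl fun i _ => ?_
    simp
    ring
  rw [h1, h2, Complex.sq_norm, Complex.normSq_apply, Complex.add_re, Complex.add_im, h38_herm_im]
  nlinarith [sq_nonneg (hermProd d w).re, sq_nonneg (hermProd d w).im]

/-- the gap is small for close vectors of norm bounded below. -/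
theorem vecGap_small {c ε : ℝ} (hc : 0 < c) (hε : 0 < ε) : ∃ η : ℝ, 0 < η ∧ ∀ v w : V,
    c ≤ ‖w‖ → ‖v - w‖ ≤ η → ∀ (hv : v ≠ 0) (hw : w ≠ 0),
      projGap (Projectivization.mk ℂ v hv) (Projectivization.mk ℂ w hw) < ε := by
  refine ⟨min (c / 2) (c * ε / 32), lt_min (by positivity) (by positivity),
    fun v w hw hvw hv0 hw0 => ?_⟩
  rw [h38_projGap_mk]
  obtain ⟨d, rfl⟩ : ∃ d, v = w + d := ⟨v - w, by abel⟩
  rw [add_sub_cancel_left] at hvw
  have hd1 : ‖d‖ ≤ c / 2 := hvw.trans (min_le_left _ _)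
  have hd2 : ‖d‖ ≤ c * ε / 32 := hvw.trans (min_le_right _ _)
  have hv : c / 2 ≤ ‖w + d‖ := by
    have : ‖w‖ ≤ ‖w + d‖ + ‖d‖ := by simpa using norm_sub_le (w + d) d
    linarith
  have hA : c ^ 2 / 4 ≤ (hermProd (w + d) (w + d)).re := by
    refine le_trans ?_ (h38_sq_le _)
    nlinarith
  have hB : 0 < (hermProd w w).re := lt_of_lt_of_le (by have := hc.trans_le hw; positivity)
    (h38_sq_le w)
  have hD : (hermProd d d).re ≤ c ^ 2 * ε / 16 := by
    refine (h38_le_sq d).trans ?_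
    have : ‖d‖ * ‖d‖ ≤ c / 2 * (c * ε / 32) := mul_le_mul hd1 hd2 (norm_nonneg _) (by positivity)
    nlinarith
  have hL := h38_lagrange d w
  have hA0 : 0 < (hermProd (w + d) (w + d)).re := lt_of_lt_of_le (by positivity) hA
  unfold vecGap
  rw [sub_lt_comm, lt_div_iff₀ (mul_pos hA0 hB)]
  have h3 : (hermProd d d).re < ε * (hermProd (w + d) (w + d)).re := by
    have : 0 < c ^ 2 * ε := by positivity
    nlinarith
  nlinarith [mul_lt_mul_of_pos_right h3 hB]

/-- `lift`, `cap_convex` for `z ↦ (g z, 0)`, `vecGap_small`. -/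
theorem main {Q : MvPolynomial (Fin 4) ℂ} (hQ : SmoothQ Q) {m : ℕ} {K : Set (Fin m → ℂ)}
    (hK : IsCompact K) (hKc : Convex ℝ K) (hKn : K.Nonempty) {U : Set (Fin m → ℂ)} (hU : IsOpen U)
    (hKU : K ⊆ U) {f : (Fin m → ℂ) → Projectivization ℂ (Fin 4 → ℂ)} (hf : ProjHolomorphicOn f U)
    (hfQ : ∀ z ∈ U, MvPolynomial.eval (f z).rep Q = 0) {ε : ℝ} (hε : 0 < ε) :
    ∃ F : (Fin m → ℂ) → Projectivization ℂ (Fin 4 → ℂ),
      ProjHolomorphicOn F Set.univ ∧ (∀ z, MvPolynomial.eval (F z).rep Q = 0) ∧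
      ∀ z ∈ K, projGap (F z) (f z) < ε := by
  obtain ⟨U', g, hU', hKU', hUU, hg, hfg⟩ := lift hK hKc hU hKU hf
  obtain ⟨z₀, hz₀, hmin⟩ := hK.exists_isMinOn hKn (hg.continuousOn.mono hKU').norm
  have hc : 0 < ‖g z₀‖ := norm_pos_iff.2 (hfg z₀ (hKU' hz₀)).1
  obtain ⟨η, hη, hgap⟩ := vecGap_small hc hε
  obtain ⟨φ, hφ, hφM, hφe⟩ := cap_convex (hasModels_MQ hQ) (isLocallyClosed_MQ Q) (ptSpray_all hQ)
    hK hKc hKn U' (fun z => (g z, 0)) hU' hKU' (hg.prodMk (differentiableOn_const _))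
    (fun z hz => by
      obtain ⟨h, he⟩ := hfg z hz
      refine ⟨?_, h⟩
      have := hfQ z (hUU hz)
      rwa [he, h38_eval_rep hQ.hom] at this) η hη
  refine ⟨fun z => Projectivization.mk ℂ (φ z).1 (hφM z).2, fun z _ => ⟨univ, isOpen_univ,
    mem_univ z, fun z => (φ z).1, hφ.fst.differentiableOn, fun w _ => ⟨(hφM w).2, rfl⟩⟩,
    fun z => (h38_eval_rep hQ.hom _).2 (hφM z).1, fun z hz => ?_⟩
  obtain ⟨h, he⟩ := hfg z (hKU' hz)
  rw [he]
  exact hgap _ _ (hmin hz) ((norm_fst_le (φ z - (g z, 0))).trans (hφe z hz)) _ _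

end Crest.Agent.R279
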