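import Crest.Agent.R279.E0
import Crest.Agent.R279.Tilt
import Crest.Agent.R279.Unif

/-! Row 279: polydiscs -/

set_option autoImplicit false

namespace Crest.Agent.R279

open Set Metric Filter Topology

variable {E E' F : Type} [NormedAddCommGroup E] [NormedSpace ℂ E] [NormedAddCommGroup E']
  [NormedSpace ℂ E'] [NormedAddCommGroup F] [NormedSpace ℂ F] {M : Set W}

/-- extension in the disc variable, soft form: `HasModels`, `unif` (with `𝒦 = K ×ˢ sphere`) and
`E0`; the neighbourhood `P` of `K` does not depend on `ε, R`. -/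
theorem ext_disc [FiniteDimensional ℂ E] (hM : HasModels M) {K : Set E} (hK : IsCompact K)
    (hKc : Convex ℝ K) {r : ℝ} (hr : 0 < r) {U : Set (E × ℂ)} (hU : IsOpen U)
    (hKU : K ×ˢ closedBall (0 : ℂ) r ⊆ U) {g : E × ℂ → W} (hg : DifferentiableOn ℂ g U)
    (hgM : MapsTo g U M) (hS : ∀ z : ℂ, ‖z‖ = r → Spray M K fun p => g (p, z)) :
    ∃ P : Set E, IsOpen P ∧ K ⊆ P ∧ ∀ ε R : ℝ, 0 < ε → r ≤ R →
      ∃ f : E × ℂ → W, DifferentiableOn ℂ f (P ×ˢ ball 0 R) ∧ MapsTo f (P ×ˢ ball 0 R) M ∧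
        ∀ x ∈ P ×ˢ ball (0 : ℂ) r, ‖f x - g x‖ ≤ ε := by
  obtain ⟨T₀, hT₀, hE⟩ := E0
  have hc : IsCompact (K ×ˢ closedBall (0 : ℂ) r) := hK.prod (isCompact_closedBall 0 r)
  obtain ⟨P₁, π, e, ρ, C, h1, -, hm⟩ := hM (E × ℂ) _ U g hc (hKc.prod (convex_closedBall 0 r)) hU
    hKU hg hgM
  obtain ⟨P, c, ρS, CS, s₀, N, hc0, hρ, hC, hs, h⟩ := unif (M := M) (H := g)
    (hK.prod (isCompact_sphere (0 : ℂ) r)) (isCompact_sphere (0 : ℂ) r) hm.op
    (fun x hx _ => h1 ⟨hx.1, sphere_subset_closedBall hx.2⟩) hm.holg.continuousOn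
    (fun z hz => (hS z (mem_sphere_zero_iff_norm.1 hz)).mono fun p hp => hp.1) hT₀
  obtain ⟨δ, hδ, h2⟩ := hc.exists_thickening_subset_open hm.op h1
  have h0 : 0 < min c δ := lt_min hc0 hδ
  refine ⟨thickening (min c δ) K, isOpen_thickening, self_subset_thickening h0 K,
    hE M _ P₁ g π e ρ C r (min c δ) ρS CS s₀ N isOpen_thickening hm hr h0 hρ hC hs
      (fun x hx => h2 ?_) fun z hz => ?_⟩
  · obtain ⟨p, hp, hd⟩ := mem_thickening_iff.1 hx.1
    have h3 := hx.2
    rw [add_comm, ← thickening_closedBall h0 hr.le] at h3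
    obtain ⟨v, hv, hd'⟩ := mem_thickening_iff.1 h3
    refine mem_thickening_iff.2 ⟨(p, v), ⟨hp, hv⟩, ?_⟩
    rw [Prod.dist_eq]
    exact (max_lt hd hd').trans_le (min_le_right _ _)
  · have hz' := mem_sphere_zero_iff_norm.2 hz
    obtain ⟨-, h3, -, h4⟩ := h z hz'
    refine h3.mono fun x hx => ?_
    obtain ⟨p, hp, hd⟩ := mem_thickening_iff.1 hx
    exact h4 (p, z) ⟨hp, hz'⟩ (by simpa using hc0) (hd.trans_le (min_le_left _ _))

/-- one more variable: model `e` of `g` near `K ×ˢ closedBall 0 r`, `H ((p, y, u), z) =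
e (p, z) (y - z u)`, `Spray.passive`, `ext_disc` for `K ×ˢ {0}`, then `tilt`. -/
theorem spray_step [FiniteDimensional ℂ E] (hM : HasModels M) {K : Set E} (hK : IsCompact K)
    (hKc : Convex ℝ K) {r r₀ : ℝ} (h0 : 0 < r₀) (hr : r₀ < r) {U : Set (E × ℂ)} (hU : IsOpen U)
    (hKU : K ×ˢ closedBall (0 : ℂ) r ⊆ U) {g : E × ℂ → W} (hg : DifferentiableOn ℂ g U)
    (hgM : MapsTo g U M) (hS : ∀ z : ℂ, ‖z‖ = r → Spray M K fun p => g (p, z)) :
    Spray M (K ×ˢ ball (0 : ℂ) r₀) g := by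
  have hr0 : 0 < r := h0.trans hr
  obtain ⟨P₁, π, e, ρ, C, hKP, -, hm⟩ := hM (E × ℂ) (K ×ˢ closedBall 0 r) U g
    (hK.prod (isCompact_closedBall 0 r)) (hKc.prod (convex_closedBall 0 r)) hU hKU hg hgM
  have hρ := hm.ρ_pos
  let φ : (E × V × V) × ℂ → E × ℂ := fun x => (x.1.1, x.2)
  let y : (E × V × V) × ℂ → V := fun x => x.1.2.1 - x.2 • x.1.2.2
  have hφ : Differentiable ℂ φ := by fun_prop
  have hy : Differentiable ℂ y := by fun_prop
  let U' : Set ((E × V × V) × ℂ) := φ ⁻¹' P₁ ∩ y ⁻¹' ball 0 ρ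
  let H : (E × V × V) × ℂ → W := fun x => e (φ x) (y x)
  have hU' : IsOpen U' :=
    (hm.op.preimage hφ.continuous).inter (isOpen_ball.preimage hy.continuous)
  have hH : DifferentiableOn ℂ H U' := hm.hole.comp hφ.differentiableOn hy.differentiableOn
    (fun _ hx => hx.1) fun _ hx => mem_ball_zero_iff.1 hx.2
  have hHM : MapsTo H U' M := fun x hx => hm.mem _ hx.1 _ hx.2
  have hK' : (K ×ˢ {(0 : V × V)}) ×ˢ closedBall (0 : ℂ) r ⊆ U' := by
    rintro ⟨⟨p, w⟩, z⟩ ⟨⟨hp, rfl⟩, hz⟩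
    exact ⟨hKP ⟨hp, hz⟩, by simpa [y] using hρ⟩
  have hS' : ∀ z : ℂ, ‖z‖ = r → Spray M (K ×ˢ {(0 : V × V)}) fun p => H (p, z) := by
    intro z hz
    have hz' : z ∈ closedBall (0 : ℂ) r := mem_closedBall_zero_iff.2 hz.le
    have hc : Continuous fun p : E × V × V => (p, z) := by fun_prop
    refine Spray.passive (Ω := (fun p => (p, z)) ⁻¹' U') (hU'.preimage hc)
      (fun p hp => hK' ⟨hp, hz'⟩) (hH.continuousOn.comp hc.continuousOn fun _ hp => hp) ?_
    refine (hS z hz).pull (O := (fun p => (p, z)) ⁻¹' P₁) (φ := id)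
      (hm.op.preimage (by fun_prop)) (fun p hp => hKP ⟨hp, hz'⟩) differentiableOn_id
      (mapsTo_id K) fun p hp => ?_
    simpa [H, φ, y] using hm.zero _ hp
  obtain ⟨P', hP'o, hKP', happ⟩ := ext_disc hM (hK.prod isCompact_singleton)
    (hKc.prod (convex_singleton _)) hr0 hU' hK' hH hHM hS'
  obtain ⟨u₁, v₁, hu₁, hv₁, hKu₁, h0v, huv₁⟩ :=
    generalized_tube_lemma hK isCompact_singleton hP'o hKP'
  obtain ⟨u₂, v₂, hu₂, -, hKu₂, hrv, huv₂⟩ :=
    generalized_tube_lemma hK (isCompact_closedBall 0 r) hm.op hKP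
  obtain ⟨δ₁, hδ₁, hball⟩ := Metric.isOpen_iff.1 hv₁ 0 (h0v rfl)
  have hsub : (u₁ ∩ u₂) ×ˢ ball (0 : V) (min δ₁ (ρ / (1 + r))) ×ˢ
      ball (0 : V) (min δ₁ (ρ / (1 + r))) ⊆ P' := by
    rw [ball_prod_same]
    exact (prod_mono inter_subset_left ((ball_subset_ball (min_le_left _ _)).trans hball)).trans
      huv₁
  refine (tilt hm (hu₁.inter hu₂) h0 hr
    ((prod_mono inter_subset_right (ball_subset_closedBall.trans hrv)).trans huv₂)
    (δ := min δ₁ (ρ / (1 + r))) (lt_min hδ₁ (by positivity))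
    ((le_div_iff₀ (by positivity)).1 (min_le_right _ _)) fun ε R hε hR => ?_).mono
    (prod_mono (subset_inter hKu₁ hKu₂) Subset.rfl)
  obtain ⟨f, hf, hfM, hfe⟩ := happ ε R hε hR
  exact ⟨f, hf.mono (prod_mono hsub Subset.rfl), hfM.mono_left (prod_mono hsub Subset.rfl),
    fun x hx => hfe x (prod_mono hsub Subset.rfl hx)⟩

/-- sprays at generic points give sprays at all points: `g z = e (z y₀)` with `r (e y₀) ≠ 0`, a
circle avoiding the (isolated) zeros of `r ∘ g`, `spray_step` with `K = {0}`, `Spray.pt`. -/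
theorem ptSpray_of_generic (hM : HasModels M) {r : W → ℂ} (hr : Differentiable ℂ r)
    (hd : ∀ m ∈ M, m ∈ closure (M ∩ {m' | r m' ≠ 0})) (hS : ∀ m ∈ M, r m ≠ 0 → PtSpray M m) :
    ∀ m ∈ M, PtSpray M m := by
  intro m hm
  obtain ⟨P, π, e, ρ, C, hKP, -, H⟩ := hM ℂ {0} univ (fun _ => m) isCompact_singleton
    (convex_singleton 0) isOpen_univ (subset_univ _) (differentiableOn_const m) fun _ _ => hm
  have h0 : (0 : ℂ) ∈ P := hKP rfl
  have hρ := H.ρ_pos
  have hC := H.one_le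
  obtain ⟨m', ⟨hm'M, hm'r⟩, hd'⟩ :=
    Metric.mem_closure_iff.1 (hd m hm) (ρ / (4 * (C * C))) (by positivity)
  rw [dist_comm, dist_eq_norm, lt_div_iff₀ (by positivity)] at hd'
  have hn := norm_nonneg (m' - m)
  have hCC : C ≤ C * C := by nlinarith
  have hy : 4 * ‖π 0 (m' - m)‖ < ρ := by
    have h1 := ((π 0).le_opNorm (m' - m)).trans (mul_le_mul_of_nonneg_right (H.bddπ 0 h0) hn)
    have h2 := mul_le_mul_of_nonneg_right hCC hn
    linarith
  have he : e 0 (π 0 (m' - m)) = m' := H.eq_e h0 hm'M (by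
    have : 0 ≤ C * C * ‖m' - m‖ := by positivity
    linarith)
  generalize π 0 (m' - m) = y at hy he
  have hcy : ∀ z ∈ ball (0 : ℂ) 3, ‖z • y‖ < ρ := fun z hz => by
    rw [mem_ball_zero_iff] at hz
    rw [norm_smul]
    have := norm_nonneg y
    nlinarith
  have hc : DifferentiableOn ℂ (fun z : ℂ => e 0 (z • y)) (ball 0 3) :=
    H.hole.comp (p := fun _ => 0) (differentiableOn_const _) (by fun_prop) (fun _ _ => h0) hcy
  have hsub : closedBall (0 : ℂ) 2 ⊆ ball 0 3 := closedBall_subset_ball (by norm_num)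
  have hφ : AnalyticOnNhd ℂ (fun z : ℂ => r (e 0 (z • y))) (closedBall 0 2) :=
    ((hr.comp_differentiableOn hc).analyticOnNhd isOpen_ball).mono hsub
  have hfin : (closedBall (0 : ℂ) 2 \ {z | r (e 0 (z • y)) ≠ 0}).Finite := by
    rcases hφ.eqOn_zero_or_eventually_ne_zero_of_preconnected
      (convex_closedBall _ _).isPreconnected with h | h
    · have h1 := h (x := 1) (by simp)
      simp only [one_smul, he, Pi.zero_apply] at h1
      exact absurd h1 hm'r
    · exact (isCompact_closedBall _ _).finite_sdiff_of_mem_codiscreteWithin h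
  obtain ⟨t, ⟨ht1, ht2⟩, ht⟩ := (Set.Ioo_infinite (one_lt_two (α := ℝ))).exists_notMem_finite
    (hfin.image fun z => ‖z‖)
  have hsp : Spray M (({0} : Set ℂ) ×ˢ ball (0 : ℂ) 1) fun x : ℂ × ℂ => e 0 (x.2 • y) := by
    refine spray_step hM isCompact_singleton (convex_singleton 0) one_pos ht1
      (U := univ ×ˢ ball 0 3) (isOpen_univ.prod isOpen_ball)
      (prod_mono (subset_univ _) (closedBall_subset_ball (by linarith)))
      (hc.comp differentiableOn_snd fun x hx => hx.2)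
      (fun x hx => H.mem 0 h0 _ (mem_ball_zero_iff.2 (hcy _ hx.2))) fun z hz => ?_
    have hz2 : z ∈ closedBall (0 : ℂ) 2 := mem_closedBall_zero_iff.2 (by linarith)
    refine PtSpray.spray (hS _ (H.mem 0 h0 _ (mem_ball_zero_iff.2 (hcy _ (hsub hz2)))) ?_) _
    by_contra h
    exact ht ⟨z, ⟨hz2, fun h' => h' h⟩, hz⟩
  have := hsp.pt (z := (0, 0)) ⟨rfl, by simp⟩
  simpa [H.zero 0 h0] using this

/-- `SP` for `K` gives `SP` for `K ×ˢ closedBall 0 r` (`spray_step` on a slightly larger disc). -/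
theorem SP.prod_disc [FiniteDimensional ℂ E] (hM : HasModels M) {K : Set E} (hK : IsCompact K)
    (hKc : Convex ℝ K) (h : SP M K) {r : ℝ} (hr : 0 < r) : SP M (K ×ˢ closedBall (0 : ℂ) r) := by
  intro U g hU hKU hg hgM
  obtain ⟨u, v, hu, hv, hKu, hrv, huv⟩ :=
    generalized_tube_lemma hK (isCompact_closedBall (0 : ℂ) r) hU hKU
  obtain ⟨δ, hδ, hδv⟩ := (isCompact_closedBall (0 : ℂ) r).exists_cthickening_subset_open hv hrv
  rw [cthickening_closedBall hδ.le hr.le] at hδv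
  refine (spray_step hM hK hKc (r := δ + r) (r₀ := δ / 2 + r) (by positivity) (by linarith) hU
    ((prod_mono hKu hδv).trans huv) hg hgM fun z hz => ?_).mono
    (prod_mono Subset.rfl (closedBall_subset_ball (by linarith)))
  have hz' : ∀ p ∈ u, (p, z) ∈ U := fun p hp =>
    huv ⟨hp, hδv (mem_closedBall_zero_iff.2 hz.le)⟩
  exact h u _ hu hKu (hg.comp (by fun_prop) hz') fun p hp => hgM (hz' p hp)

/-- splitting off one coordinate. -/
theorem exists_splitAt {ι : Type} [Fintype ι] [DecidableEq ι] (i : ι) :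
    ∃ e : (ι → ℂ) ≃L[ℂ] ({j // j ≠ i} → ℂ) × ℂ, ∀ z, e z = (fun j => z j.1, z i) := by
  let l : (ι → ℂ) ≃ₗ[ℂ] ({j // j ≠ i} → ℂ) × ℂ :=
    { toFun := fun z => (fun j => z j.1, z i)
      invFun := fun p j => if h : j = i then p.2 else p.1 ⟨j, h⟩
      map_add' := fun _ _ => rfl
      map_smul' := fun _ _ => rfl
      left_inv := fun z => by
        funext j
        by_cases h : j = i
        · subst h; simp
        · simp [h]
      right_inv := fun p => by
        refine Prod.ext ?_ ?_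
        · funext j
          have h : j.1 ≠ i := j.2
          simp [h]
        · simp }
  exact ⟨l.toContinuousLinearEquiv, fun z => rfl⟩

theorem mem_polyC_split {ι : Type} (r : ι → ℝ) (i : ι) (z : ι → ℂ) :
    z ∈ polyC r ↔ ((fun j : {j // j ≠ i} => z j.1), z i) ∈
      polyC (fun j : {j // j ≠ i} => r j.1) ×ˢ closedBall (0 : ℂ) (r i) := by
  simp only [polyC, mem_prod, mem_ofPred_eq, mem_closedBall_zero_iff]
  constructor
  · intro h
    exact ⟨fun j => h j.1, h i⟩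
  · rintro ⟨h1, h2⟩ j
    by_cases h : j = i
    · subst h; exact h2
    · exact h1 ⟨j, h⟩

theorem sp_polyC_aux (hM : HasModels M) (hS : ∀ m ∈ M, PtSpray M m) (n : ℕ) :
    ∀ (ι : Type) [Fintype ι], Fintype.card ι = n → ∀ r : ι → ℝ, (∀ i, 0 < r i) →
      SP M (polyC r) := by
  induction n with
  | zero =>
    intro ι _ hc r hr U g hU hKU hg hgM
    have : IsEmpty ι := Fintype.card_eq_zero_iff.1 hc
    have h0 : (0 : ι → ℂ) ∈ U := hKU fun i => isEmptyElim i
    have h1 : g = fun _ => g 0 := by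
      funext z
      rw [Subsingleton.elim z 0]
    rw [h1]
    exact (hS _ (hgM h0)).spray _
  | succ n ih =>
    intro ι _ hc r hr
    classical
    obtain ⟨i⟩ : Nonempty ι := Fintype.card_pos_iff.1 (by omega)
    obtain ⟨e, he⟩ := exists_splitAt i
    have hc' : Fintype.card {j // j ≠ i} = n := by
      rw [Fintype.card_subtype_compl, Fintype.card_subtype_eq, hc]
      rfl
    have h1 := SP.prod_disc hM (isCompact_polyC _) (convex_polyC _)
      (ih {j // j ≠ i} hc' (fun j => r j.1) fun j => hr j.1) (hr i)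
    have h2 := h1.equiv e 0
    have h3 : (fun z => e z + 0) ⁻¹'
        (polyC (fun j : {j // j ≠ i} => r j.1) ×ˢ closedBall (0 : ℂ) (r i)) = polyC r := by
      ext z
      rw [mem_preimage, add_zero, he, ← mem_polyC_split]
    rwa [h3] at h2

/-- induction on `ι` (`Fintype.induction_empty_option`, `SP.equiv`). -/
theorem sp_polyC (hM : HasModels M) (hS : ∀ m ∈ M, PtSpray M m) (ι : Type) [Fintype ι]
    (r : ι → ℝ) (hr : ∀ i, 0 < r i) : SP M (polyC r) := by
  exact sp_polyC_aux hM hS _ ι rfl r hr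

/-- enlarging one radius (`ext_disc` after splitting off the coordinate `i`). -/
theorem ext_coord (hM : HasModels M) (hS : ∀ m ∈ M, PtSpray M m) {ι : Type} [Fintype ι]
    [DecidableEq ι] {r : ι → ℝ} (hr : ∀ i, 0 < r i) (i : ι) {R : ℝ} (hR : r i ≤ R)
    {U : Set (ι → ℂ)} (hU : IsOpen U) (hKU : polyC r ⊆ U) {g : (ι → ℂ) → W}
    (hg : DifferentiableOn ℂ g U) (hgM : MapsTo g U M) {ε : ℝ} (hε : 0 < ε) :
    ∃ (U' : Set (ι → ℂ)) (f : (ι → ℂ) → W), IsOpen U' ∧ polyC (Function.update r i R) ⊆ U' ∧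
      DifferentiableOn ℂ f U' ∧ MapsTo f U' M ∧ ∀ z ∈ polyC r, ‖f z - g z‖ ≤ ε := by
  obtain ⟨e, he⟩ := exists_splitAt i
  set K : Set ({j // j ≠ i} → ℂ) := polyC (fun j : {j // j ≠ i} => r j.1) with hKdef
  have hK : IsCompact K := isCompact_polyC _
  have hKc : Convex ℝ K := convex_polyC _
  have hU₁ : IsOpen (e.symm ⁻¹' U) := hU.preimage e.symm.continuous
  have hKU₁ : K ×ˢ closedBall (0 : ℂ) (r i) ⊆ e.symm ⁻¹' U := by
    intro x hx
    refine hKU ?_
    rw [mem_polyC_split r i, ← he, e.apply_symm_apply]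
    exact hx
  obtain ⟨u, v, -, hv, hKu, hBv, huv⟩ :=
    generalized_tube_lemma hK (isCompact_closedBall (0 : ℂ) (r i)) hU₁ hKU₁
  obtain ⟨δ, hδ, hδv⟩ := (isCompact_closedBall (0 : ℂ) (r i)).exists_cthickening_subset_open hv hBv
  rw [cthickening_closedBall hδ.le (hr i).le] at hδv
  have hKU₂ : K ×ˢ closedBall (0 : ℂ) (δ + r i) ⊆ e.symm ⁻¹' U :=
    (prod_mono hKu hδv).trans huv
  have hg₁ : DifferentiableOn ℂ (fun x => g (e.symm x)) (e.symm ⁻¹' U) :=
    hg.comp e.symm.differentiable.differentiableOn (mapsTo_preimage _ _)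
  have hgM₁ : MapsTo (fun x => g (e.symm x)) (e.symm ⁻¹' U) M := fun x hx => hgM hx
  have hS₁ : ∀ z : ℂ, ‖z‖ = δ + r i → Spray M K fun p => (fun x => g (e.symm x)) (p, z) := by
    intro z hz
    have hc : Differentiable ℂ fun p : {j // j ≠ i} → ℂ => (p, z) :=
      differentiable_id.prodMk (differentiable_const z)
    refine sp_polyC hM hS {j // j ≠ i} (fun j => r j.1) (fun j => hr j.1)
      ((fun p => (p, z)) ⁻¹' (e.symm ⁻¹' U)) _ (hU₁.preimage hc.continuous) ?_ ?_ ?_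
    · intro p hp
      exact hKU₂ ⟨hp, by rw [mem_closedBall_zero_iff]; exact hz.le⟩
    · exact hg₁.comp hc.differentiableOn (mapsTo_preimage _ _)
    · intro p hp
      exact hgM₁ hp
  obtain ⟨P, hP, hKP, hf⟩ := ext_disc hM hK hKc (add_pos hδ (hr i)) hU₁ hKU₂ hg₁ hgM₁ hS₁
  obtain ⟨f, hf1, hf2, hf3⟩ := hf ε (δ + R) hε (by linarith)
  refine ⟨e ⁻¹' (P ×ˢ ball 0 (δ + R)), fun z => f (e z),
    (hP.prod isOpen_ball).preimage e.continuous, ?_,
    hf1.comp e.differentiable.differentiableOn (mapsTo_preimage _ _), fun z hz => hf2 hz, ?_⟩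
  · intro z hz
    rw [mem_preimage, he]
    refine ⟨hKP fun j => ?_, ?_⟩
    · have h := hz j.1
      rw [Function.update_of_ne j.2] at h
      exact h
    · have h := hz i
      rw [Function.update_self] at h
      rw [mem_ball_zero_iff]
      show ‖z i‖ < δ + R
      linarith
  · intro z hz
    have h := hf3 (e z) (by
      rw [he]
      refine ⟨hKP fun j => hz j.1, ?_⟩
      rw [mem_ball_zero_iff]
      show ‖z i‖ < δ + r i
      linarith [hz i])
    rw [e.symm_apply_apply] at h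
    exact h

/-- passage to the limit along an exhaustion: choose `ε_{n+1} ≤ ε_n / 2` with the closed
`2 ε_{n+1}`-neighbourhood of the compact set `f_n (K n)` inside the open set `O`,
`M = O ∩ Z`. -/
theorem cap_of_steps [FiniteDimensional ℂ E] (hM : IsLocallyClosed M) {K : ℕ → Set E}
    (hK : ∀ n, IsCompact (K n)) (hmono : ∀ n, K n ⊆ interior (K (n + 1))) (hcov : ⋃ n, K n = univ)
    (hstep : ∀ n (U : Set E) (g : E → W), IsOpen U → K n ⊆ U → DifferentiableOn ℂ g U →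
      MapsTo g U M → ∀ ε : ℝ, 0 < ε → ∃ (U' : Set E) (f : E → W), IsOpen U' ∧ K (n + 1) ⊆ U' ∧
        DifferentiableOn ℂ f U' ∧ MapsTo f U' M ∧ ∀ z ∈ K n, ‖f z - g z‖ ≤ ε) :
    CAP M (K 0) := by
  obtain ⟨O, Z, hO, hZ, rfl⟩ := hM
  intro U g hU hKU hg hgM ε hε
  have hA : ∀ n (U : Set E) (f : E → W), K n ⊆ U → DifferentiableOn ℂ f U → MapsTo f U (O ∩ Z) →
      ∀ c : ℝ, 0 < c → ∃ δ : ℝ, 0 < δ ∧ δ ≤ c ∧ ∀ z ∈ K n, closedBall (f z) (2 * δ) ⊆ O := by
    intro n U f h1 h2 h3 c hc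
    obtain ⟨d, hd, hs⟩ := ((hK n).image_of_continuousOn
      (h2.continuousOn.mono h1)).exists_cthickening_subset_open hO
        (by rintro _ ⟨z, hz, rfl⟩; exact (h3 (h1 hz)).1)
    refine ⟨min c (d / 2), lt_min hc (by linarith), min_le_left _ _, fun z hz => ?_⟩
    refine (closedBall_subset_closedBall ?_).trans
      ((closedBall_subset_cthickening (mem_image_of_mem f hz) d).trans hs)
    linarith [min_le_right c (d / 2)]
  let Good : ℕ → Set E × (E → W) × ℝ → Prop := fun n t =>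
    IsOpen t.1 ∧ K n ⊆ t.1 ∧ DifferentiableOn ℂ t.2.1 t.1 ∧ MapsTo t.2.1 t.1 (O ∩ Z) ∧ 0 < t.2.2 ∧
      ∀ z ∈ K n, closedBall (t.2.1 z) (2 * t.2.2) ⊆ O
  have hs : ∀ (n : ℕ) (t : Set E × (E → W) × ℝ), ∃ t' : Set E × (E → W) × ℝ, Good n t →
      Good (n + 1) t' ∧ t'.2.2 ≤ t.2.2 / 2 ∧ ∀ z ∈ K n, ‖t'.2.1 z - t.2.1 z‖ ≤ t.2.2 := by
    intro n t
    by_cases ht : Good n t
    · obtain ⟨h1, h2, h3, h4, h5, -⟩ := ht
      obtain ⟨U', f, a1, a2, a3, a4, a5⟩ := hstep n t.1 t.2.1 h1 h2 h3 h4 t.2.2 h5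
      obtain ⟨δ, b1, b2, b3⟩ := hA (n + 1) U' f a2 a3 a4 (t.2.2 / 2) (by linarith)
      exact ⟨(U', f, δ), fun _ => ⟨⟨a1, a2, a3, a4, b1, b3⟩, b2, a5⟩⟩
    · exact ⟨t, fun h => absurd h ht⟩
  choose nx hnx using hs
  obtain ⟨δ0, d1, d2, d3⟩ := hA 0 U g hKU hg hgM (ε / 2) (by linarith)
  let s : ℕ → Set E × (E → W) × ℝ := fun n => Nat.rec (U, g, δ0) nx n
  have hG : ∀ n, Good n (s n) := by
    intro n
    induction n with
    | zero => exact ⟨hU, hKU, hg, hgM, d1, d3⟩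
    | succ n ih => exact (hnx n (s n) ih).1
  have hδ : ∀ n, (s (n + 1)).2.2 ≤ (s n).2.2 / 2 := fun n => (hnx n (s n) (hG n)).2.1
  have hf : ∀ n, ∀ z ∈ K n, ‖(s (n + 1)).2.1 z - (s n).2.1 z‖ ≤ (s n).2.2 :=
    fun n => (hnx n (s n) (hG n)).2.2
  have hKm : Monotone K := monotone_nat_of_le_succ fun n => (hmono n).trans interior_subset
  have hδk : ∀ n k, (s (k + n)).2.2 ≤ (s n).2.2 / 2 ^ k := by
    intro n k
    induction k with
    | zero => simp
    | succ k ih =>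
      rw [Nat.add_right_comm, pow_succ, ← div_div]
      linarith [hδ (k + n)]
  have hfk : ∀ n, ∀ z ∈ K n, ∀ k, ‖(s (k + 1 + n)).2.1 z - (s (k + n)).2.1 z‖ ≤ (s n).2.2 / 2 ^ k := by
    intro n z hz k
    rw [Nat.add_right_comm]
    exact (hf (k + n) z (hKm (Nat.le_add_left n k) hz)).trans (hδk n k)
  have hdk : ∀ n, ∀ z ∈ K n, ∀ k,
      dist ((s (k + n)).2.1 z) ((s (k + 1 + n)).2.1 z) ≤ 2 * (s n).2.2 / 2 / 2 ^ k := by
    intro n z hz k
    rw [dist_comm, dist_eq_norm, mul_div_cancel_left₀ _ two_ne_zero]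
    exact hfk n z hz k
  have hex : ∀ z, ∃ n, z ∈ K n := fun z => mem_iUnion.1 (hcov ▸ mem_univ z)
  have hlim : ∀ z, ∃ a, Tendsto (fun k => (s k).2.1 z) atTop (𝓝 a) := by
    intro z
    obtain ⟨n, hz⟩ := hex z
    obtain ⟨a, ha⟩ := cauchySeq_tendsto_of_complete
      (cauchySeq_of_le_geometric_two (f := fun k => (s (k + n)).2.1 z) (hdk n z hz))
    exact ⟨a, (tendsto_add_atTop_iff_nat (f := fun k => (s k).2.1 z) n).1 ha⟩
  choose F hF using hlim
  have hFn : ∀ n z, Tendsto (fun k => (s (k + n)).2.1 z) atTop (𝓝 (F z)) := fun n z =>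
    (tendsto_add_atTop_iff_nat (f := fun k => (s k).2.1 z) n).2 (hF z)
  have hnear : ∀ n, ∀ z ∈ K n, dist ((s n).2.1 z) (F z) ≤ 2 * (s n).2.2 := by
    intro n z hz
    have := dist_le_of_le_geometric_two_of_tendsto₀ (f := fun k => (s (k + n)).2.1 z)
      (hdk n z hz) (hFn n z)
    rwa [Nat.zero_add] at this
  refine ⟨F, fun z => ?_, fun z => ?_, fun z hz => ?_⟩
  · obtain ⟨n, hz⟩ := hex z
    obtain ⟨G, hG1, hG2, -⟩ := hol_limit (D := interior (K (n + 1))) isOpen_interior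
      (f := fun k => (s (k + (n + 1))).2.1) (c := (s (n + 1)).2.2)
      (fun k => (hG _).2.2.1.mono
        (interior_subset.trans ((hKm (Nat.le_add_left _ k)).trans (hG _).2.1)))
      (fun k y hy => hfk (n + 1) y (interior_subset hy) k)
    have hFG : DifferentiableOn ℂ F (interior (K (n + 1))) :=
      hG1.congr fun y hy => tendsto_nhds_unique (hFn (n + 1) y) (hG2 y hy)
    exact hFG.differentiableAt (isOpen_interior.mem_nhds (hmono n hz))
  · obtain ⟨n, hz⟩ := hex z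
    refine ⟨(hG n).2.2.2.2.2 z hz (mem_closedBall'.2 (hnear n z hz)), ?_⟩
    exact hZ.mem_of_tendsto (hFn n z) (Eventually.of_forall fun k =>
      ((hG _).2.2.2.1 ((hG _).2.1 (hKm (Nat.le_add_left n k) hz))).2)
  · have := hnear 0 z hz
    rw [dist_comm, dist_eq_norm] at this
    exact this.trans (by change 2 * δ0 ≤ ε; linarith)

/-- `ext_coord` for every coordinate, then `cap_of_steps` with `K n = polyC (r + n)`. -/
theorem cap_polyC (hM : HasModels M) (hc : IsLocallyClosed M) (hS : ∀ m ∈ M, PtSpray M m)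
    (ι : Type) [Fintype ι] (r : ι → ℝ) (hr : ∀ i, 0 < r i) : CAP M (polyC r) := by
  classical
  have h0 : polyC r = polyC fun i => r i + ((0 : ℕ) : ℝ) := by simp
  rw [h0]
  refine cap_of_steps (K := fun n : ℕ => polyC fun i => r i + (n : ℝ)) hc (fun n => ?_)
    (fun n => ?_) ?_ ?_
  · have : (polyC fun i => r i + (n : ℝ)) = univ.pi fun i => closedBall (0 : ℂ) (r i + n) := by
      ext z
      simp [polyC]
    rw [this]
    exact isCompact_univ_pi fun i => isCompact_closedBall _ _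
  · have ho : IsOpen {z : ι → ℂ | ∀ i, ‖z i‖ < r i + ((n + 1 : ℕ) : ℝ)} := by
      rw [ofPred_forall]
      exact isOpen_iInter_of_finite fun i => isOpen_lt (by fun_prop) continuous_const
    have hsub : {z : ι → ℂ | ∀ i, ‖z i‖ < r i + ((n + 1 : ℕ) : ℝ)} ⊆
        polyC fun i => r i + ((n + 1 : ℕ) : ℝ) := fun z hz i => (hz i).le
    refine fun z hz => interior_maximal hsub ho fun i => ?_
    have : ‖z i‖ ≤ r i + n := hz i
    push_cast
    linarith
  · refine eq_univ_of_forall fun z => mem_iUnion.2 ⟨⌈‖z‖⌉₊, fun i => ?_⟩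
    linarith [norm_le_pi_norm z i, Nat.le_ceil ‖z‖, hr i]
  · intro n U g hU hKU hg hgM
    have hρ : ∀ i, 0 < r i + (n : ℝ) := fun i => by linarith [hr i, n.cast_nonneg (α := ℝ)]
    have key : ∀ s : Finset ι, ∀ ε : ℝ, 0 < ε → ∃ (U' : Set (ι → ℂ)) (f : (ι → ℂ) → W),
        IsOpen U' ∧ polyC (fun i => if i ∈ s then r i + (n : ℝ) + 1 else r i + n) ⊆ U' ∧
        DifferentiableOn ℂ f U' ∧ MapsTo f U' M ∧
        ∀ z ∈ polyC fun i => r i + (n : ℝ), ‖f z - g z‖ ≤ ε := by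
      intro s
      induction s using Finset.induction_on with
      | empty =>
        intro ε hε
        exact ⟨U, g, hU, by simpa using hKU, hg, hgM, fun z _ => by simpa using hε.le⟩
      | insert i s hi ih =>
        intro ε hε
        obtain ⟨U₁, f₁, a1, a2, a3, a4, a5⟩ := ih (ε / 2) (by linarith)
        obtain ⟨U₂, f₂, b1, b2, b3, b4, b5⟩ := ext_coord hM hS
          (r := fun j => if j ∈ s then r j + (n : ℝ) + 1 else r j + n)
          (fun j => by split_ifs <;> linarith [hρ j]) i (R := r i + n + 1)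
          (by simp [hi]) a1 a2 a3 a4 (half_pos hε)
        refine ⟨U₂, f₂, b1, ?_, b3, b4, fun z hz => ?_⟩
        · convert b2 using 2
          funext j
          by_cases hj : j = i
          · simp [hj]
          · simp [hj]
        · have h1 := b5 z fun j => by
            have : ‖z j‖ ≤ r j + n := hz j
            beta_reduce
            split_ifs <;> linarith
          have h2 := a5 z hz
          have h3 := norm_sub_le_norm_sub_add_norm_sub (f₂ z) (f₁ z) (g z)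
          linarith
    intro ε hε
    obtain ⟨U', f, a1, a2, a3, a4, a5⟩ := key Finset.univ ε hε
    refine ⟨U', f, a1, ?_, a3, a4, a5⟩
    convert a2 using 2
    funext j
    simp [add_assoc]

end Crest.Agent.R279
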