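import Crest.Agent.R279.RLa

/-! Row 279: rectangle lemma, stage 1 (even and odd cells) -/

set_option autoImplicit false

namespace Crest.Agent.R279

open Set Metric Filter Topology

variable {G : Type} [NormedAddCommGroup G] [NormedSpace ℂ G] {M : Set W} {I : Set ℝ} {β : ℝ → ℝ}
  {P : ℝ → Set G} {Ω : Set (G × ℂ)} {g : G × ℂ → W} {π : G × ℂ → W →L[ℂ] V} {e : G × ℂ → V → W}
  {ρ C c Λ L R : ℝ}

open MeasureTheory

/-- the cut-off `κ s = smoothTransition (1/2 + 2 cos ((s - π) / 2))`: near `1` on even cells away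
from the odd ones, near `0` on odd cells away from the even ones. -/
theorem exists_kappa : ∃ (κ : ℝ → ℝ) (K₀ : ℝ), ContDiff ℝ 1 κ ∧ 0 < K₀ ∧
    (∀ s, 0 ≤ κ s ∧ κ s ≤ 1) ∧ (∀ s, |deriv κ s| ≤ K₀) ∧
    (∀ (j : ℤ) (s : ℝ), Even j → |s - tauc 1 j| < 4 * Real.pi / 5 → κ s = 1) ∧
    ∀ (j : ℤ) (s : ℝ), Odd j → |s - tauc 1 j| < 4 * Real.pi / 5 → κ s = 0 := by
  have hπ := Real.pi_pos
  have hc : 0 < Real.cos (2 * Real.pi / 5) := Real.cos_pos_of_mem_Ioo ⟨by linarith, by linarith⟩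
  set κ : ℝ → ℝ := fun s =>
    Real.smoothTransition (1 / 2 + Real.cos ((s - Real.pi) / 2) / Real.cos (2 * Real.pi / 5))
    with hκ
  have h1 : ContDiff ℝ 1 κ := (Real.smoothTransition.contDiff (n := 1)).comp (by fun_prop)
  have hp : Function.Periodic κ (4 * Real.pi) := fun s => by
    have : (s + 4 * Real.pi - Real.pi) / 2 = (s - Real.pi) / 2 + 2 * Real.pi := by ring
    simp only [hκ, this, Real.cos_add_two_pi]
  have hp' : Function.Periodic (deriv κ) (4 * Real.pi) := fun s => by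
    rw [← deriv_comp_add_const, funext hp]
  obtain ⟨K, hK⟩ := (hp'.isBounded_of_continuous (by positivity)
    (h1.continuous_deriv le_rfl)).exists_norm_le
  have key : ∀ (j : ℤ) (s : ℝ), |s - tauc 1 j| < 4 * Real.pi / 5 → ∃ x : ℝ, 1 ≤ x ∧
      κ s = Real.smoothTransition (1 / 2 + (-1) ^ j * x) := fun j s hs => by
    refine ⟨Real.cos ((s - tauc 1 j) / 2) / Real.cos (2 * Real.pi / 5), ?_, ?_⟩
    · rw [one_le_div hc, ← Real.cos_abs ((s - tauc 1 j) / 2)]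
      refine Real.cos_le_cos_of_nonneg_of_le_pi (abs_nonneg _) (by linarith) ?_
      rw [abs_div, abs_two]
      linarith
    · have : (s - Real.pi) / 2 = (s - tauc 1 j) / 2 + j * Real.pi := by
        unfold tauc; ring
      simp only [hκ, this, Real.cos_add_int_mul_pi, mul_div_assoc]
  refine ⟨κ, |K| + 1, h1, by positivity, fun s => ⟨Real.smoothTransition.nonneg _,
    Real.smoothTransition.le_one _⟩, fun s => ?_, fun j s hj hs => ?_, fun j s hj hs => ?_⟩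
  · have := hK _ ⟨s, rfl⟩
    rw [Real.norm_eq_abs] at this
    linarith [le_abs_self K]
  · obtain ⟨x, hx, e⟩ := key j s hs
    rw [e, hj.neg_one_zpow]
    exact Real.smoothTransition.one_of_one_le (by linarith)
  · obtain ⟨x, hx, e⟩ := key j s hs
    rw [e, hj.neg_one_zpow]
    exact Real.smoothTransition.zero_of_nonpos (by linarith)

/-- the weighted kernel integral: split at `Re v - β = η^(3/4)`, two uses of `strip_integral`
(widths `2 η^(3/4)` and `|R| + L + 1`); the weight is `≤ η^(1/2)` on the far part. -/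
theorem stage1_integral (L R : ℝ) (hL : 0 < L) : ∃ K : ℝ, 0 < K ∧ ∀ (β : ℝ → ℝ) (S : Set ℂ)
    (a η : ℝ), 0 < η → η ≤ 1 → IsOpen S → ContinuousOn (fun v : ℂ => β v.im) S →
    (∀ v ∈ S, a < v.im ∧ v.im < a + L ∧ β v.im - η < v.re ∧ v.re < R ∧ |β v.im| ≤ L) →
    ∀ z : ℂ, ∫⁻ ζ in S, ENNReal.ofReal (1 / (1 + |ζ.re - β ζ.im| / η) ^ 2 / ‖ζ - z‖) ≤
      ENNReal.ofReal (K * η ^ (1 / 2 : ℝ)) := by
  obtain ⟨C₀, hC, H⟩ := strip_integral
  refine ⟨C₀ * 2 * L ^ (1 / 4 : ℝ) + C₀ * (|R| + L + 1) ^ (3 / 4 : ℝ) * L ^ (1 / 4 : ℝ),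
    by positivity, fun β S a η hη hη1 hS hβ hv z => ?_⟩
  obtain ⟨t, ht, ht1, h4, h2⟩ : ∃ t : ℝ, 0 < t ∧ t ≤ 1 ∧ t ^ 4 = η ∧ η ^ (1 / 2 : ℝ) = t ^ 2 := by
    refine ⟨η ^ (1 / 4 : ℝ), by positivity, Real.rpow_le_one hη.le hη1 (by norm_num), ?_, ?_⟩
    · rw [← Real.rpow_natCast, ← Real.rpow_mul hη.le]; norm_num
    · rw [← Real.rpow_natCast, ← Real.rpow_mul hη.le]; norm_num
  have hw : (2 * t ^ 3) ^ (3 / 4 : ℝ) ≤ 2 * t ^ 2 := by
    rw [Real.mul_rpow (by norm_num) (by positivity)]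
    refine mul_le_mul ?_ ?_ (by positivity) (by norm_num)
    · exact (Real.rpow_le_rpow_of_exponent_le (by norm_num) (by norm_num : (3 / 4 : ℝ) ≤ 1)).trans
        (Real.rpow_one 2).le
    · rw [← Real.rpow_natCast, ← Real.rpow_mul ht.le, ← Real.rpow_natCast]
      exact Real.rpow_le_rpow_of_exponent_ge ht ht1 (by norm_num)
  have h3 : η ≤ t ^ 3 := by
    rw [← h4]; exact pow_le_pow_of_le_one ht.le ht1 (by norm_num)
  have hS1 : IsOpen (S ∩ (fun v : ℂ => v.re - β v.im) ⁻¹' Iio (t ^ 3)) :=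
    (Complex.continuous_re.continuousOn.sub hβ).isOpen_inter_preimage hS isOpen_Iio
  set S₁ := S ∩ (fun v : ℂ => v.re - β v.im) ⁻¹' Iio (t ^ 3) with hS₁
  have m2 : MeasurableSet (S \ S₁) := hS.measurableSet.diff hS1.measurableSet
  have i1 := H S₁ (fun s => β s - η) a L (2 * t ^ 3) hS1.measurableSet hL (by positivity)
    (fun v h => by
      obtain ⟨a1, a2, a3, -⟩ := hv v h.1
      have a4 : v.re - β v.im < t ^ 3 := h.2
      exact ⟨a1, a2, a3, by linarith⟩) z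
  have i2 := H (S \ S₁) (fun _ => -L - 1) a L (|R| + L + 1) m2 hL (by positivity)
    (fun v h => by
      obtain ⟨a1, a2, a3, a4, a5⟩ := hv v h.1
      exact ⟨a1, a2, by linarith [(abs_le.1 a5).1], by linarith [le_abs_self R]⟩) z
  have j1 : ∫⁻ ζ in S₁, ENNReal.ofReal (1 / (1 + |ζ.re - β ζ.im| / η) ^ 2 / ‖ζ - z‖) ≤
      ∫⁻ ζ in S₁, ENNReal.ofReal (1 / ‖ζ - z‖) := by
    refine lintegral_mono fun ζ => ENNReal.ofReal_le_ofReal ?_
    refine div_le_div_of_nonneg_right ?_ (norm_nonneg _)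
    have : 0 ≤ |ζ.re - β ζ.im| / η := by positivity
    exact div_le_one_of_le₀ (one_le_pow₀ (by linarith)) (by positivity)
  have j2 : ∫⁻ ζ in S \ S₁, ENNReal.ofReal (1 / (1 + |ζ.re - β ζ.im| / η) ^ 2 / ‖ζ - z‖) ≤
      ENNReal.ofReal (t ^ 2) * ∫⁻ ζ in S \ S₁, ENNReal.ofReal (1 / ‖ζ - z‖) := by
    rw [← lintegral_const_mul' _ _ ENNReal.ofReal_ne_top]
    refine setLIntegral_mono' m2 fun ζ h => ?_
    rw [← ENNReal.ofReal_mul (by positivity), mul_one_div]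
    refine ENNReal.ofReal_le_ofReal (div_le_div_of_nonneg_right ?_ (norm_nonneg _))
    have a1 : t ^ 3 ≤ |ζ.re - β ζ.im| :=
      le_trans (not_lt.1 fun h' => h.2 ⟨h.1, h'⟩) (le_abs_self _)
    have a2 : 1 ≤ t * (1 + |ζ.re - β ζ.im| / η) := by
      have : 1 ≤ t * |ζ.re - β ζ.im| / η := by
        rw [one_le_div hη, ← h4]
        calc t ^ 4 = t * t ^ 3 := by ring
          _ ≤ _ := by gcongr
      rw [mul_add, ← mul_div_assoc]
      linarith
    rw [div_le_iff₀ (by positivity), ← mul_pow]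
    exact one_le_pow₀ a2
  refine (lintegral_mono_set (fun v h => by
    by_cases h' : v ∈ S₁
    · exact Or.inl h'
    · exact Or.inr ⟨h, h'⟩ : S ⊆ S₁ ∪ (S \ S₁))).trans
    ((lintegral_union_le _ _ _).trans ?_)
  refine (add_le_add (j1.trans i1) (j2.trans (mul_le_mul_right i2 _))).trans ?_
  rw [← ENNReal.ofReal_mul (by positivity), ← ENNReal.ofReal_add (by positivity) (by positivity), h2]
  refine ENNReal.ofReal_le_ofReal ?_
  have : C₀ * (2 * t ^ 3) ^ (3 / 4 : ℝ) * L ^ (1 / 4 : ℝ) ≤ C₀ * (2 * t ^ 2) * L ^ (1 / 4 : ℝ) := by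
    gcongr
  linarith

theorem s1_parity {η : ℝ} {j k : ℤ} {v : ℂ} (hj : v ∈ cell β η R j) (hk : v ∈ cell β η R k)
    (h : Even j ↔ Even k) : j = k := by
  rcases cell_disjoint hj hk with e | e | e
  · exact e.symm
  · rw [e, Int.even_add_one] at h; tauto
  · rw [e, Int.even_add_one] at h; tauto

/-- the union of the cells of one parity inside the window. -/
def s1_part (β : ℝ → ℝ) (a b η R : ℝ) (q : ℤ → Prop) : Set ℂ :=
  {v | v ∈ win β a b η R ∧ ∃ j, q j ∧ v ∈ cell β η R j}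

theorem s1_open {a b η : ℝ} (hw : IsOpen (win β a b η R)) (j : ℤ) :
    IsOpen (win β a b η R ∩ cell β η R j) := by
  have : win β a b η R ∩ cell β η R j =
      win β a b η R ∩ {v | |v.im - tauc η j| < 5 * Real.pi * η / 4} :=
    Set.ext fun v => ⟨fun h => ⟨h.1, h.2.1⟩, fun h => ⟨h.1, h.2, h.1.2.2.1, h.1.2.2.2⟩⟩
  rw [this]
  exact hw.inter (isOpen_lt (by fun_prop) continuous_const)

theorem s1_part_open {a b η : ℝ} (hw : IsOpen (win β a b η R)) (q : ℤ → Prop) :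
    IsOpen (s1_part β a b η R q) := by
  have : s1_part β a b η R q = ⋃ j, ⋃ (_ : q j), win β a b η R ∩ cell β η R j := by
    ext v
    simp only [s1_part, mem_iUnion, mem_inter_iff, mem_ofPred_eq]
    tauto
  rw [this]
  exact isOpen_iUnion fun j => isOpen_iUnion fun _ => s1_open hw j

/-- a point of the cell `j` outside the cells of the other parity is close to the centre. -/
theorem s1_core {a b η : ℝ} (hη : 0 < η) {q : ℤ → Prop} {j : ℤ} (h1 : q (j + 1)) (h2 : q (j - 1))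
    {v : ℂ} (hw : v ∈ win β a b η R) (hn : v ∉ s1_part β a b η R q) :
    v ∈ cell β η R j → ∀ᶠ ξ : ℂ in 𝓝 v, |ξ.im / η - tauc 1 j| < 4 * Real.pi / 5 := by
  intro hj
  have hπ : 0 < Real.pi * η := mul_pos Real.pi_pos hη
  have k1 : ¬ |v.im - tauc η (j + 1)| < 5 * Real.pi * η / 4 := fun h =>
    hn ⟨hw, j + 1, h1, h, hj.2⟩
  have k2 : ¬ |v.im - tauc η (j - 1)| < 5 * Real.pi * η / 4 := fun h =>
    hn ⟨hw, j - 1, h2, h, hj.2⟩
  have e1 : tauc η (j + 1) = tauc η j + 2 * (Real.pi * η) := by unfold tauc; push_cast; ring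
  have e2 : tauc η (j - 1) = tauc η j - 2 * (Real.pi * η) := by unfold tauc; push_cast; ring
  have k0 := abs_lt.1 hj.1
  rw [e1, abs_lt, not_and_or, not_lt, not_lt] at k1
  rw [e2, abs_lt, not_and_or, not_lt, not_lt] at k2
  have k3 : |v.im - tauc η j| < 4 * Real.pi / 5 * η := by
    rw [abs_lt]
    constructor
    · rcases k2 with k | k <;> linarith
    · rcases k1 with k | k <;> linarith
  have k4 : |v.im / η - tauc 1 j| < 4 * Real.pi / 5 := by
    have : v.im / η - tauc 1 j = (v.im - tauc η j) / η := by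
      unfold tauc; field_simp
    rwa [this, abs_div, abs_of_pos hη, div_lt_iff₀ hη]
  exact (isOpen_lt (f := fun ξ : ℂ => |ξ.im / η - tauc 1 j|) (by fun_prop)
    continuous_const).mem_nhds k4

/-- the glued transition from odd to even cells. -/
theorem s1_trans (h : Geo M I β P Ω g π e ρ C c Λ L) {r A η : ℝ} {Pc : ℤ → Set G}
    {Ψ : ℤ → G × ℂ → V → W} (hc : Cells M I β P Ω e c R η r A Pc Ψ) (hr : 0 < r)
    (hrρ : 2 * C * r ≤ ρ) (hη : 0 < η) (hA : 0 < A) (hs : 16 * (C * A * η) ≤ r) {a b : ℝ}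
    {PW : Set G} (hPW : IsOpen PW) (hw : IsOpen (win β a b η R))
    (hact : ∀ j, ∀ v ∈ win β a b η R, v ∈ cell β η R j → PW ⊆ Pc j) :
    ∃ t : G × ℂ → V → V,
      HolF t (PW ×ˢ (s1_part β a b η R Even ∩ s1_part β a b η R fun j => ¬ Even j)) (r / 2) ∧
      ∀ p ∈ PW, ∀ v ∈ win β a b η R, ∀ j k, Even j → ¬ Even k → v ∈ cell β η R j →
        v ∈ cell β η R k → ∀ y ∈ ball (0 : V) (r / 2), Ψ j (p, v) (y + t (p, v) y) = Ψ k (p, v) y ∧
          ‖t (p, v) y‖ ≤ 2 * C * (A * η / (1 + |v.re - β v.im| / η) ^ 2) := by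
  have hadj : ∀ {j k : ℤ} {v : ℂ}, Even j → ¬ Even k → v ∈ cell β η R j → v ∈ cell β η R k →
      k = j + 1 ∨ j = k + 1 := fun hj hk h1 h2 =>
    (cell_disjoint h1 h2).resolve_left fun e => hk (e ▸ hj)
  let ι : Type := {jk : ℤ × ℤ // Even jk.1 ∧ ¬ Even jk.2 ∧ (jk.2 = jk.1 + 1 ∨ jk.1 = jk.2 + 1)}
  have key := fun i : ι => (hc.trans h hr hrρ hη hA hs i.1.1 i.1.2 i.2.2.2).2
  choose t ht ht' using key
  let U : ι → Set (G × ℂ) := fun i =>
    PW ×ˢ (win β a b η R ∩ cell β η R i.1.1 ∩ (win β a b η R ∩ cell β η R i.1.2))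
  have hU : ∀ i : ι, U i ⊆ (Pc i.1.1 ×ˢ cell β η R i.1.1) ∩ (Pc i.1.2 ×ˢ cell β η R i.1.2) :=
    fun i x hx => ⟨⟨hact _ _ hx.2.1.1 hx.2.1.2 hx.1, hx.2.1.2⟩,
      ⟨hact _ _ hx.2.2.1 hx.2.2.2 hx.1, hx.2.2.2⟩⟩
  obtain ⟨T, hT, hT'⟩ := HolF.glue (U := U) (f := t) (ρ := r / 2)
    (fun i => hPW.prod ((s1_open hw _).inter (s1_open hw _)))
    (fun i => (ht i).mono (hU i) le_rfl) (fun i i' z hz hz' y _ => by
      have : i = i' := Subtype.ext (Prod.ext
        (s1_parity hz.2.1.2 hz'.2.1.2 (iff_of_true i.2.1 i'.2.1))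
        (s1_parity hz.2.2.2 hz'.2.2.2 (iff_of_false i.2.2.1 i'.2.2.1)))
      rw [this])
  refine ⟨T, hT.mono ?_ le_rfl, fun p hp v hv j k hj hk h1 h2 y hy => ?_⟩
  · rintro ⟨p, v⟩ ⟨hp, ⟨hv, j, hj, h1⟩, -, k, hk, h2⟩
    exact mem_iUnion.2 ⟨⟨(j, k), hj, hk, hadj hj hk h1 h2⟩, hp, ⟨hv, h1⟩, hv, h2⟩
  · let i : ι := ⟨(j, k), hj, hk, hadj hj hk h1 h2⟩
    have hx : (p, v) ∈ U i := ⟨hp, ⟨hv, h1⟩, hv, h2⟩
    rw [hT' i _ hx y hy]
    exact ht' i _ (hU i hx).1 (hU i hx).2 y hy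

/-- **stage 1**: `A' = ⋃ even cells ∩ window`, `B' = ⋃ odd cells ∩ window`; the transitions of
`Cells.trans` (`j` even, `k` odd) glue over the disjoint overlaps (`HolF.glue`) to `t` on
`PW ×ˢ (A' ∩ B')`; `G1` with `χ v = κ (Im v / η)`, `ω = 2 C A η / (1 + |Re v - β| / η)²`;
`α j = id + a` for even `j`, `id + b` for odd `j`. -/
theorem stage1 [FiniteDimensional ℂ G] (h : Geo M I β P Ω g π e ρ C c Λ L) {r A : ℝ} (hr : 0 < r)
    (hrρ : 2 * C * r ≤ ρ) (hA : 0 < A) (R : ℝ) :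
    ∃ K η₁ : ℝ, 0 < K ∧ 0 < η₁ ∧ ∀ (η : ℝ) (Pc : ℤ → Set G) (Ψ : ℤ → G × ℂ → V → W), 0 < η →
      η ≤ η₁ → Cells M I β P Ω e c R η r A Pc Ψ →
      ∀ (a b : ℝ) (PW : Set G), IsOpen PW → b - a ≤ L → Icc (a - c) (b + c) ⊆ I →
        (∀ t ∈ Icc (a - c) (b + c), PW ⊆ P t) →
        ∃ α, Sec (fun j => Pc j ×ˢ cell β η R j) Ψ (PW ×ˢ win β a b η R) (r / 4)
          (K * η ^ (1 / 2 : ℝ)) α := by
  obtain ⟨κ, K₀, hκ, hK₀, hκ01, hκ', hκe, hκo⟩ := exists_kappa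
  obtain ⟨K, hK, hint⟩ := stage1_integral L R h.L_pos
  have hC := h.model.one_le
  set K₁ : ℝ := 2 * C * A * (1 + K₀ * K) with hK₁
  have hK₁0 : 0 < K₁ := by positivity
  refine ⟨4 * K₁, min 1 ((r / (64 * K₁)) ^ 2), by positivity, by positivity, ?_⟩
  intro η Pc Ψ hη hη₁ hc a b PW hPW hab hI hP
  have hη1 : η ≤ 1 := hη₁.trans (min_le_left _ _)
  set s : ℝ := η ^ (1 / 2 : ℝ) with hsdef
  have hs0 : 0 < s := Real.rpow_pos_of_pos hη _
  have hss : s ^ 2 = η := by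
    rw [hsdef, ← Real.rpow_natCast, ← Real.rpow_mul hη.le]
    norm_num
  have hs1 : s ≤ 1 := Real.rpow_le_one hη.le hη1 (by norm_num)
  have hηs : η ≤ s := by nlinarith
  have hsr : 64 * (K₁ * s) ≤ r := by
    have h1 : s ^ 2 ≤ (r / (64 * K₁)) ^ 2 := hss ▸ hη₁.trans (min_le_right _ _)
    have h2 := (pow_le_pow_iff_left₀ hs0.le (by positivity) two_ne_zero).1 h1
    rw [le_div_iff₀ (by positivity)] at h2
    linarith
  have hCA : 0 < C * A := by positivity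
  have hKK : 0 < K₀ * K := by positivity
  have hω1 : 2 * C * (A * η) ≤ K₁ * s := by
    have : 2 * C * A * η ≤ 2 * C * A * s := mul_le_mul_of_nonneg_left hηs (by positivity)
    have : 0 ≤ 2 * C * A * (K₀ * K) * s := by positivity
    rw [hK₁]
    nlinarith
  have hcp := h.c_pos
  have hIo : Ioo a b ⊆ I := fun t ht => hI ⟨by linarith [ht.1], by linarith [ht.2]⟩
  have hw : IsOpen (win β a b η R) := h.isOpen_win hIo η R
  have hact : ∀ j, ∀ v ∈ win β a b η R, v ∈ cell β η R j → PW ⊆ Pc j := fun j v hv hj =>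
    hc.active a b PW hI hP j v hj hv.1 hv.2.1
  obtain ⟨t, ht, ht'⟩ := s1_trans h hc hr hrρ hη hA (by nlinarith) hPW hw hact
  have hA' := s1_part_open hw Even
  have hB' := s1_part_open hw fun j => ¬ Even j
  have hχ : ContDiff ℝ 1 fun v : ℂ => κ (v.im / η) :=
    hκ.comp (Complex.imCLM.contDiff.div_const η)
  have hχ' : ∀ v : ℂ, ‖fderiv ℝ (fun v : ℂ => κ (v.im / η)) v‖ ≤ K₀ / η := fun v => by
    have e1 : HasFDerivAt (fun w : ℂ => w.im / η) (η⁻¹ • Complex.imCLM) v := by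
      simp only [div_eq_inv_mul]
      exact Complex.imCLM.hasFDerivAt.const_mul η⁻¹
    have e2 := ((hκ.differentiable one_ne_zero) (v.im / η)).hasDerivAt.comp_hasFDerivAt v e1
    have e3 : HasFDerivAt (fun v : ℂ => κ (v.im / η)) _ v := e2
    rw [e3.fderiv, norm_smul, norm_smul, Complex.imCLM_norm, mul_one, norm_inv,
      Real.norm_of_nonneg hη.le, div_eq_mul_inv]
    exact mul_le_mul_of_nonneg_right (hκ' _) (by positivity)
  obtain ⟨a', b', hsp⟩ := G1 (κ := K₁ * s)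
    (ω := fun v => 2 * C * (A * η / (1 + |v.re - β v.im| / η) ^ 2)) hPW hA' hB' hχ.contDiffOn
    (fun ζ _ => hκ01 _)
    (fun ζ hζ hn => by
      obtain ⟨hv, j, hj, h1⟩ := hζ
      filter_upwards [s1_core hη (q := fun j => ¬ Even j) (j := j)
        (by rw [Int.even_add_one]; tauto) (by rw [Int.even_sub_one]; tauto) hv hn h1] with ξ hξ _
      exact hκe j _ hj hξ)
    (fun ζ hζ hn => by
      obtain ⟨hv, j, hj, h1⟩ := hζ
      filter_upwards [s1_core hη (q := Even) (j := j)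
        (by rw [Int.even_add_one]; exact hj) (by rw [Int.even_sub_one]; exact hj) hv hn h1]
        with ξ hξ _
      exact hκo j _ (Int.not_even_iff_odd.1 hj) hξ)
    ht
    (by
      rintro p hp ζ ⟨⟨hv, j, hj, h1⟩, -, k, hk, h2⟩ y hy
      exact (ht' p hp ζ hv j k hj hk h1 h2 y hy).2)
    (fun ζ _ => (mul_le_mul_of_nonneg_left (div_le_self (by positivity)
      (one_le_pow₀ (le_add_of_nonneg_right (by positivity)))) (by positivity)).trans hω1)
    (fun z => by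
      have h1 := hint β _ a η hη hη1 (hA'.inter hB')
        ((h.c1.continuousOn.comp Complex.continuous_im.continuousOn
          fun v hv => hIo ⟨hv.1.1.1, hv.1.1.2.1⟩))
        (fun v hv => ⟨hv.1.1.1, by linarith [hv.1.1.2.1], hv.1.1.2.2.1, hv.1.1.2.2.2,
          h.bd _ (hIo ⟨hv.1.1.1, hv.1.1.2.1⟩)⟩) z
      have h2 : ∀ ζ : ℂ, ENNReal.ofReal (2 * C * (A * η / (1 + |ζ.re - β ζ.im| / η) ^ 2) *
          ‖fderiv ℝ (fun v : ℂ => κ (v.im / η)) ζ‖ / ‖ζ - z‖) ≤ ENNReal.ofReal (2 * C * A * K₀) *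
          ENNReal.ofReal (1 / (1 + |ζ.re - β ζ.im| / η) ^ 2 / ‖ζ - z‖) := fun ζ => by
        rw [← ENNReal.ofReal_mul (by positivity), ← mul_div_assoc (2 * C * A * K₀)]
        refine ENNReal.ofReal_le_ofReal (div_le_div_of_nonneg_right ?_ (norm_nonneg _))
        refine (mul_le_mul_of_nonneg_left (hχ' ζ) (by positivity)).trans (le_of_eq ?_)
        field_simp
      refine (lintegral_mono h2).trans ?_
      rw [lintegral_const_mul' _ _ ENNReal.ofReal_ne_top]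
      refine (mul_le_mul_right h1 _).trans ?_
      rw [← ENNReal.ofReal_mul (by positivity)]
      refine ENNReal.ofReal_le_ofReal ?_
      have : 0 ≤ 2 * C * A * s := by positivity
      rw [hK₁]
      nlinarith)
    (by positivity) (by linarith)
  have e4 : r / 2 / 2 = r / 4 := by ring
  rw [e4] at hsp
  have hmA : ∀ {j : ℤ} {x : G × ℂ}, Even j → x ∈ PW ×ˢ win β a b η R →
      x ∈ Pc j ×ˢ cell β η R j → x ∈ PW ×ˢ s1_part β a b η R Even :=
    fun hj h1 h2 => ⟨h1.1, h1.2, _, hj, h2.2⟩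
  have hmB : ∀ {j : ℤ} {x : G × ℂ}, ¬ Even j → x ∈ PW ×ˢ win β a b η R →
      x ∈ Pc j ×ˢ cell β η R j → x ∈ PW ×ˢ s1_part β a b η R fun j => ¬ Even j :=
    fun hj h1 h2 => ⟨h1.1, h1.2, _, hj, h2.2⟩
  have hcomp : ∀ j k, Even j → ¬ Even k → ∀ x ∈ PW ×ˢ win β a b η R, x ∈ Pc j ×ˢ cell β η R j →
      x ∈ Pc k ×ˢ cell β η R k → ∀ y ∈ ball (0 : V) (r / 4),
      Ψ j x (y + a' x y) = Ψ k x (y + b' x y) := by
    rintro j k hj hk ⟨p, v⟩ hx h1 h2 y hy
    rw [hsp.eq _ (hmA hj hx h1) (hmB hk hx h2) y hy]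
    refine (ht' p hx.1 v hx.2 j k hj hk h1.2 h2.2 _ ?_).1
    have k1 := hsp.bdb _ (hmB hk hx h2) y hy
    rw [mem_ball_zero_iff] at hy ⊢
    linarith [norm_add_le y (b' (p, v) y)]
  classical
  refine ⟨fun j x y => y + if Even j then a' x y else b' x y, hPW.prod hw, ?_, fun j => ?_,
    fun j x hx hj y hy => ?_, fun j k x hx hj hk y hy => ?_⟩
  · rintro ⟨p, v⟩ ⟨hp, hv⟩
    obtain ⟨j, hj⟩ := cell_cover hη hv.2.2.1 hv.2.2.2
    exact mem_iUnion.2 ⟨j, hact j v hv hj hp, hj⟩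
  · by_cases hj : Even j
    · simp only [if_pos hj]
      exact differentiableOn_snd.add (hsp.hola.mono (fun x hx => hmA hj hx.1 hx.2) le_rfl)
    · simp only [if_neg hj]
      exact differentiableOn_snd.add (hsp.holb.mono (fun x hx => hmB hj hx.1 hx.2) le_rfl)
  · rw [add_sub_cancel_left, mul_assoc]
    by_cases he : Even j
    · rw [if_pos he]; exact hsp.bda _ (hmA he hx hj) y hy
    · rw [if_neg he]; exact hsp.bdb _ (hmB he hx hj) y hy
  · by_cases h1 : Even j <;> by_cases h2 : Even k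
    · rw [s1_parity hj.2 hk.2 (iff_of_true h1 h2)]
    · simp only [if_pos h1, if_neg h2]
      exact hcomp j k h1 h2 x hx hj hk y hy
    · simp only [if_neg h1, if_pos h2]
      exact (hcomp k j h2 h1 x hx hk hj y hy).symm
    · rw [s1_parity hj.2 hk.2 (iff_of_false h1 h2)]

end Crest.Agent.R279
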