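import Crest.Agent.R279.RLd

/-! Row 279: rectangle lemma, the atlas -/

set_option autoImplicit false

namespace Crest.Agent.R279

open Set Metric Filter Topology

variable {G : Type} [NormedAddCommGroup G] [NormedSpace ℂ G] {M : Set W} {I : Set ℝ} {β : ℝ → ℝ}
  {P : ℝ → Set G} {Ω : Set (G × ℂ)} {g : G × ℂ → W} {π : G × ℂ → W →L[ℂ] V} {e : G × ℂ → V → W}
  {ρ C c Λ L R : ℝ}

variable {η r A : ℝ} {Pc : ℤ → Set G} {Ψ : ℤ → G × ℂ → V → W}

/-- `transloc` for two families close to the charts of a model -/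
theorem h52_tl {E : Type} [NormedAddCommGroup E] [NormedSpace ℂ E] {D : Set E} {g : E → W}
    {π : E → W →L[ℂ] V} {e : E → V → W} (hm : Model M D g π e ρ C) {Φ Φ' : E → V → W}
    (hΦ : HolF Φ D r) (hΦ' : HolF Φ' D r)
    (hM : ∀ z ∈ D, ∀ y ∈ ball (0 : V) r, Φ z y ∈ M ∧ Φ' z y ∈ M) (hr : 0 < r)
    (hrρ : 2 * C * r ≤ ρ) {s : ℝ} (hs0 : 0 ≤ s) (hs : 16 * (C * s) ≤ r)
    (hn : ∀ z ∈ D, ∀ y ∈ ball (0 : V) r, ‖Φ z y - e z y‖ ≤ s ∧ ‖Φ' z y - e z y‖ ≤ s) :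
    (∀ z ∈ D, InjOn (Φ z) (ball 0 (3 * r / 4)) ∧ InjOn (Φ' z) (ball 0 (3 * r / 4))) ∧
    ∃ h : E → V → V, HolF h D (r / 2) ∧ ∀ z ∈ D, ∀ y ∈ ball (0 : V) (r / 2),
      ‖h z y‖ ≤ 2 * (C * s) ∧ Φ' z (y + h z y) = Φ z y ∧ ‖h z y‖ ≤ 2 * C * ‖Φ z y - Φ' z y‖ := by
  have hC := hm.one_le
  have h1 : r ≤ C * r := le_mul_of_one_le_left hr.le hC
  have h2 : s ≤ C * s := le_mul_of_one_le_left hs0 hC
  have hb : ball (0 : V) r ⊆ ball 0 ρ := ball_subset_ball (by linarith)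
  have key : ∀ z ∈ D, ∀ y ∈ ball (0 : V) r, ∀ m, ‖m - e z y‖ ≤ s →
      ‖m - g z‖ < ρ ∧ ‖π z (m - g z) - y‖ ≤ C * s := by
    intro z hz y hy m hms
    constructor
    · have h3 := hm.lip z hz y (hb hy) 0 (mem_ball_self hm.ρ_pos)
      rw [hm.zero z hz, sub_zero] at h3
      have h4 : C * ‖y‖ ≤ C * r :=
        mul_le_mul_of_nonneg_left (mem_ball_zero_iff.1 hy).le (by linarith)
      linarith [norm_sub_le_norm_sub_add_norm_sub m (e z y) (g z)]
    · have h3 : π z (m - g z) - y = π z (m - e z y) := by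
        conv_lhs => rw [← hm.inv z hz y (hb hy)]
        rw [← map_sub, sub_sub_sub_cancel_right]
      rw [h3]
      exact ((π z).le_opNorm _).trans
        (mul_le_mul (hm.bddπ z hz) hms (norm_nonneg _) (by linarith))
  exact transloc hm.op hΦ hΦ' hm.holg hm.holπ hm.bddπ hm.inj hM
    (fun z hz y hy => ⟨(key z hz y hy _ (hn z hz y hy).1).1, (key z hz y hy _ (hn z hz y hy).2).1⟩)
    hs
    fun z hz y hy => ⟨(key z hz y hy _ (hn z hz y hy).1).2, (key z hz y hy _ (hn z hz y hy).2).2⟩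

theorem Cells.h52_open (h : Geo M I β P Ω g π e ρ C c Λ L)
    (hc : Cells M I β P Ω e c R η r A Pc Ψ) (j : ℤ) : IsOpen (Pc j ×ˢ cell β η R j) := by
  rcases (Pc j).eq_empty_or_nonempty with h0 | h0
  · rw [h0, empty_prod]; exact isOpen_empty
  · exact (hc.op j).prod (h.isOpen_cell (hc.inI j h0))

/-- transition between neighbouring cells: `transloc` in the chart at `(p, cpt β (bord η j))`
(`ε = C A η`, `‖Ψ - g‖ ≤ A η + C r < ρ`). -/
theorem Cells.trans (h : Geo M I β P Ω g π e ρ C c Λ L) (hc : Cells M I β P Ω e c R η r A Pc Ψ)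
    (hr : 0 < r) (hrρ : 2 * C * r ≤ ρ) (hη : 0 < η) (hA : 0 < A) (hs : 16 * (C * A * η) ≤ r)
    (j k : ℤ) (hjk : k = j + 1 ∨ j = k + 1) :
    (∀ x ∈ Pc j ×ˢ cell β η R j, x ∈ Pc k ×ˢ cell β η R k → InjOn (Ψ j x) (ball 0 (3 * r / 4))) ∧
    ∃ t : G × ℂ → V → V, HolF t ((Pc j ×ˢ cell β η R j) ∩ (Pc k ×ˢ cell β η R k)) (r / 2) ∧
      ∀ x ∈ Pc j ×ˢ cell β η R j, x ∈ Pc k ×ˢ cell β η R k → ∀ y ∈ ball (0 : V) (r / 2),
        Ψ j x (y + t x y) = Ψ k x y ∧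
        ‖t x y‖ ≤ 2 * C * (A * η / (1 + |x.2.re - β x.2.im| / η) ^ 2) := by
  have hD := (hc.h52_open h j).inter (hc.h52_open h k)
  have hC : 0 ≤ 2 * C := by linarith [h.model.one_le]
  have hφ : ∀ c₀ : ℂ, DifferentiableOn ℂ (fun x : G × ℂ => (x.1, c₀))
      ((Pc j ×ˢ cell β η R j) ∩ (Pc k ×ˢ cell β η R k)) := fun c₀ =>
    differentiableOn_fst.prodMk (differentiableOn_const _)
  have hj := (hc.hol j).mono (inter_subset_left (t := Pc k ×ˢ cell β η R k)) le_rfl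
  have hk := (hc.hol k).mono (inter_subset_right (s := Pc j ×ˢ cell β η R j)) le_rfl
  have hM : ∀ x ∈ (Pc j ×ˢ cell β η R j) ∩ (Pc k ×ˢ cell β η R k), ∀ y ∈ ball (0 : V) r,
      Ψ k x y ∈ M ∧ Ψ j x y ∈ M := fun x hx y hy => ⟨hc.mem k x hx.2 y hy, hc.mem j x hx.1 y hy⟩
  rcases hjk with rfl | rfl
  · obtain ⟨h1, t, h2, h3⟩ := h52_tl
      (h.model.pull hD (hφ (cpt β (bord η j))) fun x hx => hc.ref j x.1 hx.1.1) hk hj hM
      hr hrρ (mul_pos hA hη).le (by rwa [← mul_assoc C])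
      fun x hx y hy => ⟨(hc.ovl j x.1 hx.1.1 hx.2.1 x.2 hx.1.2 hx.2.2 y hy).2.1,
        (hc.ovl j x.1 hx.1.1 hx.2.1 x.2 hx.1.2 hx.2.2 y hy).1⟩
    refine ⟨fun x hx hx' => (h1 x ⟨hx, hx'⟩).2, t, h2, fun x hx hx' y hy =>
      ⟨(h3 x ⟨hx, hx'⟩ y hy).2.1, (h3 x ⟨hx, hx'⟩ y hy).2.2.trans ?_⟩⟩
    rw [norm_sub_rev]
    exact mul_le_mul_of_nonneg_left (hc.ovl j x.1 hx.1 hx'.1 x.2 hx.2 hx'.2 y
      (ball_subset_ball (by linarith) hy)).2.2 hC
  · obtain ⟨h1, t, h2, h3⟩ := h52_tl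
      (h.model.pull hD (hφ (cpt β (bord η k))) fun x hx => hc.ref k x.1 hx.2.1) hk hj hM
      hr hrρ (mul_pos hA hη).le (by rwa [← mul_assoc C])
      fun x hx y hy => ⟨(hc.ovl k x.1 hx.2.1 hx.1.1 x.2 hx.2.2 hx.1.2 y hy).1,
        (hc.ovl k x.1 hx.2.1 hx.1.1 x.2 hx.2.2 hx.1.2 y hy).2.1⟩
    refine ⟨fun x hx hx' => (h1 x ⟨hx, hx'⟩).2, t, h2, fun x hx hx' y hy =>
      ⟨(h3 x ⟨hx, hx'⟩ y hy).2.1, (h3 x ⟨hx, hx'⟩ y hy).2.2.trans ?_⟩⟩
    exact mul_le_mul_of_nonneg_left (hc.ovl k x.1 hx'.1 hx.1 x.2 hx'.2 hx.2 y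
      (ball_subset_ball (by linarith) hy)).2.2 hC

/-- base piece and cells form an atlas (`Cells.trans`, `cell_disjoint`; on the shell `transloc` in
the chart at the point itself; `e z` is injective by `Model.inv`). -/
theorem Cells.atlas (h : Geo M I β P Ω g π e ρ C c Λ L) (hc : Cells M I β P Ω e c R η r A Pc Ψ)
    (hr : 0 < r) (hrρ : 2 * C * r ≤ ρ) (hη : 0 < η) (hA : 0 < A) (hs : 16 * (C * A * η) ≤ r) :
    Atlas M (fun o : Option ℤ => o.elim (basePc Ω I β) fun j => Pc j ×ˢ cell β η R j)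
      (fun o => o.elim e Ψ) (r / 2) := by
  have h1 : r ≤ C * r := le_mul_of_one_le_left hr.le h.model.one_le
  have hb : ball (0 : V) r ⊆ ball 0 ρ := ball_subset_ball (by linarith)
  have hb1 : ball (0 : V) (r / 2) ⊆ ball 0 r := ball_subset_ball (by linarith)
  have hb2 : ball (0 : V) (r / 2) ⊆ ball 0 (3 * r / 4) := ball_subset_ball (by linarith)
  refine ⟨fun o => ?_, fun o => ?_, fun o => ?_, fun o o' hne z hz hz' => ?_⟩
  · cases o with
    | none => exact h.isOpen_basePc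
    | some j => exact hc.h52_open h j
  · cases o with
    | none => exact h.model.hole.mono (fun x hx => hx.1) (by linarith)
    | some j => exact (hc.hol j).mono Subset.rfl (by linarith)
  · cases o with
    | none => exact fun z hz y hy => h.model.mem z hz.1 y (hb (hb1 hy))
    | some j => exact fun z hz y hy => hc.mem j z hz y (hb1 hy)
  · cases o with
    | none =>
      intro y hy y' hy' hyy
      have h2 : e z y = e z y' := hyy
      rw [← h.model.inv z hz.1 y (hb (hb1 hy)), h2, h.model.inv z hz.1 y' (hb (hb1 hy'))]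
    | some j =>
      cases o' with
      | none =>
        have hD := (hc.h52_open h j).inter h.isOpen_basePc
        exact ((h52_tl (h.model.pull hD differentiableOn_id fun x hx => hx.2.1)
          ((hc.hol j).mono inter_subset_left le_rfl)
          (h.model.hole.mono (fun x hx => hx.2.1) (by linarith))
          (fun x hx y hy => ⟨hc.mem j x hx.1 y hy, h.model.mem x hx.2.1 y (hb hy)⟩)
          hr hrρ (mul_pos hA hη).le (by rwa [← mul_assoc C])
          fun x hx y hy => ⟨(hc.shell j x.1 hx.1.1 x.2 hx.1.2 hx.2.2.2).2 y hy, by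
            simp only [id, sub_self, norm_zero]; positivity⟩).1 z ⟨hz, hz'⟩).1.mono hb2
      | some k =>
        rcases cell_disjoint hz.2 hz'.2 with h2 | h2
        · exact absurd (congrArg some h2.symm) hne
        · exact ((hc.trans h hr hrρ hη hA hs j k h2).1 z hz hz').mono hb2

end Crest.Agent.R279
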