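import Crest.Agent.R279.RLd

/-! Row 279: rectangle lemma, construction of the cells -/

set_option autoImplicit false

namespace Crest.Agent.R279

open Set Metric Filter Topology

variable {G : Type} [NormedAddCommGroup G] [NormedSpace ℂ G] {M : Set W} {I : Set ℝ} {β : ℝ → ℝ}
  {P : ℝ → Set G} {Ω : Set (G × ℂ)} {g : G × ℂ → W} {π : G × ℂ → W →L[ℂ] V} {e : G × ℂ → V → W}
  {ρ C c Λ L R : ℝ}

section aux
variable {A : Type} [NormedAddCommGroup A] [NormedSpace ℂ A]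

open Classical in
/-- a chain chosen as a function of its data. -/
noncomputable def pickChain (M : Set W) (N : ℕ) (T R b : ℝ) (D : Set A) (m₀ m₁ : A → W) :
    ℕ → A → ℂ → W :=
  if H : ∃ ψ, Chain M D m₀ m₁ N T R b ψ then H.choose else 0

theorem pickChain_spec {N : ℕ} {T R b : ℝ} {D : Set A} {m₀ m₁ : A → W}
    (H : ∃ ψ, Chain M D m₀ m₁ N T R b ψ) :
    Chain M D m₀ m₁ N T R b (pickChain M N T R b D m₀ m₁) := by
  rw [pickChain, dif_pos H]
  exact H.choose_spec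

theorem Chain.lip {N : ℕ} {T₁ R b : ℝ} {D : Set A} {m₀ m₁ : A → W} {ψ : ℕ → A → ℂ → W}
    (h : Chain M D m₀ m₁ N (2 * T₁ + 4) R b ψ) (hT : 1 ≤ T₁) (hR : 2 * T₁ + 4 ≤ R) (i : ℕ) {a : A}
    (ha : a ∈ D) {τ₀ τ : ℂ} (h0 : ‖τ₀‖ ≤ 1) (hτ : ‖τ - τ₀‖ ≤ T₁) :
    ‖ψ i a τ - ψ i a τ₀‖ ≤ b * ‖τ - τ₀‖ := by
  have hsub : ball τ₀ (T₁ + 1) ⊆ ball (0 : ℂ) (2 * T₁ + 4) := by
    refine ball_subset_ball' ?_
    rw [dist_zero_right]
    linarith
  have hd : DifferentiableOn ℂ (fun τ => ψ i a τ - m₀ a) (ball τ₀ (T₁ + 1)) := by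
    refine DifferentiableOn.sub_const ?_ _
    refine (h.hol i).comp (p := fun _ : ℂ => a) (y := fun τ => τ) (differentiableOn_const _)
      differentiableOn_id (fun _ _ => ha) fun τ hτ => ?_
    have := hsub hτ
    rw [mem_ball_zero_iff] at this
    linarith
  have hb : 0 ≤ b := (norm_nonneg _).trans (h.tame i a ha 0 (mem_ball_self (by linarith)))
  have := R264.SCV.norm_sub_le (z := τ) hd (fun z hz => h.tame i a ha z (hsub hz))
    (by rw [mem_ball, dist_eq_norm]; linarith)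
  rw [sub_sub_sub_cancel_right] at this
  refine this.trans (mul_le_mul_of_nonneg_right ?_ (norm_nonneg _))
  rw [div_le_iff₀ (by linarith)]
  nlinarith

end aux

/-- Lipschitz bound of the base family in `v`. -/
theorem Geo.e_lip (h : Geo M I β P Ω g π e ρ C c Λ L) {t : ℝ} (ht : t ∈ I) {p : G} (hp : p ∈ P t)
    {v : ℂ} (hv : ‖v - cpt β t‖ < c) {y : V} (hy : y ∈ ball (0 : V) ρ) :
    ‖e (p, v) y - e (p, cpt β t) y‖ ≤ 2 * (C + C * ρ) / c * ‖v - cpt β t‖ := by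
  have hm := h.model.pull (O := ball (cpt β t) c) (φ := fun w : ℂ => (p, w)) isOpen_ball
    ((differentiableOn_const _).prodMk differentiableOn_id)
    fun w hw => h.sub t ht p hp w (by rwa [mem_ball, dist_eq_norm] at hw)
  exact hm.lip_base (z := cpt β t) (z' := v) subset_rfl (by rwa [mem_ball, dist_eq_norm]) hy

/-- height of the block of the cell `j`. -/
noncomputable def tB (η : ℝ) (N : ℕ) (j : ℤ) : ℝ := 2 * Real.pi * η * N * ((j / (N : ℤ) : ℤ) : ℝ)

theorem tB_facts {η : ℝ} (hη : 0 < η) {N : ℕ} (hN : 0 < N) (j : ℤ) :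
    tB η N j + Real.pi * η ≤ tauc η j ∧
      tauc η j + Real.pi * η ≤ tB η N j + 2 * Real.pi * η * N := by
  have hN' : (0 : ℤ) < N := by exact_mod_cast hN
  have h1 := Int.emod_nonneg j hN'.ne'
  have h2 := Int.emod_lt_of_pos j hN'
  have h3 := Int.mul_ediv_add_emod j N
  have e3 : (j : ℝ) = N * ((j / (N : ℤ) : ℤ) : ℝ) + ((j % (N : ℤ) : ℤ) : ℝ) := by
    exact_mod_cast h3.symm
  have e1 : (0 : ℝ) ≤ ((j % (N : ℤ) : ℤ) : ℝ) := by exact_mod_cast h1
  have e2 : ((j % (N : ℤ) : ℤ) : ℝ) + 1 ≤ N := by exact_mod_cast h2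
  have hp : 0 < Real.pi * η := mul_pos Real.pi_pos hη
  unfold tB tauc
  generalize ((j / (N : ℤ) : ℤ) : ℝ) = q at *
  generalize ((j % (N : ℤ) : ℤ) : ℝ) = i at *
  rw [e3]
  constructor <;> nlinarith

theorem succ_cases {N : ℕ} (hN : 0 < N) (j : ℤ) :
    ((j + 1) / (N : ℤ) = j / N ∧ ((j + 1) % (N : ℤ)).toNat = (j % (N : ℤ)).toNat + 1) ∨
      ((j + 1) / (N : ℤ) = j / N + 1 ∧ ((j + 1) % (N : ℤ)).toNat = 0 ∧
        (j % (N : ℤ)).toNat + 1 = N) := by
  have hN' : (0 : ℤ) < N := by exact_mod_cast hN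
  have h1 := Int.emod_nonneg j hN'.ne'
  have h2 := Int.emod_lt_of_pos j hN'
  have h3 := Int.mul_ediv_add_emod j N
  by_cases hc : j % (N : ℤ) + 1 < N
  · left
    have := (Int.ediv_emod_unique (a := j + 1) (r := j % (N : ℤ) + 1) (q := j / N) hN').2
      ⟨by linarith, by linarith, hc⟩
    refine ⟨this.1, ?_⟩
    rw [this.2]
    omega
  · right
    have := (Int.ediv_emod_unique (a := j + 1) (r := 0) (q := j / N + 1) hN').2
      ⟨by nlinarith, le_rfl, hN'⟩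
    refine ⟨this.1, ?_, ?_⟩
    · rw [this.2]; rfl
    · omega

theorem cpt_re (β : ℝ → ℝ) (t : ℝ) : (cpt β t).re = β t := by simp [cpt]

theorem cpt_im (β : ℝ → ℝ) (t : ℝ) : (cpt β t).im = t := by simp [cpt]

theorem zeta_re (η : ℝ) (v w : ℂ) : ((v - w) / (η : ℂ)).re = (v.re - w.re) / η := by
  rw [Complex.div_ofReal_re, Complex.sub_re]

theorem zeta_im (η : ℝ) (v w : ℂ) : ((v - w) / (η : ℂ)).im = (v.im - w.im) / η := by
  rw [Complex.div_ofReal_im, Complex.sub_im]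

/-- comparison of the two decay profiles. -/
theorem profile_le {T₁ x x' Λ : ℝ} (hT : 0 ≤ T₁) (hΛ : 0 ≤ Λ) (hx' : 0 ≤ x')
    (h : x' ≤ |x| + 4 * Λ) : T₁ / (1 + |x|) ^ 2 ≤ T₁ * (1 + 4 * Λ) ^ 2 / (1 + x') ^ 2 := by
  have h0 := abs_nonneg x
  rw [div_le_div_iff₀ (by positivity) (by positivity), mul_assoc, ← mul_pow]
  refine mul_le_mul_of_nonneg_left (pow_le_pow_left₀ (by positivity) ?_ 2) hT
  nlinarith

open Classical in
/-- parameter domain of the cell `j`. -/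
noncomputable def PcD (I : Set ℝ) (P : ℝ → Set G) (η : ℝ) (N : ℕ) (j : ℤ) : Set G :=
  if Icc (tB η N j - 2 * Real.pi * η * N) (tB η N j + 2 * (2 * Real.pi * η * N)) ⊆ I then
    P (tB η N j) else ∅

/-- the chain of the block of height `t`. -/
noncomputable def psiB (M : Set W) (N : ℕ) (T R' b : ℝ) (P : ℝ → Set G) (β : ℝ → ℝ)
    (e : G × ℂ → V → W) (r h t : ℝ) : ℕ → G × V → ℂ → W :=
  pickChain M N T R' b (P t ×ˢ ball (0 : V) r) (fun x => e (x.1, cpt β t) x.2)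
    fun x => e (x.1, cpt β (t + h)) x.2

/-- the cell map. -/
noncomputable def PsiD (M : Set W) (N : ℕ) (T R' b : ℝ) (P : ℝ → Set G) (β : ℝ → ℝ)
    (e : G × ℂ → V → W) (r η : ℝ) (θ : ℂ → ℂ) (j : ℤ) (x : G × ℂ) (y : V) : W :=
  psiB M N T R' b P β e r (2 * Real.pi * η * N) (tB η N j) (j % (N : ℤ)).toNat (x.1, y)
    (θ ((x.2 - cpt β (tauc η j)) / (η : ℂ)))

theorem mem_PcD {η : ℝ} {N : ℕ} {j : ℤ} {p : G} (hp : p ∈ PcD I P η N j) :
    Icc (tB η N j - 2 * Real.pi * η * N) (tB η N j + 2 * (2 * Real.pi * η * N)) ⊆ I ∧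
      p ∈ P (tB η N j) := by
  unfold PcD at hp
  split_ifs at hp with h
  · exact ⟨h, hp⟩
  · exact absurd hp (notMem_empty _)

theorem cells_main (hG : Geo M I β P Ω g π e ρ C c Λ L) {θ : ℂ → ℂ} (hθ : Differentiable ℂ θ)
    {T₁ : ℝ} (hT : 1 ≤ T₁)
    (θ1 : ∀ z : ℂ, |z.re| ≤ 1 + 4 * Λ → |z.im| ≤ 5 * Real.pi / 4 → ‖θ z‖ ≤ T₁)
    (θ2 : ∀ z : ℂ, -(1 + 4 * Λ) ≤ z.re → |z.im - Real.pi| ≤ Real.pi / 4 →
      ‖θ z - 1‖ ≤ T₁ / (1 + |z.re|) ^ 2)
    (θ3 : ∀ z : ℂ, -(1 + 4 * Λ) ≤ z.re → |z.im + Real.pi| ≤ Real.pi / 4 →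
      ‖θ z‖ ≤ T₁ / (1 + |z.re|) ^ 2)
    {N : ℕ} (hN : 0 < N) {η r b A R' : ℝ} (hη : 0 < η) (hη1 : η ≤ 1) (hrρ : r ≤ ρ)
    (hc : η + 4 * ((1 + Λ) * (2 * Real.pi * η * N)) < c) (hR' : 2 * T₁ + 4 ≤ R')
    (hθR : ∀ z : ℂ, ‖z‖ ≤ (|R| + 2 * L + 10) / η → ‖θ z‖ < R') (hb : 0 ≤ b)
    (hA1 : b + 2 * (C + C * ρ) / c * (η + 2 * ((1 + Λ) * (2 * Real.pi * η * N))) ≤ A * η)
    (hA2 : 2 * (b * (T₁ * (1 + 4 * Λ) ^ 2)) ≤ A * η)
    (hch : ∀ t, Icc (t - 2 * Real.pi * η * N) (t + 2 * (2 * Real.pi * η * N)) ⊆ I →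
      ∃ ψ, Chain M (P t ×ˢ ball (0 : V) r) (fun x => e (x.1, cpt β t) x.2)
        (fun x => e (x.1, cpt β (t + 2 * Real.pi * η * N)) x.2) N (2 * T₁ + 4) R' b ψ) :
    Cells M I β P Ω e c R η r A (PcD I P η N) (PsiD M N (2 * T₁ + 4) R' b P β e r η θ) := by
  have hπ := Real.pi_pos
  have hπ4 := Real.pi_le_four
  have hΛ := hG.Λ0
  have hN1 : (1 : ℝ) ≤ N := by exact_mod_cast hN
  have hπη : 0 < Real.pi * η := mul_pos hπ hη
  have hC := hG.model.one_le
  have hρ := hG.model.ρ_pos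
  have hcp := hG.c_pos
  have hB : 0 ≤ 2 * (C + C * ρ) / c := by positivity
  have hh : 2 * (Real.pi * η) ≤ 2 * Real.pi * η * N := by nlinarith
  have hF := fun j => tB_facts hη hN j
  have hbord : ∀ j, bord η j = tauc η j + Real.pi * η := fun j => by unfold bord tauc; ring
  have hbord' : ∀ j, bord η j = tauc η (j + 1) - Real.pi * η := fun j => by
    unfold bord tauc; push_cast; ring
  -- the chains
  have hsp : ∀ {j : ℤ} {p : G}, p ∈ PcD I P η N j →
      Chain M (P (tB η N j) ×ˢ ball (0 : V) r) (fun x => e (x.1, cpt β (tB η N j)) x.2)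
        (fun x => e (x.1, cpt β (tB η N j + 2 * Real.pi * η * N)) x.2) N (2 * T₁ + 4) R' b
        (psiB M N (2 * T₁ + 4) R' b P β e r (2 * Real.pi * η * N) (tB η N j)) :=
    fun hp => pickChain_spec (hch _ (mem_PcD hp).1)
  generalize hhdef : 2 * Real.pi * η * N = h at *
  have hh0 : 0 < h := by linarith
  have hΛh : h ≤ (1 + Λ) * h := by nlinarith
  have hI : ∀ {j : ℤ} {p : G}, p ∈ PcD I P η N j → ∀ t, |t - tauc η j| ≤ 2 * Real.pi * η →
      t ∈ I ∧ |t - tB η N j| ≤ 2 * h := by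
    intro j p hp t ht
    have h1 := (mem_PcD hp).1
    rw [hhdef] at h1
    have h2 := hF j
    rw [abs_le] at ht
    exact ⟨h1 ⟨by linarith [h2.1, ht.1], by linarith [h2.2, ht.2]⟩,
      abs_le.2 ⟨by linarith [h2.1, ht.1], by linarith [h2.2, ht.2]⟩⟩
  have hIt : ∀ {j : ℤ} {p : G}, p ∈ PcD I P η N j → tB η N j ∈ I := by
    intro j p hp
    have h1 := (mem_PcD hp).1
    rw [hhdef] at h1
    exact h1 ⟨by linarith, by linarith⟩
  -- the argument of `θ`
  have hz : ∀ {j : ℤ} {p : G}, p ∈ PcD I P η N j → ∀ v ∈ cell β η R j,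
      |((v - cpt β (tauc η j)) / (η : ℂ)).re - (v.re - β v.im) / η| ≤ 4 * Λ ∧
      -(1 + 4 * Λ) ≤ ((v - cpt β (tauc η j)) / (η : ℂ)).re ∧
      ‖θ ((v - cpt β (tauc η j)) / (η : ℂ))‖ < R' := by
    intro j p hp v hv
    have h1 := (hI hp v.im (hv.1.le.trans (by linarith))).1
    have h2 := (hI hp (tauc η j) (by rw [sub_self, abs_zero]; linarith)).1
    have h3 := hG.lip h1 h2
    have h4 : |β v.im - β (tauc η j)| ≤ 4 * Λ * η := by
      refine h3.trans ?_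
      have : |v.im - tauc η j| ≤ 4 * η := by
        have := hv.1
        have := Real.pi_lt_d2
        nlinarith
      nlinarith
    have h5 : |((v - cpt β (tauc η j)) / (η : ℂ)).re - (v.re - β v.im) / η| ≤ 4 * Λ := by
      rw [zeta_re, cpt_re, ← sub_div, abs_div, abs_of_pos hη, div_le_iff₀ hη]
      have : v.re - β (tauc η j) - (v.re - β v.im) = β v.im - β (tauc η j) := by ring
      rw [this]
      exact h4
    refine ⟨h5, ?_, hθR _ ?_⟩
    · have h6 : -1 ≤ (v.re - β v.im) / η := by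
        rw [le_div_iff₀ hη]
        linarith [hv.2.1]
      linarith [(abs_le.1 h5).1]
    · rw [norm_div, Complex.norm_real, Real.norm_eq_abs, abs_of_pos hη]
      refine div_le_div_of_nonneg_right ?_ hη.le
      refine (Complex.norm_le_abs_re_add_abs_im _).trans ?_
      rw [Complex.sub_re, Complex.sub_im, cpt_re, cpt_im]
      have k1 := abs_le.1 (hG.bd _ h1)
      have k2 := abs_le.1 (hG.bd _ h2)
      have k3 : |v.re - β (tauc η j)| ≤ |R| + 2 * L + 1 := by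
        have := le_abs_self R
        have := abs_nonneg R
        have := hG.L_pos
        exact abs_le.2 ⟨by linarith [hv.2.1], by linarith [hv.2.2]⟩
      have k4 : |v.im - tauc η j| ≤ 5 := by
        have := hv.1
        nlinarith
      linarith
  have hbase : ∀ {j : ℤ} {p : G}, p ∈ PcD I P η N j → ∀ v : ℂ,
      ‖v - cpt β (tB η N j)‖ ≤ η + 2 * ((1 + Λ) * h) → (p, v) ∈ Ω ∧ ∀ y ∈ ball (0 : V) r,
      ‖e (p, cpt β (tB η N j)) y - e (p, v) y‖ ≤
        2 * (C + C * ρ) / c * (η + 2 * ((1 + Λ) * h)) := by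
    intro j p hp v hv
    have h1 : ‖v - cpt β (tB η N j)‖ < c := by linarith
    refine ⟨hG.sub _ (hIt hp) p (mem_PcD hp).2 v h1, fun y hy => ?_⟩
    rw [norm_sub_rev]
    exact (hG.e_lip (hIt hp) (mem_PcD hp).2 h1 (ball_subset_ball hrρ hy)).trans
      (mul_le_mul_of_nonneg_left hv hB)
  have hcp2 : ∀ {j : ℤ} {p : G}, p ∈ PcD I P η N j → ∀ t, |t - tauc η j| ≤ 2 * Real.pi * η →
      ‖cpt β t - cpt β (tB η N j)‖ ≤ 2 * ((1 + Λ) * h) := by
    intro j p hp t ht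
    have h1 := hI hp t ht
    refine (hG.cpt_lip h1.1 (hIt hp)).trans ?_
    have := mul_le_mul_of_nonneg_left h1.2 (show 0 ≤ 1 + Λ by linarith)
    linarith
  have htame : ∀ {j : ℤ} {p : G}, p ∈ PcD I P η N j → ∀ v : ℂ,
      ‖θ ((v - cpt β (tauc η j)) / (η : ℂ))‖ ≤ T₁ + 1 → ∀ w : ℂ,
      ‖w - cpt β (tB η N j)‖ ≤ η + 2 * ((1 + Λ) * h) → ∀ y ∈ ball (0 : V) r,
      ‖PsiD M N (2 * T₁ + 4) R' b P β e r η θ j (p, v) y - e (p, w) y‖ ≤ A * η := by
    intro j p hp v hv w hw y hy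
    have h1 := (hsp hp).tame (j % (N : ℤ)).toNat (p, y) ⟨(mem_PcD hp).2, hy⟩
      (θ ((v - cpt β (tauc η j)) / (η : ℂ))) (by rw [mem_ball_zero_iff]; linarith)
    have h2 := (hbase hp w hw).2 y hy
    have h3 := norm_sub_le_norm_sub_add_norm_sub
      (PsiD M N (2 * T₁ + 4) R' b P β e r η θ j (p, v) y) (e (p, cpt β (tB η N j)) y) (e (p, w) y)
    unfold PsiD at h3 ⊢
    rw [hhdef] at h3 ⊢
    exact h3.trans (by linarith)
  have hdiv : ∀ x : ℝ, T₁ / (1 + |x|) ^ 2 ≤ T₁ := fun x =>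
    div_le_self (by linarith) (one_le_pow₀ (by linarith [abs_nonneg x]))
  refine ⟨fun j => ?_, ?_, fun j => ?_, ?_, ?_, ?_, ?_, ?_⟩
  · rcases (PcD I P η N j).eq_empty_or_nonempty with h0 | ⟨p, hp⟩
    · rw [h0]; exact isOpen_empty
    · have h1 := (mem_PcD hp).1
      unfold PcD
      rw [if_pos h1]
      exact hG.opP _ (hIt hp)
  · rintro j ⟨p, hp⟩ t ht
    exact (hI hp t ht).1
  · rcases (PcD I P η N j).eq_empty_or_nonempty with h0 | ⟨p, hp⟩
    · unfold HolF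
      rw [h0, empty_prod, empty_prod]
      exact differentiableOn_empty
    · unfold HolF PsiD
      rw [hhdef]
      refine ((hsp hp).hol (j % (N : ℤ)).toNat).comp (p := fun x : (G × ℂ) × V => (x.1.1, x.2))
        (y := fun x : (G × ℂ) × V => θ ((x.1.2 - cpt β (tauc η j)) / (η : ℂ))) ?_ ?_ ?_ ?_
      · fun_prop
      · exact (hθ.comp (f := fun x : (G × ℂ) × V => (x.1.2 - cpt β (tauc η j)) / (η : ℂ))
          (by fun_prop)).differentiableOn
      · exact fun x hx => ⟨(mem_PcD hx.1.1).2, hx.2⟩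
      · exact fun x hx => (hz hx.1.1 _ hx.1.2).2.2
  · rintro j ⟨p, v⟩ ⟨hp, hv⟩ y hy
    unfold PsiD
    rw [hhdef]
    exact (hsp hp).mem _ (p, y) ⟨(mem_PcD hp).2, hy⟩ _ (mem_ball_zero_iff.2 (hz hp v hv).2.2)
  · intro j p hp
    refine (hbase hp _ ((hcp2 hp _ ?_).trans (by linarith))).1
    rw [hbord, add_sub_cancel_left, abs_of_pos hπη]
    linarith
  · intro j p hp hp' v hv hv' y hy
    have ho := cell_overlap hv hv'
    have z1 := hz hp v hv
    have z2 := hz hp' v hv'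
    have t1 := θ2 _ z1.2.1 (by
      rw [zeta_im, cpt_im, div_sub' hη.ne', abs_div, abs_of_pos hη, div_le_iff₀ hη]
      rw [hbord] at ho
      have : v.im - tauc η j - η * Real.pi = v.im - (tauc η j + Real.pi * η) := by ring
      rw [this]
      linarith)
    have t2 := θ3 _ z2.2.1 (by
      rw [zeta_im, cpt_im, div_add' _ _ _ hη.ne', abs_div, abs_of_pos hη, div_le_iff₀ hη]
      rw [hbord'] at ho
      have : v.im - tauc η (j + 1) + Real.pi * η = v.im - (tauc η (j + 1) - Real.pi * η) := by ring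
      rw [this]
      linarith)
    refine ⟨htame hp v ?_ _ ((hcp2 hp _ ?_).trans (by linarith)) y hy,
      htame hp' v ?_ _ ((hcp2 hp' _ ?_).trans (by linarith)) y hy, ?_⟩
    · have := norm_add_le (θ ((v - cpt β (tauc η j)) / (η : ℂ)) - 1) 1
      rw [sub_add_cancel, norm_one] at this
      linarith [hdiv ((v - cpt β (tauc η j)) / (η : ℂ)).re]
    · rw [hbord, add_sub_cancel_left, abs_of_pos hπη]
      linarith
    · linarith [hdiv ((v - cpt β (tauc η (j + 1))) / (η : ℂ)).re]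
    · rw [hbord', sub_sub_cancel_left, abs_neg, abs_of_pos hπη]
      linarith
    · have l1 := (hsp hp).lip hT hR' (j % (N : ℤ)).toNat (a := (p, y)) ⟨(mem_PcD hp).2, hy⟩
        (τ₀ := 1) (by simp) (t1.trans (hdiv _))
      have l2 := (hsp hp').lip hT hR' ((j + 1) % (N : ℤ)).toNat (a := (p, y))
        ⟨(mem_PcD hp').2, hy⟩ (τ₀ := 0) (τ := θ ((v - cpt β (tauc η (j + 1))) / (η : ℂ)))
        (by simp) (by rw [sub_zero]; exact t2.trans (hdiv _))
      rw [sub_zero] at l2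
      have hlink : psiB M N (2 * T₁ + 4) R' b P β e r h (tB η N j) (j % (N : ℤ)).toNat (p, y) 1 =
          psiB M N (2 * T₁ + 4) R' b P β e r h (tB η N (j + 1)) ((j + 1) % (N : ℤ)).toNat
            (p, y) 0 := by
        rw [(hsp hp).link _ (p, y) ⟨(mem_PcD hp).2, hy⟩]
        rcases succ_cases hN j with ⟨e1, e2⟩ | ⟨e1, e2, e3⟩
        · have : tB η N (j + 1) = tB η N j := by unfold tB; rw [e1]
          rw [this, e2]
        · have : tB η N (j + 1) = tB η N j + h := by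
            unfold tB; rw [e1, ← hhdef]; push_cast; ring
          rw [e2, e3, (hsp hp).stop N le_rfl (p, y) ⟨(mem_PcD hp).2, hy⟩,
            (hsp hp').start (p, y) ⟨(mem_PcD hp').2, hy⟩, this]
      have hx : |v.re - β v.im| / η = |(v.re - β v.im) / η| := by rw [abs_div, abs_of_pos hη]
      have p1 := profile_le (T₁ := T₁) (x := ((v - cpt β (tauc η j)) / (η : ℂ)).re)
        (x' := |v.re - β v.im| / η) (by linarith) hΛ (by positivity) (by
          rw [hx]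
          have := abs_sub_abs_le_abs_sub ((v.re - β v.im) / η)
            ((v - cpt β (tauc η j)) / (η : ℂ)).re
          rw [abs_sub_comm] at this
          linarith [z1.1])
      have p2 := profile_le (T₁ := T₁) (x := ((v - cpt β (tauc η (j + 1))) / (η : ℂ)).re)
        (x' := |v.re - β v.im| / η) (by linarith) hΛ (by positivity) (by
          rw [hx]
          have := abs_sub_abs_le_abs_sub ((v.re - β v.im) / η)
            ((v - cpt β (tauc η (j + 1))) / (η : ℂ)).re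
          rw [abs_sub_comm] at this
          linarith [z2.1])
      have q1 := l1.trans (mul_le_mul_of_nonneg_left (t1.trans p1) hb)
      have q2 := l2.trans (mul_le_mul_of_nonneg_left (t2.trans p2) hb)
      rw [hlink] at q1
      rw [norm_sub_rev] at q2
      unfold PsiD
      rw [hhdef]
      refine (norm_sub_le_norm_sub_add_norm_sub _ _ _).trans ((add_le_add q1 q2).trans ?_)
      rw [← two_mul, ← mul_div_assoc, ← mul_div_assoc]
      exact div_le_div_of_nonneg_right hA2 (by positivity)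
  · intro j p hp v hv hlt
    have z1 := hz hp v hv
    have h1 : ‖v - cpt β (tB η N j)‖ ≤ η + 2 * ((1 + Λ) * h) := by
      have k1 := hcp2 hp v.im (hv.1.le.trans (by linarith))
      have k2 : ‖v - cpt β v.im‖ ≤ η := by
        refine (Complex.norm_le_abs_re_add_abs_im _).trans ?_
        rw [Complex.sub_re, Complex.sub_im, cpt_re, cpt_im, sub_self, abs_zero, add_zero]
        exact abs_le.2 ⟨by linarith [hv.2.1], by linarith⟩
      linarith [norm_sub_le_norm_sub_add_norm_sub v (cpt β v.im) (cpt β (tB η N j))]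
    refine ⟨(hbase hp v h1).1, fun y hy => htame hp v ?_ v h1 y hy⟩
    refine (θ1 _ (abs_le.2 ⟨z1.2.1, ?_⟩) ?_).trans (by linarith)
    · have : (v.re - β v.im) / η ≤ 0 := div_nonpos_of_nonpos_of_nonneg (by linarith) hη.le
      linarith [(abs_le.1 z1.1).2]
    · rw [zeta_im, cpt_im, abs_div, abs_of_pos hη, div_le_iff₀ hη]
      linarith [hv.1]
  · intro a b' PW h1 h2 j v hv ha hb'
    have h3 := hF j
    have h4 := abs_lt.1 hv.1
    have h5 : Icc (tB η N j - h) (tB η N j + 2 * h) ⊆ Icc (a - c) (b' + c) :=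
      Icc_subset_Icc (by linarith [h3.1, h3.2]) (by linarith [h3.1, h3.2])
    unfold PcD
    rw [hhdef, if_pos (h5.trans h1)]
    exact h2 _ (h5 ⟨by linarith, by linarith⟩)

theorem cells_periodic {N J : ℕ} (hN : 0 < N) (hJ : 0 < J) {η : ℝ} (hη : η = 1 / (N * J))
    (T R' b r : ℝ) (θ : ℂ → ℂ) (he : ∀ x y, e (shift x) y = e x y)
    (hβ : ∀ t, β (t + 2 * Real.pi) = β t) (hP : ∀ t, P (t + 2 * Real.pi) = P t) (j : ℤ)
    (x : G × ℂ) :
    (shift x ∈ PcD univ P η N (j + N * J) ×ˢ cell β η R (j + N * J) ↔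
      x ∈ PcD univ P η N j ×ˢ cell β η R j) ∧
    ∀ y, PsiD M N T R' b P β e r η θ (j + N * J) (shift x) y = PsiD M N T R' b P β e r η θ j x y := by
  have hN' : (N : ℝ) ≠ 0 := by exact_mod_cast hN.ne'
  have hJ' : (J : ℝ) ≠ 0 := by exact_mod_cast hJ.ne'
  have hNz : (N : ℤ) ≠ 0 := by exact_mod_cast hN.ne'
  have e1 : tB η N (j + N * J) = tB η N j + 2 * Real.pi := by
    unfold tB
    rw [Int.add_mul_ediv_left _ _ hNz, hη]
    push_cast
    field_simp
  have e2 : tauc η (j + N * J) = tauc η j + 2 * Real.pi := by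
    unfold tauc
    rw [hη]
    push_cast
    field_simp
    ring
  have e3 : ∀ t, cpt β (t + 2 * Real.pi) = cpt β t + 2 * Real.pi * Complex.I := fun t => by
    unfold cpt
    rw [hβ]
    push_cast
    ring
  have e4 : (shift x).2.im = x.2.im + 2 * Real.pi := by simp [shift]
  have e5 : (shift x).2.re = x.2.re := by simp [shift]
  refine ⟨?_, fun y => ?_⟩
  · simp only [mem_prod, PcD, subset_univ, if_true, cell, mem_ofPred_eq, e1, e2, e4, e5, hP, hβ,
      add_sub_add_right_eq_sub]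
    rfl
  · have e6 : ∀ (p : G) (t : ℝ) (y : V), e (p, cpt β (t + 2 * Real.pi)) y = e (p, cpt β t) y :=
      fun p t y => by rw [e3]; exact he (p, cpt β t) y
    unfold PsiD psiB
    rw [e1, e2, Int.add_mul_emod_self_left, hP, e3 (tauc η j), add_right_comm (tB η N j)]
    simp only [e6, shift, add_sub_add_right_eq_sub]

/-- **cells**.  `θ` from `exists_theta`, `X₀ = 1 + 4 Λ`, `T₁` its bound, `T₀ = 2 T₁ + 4`.  WLOG
`N ≥ 1` (`SprayData.weaken`), `η = 1 / (N J)`, `h = 2 π η N`, `t_m = h m`, `m = j / N`,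
`i = (j % N).toNat`; `Pc j = P t_m` if `Icc (t_m - h) (t_m + 2 h) ⊆ I`, else `∅`;
`r = min ρ (ρS / (2 C))`, `s = B (1 + Λ) h` with `B = 2 (C + C ρ) / c` (`Model.lip_base`);
`ψ = Φ D m₀ m₁` where `Φ D m₀ m₁ = if H : ∃ ψ, Chain M D m₀ m₁ N T₀ R' (CS * s) ψ then H.choose
else 0`, `D = P t_m ×ˢ ball 0 r`, `m₀ (p, y) = e (p, cpt β t_m) y`,
`m₁ (p, y) = e (p, cpt β (t_m + h)) y`, `R' > ‖θ‖` on `‖z‖ ≤ (|R| + 2 L + 10) / η`;
`Ψ j (p, v) y = ψ i (p, y) (θ ((v - cpt β (tauc η j)) / η))`.  With `z` the argument of `θ`: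
`|Re z - (Re v - β (Im v)) / η| ≤ 4 Λ`.  On an overlap `ψ_i (θ) - ψ_i (1)` and
`ψ_{i+1} (θ') - ψ_{i+1} (0)` are `O(s / (1 + |Re z|)²)` by `R264.SCV.norm_sub_le` on balls of radius
`T₁ + 1` (`Chain.tame`), and `ψ_i (1) = ψ_{i+1} (0)` (`Chain.link`; at the end of a block
`link`, `stop` and `start` of the next block). -/
theorem exists_cells (Λ : ℝ) : ∃ T₀ : ℝ, 1 < T₀ ∧
    ∀ {G : Type} [NormedAddCommGroup G] [NormedSpace ℂ G] [FiniteDimensional ℂ G] {M : Set W}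
      {I : Set ℝ} {β : ℝ → ℝ} {P : ℝ → Set G} {Ω : Set (G × ℂ)} {g : G × ℂ → W}
      {π : G × ℂ → W →L[ℂ] V} {e : G × ℂ → V → W} {ρ C c L ρS CS s₀ : ℝ} {N : ℕ} (R : ℝ),
      Geo M I β P Ω g π e ρ C c Λ L → 0 < ρS → 0 < CS → 0 < s₀ →
      (∀ t ∈ I, SprayData M (P t) (fun p => g (p, cpt β t)) T₀ ρS CS s₀ N) →
      ∃ r A : ℝ, 0 < r ∧ 2 * C * r ≤ ρ ∧ 0 < A ∧ ∀ η₀ : ℝ, 0 < η₀ → ∃ η : ℝ, 0 < η ∧ η ≤ η₀ ∧
        ∃ (Pc : ℤ → Set G) (Ψ : ℤ → G × ℂ → V → W), Cells M I β P Ω e c R η r A Pc Ψ ∧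
          ((∀ x y, e (shift x) y = e x y) → (∀ t, β (t + 2 * Real.pi) = β t) →
            (∀ t, P (t + 2 * Real.pi) = P t) → I = univ →
            ∃ J : ℤ, ∀ j x, (shift x ∈ Pc (j + J) ×ˢ cell β η R (j + J) ↔
              x ∈ Pc j ×ˢ cell β η R j) ∧ ∀ y, Ψ (j + J) (shift x) y = Ψ j x y) := by
  rcases lt_or_ge Λ 0 with hΛ | hΛ
  · exact ⟨2, one_lt_two, fun _ hG => absurd hG.Λ0 (not_le.2 hΛ)⟩
  obtain ⟨θ, hθ, hθ'⟩ := exists_theta
  obtain ⟨T₁, hT, θ1, θ2, θ3⟩ := hθ' (1 + 4 * Λ) (by linarith)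
  refine ⟨2 * T₁ + 4, by linarith, ?_⟩
  intro G _ _ _ M I β P Ω g π e ρ C c L ρS CS s₀ N₀ R hG hρS hCS hs₀ hS
  have hC := hG.model.one_le
  have hρ := hG.model.ρ_pos
  have hc := hG.c_pos
  have hπ := Real.pi_pos
  obtain ⟨N, hN, hN0⟩ : ∃ N : ℕ, 0 < N ∧ N₀ ≤ N := ⟨N₀ + 1, N₀.succ_pos, N₀.le_succ⟩
  have hN' : (0 : ℝ) < N := by exact_mod_cast hN
  set B : ℝ := 2 * (C + C * ρ) / c with hB
  have hB0 : 0 < B := by positivity
  set k : ℝ := (1 + Λ) * (2 * Real.pi * N) with hk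
  have hk0 : 0 < k := by positivity
  refine ⟨min (ρ / (2 * C)) (ρS / (2 * C)),
    CS * (B * k) + B * (1 + 2 * k) + 2 * (CS * (B * k) * (T₁ * (1 + 4 * Λ) ^ 2)), by positivity,
    ?_, by positivity, fun η₀ hη₀ => ?_⟩
  · have := min_le_left (ρ / (2 * C)) (ρS / (2 * C))
    rw [le_div_iff₀ (by positivity)] at this
    linarith
  set r := min (ρ / (2 * C)) (ρS / (2 * C)) with hr
  have hr1 : r * (2 * C) ≤ ρ := by
    rw [← le_div_iff₀ (by positivity)]; exact min_le_left _ _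
  have hr2 : r * (2 * C) ≤ ρS := by
    rw [← le_div_iff₀ (by positivity)]; exact min_le_right _ _
  have hr0 : 0 < r := by positivity
  have hrρ : r ≤ ρ := by nlinarith
  set η₁ : ℝ := min (min η₀ 1) (min (c / (2 * (1 + 4 * k))) (s₀ / (B * k))) with hη₁
  have hη₁0 : 0 < η₁ := by positivity
  obtain ⟨J, hJ⟩ := exists_nat_one_div_lt hη₁0
  set η : ℝ := 1 / (N * (J + 1 : ℕ)) with hη
  have hη0 : 0 < η := by positivity
  have hηle : η ≤ η₁ := by
    refine le_trans ?_ hJ.le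
    refine one_div_le_one_div_of_le (by positivity) ?_
    have : (1 : ℝ) ≤ N := by exact_mod_cast hN
    push_cast
    nlinarith [(Nat.cast_nonneg J : (0 : ℝ) ≤ J)]
  have a1 : η ≤ η₀ := hηle.trans ((min_le_left _ _).trans (min_le_left _ _))
  have a2 : η ≤ 1 := hηle.trans ((min_le_left _ _).trans (min_le_right _ _))
  have a3 : η * (2 * (1 + 4 * k)) ≤ c := by
    rw [← le_div_iff₀ (by positivity)]
    exact hηle.trans ((min_le_right _ _).trans (min_le_left _ _))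
  have a4 : η * (B * k) ≤ s₀ := by
    rw [← le_div_iff₀ (by positivity)]
    exact hηle.trans ((min_le_right _ _).trans (min_le_right _ _))
  have hkη : (1 + Λ) * (2 * Real.pi * η * N) = k * η := by rw [hk]; ring
  have hkη0 : 0 < k * η := by positivity
  obtain ⟨R₁, hR₁⟩ := (isCompact_closedBall (0 : ℂ) ((|R| + 2 * L + 10) / η)).exists_bound_of_continuousOn
    hθ.continuous.continuousOn
  refine ⟨η, hη0, a1, PcD I P η N,
    PsiD M N (2 * T₁ + 4) (max (R₁ + 1) (2 * T₁ + 4)) (CS * (η * (B * k))) P β e r η θ,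
    cells_main hG hθ hT θ1 θ2 θ3 hN hη0 a2 hrρ ?_ (le_max_right _ _) (fun z hz => ?_)
      (by positivity) ?_ ?_ fun t ht => ?_, fun h1 h2 h3 h4 => ⟨N * (J + 1 : ℕ), fun j x => ?_⟩⟩
  · rw [hkη]; nlinarith
  · exact (hR₁ z (mem_closedBall_zero_iff.2 hz)).trans_lt
      ((lt_add_one _).trans_le (le_max_left _ _))
  · rw [hkη, ← hB]
    have : 0 ≤ 2 * (CS * (B * k) * (T₁ * (1 + 4 * Λ) ^ 2)) * η := by positivity
    nlinarith
  · have : 0 ≤ (CS * (B * k) + B * (1 + 2 * k)) * η := by positivity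
    nlinarith
  · have hh : 0 < 2 * Real.pi * η * N := by positivity
    have ht0 : t ∈ I := ht ⟨by linarith, by linarith⟩
    have ht1 : t + 2 * Real.pi * η * N ∈ I := ht ⟨by linarith, by linarith⟩
    have hd : ‖cpt β (t + 2 * Real.pi * η * N) - cpt β t‖ ≤ k * η := by
      refine (hG.cpt_lip ht1 ht0).trans ?_
      rw [add_sub_cancel_left, abs_of_pos hh, hkη]
    have hd' : ‖cpt β (t + 2 * Real.pi * η * N) - cpt β t‖ < c := by nlinarith
    have hd0 : ‖cpt β t - cpt β t‖ < c := by simpa using hc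
    have hol : ∀ w : ℂ, ‖w - cpt β t‖ < c →
        DifferentiableOn ℂ (fun x : G × V => e (x.1, w) x.2) (P t ×ˢ ball (0 : V) r) ∧
        MapsTo (fun x : G × V => e (x.1, w) x.2) (P t ×ˢ ball (0 : V) r) M := fun w hw =>
      ⟨hG.model.hole.comp (p := fun x : G × V => (x.1, w)) (y := fun x : G × V => x.2)
        (by fun_prop) (by fun_prop) (fun x hx => hG.sub t ht0 _ hx.1 w hw)
        fun x hx => (mem_ball_zero_iff.1 hx.2).trans_le hrρ,
      fun x hx => hG.model.mem _ (hG.sub t ht0 _ hx.1 w hw) _ (ball_subset_ball hrρ hx.2)⟩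
    refine ((hS t ht0).weaken le_rfl le_rfl le_rfl hN0) (η * (B * k)) (by positivity) a4 _
      (le_max_right _ _) (G × V) _ Prod.fst _ _ ((hG.opP t ht0).prod isOpen_ball)
      differentiableOn_fst (fun x hx => hx.1) (hol _ hd0).1 (hol _ hd').1 (hol _ hd0).2
      (hol _ hd').2 (fun x hx => ?_) fun x hx => ?_
    · have hx0 := hG.sub t ht0 _ hx.1 _ hd0
      have := hG.model.lip _ hx0 x.2 (ball_subset_ball hrρ hx.2) 0 (mem_ball_self hρ)
      rw [hG.model.zero _ hx0, sub_zero] at this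
      have h2 := mem_ball_zero_iff.1 hx.2
      refine this.trans_lt ?_
      nlinarith
    · refine (hG.e_lip ht0 hx.1 hd' (ball_subset_ball hrρ hx.2)).trans ?_
      rw [← hB]
      nlinarith
  · subst h4
    exact cells_periodic hN J.succ_pos hη _ _ _ _ θ h1 h2 h3 j x

end Crest.Agent.R279
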