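import Crest.Agent.R279.Defs

/-! Row 279: the entire time function -/

set_option autoImplicit false

namespace Crest.Agent.R279

open Set Metric Filter Topology

variable {E E' F : Type} [NormedAddCommGroup E] [NormedSpace ℂ E] [NormedAddCommGroup E']
  [NormedSpace ℂ E'] [NormedAddCommGroup F] [NormedSpace ℂ F] {M : Set W}

theorem h52_decay {X₀ x : ℝ} (hx : -X₀ ≤ x) :
    Real.exp (-(x / 2)) * (1 + |x|) ^ 2 ≤ 16 * Real.exp |X₀| := by
  have h1 : |x| ≤ x + 2 * |X₀| := by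
    have := le_abs_self X₀
    have := abs_nonneg X₀
    rw [abs_le]; constructor <;> linarith
  have h2 : 1 + |x| ≤ 4 * Real.exp (|x| / 4) := by
    linarith [Real.add_one_le_exp (|x| / 4)]
  have h3 : (1 + |x|) ^ 2 ≤ 16 * Real.exp (|x| / 2) := by
    refine (pow_le_pow_left₀ (by positivity) h2 2).trans (le_of_eq ?_)
    rw [mul_pow, ← Real.exp_nat_mul]
    congr 1
    · norm_num
    · congr 1; push_cast; ring
  refine (mul_le_mul_of_nonneg_left h3 (Real.exp_pos _).le).trans ?_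
  rw [mul_left_comm, ← Real.exp_add]
  exact mul_le_mul_of_nonneg_left (Real.exp_le_exp.2 (by linarith)) (by norm_num)

theorem h52_deriv_le (ζ : ℂ) (h : |ζ.im| ≤ Real.pi / 8) :
    ‖Complex.exp (-Complex.exp ζ ^ 2) * Complex.exp ζ‖ ≤ 2 * Real.exp (-ζ.re) := by
  have hpi := Real.pi_pos
  have h1 : 1 / 2 ≤ Real.cos (2 * ζ.im) := by
    rw [← Real.cos_abs, ← Real.cos_pi_div_three]
    refine Real.cos_le_cos_of_nonneg_of_le_pi (abs_nonneg _) (by linarith) ?_
    rw [abs_mul, abs_two]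
    linarith
  have h2 : (Complex.exp ζ ^ 2).re = Real.exp (2 * ζ.re) * Real.cos (2 * ζ.im) := by
    rw [← Complex.exp_nat_mul, Complex.exp_re]
    simp
  rw [norm_mul, Complex.norm_exp, Complex.norm_exp, Complex.neg_re, h2]
  have h3 := Real.exp_pos (2 * ζ.re)
  have h4 : Real.exp (2 * ζ.re) ≤ 2 * Real.exp (Real.exp (2 * ζ.re) * Real.cos (2 * ζ.im)) := by
    nlinarith [Real.add_one_le_exp (Real.exp (2 * ζ.re) * Real.cos (2 * ζ.im))]
  have h5 : Real.exp ζ.re = Real.exp (2 * ζ.re) * Real.exp (-ζ.re) := by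
    rw [← Real.exp_add]; congr 1; ring
  rw [h5, ← mul_assoc]
  refine mul_le_mul_of_nonneg_right ?_ (Real.exp_pos _).le
  rw [Real.exp_neg, inv_mul_le_iff₀ (Real.exp_pos _)]
  linarith

theorem h52_gauss : ∃ (G : ℂ → ℂ) (L : ℝ), 0 < L ∧ Differentiable ℂ G ∧ (∀ w, G (-w) = -G w) ∧
    ∀ ζ : ℂ, |ζ.im| ≤ Real.pi / 8 → ‖G (Complex.exp ζ) - L‖ ≤ 3 * Real.exp (-ζ.re) := by
  have hpi := Real.pi_pos
  have hf : Differentiable ℂ fun w : ℂ => Complex.exp (-w ^ 2) := by fun_prop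
  obtain ⟨G, hG0, hG⟩ := hf.isExactOn_univ.with_val_at 0 0
  replace hG : ∀ w, HasDerivAt G (Complex.exp (-w ^ 2)) w := fun w => hG w (mem_univ w)
  have hGd : Differentiable ℂ G := fun w => (hG w).differentiableAt
  have hK : ∀ ζ, HasDerivAt (fun ζ => G (Complex.exp ζ))
      (Complex.exp (-Complex.exp ζ ^ 2) * Complex.exp ζ) ζ := fun ζ =>
    (hG _).comp ζ (Complex.hasDerivAt_exp ζ)
  refine ⟨G, ∫ t in Ioi (0 : ℝ), Real.exp (-1 * t ^ 2), ?_, hGd, fun w => ?_, fun ζ hζ => ?_⟩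
  · rw [integral_gaussian_Ioi]; positivity
  · have h1 : ∀ w, HasDerivAt (fun w => G (-w) + G w) 0 w := fun w => by
      refine (((hG (-w)).comp w (hasDerivAt_neg w)).add (hG w)).congr_deriv ?_
      simp
    have h2 := is_const_of_deriv_eq_zero (fun w => (h1 w).differentiableAt)
      (fun w => (h1 w).deriv) w 0
    simp only [neg_zero, hG0, add_zero] at h2
    exact eq_neg_of_add_eq_zero_left h2
  · have h1 : ‖G (Complex.exp ζ) - G (Complex.exp ζ.re)‖ ≤ Real.exp (-ζ.re) := by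
      have hcv : Convex ℝ ({w : ℂ | ζ.re ≤ w.re} ∩
          ({w : ℂ | w.im ≤ Real.pi / 8} ∩ {w : ℂ | -(Real.pi / 8) ≤ w.im})) :=
        (convex_halfSpace_re_ge _).inter
          ((convex_halfSpace_im_le _).inter (convex_halfSpace_im_ge _))
      have h2 := hcv.norm_image_sub_le_of_norm_hasDerivWithin_le (C := 2 * Real.exp (-ζ.re))
        (fun w _ => (hK w).hasDerivWithinAt)
        (fun w hw => (h52_deriv_le w (abs_le.2 ⟨hw.2.2, hw.2.1⟩)).trans
          (mul_le_mul_of_nonneg_left (Real.exp_le_exp.2 (neg_le_neg hw.1)) zero_le_two))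
        (x := (ζ.re : ℂ)) (y := ζ)
        ⟨by simp, by simp; positivity, by simp; positivity⟩
        ⟨le_refl ζ.re, (abs_le.1 hζ).2, (abs_le.1 hζ).1⟩
      have h3 : ‖ζ - ζ.re‖ = |ζ.im| := by
        have : ζ - ζ.re = ζ.im * Complex.I := by
          apply Complex.ext <;> simp
        rw [this]; simp
      rw [h3] at h2
      have h4 := Real.pi_le_four
      have h5 := Real.exp_pos (-ζ.re)
      nlinarith
    have h2 : ∀ x' : ℝ, ζ.re ≤ x' →
        ‖G (Complex.exp x') - G (Complex.exp ζ.re)‖ ≤ 2 * Real.exp (-ζ.re) := by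
      intro x' hx'
      have h3 : ∀ t : ℝ, HasDerivAt (fun t : ℝ => G (Complex.exp t) - G (Complex.exp ζ.re))
          (Complex.exp (-Complex.exp t ^ 2) * Complex.exp t) t := fun t =>
        (hK t).comp_ofReal.sub_const _
      have h4 : ∀ t : ℝ, HasDerivAt (fun t : ℝ => 2 * Real.exp (-ζ.re) - 2 * Real.exp (-t))
          (2 * Real.exp (-t)) t := fun t => by
        refine ((((hasDerivAt_neg t).exp).const_mul 2).const_sub
          (2 * Real.exp (-ζ.re))).congr_deriv ?_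
        ring
      have h5 := image_norm_le_of_norm_deriv_right_le_deriv_boundary (a := ζ.re) (b := x')
        (fun t _ => (h3 t).continuousAt.continuousWithinAt)
        (fun t _ => (h3 t).hasDerivWithinAt) (by simp) h4
        (fun t _ => by simpa using h52_deriv_le t (by simp; positivity)) ⟨hx', le_rfl⟩
      linarith [Real.exp_pos (-x')]
    have h3 : ∀ r : ℝ, G r = ((∫ t in (0 : ℝ)..r, Real.exp (-1 * t ^ 2) : ℝ) : ℂ) := fun r => by
      have := intervalIntegral.integral_eq_sub_of_hasDerivAt (a := 0) (b := r)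
        (f := fun t : ℝ => G t) (fun t _ => (hG t).comp_ofReal)
        (Continuous.intervalIntegrable (by fun_prop) _ _)
      rw [Complex.ofReal_zero, hG0, sub_zero] at this
      rw [← this, ← intervalIntegral.integral_ofReal]
      congr 1
      funext t
      simp
    have h4 : Tendsto (fun x' : ℝ => G (Complex.exp x')) atTop
        (𝓝 ((∫ t in Ioi (0 : ℝ), Real.exp (-1 * t ^ 2) : ℝ) : ℂ)) := by
      simp only [← Complex.ofReal_exp, h3]
      exact (Complex.continuous_ofReal.tendsto _).comp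
        (MeasureTheory.intervalIntegral_tendsto_integral_Ioi 0
          (integrable_exp_neg_mul_sq one_pos).integrableOn Real.tendsto_exp_atTop)
    have h5 := le_of_tendsto ((h4.sub_const (G (Complex.exp ζ.re))).norm)
      ((eventually_ge_atTop ζ.re).mono h2)
    have h6 := norm_sub_le (G (Complex.exp ζ) - G (Complex.exp ζ.re))
      (((∫ t in Ioi (0 : ℝ), Real.exp (-1 * t ^ 2) : ℝ) : ℂ) - G (Complex.exp ζ.re))
    rw [sub_sub_sub_cancel_right] at h6
    linarith

/-- `θ = (P - L₋) / (L₊ - L₋)`, `P' = exp (exp z)`, `L± = lim P (x ± i π)`;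
`Im L₊ = ∫₀^π e^{cos y} cos (sin y) dy > 0`, `L₋ = conj L₊`; on `|Im z ∓ π| ≤ π / 4` one has
`|P'| ≤ exp (-e^x / √2)`. -/
theorem exists_theta : ∃ θ : ℂ → ℂ, Differentiable ℂ θ ∧ ∀ X₀ : ℝ, 0 ≤ X₀ → ∃ T₀ : ℝ, 1 ≤ T₀ ∧
    (∀ z : ℂ, |z.re| ≤ X₀ → |z.im| ≤ 5 * Real.pi / 4 → ‖θ z‖ ≤ T₀) ∧
    (∀ z : ℂ, -X₀ ≤ z.re → |z.im - Real.pi| ≤ Real.pi / 4 → ‖θ z - 1‖ ≤ T₀ / (1 + |z.re|) ^ 2) ∧
    (∀ z : ℂ, -X₀ ≤ z.re → |z.im + Real.pi| ≤ Real.pi / 4 → ‖θ z‖ ≤ T₀ / (1 + |z.re|) ^ 2) := by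
  obtain ⟨G, L, hL, hG, hodd, hK⟩ := h52_gauss
  have hL' : (L : ℂ) ≠ 0 := by exact_mod_cast hL.ne'
  have hd : Differentiable ℂ fun z : ℂ =>
      1 / 2 + G (Complex.exp (z / 2 - Real.pi / 2 * Complex.I)) / (2 * L) := by fun_prop
  refine ⟨_, hd, fun X₀ hX₀ => ?_⟩
  obtain ⟨B, hB⟩ := (isCompact_closedBall (0 : ℂ) (X₀ + 5 * Real.pi / 4)).exists_bound_of_continuousOn
    hd.continuous.continuousOn
  have hB0 : 0 ≤ B := (norm_nonneg _).trans (hB 0 (mem_closedBall_self (by positivity)))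
  have hc : 0 ≤ 24 * Real.exp X₀ / L := by positivity
  have key : ∀ (z ζ : ℂ), -X₀ ≤ z.re → ζ.re = z.re / 2 → |ζ.im| ≤ Real.pi / 8 →
      ‖(G (Complex.exp ζ) - L) / (2 * L)‖ ≤ (1 + B + 24 * Real.exp X₀ / L) / (1 + |z.re|) ^ 2 := by
    intro z ζ hz h1 h2
    have h3 := hK ζ h2
    have h4 := h52_decay hz
    rw [abs_of_nonneg hX₀] at h4
    rw [h1] at h3
    have h5 : ‖(2 * L : ℂ)‖ = 2 * L := by
      rw [norm_mul, Complex.norm_real, Real.norm_eq_abs, abs_of_pos hL]; simp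
    rw [norm_div, h5, div_le_div_iff₀ (by positivity) (by positivity)]
    have h6 : 24 * Real.exp X₀ / L * (2 * L) = 48 * Real.exp X₀ := by field_simp; norm_num
    have h7 := mul_le_mul_of_nonneg_right h3 (sq_nonneg (1 + |z.re|))
    have h8 : 0 ≤ (1 + B) * (2 * L) := by positivity
    linarith
  refine ⟨1 + B + 24 * Real.exp X₀ / L, by linarith, fun z h1 h2 => ?_, fun z h1 h2 => ?_,
    fun z h1 h2 => ?_⟩
  · refine (hB z (mem_closedBall_zero_iff.2 ?_)).trans (by linarith)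
    exact (Complex.norm_le_abs_re_add_abs_im z).trans (add_le_add h1 h2)
  · refine le_trans (le_of_eq ?_) (key z (z / 2 - Real.pi / 2 * Complex.I) h1 (by simp) ?_)
    · congr 1
      field_simp
      ring
    · have e : (z / 2 - Real.pi / 2 * Complex.I).im = (z.im - Real.pi) / 2 := by simp; ring
      rw [e, abs_div, abs_two]
      linarith
  · refine le_trans (le_of_eq ?_) (key z (z / 2 + Real.pi / 2 * Complex.I) h1 (by simp) ?_)
    · have e : Complex.exp (z / 2 - Real.pi / 2 * Complex.I) =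
          -Complex.exp (z / 2 + Real.pi / 2 * Complex.I) := by
        rw [← Complex.exp_add_pi_mul_I]
        refine Complex.exp_eq_exp_iff_exists_int.2 ⟨-1, ?_⟩
        push_cast
        ring
      rw [e, hodd, ← norm_neg]
      congr 1
      field_simp
      ring
    · have e : (z / 2 + Real.pi / 2 * Complex.I).im = (z.im + Real.pi) / 2 := by simp; ring
      rw [e, abs_div, abs_two]
      linarith

end Crest.Agent.R279
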