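import Crest.Agent.R279.Sec
import Crest.Agent.R279.G1
import Crest.Agent.R279.Theta

/-! Row 279: rectangle lemma, definitions -/

set_option autoImplicit false

namespace Crest.Agent.R279

open Set Metric Filter Topology

variable {G : Type} [NormedAddCommGroup G] [NormedSpace ℂ G] {M : Set W} {I : Set ℝ} {β : ℝ → ℝ}
  {P : ℝ → Set G} {Ω : Set (G × ℂ)} {g : G × ℂ → W} {π : G × ℂ → W →L[ℂ] V} {e : G × ℂ → V → W}
  {ρ C c Λ L R : ℝ}

/-- centre height of the `j`-th cell. -/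
noncomputable def tauc (η : ℝ) (j : ℤ) : ℝ := 2 * Real.pi * η * ((j : ℝ) + 1 / 2)

/-- height of the border between the cells `j` and `j + 1`. -/
noncomputable def bord (η : ℝ) (j : ℤ) : ℝ := 2 * Real.pi * η * ((j : ℝ) + 1)

/-- the planar cell. -/
def cell (β : ℝ → ℝ) (η R : ℝ) (j : ℤ) : Set ℂ :=
  {v | |v.im - tauc η j| < 5 * Real.pi * η / 4 ∧ β v.im - η < v.re ∧ v.re < R}

/-- the `η`-independent geometric data. -/
structure Geo (M : Set W) (I : Set ℝ) (β : ℝ → ℝ) (P : ℝ → Set G) (Ω : Set (G × ℂ))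
    (g : G × ℂ → W) (π : G × ℂ → W →L[ℂ] V) (e : G × ℂ → V → W) (ρ C c Λ L : ℝ) : Prop where
  opI : IsOpen I
  ord : I.OrdConnected
  c1 : ContDiffOn ℝ 1 β I
  Λ0 : 0 ≤ Λ
  der : ∀ t ∈ I, |deriv β t| ≤ Λ
  bd : ∀ t ∈ I, |β t| ≤ L
  model : Model M Ω g π e ρ C
  c_pos : 0 < c
  L_pos : 0 < L
  opP : ∀ t ∈ I, IsOpen (P t)
  sub : ∀ t ∈ I, ∀ p ∈ P t, ∀ v : ℂ, ‖v - cpt β t‖ < c → (p, v) ∈ Ω

/-- the cell maps `Ψ j` on `Pc j ×ˢ cell j` (`Pc j = ∅` for inactive cells), fibre radius `r`,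
error constant `A`. -/
structure Cells (M : Set W) (I : Set ℝ) (β : ℝ → ℝ) (P : ℝ → Set G) (Ω : Set (G × ℂ))
    (e : G × ℂ → V → W) (c R η r A : ℝ) (Pc : ℤ → Set G) (Ψ : ℤ → G × ℂ → V → W) : Prop where
  op : ∀ j, IsOpen (Pc j)
  inI : ∀ j, (Pc j).Nonempty → ∀ t, |t - tauc η j| ≤ 2 * Real.pi * η → t ∈ I
  hol : ∀ j, HolF (Ψ j) (Pc j ×ˢ cell β η R j) r
  mem : ∀ j, ∀ x ∈ Pc j ×ˢ cell β η R j, ∀ y ∈ ball (0 : V) r, Ψ j x y ∈ M
  ref : ∀ j, ∀ p ∈ Pc j, (p, cpt β (bord η j)) ∈ Ω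
  ovl : ∀ j, ∀ p ∈ Pc j, p ∈ Pc (j + 1) → ∀ v ∈ cell β η R j, v ∈ cell β η R (j + 1) →
    ∀ y ∈ ball (0 : V) r, ‖Ψ j (p, v) y - e (p, cpt β (bord η j)) y‖ ≤ A * η ∧
      ‖Ψ (j + 1) (p, v) y - e (p, cpt β (bord η j)) y‖ ≤ A * η ∧
      ‖Ψ j (p, v) y - Ψ (j + 1) (p, v) y‖ ≤ A * η / (1 + |v.re - β v.im| / η) ^ 2
  shell : ∀ j, ∀ p ∈ Pc j, ∀ v ∈ cell β η R j, v.re < β v.im → (p, v) ∈ Ω ∧
    ∀ y ∈ ball (0 : V) r, ‖Ψ j (p, v) y - e (p, v) y‖ ≤ A * η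
  active : ∀ (a b : ℝ) (PW : Set G), Icc (a - c) (b + c) ⊆ I →
    (∀ t ∈ Icc (a - c) (b + c), PW ⊆ P t) → ∀ j, ∀ v ∈ cell β η R j, a < v.im → v.im < b →
    PW ⊆ Pc j

/-- `β` is `Λ`-Lipschitz on `I` (mean value inequality on the convex set `I`). -/
theorem Geo.lip (h : Geo M I β P Ω g π e ρ C c Λ L) {s t : ℝ} (hs : s ∈ I) (ht : t ∈ I) :
    |β s - β t| ≤ Λ * |s - t| := by
  have hd : ∀ x ∈ I, DifferentiableAt ℝ β x := fun x hx =>
    (h.c1.differentiableOn one_ne_zero).differentiableAt (h.opI.mem_nhds hx)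
  exact h.ord.convex.norm_image_sub_le_of_norm_deriv_le hd h.der ht hs

theorem Geo.cpt_lip (h : Geo M I β P Ω g π e ρ C c Λ L) {s t : ℝ} (hs : s ∈ I) (ht : t ∈ I) :
    ‖cpt β s - cpt β t‖ ≤ (1 + Λ) * |s - t| := by
  have e1 : cpt β s - cpt β t = ((β s - β t : ℝ) : ℂ) + ((s - t : ℝ) : ℂ) * Complex.I := by
    simp only [cpt]
    push_cast
    ring
  rw [e1]
  refine (norm_add_le _ _).trans ?_
  rw [norm_mul, Complex.norm_I, mul_one, Complex.norm_real, Complex.norm_real, Real.norm_eq_abs,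
    Real.norm_eq_abs]
  linarith [h.lip hs ht]

/-- the part of a set `{β (Im v) + a < Re v}` with `Im v ∈ I` is open, etc. -/
theorem Geo.isOpen_strip (h : Geo M I β P Ω g π e ρ C c Λ L) (a : ℝ) :
    IsOpen {v : ℂ | v.im ∈ I ∧ β v.im + a < v.re} ∧
      IsOpen {v : ℂ | v.im ∈ I ∧ v.re < β v.im + a} := by
  have ho : IsOpen (Complex.im ⁻¹' I) := h.opI.preimage Complex.continuous_im
  have hc : ContinuousOn (fun v : ℂ => v.re - β v.im) (Complex.im ⁻¹' I) :=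
    Complex.continuous_re.continuousOn.sub
      (h.c1.continuousOn.comp Complex.continuous_im.continuousOn fun _ hv => hv)
  constructor
  · convert hc.isOpen_inter_preimage ho (isOpen_Ioi (a := a)) using 1
    ext v
    simp only [mem_ofPred_eq, mem_inter_iff, mem_preimage, mem_Ioi]
    exact and_congr_right fun _ => by constructor <;> intro <;> linarith
  · convert hc.isOpen_inter_preimage ho (isOpen_Iio (a := a)) using 1
    ext v
    simp only [mem_ofPred_eq, mem_inter_iff, mem_preimage, mem_Iio]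
    exact and_congr_right fun _ => by constructor <;> intro <;> linarith

theorem Geo.isOpen_basePc (h : Geo M I β P Ω g π e ρ C c Λ L) : IsOpen (basePc Ω I β) := by
  have e1 : basePc Ω I β = Ω ∩ Prod.snd ⁻¹' {v : ℂ | v.im ∈ I ∧ v.re < β v.im + 0} := by
    ext x
    simp only [basePc, mem_ofPred_eq, mem_inter_iff, mem_preimage, add_zero]
  rw [e1]
  exact h.model.op.inter ((h.isOpen_strip 0).2.preimage continuous_snd)

theorem Geo.isOpen_win (h : Geo M I β P Ω g π e ρ C c Λ L) {a b : ℝ} (hI : Ioo a b ⊆ I)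
    (c' R' : ℝ) : IsOpen (win β a b c' R') := by
  convert ((isOpen_Ioo (a := a) (b := b)).preimage Complex.continuous_im).inter
    ((h.isOpen_strip (-c')).1.inter (isOpen_lt Complex.continuous_re (continuous_const (y := R'))))
    using 1
  ext v
  simp only [win, mem_ofPred_eq, mem_inter_iff, mem_preimage, mem_Ioo, sub_eq_add_neg]
  exact ⟨fun ⟨h1, h2, h3, h4⟩ => ⟨⟨h1, h2⟩, ⟨hI ⟨h1, h2⟩, h3⟩, h4⟩,
    fun ⟨⟨h1, h2⟩, ⟨_, h3⟩, h4⟩ => ⟨h1, h2, h3, h4⟩⟩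

theorem Geo.isOpen_cell (h : Geo M I β P Ω g π e ρ C c Λ L) {η : ℝ} {j : ℤ}
    (hI : ∀ t, |t - tauc η j| ≤ 2 * Real.pi * η → t ∈ I) : IsOpen (cell β η R j) := by
  convert (isOpen_lt (Complex.continuous_im.sub (continuous_const (y := tauc η j))).abs
    (continuous_const (y := 5 * Real.pi * η / 4))).inter
    ((h.isOpen_strip (-η)).1.inter (isOpen_lt Complex.continuous_re (continuous_const (y := R))))
    using 1
  ext v
  simp only [cell, mem_ofPred_eq, mem_inter_iff, ← sub_eq_add_neg]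
  refine ⟨fun ⟨h1, h3, h4⟩ => ⟨h1, ⟨hI _ ?_, h3⟩, h4⟩, fun ⟨h1, ⟨_, h3⟩, h4⟩ => ⟨h1, h3, h4⟩⟩
  linarith [abs_nonneg (v.im - tauc η j)]

theorem cell_disjoint {η : ℝ} {j k : ℤ} {v : ℂ} (hj : v ∈ cell β η R j) (hk : v ∈ cell β η R k) :
    k = j ∨ k = j + 1 ∨ j = k + 1 := by
  have h1 := abs_lt.1 hj.1
  have h2 := abs_lt.1 hk.1
  simp only [tauc] at h1 h2
  have h0 : 0 < Real.pi * η := by linarith [h1.1, h1.2]
  have h3 : (j : ℝ) - k < 2 := lt_of_mul_lt_mul_left (a := Real.pi * η)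
    (by nlinarith [h1.1, h2.2]) h0.le
  have h4 : (k : ℝ) - j < 2 := lt_of_mul_lt_mul_left (a := Real.pi * η)
    (by nlinarith [h1.2, h2.1]) h0.le
  have h5 : j - k < 2 := by exact_mod_cast h3
  have h6 : k - j < 2 := by exact_mod_cast h4
  omega

theorem cell_cover {η : ℝ} (hη : 0 < η) {v : ℂ} (h1 : β v.im - η < v.re) (h2 : v.re < R) :
    ∃ j, v ∈ cell β η R j := by
  have h0 : 0 < 2 * Real.pi * η := by positivity
  refine ⟨⌊v.im / (2 * Real.pi * η)⌋, ?_, h1, h2⟩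
  have h3 := Int.floor_le (v.im / (2 * Real.pi * η))
  have h4 := Int.lt_floor_add_one (v.im / (2 * Real.pi * η))
  rw [le_div_iff₀ h0] at h3
  rw [div_lt_iff₀ h0] at h4
  rw [tauc, abs_lt]
  constructor <;> nlinarith

theorem cell_overlap {η : ℝ} {j : ℤ} {v : ℂ} (hj : v ∈ cell β η R j)
    (hk : v ∈ cell β η R (j + 1)) : |v.im - bord η j| < Real.pi * η / 4 := by
  have h1 := abs_lt.1 hj.1
  have h2 := abs_lt.1 hk.1
  simp only [tauc] at h1 h2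
  push_cast at h2
  rw [bord, abs_lt]
  constructor <;> linarith [h1.2, h2.1]

end Crest.Agent.R279
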