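import Crest.Agent.R271.HC
import Crest.Agent.R271.BSt
import Crest.Agent.R271.Ex0
import Crest.Agent.R271.HMean
import Crest.Agent.R264.Osgood

/-! Row 279, block X: Stein open sets and extension of holomorphic functions from a hypersurface,
with bounds (from Hörmander's theorem of row 271). -/

set_option autoImplicit false

namespace Crest.Agent.R279

open MeasureTheory Filter Topology Set Metric
open scoped ENNReal NNReal
open Crest.Agent.R271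

variable {E : Type} [NormedAddCommGroup E] [NormedSpace ℂ E]

/-- `Ω` is open and has a `C²` plurisubharmonic exhaustion function. -/
def St (Ω : Set E) : Prop :=
  IsOpen Ω ∧ ∃ ϱ : E → ℝ, ((∀ y ∈ Ω, ContDiffAt ℝ 2 ϱ y) ∧ ∀ y ∈ Ω, ∀ v, 0 ≤ levi ϱ y v) ∧
    ∀ c : ℝ, IsCompact {y ∈ Ω | ϱ y ≤ c}

theorem St.isOpen {Ω : Set E} (h : St Ω) : IsOpen Ω := h.1

theorem St.stein [MeasurableSpace E] (μ : Measure E) {Ω : Set E} :
    St Ω ↔ (RD.triv μ).Stein Ω := Iff.rfl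

variable [FiniteDimensional ℂ E]

theorem St.univ : St (univ : Set E) := by
  borelize E
  have := FiniteDimensional.proper ℂ E
  exact (St.stein (Measure.addHaar)).2 (B_stein_univ _)

theorem St.norm_lt {Ω : Set E} (h : St Ω) {f : E → ℂ} (hf : DifferentiableOn ℂ f Ω) (r : ℝ) :
    St {z ∈ Ω | ‖f z‖ < r} := by
  borelize E
  have := FiniteDimensional.proper ℂ E
  have h1 := (St.stein (Measure.addHaar)).2 (B_stein_lt Measure.addHaar
    ((St.stein (Measure.addHaar)).1 h) (N := fun z => ‖f z‖ ^ 2)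
    (fun z hz => LPAt.normSq (R264.SCV.analyticAt hf (h.isOpen.mem_nhds hz))) (max r 0 ^ 2))
  convert h1 using 3 with z
  rw [pow_lt_pow_iff_left₀ (norm_nonneg _) (le_max_right _ _) two_ne_zero, lt_max_iff]
  simp [not_lt.2 (norm_nonneg (f z))]

theorem St.re_pos {Ω : Set E} (h : St Ω) {g : E → ℂ} (hg : DifferentiableOn ℂ g Ω) :
    St {z ∈ Ω | 0 < (g z).re} := by
  have h1 := h.norm_lt (f := fun z => Complex.exp (-g z)) hg.neg.cexp 1
  convert h1 using 3 with z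
  rw [Complex.norm_exp, Real.exp_lt_one_iff, Complex.neg_re, neg_lt_zero]

theorem St.lt_norm {Ω : Set E} (h : St Ω) {f : E → ℂ} (hf : DifferentiableOn ℂ f Ω) {r : ℝ}
    (hr : 0 ≤ r) : St {z ∈ Ω | r < ‖f z‖} := by
  have h1 : St {z ∈ Ω | f z ≠ 0} := by
    borelize E
    have := FiniteDimensional.proper ℂ E
    exact (St.stein (Measure.addHaar)).2 (B_stein_ne Measure.addHaar
      ((St.stein (Measure.addHaar)).1 h) hf)
  rcases hr.eq_or_lt with rfl | hr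
  · simpa only [norm_pos_iff] using h1
  · have h2 := h1.norm_lt (f := fun z => (f z)⁻¹)
      ((hf.mono fun z hz => hz.1).inv fun z hz => hz.2) r⁻¹
    convert h2 using 1
    ext z
    simp only [mem_ofPred_eq, norm_inv]
    constructor
    · rintro ⟨a1, a2⟩
      exact ⟨⟨a1, norm_pos_iff.1 (hr.trans a2)⟩, inv_strictAnti₀ hr a2⟩
    · rintro ⟨⟨a1, a2⟩, a3⟩
      exact ⟨a1, (inv_lt_inv₀ (norm_pos_iff.2 a2) hr).1 a3⟩

theorem St.forall_re_pos {Ω : Set E} (h : St Ω) {ι : Type} [Finite ι] {g : ι → E → ℂ}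
    (hg : ∀ i, DifferentiableOn ℂ (g i) Ω) : St {z ∈ Ω | ∀ i, 0 < (g i z).re} := by
  classical
  have := Fintype.ofFinite ι
  have key : ∀ s : Finset ι, St {z ∈ Ω | ∀ i ∈ s, 0 < (g i z).re} := by
    intro s
    induction s using Finset.induction_on with
    | empty => simpa using h
    | insert a s _ ih =>
      have h2 := ih.re_pos (g := g a) ((hg a).mono fun z hz => hz.1)
      convert h2 using 1
      ext z
      simp only [Finset.forall_mem_insert, mem_ofPred_eq]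
      tauto
  simpa using key Finset.univ

theorem St.forall_norm_lt {Ω : Set E} (h : St Ω) {ι : Type} [Finite ι] {f : ι → E → ℂ}
    (hf : ∀ i, DifferentiableOn ℂ (f i) Ω) (r : ι → ℝ) : St {z ∈ Ω | ∀ i, ‖f i z‖ < r i} := by
  classical
  have := Fintype.ofFinite ι
  have key : ∀ s : Finset ι, St {z ∈ Ω | ∀ i ∈ s, ‖f i z‖ < r i} := by
    intro s
    induction s using Finset.induction_on with
    | empty => simpa using h
    | insert a s _ ih =>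
      have h2 := ih.norm_lt (f := f a) ((hf a).mono fun z hz => hz.1) (r a)
      convert h2 using 1
      ext z
      simp only [Finset.forall_mem_insert, mem_ofPred_eq]
      tauto
  simpa using key Finset.univ

section h41

variable [MeasurableSpace E] [BorelSpace E] (μ : Measure E) [μ.IsAddHaarMeasure]

/-- Hörmander's theorem for the cut-off of a function that is holomorphic near `{|w| ≤ d}` -/
theorem h41_core {Ω : Set E} (hΩ : St Ω) {w : E → ℂ} (hw : DifferentiableOn ℂ w Ω) {d : ℝ}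
    (hd : 0 < d) : ∃ C : ℝ, 0 ≤ C ∧ ∀ (F : E → ℂ) (G : Set E), IsOpen G → DifferentiableOn ℂ F G →
      (∀ z ∈ Ω, ‖w z‖ ≤ d → z ∈ G) → ∀ ε : ℝ, (∀ z ∈ Ω, ‖w z‖ ≤ d → ‖F z‖ ≤ ε) →
      ∃ h : E → ℂ, DifferentiableOn ℂ h Ω ∧
        ∫⁻ y in Ω, ‖(cut ((d ^ 2)⁻¹ * ‖w y‖ ^ 2) : ℂ) * F y - h y‖ₑ ^ 2 /
          ENNReal.ofReal (‖w y‖ ^ 2 * (1 + (d ^ 2)⁻¹ * ‖w y‖ ^ 2)) ∂μ ≤
          ENNReal.ofReal (C * ε ^ 2) * μ Ω := by
  obtain ⟨L, hL⟩ := h16_cut_deriv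
  have hL0 : 0 ≤ L := (sq_nonneg _).trans (hL 0).1
  have hd2 : 0 < d ^ 2 := by positivity
  refine ⟨4 * L * (2 / d ^ 2), by positivity, fun F G hG hF hsub ε hε => ?_⟩
  have hN : (RD.triv μ).LP Ω fun y => ‖w y‖ ^ 2 :=
    RD.LP.normSq hΩ.1 ((RD.triv_hol hΩ.1).2 hw)
  obtain ⟨N₀, hN₀e⟩ : ∃ N₀ : E → ℝ, N₀ = fun y => (d ^ 2)⁻¹ * ‖w y‖ ^ 2 := ⟨_, rfl⟩
  have hN₀ : (RD.triv μ).LP Ω N₀ := hN₀e ▸ (RD.LP.const (inv_pos.2 hd2).le).mul hN
  have hN₀' : ∀ y ∈ Ω, LPAt N₀ y := hN₀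
  obtain ⟨M, m1, m2, m3, m4⟩ := hN.adm
  have n0 : ∀ y ∈ Ω, 0 ≤ N₀ y := fun y hy => (hN₀' y hy).nonneg
  have n1 : ∀ y ∈ Ω, 0 < 1 + N₀ y := fun y hy => by linarith [n0 y hy]
  have p1 : ∀ j, (∀ y ∈ Ω, ContDiffAt ℝ 2 (fun y => Real.log (M j y)) y) ∧
      ∀ y ∈ Ω, ∀ v, 0 ≤ levi (fun y => Real.log (M j y)) y v := fun j => (m1 j).psh_log (m2 j)
  have p2 : (∀ y ∈ Ω, ContDiffAt ℝ 2 (fun y => Real.log (1 + N₀ y)) y) ∧
      ∀ y ∈ Ω, ∀ v, 0 ≤ levi (fun y => Real.log (1 + N₀ y)) y v :=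
    ((RD.LP.const zero_le_one).add hN₀).psh_log n1
  have hexp : ∀ j, ∀ y ∈ Ω, Real.exp (Real.log (M j y) + Real.log (1 + N₀ y)) =
      M j y * (1 + N₀ y) := fun j y hy => by
    rw [Real.exp_add, Real.exp_log (m2 j y hy), Real.exp_log (n1 y hy)]
  have hFc : ∀ y ∈ G, ContDiffAt ℝ 2 F y :=
    RD.Hol.c2 (RD.triv μ) hG ((RD.triv_hol hG).2 hF)
  have hz : ∀ y ∈ Ω, ¬ ‖w y‖ ≤ d → (fun y => (cut (N₀ y) : ℂ) * F y) =ᶠ[𝓝 y] fun _ => 0 := by
    intro y hy h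
    have h1 : 1 < N₀ y := by
      rw [hN₀e]
      change 1 < (d ^ 2)⁻¹ * ‖w y‖ ^ 2
      rw [lt_inv_mul_iff₀ hd2, mul_one]
      exact pow_lt_pow_left₀ (not_le.1 h) hd.le two_ne_zero
    filter_upwards [(hN₀' y hy).c2.continuousAt.eventually (lt_mem_nhds h1)] with x hx
    have : cut (N₀ x) = 0 := Real.smoothTransition.zero_of_nonpos (by linarith)
    rw [this, Complex.ofReal_zero, zero_mul]
  have hφc : ∀ j, ∀ y ∈ Ω, ContDiffAt ℝ 2 (fun y => Real.log (M j y) + Real.log (1 + N₀ y)) y :=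
    fun j y hy => ((p1 j).1 y hy).add (p2.1 y hy)
  refine Exists.imp (fun h hh => ?_) <| (RD.triv μ).hormander ((St.stein μ).1 hΩ)
    (u := fun y => (cut (N₀ y) : ℂ) * F y)
    (φ := fun j y => Real.log (M j y) + Real.log (1 + N₀ y))
    (N := fun y => ‖w y‖ ^ 2 * (1 + N₀ y))
    (H := fun j y => 4 * L * (2 / d ^ 2) * ε ^ 2 *
      Real.exp (Real.log (M j y) + Real.log (1 + N₀ y)))
    (C := ENNReal.ofReal (4 * L * (2 / d ^ 2) * ε ^ 2) * μ Ω) ?_ ?_ ?_ ?_ ?_ ?_ ?_ ?_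
  · subst hN₀e
    exact ⟨(RD.triv_hol hΩ.1).1 hh.1, hh.2⟩
  · intro y hy
    change ContDiffAt ℝ 2 (fun y => (cut (N₀ y) : ℂ) * F y) y
    by_cases h : ‖w y‖ ≤ d
    · exact (Complex.ofRealCLM.contDiff.contDiffAt.comp _
        (h16_cut_contDiff.contDiffAt.comp _ (hN₀' y hy).c2)).mul (hFc y (hsub y hy h))
    · exact contDiffAt_const.congr_of_eventuallyEq (hz y hy h)
  · refine fun j => ⟨hφc j, fun y hy v => ?_⟩
    change 0 ≤ levi (fun y => Real.log (M j y) + Real.log (1 + N₀ y)) y v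
    rw [levi_add ((p1 j).1 y hy) (p2.1 y hy)]
    exact add_nonneg ((p1 j).2 y hy v) (p2.2 y hy v)
  · intro y hy j k hjk
    exact add_le_add (Real.log_le_log (m2 k y hy) (m3 y hy hjk)) le_rfl
  · intro y hy
    simp only [fun j => hexp j y hy]
    exact (m4 y hy).mul_const _
  · intro j
    refine AEMeasurable.const_mul (ContinuousOn.aemeasurable ?_ hΩ.1.measurableSet) _
    exact fun y hy => (Real.continuous_exp.continuousAt.comp
      (hφc j y hy).continuousAt).continuousWithinAt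
  · intro _ y _
    positivity
  · intro j y hy v
    change ‖dbar (fun y => (cut (N₀ y) : ℂ) * F y) y v‖ ^ 2 ≤
      _ * levi (fun y => Real.log (M j y) + Real.log (1 + N₀ y)) y v
    rw [levi_add ((p1 j).1 y hy) (p2.1 y hy)]
    have l1 := (p1 j).2 y hy v
    have l2 := p2.2 y hy v
    by_cases h : ‖w y‖ ≤ d
    swap
    · rw [dbar, (hz y hy h).fderiv_eq]
      simp only [fderiv_fun_const, Pi.zero_apply, zero_apply, mul_zero,
        add_zero, zero_div, norm_zero, ne_eq, OfNat.ofNat_ne_zero, not_false_eq_true, zero_pow]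
      positivity
    have hd' : DifferentiableAt ℝ N₀ y := (hN₀' y hy).c2.differentiableAt (by norm_num)
    have hcd : DifferentiableAt ℝ cut (N₀ y) := h16_cut_contDiff.differentiable (by norm_num) _
    have hFy : DifferentiableAt ℂ F y := hF.differentiableAt (hG.mem_nhds (hsub y hy h))
    have e1 : dbar (fun y => (cut (N₀ y) : ℂ) * F y) y v =
        deriv cut (N₀ y) * dbar (fun w => ((N₀ w : ℝ) : ℂ)) y v * F y := by
      have h1 := dbar_mul (f := fun w => (cut (N₀ w) : ℂ)) (g := F) (t := y)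
        (Complex.ofRealCLM.differentiableAt.comp _ (hcd.comp _ hd')) (hFy.restrictScalars ℝ) v
      rw [dbar_of_hol hFy, mul_zero, add_zero, dbar_ofReal_comp hd' hcd] at h1
      exact h1
    rw [e1, norm_mul, norm_mul, mul_pow, mul_pow, norm_dbar_ofReal hd', Complex.norm_real,
      Real.norm_eq_abs, sq_abs]
    by_cases hyA : 1 / 2 ≤ N₀ y ∧ N₀ y ≤ 1
    · have g1 := (hN₀' y hy).gsq_le_log v
      have g0 := gsq_nonneg (t := y) N₀ v
      set a := levi (fun y => Real.log (M j y)) y v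
      set b := levi (fun y => Real.log (1 + N₀ y)) y v
      have g2 : N₀ y * (1 + N₀ y) ^ 2 ≤ 4 := by
        have h1 := hyA.2
        have h2 := n0 y hy
        calc N₀ y * (1 + N₀ y) ^ 2 ≤ 1 * (1 + 1) ^ 2 := by gcongr
          _ = 4 := by norm_num
      have g3 : gsq N₀ y v ≤ 4 * b := g1.trans (by gcongr)
      have g4 : d ^ 2 / 2 ≤ Real.exp (Real.log (M j y) + Real.log (1 + N₀ y)) := by
        rw [hexp j y hy]
        have h1 := hyA.1
        rw [hN₀e] at h1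
        change 1 / 2 ≤ (d ^ 2)⁻¹ * ‖w y‖ ^ 2 at h1
        rw [le_inv_mul_iff₀ hd2] at h1
        have h3 : ‖w y‖ ^ 2 ≤ M j y := (m3 y hy).le_of_tendsto (m4 y hy) j
        nlinarith [n0 y hy, m2 j y hy]
      have g5 := hε y hy h
      calc deriv cut (N₀ y) ^ 2 * gsq N₀ y v * ‖F y‖ ^ 2
          ≤ L * (4 * b) * ε ^ 2 := by gcongr; exact (hL _).1
        _ = 4 * L * (2 / d ^ 2) * ε ^ 2 * (d ^ 2 / 2) * (0 + b) := by field_simp; ring
        _ ≤ _ := by gcongr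
    · rw [(hL _).2 hyA]
      simp only [ne_eq, OfNat.ofNat_ne_zero, not_false_eq_true, zero_pow, zero_mul]
      positivity
  · intro j
    change ∫⁻ y in Ω, _ ∂μ ≤ _
    rw [← setLIntegral_const]
    refine le_of_eq (lintegral_congr fun y => ?_)
    rw [mul_assoc, ← Real.exp_add, add_neg_cancel, Real.exp_zero, mul_one]

include μ in
/-- the scalar case of `St.ext` -/
theorem h41_ext {Ω : Set E} (hΩ : St Ω) (hb : Bornology.IsBounded Ω) {w : E → ℂ}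
    (hw : DifferentiableOn ℂ w Ω) {M : ℝ} (hM : ∀ z ∈ Ω, ‖w z‖ ≤ M) {d r : ℝ} (hd : 0 < d)
    (hr : 0 < r) : ∃ C : ℝ, 0 < C ∧ ∀ (F : E → ℂ) (G : Set E),
      IsOpen G → DifferentiableOn ℂ F G → (∀ z ∈ Ω, ‖w z‖ ≤ d → z ∈ G) → ∀ ε : ℝ, 0 ≤ ε →
      (∀ z ∈ Ω, ‖w z‖ ≤ d → ‖F z‖ ≤ ε) →
      ∃ H : E → ℂ, DifferentiableOn ℂ H Ω ∧ (∀ z ∈ Ω, w z = 0 → H z = F z) ∧
        ∀ z, closedBall z r ⊆ Ω → ‖H z‖ ≤ C * ε := by
  have := FiniteDimensional.proper ℂ E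
  obtain ⟨C, hC, hcore⟩ := h41_core μ hΩ hw hd
  have hd2 : 0 < d ^ 2 := by positivity
  obtain ⟨B, hB0, hB⟩ : ∃ B : ℝ, 0 < B ∧ ∀ y ∈ Ω, ‖w y‖ ^ 2 * (1 + (d ^ 2)⁻¹ * ‖w y‖ ^ 2) ≤ B := by
    refine ⟨M ^ 2 * (1 + (d ^ 2)⁻¹ * M ^ 2) + 1, by positivity, fun y hy => ?_⟩
    have h1 : ‖w y‖ ^ 2 ≤ M ^ 2 := pow_le_pow_left₀ (norm_nonneg _) (hM y hy) 2
    have h2 : ‖w y‖ ^ 2 * (1 + (d ^ 2)⁻¹ * ‖w y‖ ^ 2) ≤ M ^ 2 * (1 + (d ^ 2)⁻¹ * M ^ 2) := by
      gcongr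
    linarith
  have hΩf : μ Ω ≠ ∞ := hb.measure_lt_top.ne
  have hm : 0 < μ.real (ball (0 : E) r) :=
    ENNReal.toReal_pos (measure_ball_pos μ _ hr).ne' measure_ball_lt_top.ne
  have hq : 0 ≤ (2 + 2 * B * C) * μ.real Ω / μ.real (ball (0 : E) r) := by positivity
  refine ⟨√((2 + 2 * B * C) * μ.real Ω / μ.real (ball (0 : E) r)) + 1, by positivity,
    fun F G hG hF hsub ε hε0 hε => ?_⟩
  obtain ⟨h, hh, hI⟩ := hcore F G hG hF hsub ε hε
  refine ⟨h, hh, fun z hz h0 => by_contra fun hne => ?_, fun z hz => ?_⟩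
  · have hwa : AnalyticAt ℂ w z :=
      RD.Hol.analyticAt (RD.triv μ) hΩ.1 ((RD.triv_hol hΩ.1).2 hw) hz
    have hwc : ContinuousAt (fun y => (d ^ 2)⁻¹ * ‖w y‖ ^ 2) z :=
      continuousAt_const.mul (hwa.continuousAt.norm.pow 2)
    have hu : ContinuousAt (fun y => ‖(cut ((d ^ 2)⁻¹ * ‖w y‖ ^ 2) : ℂ) * F y - h y‖ ^ 2) z :=
      (((Complex.continuous_ofReal.continuousAt.comp
        (h16_cut_contDiff.continuous.continuousAt.comp hwc)).mul
        (hF.differentiableAt (hG.mem_nhds (hsub z hz (by rw [h0, norm_zero]; exact hd.le)))).continuousAt).sub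
        (hh.differentiableAt (hΩ.1.mem_nhds hz)).continuousAt).norm.pow 2
    have hu0 : 0 < ‖(cut ((d ^ 2)⁻¹ * ‖w z‖ ^ 2) : ℂ) * F z - h z‖ ^ 2 := by
      have : cut 0 = 1 := Real.smoothTransition.one_of_one_le (by norm_num)
      rw [h0, norm_zero, zero_pow two_ne_zero, mul_zero, this, Complex.ofReal_one, one_mul]
      exact pow_pos (norm_pos_iff.2 (sub_ne_zero.2 (Ne.symm hne))) 2
    obtain ⟨K, hK0, hK⟩ : ∃ K : ℝ, 0 ≤ K ∧ 1 + (d ^ 2)⁻¹ * ‖w z‖ ^ 2 <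
        K * ‖(cut ((d ^ 2)⁻¹ * ‖w z‖ ^ 2) : ℂ) * F z - h z‖ ^ 2 := by
      refine ⟨(1 + (d ^ 2)⁻¹ * ‖w z‖ ^ 2 + 1) / ‖(cut ((d ^ 2)⁻¹ * ‖w z‖ ^ 2) : ℂ) * F z - h z‖ ^ 2,
        by positivity, ?_⟩
      rw [div_mul_cancel₀ _ hu0.ne']
      exact lt_add_one _
    refine not_intNear_inv (μ := μ) hwa h0 (Ex0_mono μ (K := ENNReal.ofReal K) (L := 0)
      ENNReal.ofReal_ne_top ENNReal.zero_ne_top ⟨Ω, hΩ.1.mem_nhds hz, hI.trans_lt
        (ENNReal.mul_lt_top ENNReal.ofReal_lt_top hΩf.lt_top)⟩ ?_)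
    filter_upwards [(continuousAt_const.add hwc).eventually_lt (continuousAt_const.mul hu) hK]
      with y hy
    have hD : 0 < 1 + (d ^ 2)⁻¹ * ‖w y‖ ^ 2 := by positivity
    have hD' : ENNReal.ofReal (1 + (d ^ 2)⁻¹ * ‖w y‖ ^ 2) ≠ 0 := (ENNReal.ofReal_pos.2 hD).ne'
    have h1 : ENNReal.ofReal (1 + (d ^ 2)⁻¹ * ‖w y‖ ^ 2) ≤
        ENNReal.ofReal K * ‖(cut ((d ^ 2)⁻¹ * ‖w y‖ ^ 2) : ℂ) * F y - h y‖ₑ ^ 2 := by
      rw [← ofReal_norm, ← ENNReal.ofReal_pow (norm_nonneg _), ← ENNReal.ofReal_mul hK0]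
      exact ENNReal.ofReal_le_ofReal hy.le
    rw [add_zero, ENNReal.ofReal_mul (sq_nonneg _), ENNReal.ofReal_pow (norm_nonneg _), ofReal_norm,
      div_eq_mul_inv, ENNReal.mul_inv (Or.inr ENNReal.ofReal_ne_top) (Or.inr hD'), ← mul_assoc,
      mul_comm (‖w y‖ₑ ^ 2)⁻¹, ← mul_assoc]
    refine le_mul_of_one_le_left' ?_
    rw [← div_eq_mul_inv, ENNReal.le_div_iff_mul_le (Or.inl hD') (Or.inl ENNReal.ofReal_ne_top),
      one_mul]
    exact h1
  · have h1 := Hmean_sq (μ := μ) hΩ.1 hh hz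
    have h2 : ∫⁻ y in Ω, ‖h y‖ₑ ^ 2 ∂μ ≤ ∫⁻ y in Ω, ENNReal.ofReal (2 * ε ^ 2) +
        ENNReal.ofReal (2 * B) * (‖(cut ((d ^ 2)⁻¹ * ‖w y‖ ^ 2) : ℂ) * F y - h y‖ₑ ^ 2 /
          ENNReal.ofReal (‖w y‖ ^ 2 * (1 + (d ^ 2)⁻¹ * ‖w y‖ ^ 2))) ∂μ := by
      refine setLIntegral_mono' hΩ.1.measurableSet fun y hy => ?_
      have a1 : ‖(cut ((d ^ 2)⁻¹ * ‖w y‖ ^ 2) : ℂ) * F y‖ ≤ ε := by
        by_cases h : ‖w y‖ ≤ d
        · rw [norm_mul, Complex.norm_real, Real.norm_eq_abs, cut,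
            abs_of_nonneg (Real.smoothTransition.nonneg _)]
          exact (mul_le_of_le_one_left (norm_nonneg _) (Real.smoothTransition.le_one _)).trans
            (hε y hy h)
        · have h1 : 1 < (d ^ 2)⁻¹ * ‖w y‖ ^ 2 := by
            rw [lt_inv_mul_iff₀ hd2, mul_one]
            exact pow_lt_pow_left₀ (not_le.1 h) hd.le two_ne_zero
          have : cut ((d ^ 2)⁻¹ * ‖w y‖ ^ 2) = 0 :=
            Real.smoothTransition.zero_of_nonpos (by linarith)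
          rw [this, Complex.ofReal_zero, zero_mul, norm_zero]
          exact hε0
      set u := (cut ((d ^ 2)⁻¹ * ‖w y‖ ^ 2) : ℂ) * F y
      have a2 : ‖h y‖ ≤ ε + ‖u - h y‖ := by
        have := norm_sub_le u (u - h y)
        rw [sub_sub_cancel] at this
        linarith
      have a3 : ‖h y‖ ^ 2 ≤ 2 * ε ^ 2 + 2 * B * (‖u - h y‖ ^ 2 / B) := by
        have : 2 * B * (‖u - h y‖ ^ 2 / B) = 2 * ‖u - h y‖ ^ 2 := by field_simp
        rw [this]
        nlinarith [norm_nonneg (h y), norm_nonneg (u - h y), sq_nonneg (ε - ‖u - h y‖)]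
      calc ‖h y‖ₑ ^ 2 = ENNReal.ofReal (‖h y‖ ^ 2) := by
            rw [ENNReal.ofReal_pow (norm_nonneg _), ofReal_norm]
        _ ≤ ENNReal.ofReal (2 * ε ^ 2 + 2 * B * (‖u - h y‖ ^ 2 / B)) := ENNReal.ofReal_le_ofReal a3
        _ = ENNReal.ofReal (2 * ε ^ 2) +
            ENNReal.ofReal (2 * B) * (‖u - h y‖ₑ ^ 2 / ENNReal.ofReal B) := by
            rw [ENNReal.ofReal_add (by positivity) (by positivity),
              ENNReal.ofReal_mul (p := 2 * B) (by positivity), ENNReal.ofReal_div_of_pos hB0,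
              ENNReal.ofReal_pow (norm_nonneg _), ofReal_norm]
        _ ≤ _ := by
            gcongr
            exact hB y hy
    rw [lintegral_add_left measurable_const, lintegral_const_mul' _ _ ENNReal.ofReal_ne_top,
      setLIntegral_const] at h2
    have h3 : μ (ball (0 : E) r) * ‖h z‖ₑ ^ 2 ≤ ENNReal.ofReal (2 * ε ^ 2) * μ Ω +
        ENNReal.ofReal (2 * B) * (ENNReal.ofReal (C * ε ^ 2) * μ Ω) :=
      h1.trans ((lintegral_mono_set (ball_subset_closedBall.trans hz)).trans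
        (h2.trans (by gcongr)))
    have h4 := ENNReal.toReal_mono (by finiteness) h3
    rw [ENNReal.toReal_add (by finiteness) (by finiteness)] at h4
    simp only [ENNReal.toReal_mul, ENNReal.toReal_pow, toReal_enorm] at h4
    rw [ENNReal.toReal_ofReal (by positivity), ENNReal.toReal_ofReal (by positivity),
      ENNReal.toReal_ofReal (by positivity)] at h4
    change μ.real _ * _ ≤ _ * μ.real Ω + _ * (_ * μ.real Ω) at h4
    have h5 : ‖h z‖ ^ 2 ≤ (√((2 + 2 * B * C) * μ.real Ω / μ.real (ball (0 : E) r)) * ε) ^ 2 := by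
      rw [mul_pow, Real.sq_sqrt hq, div_mul_eq_mul_div, le_div_iff₀ hm]
      linarith
    have h6 := (pow_le_pow_iff_left₀ (norm_nonneg _) (by positivity) two_ne_zero).1 h5
    linarith

end h41

/-- **Extension from a hypersurface** `{w = 0}` of a bounded Stein open set, with bounds. -/
theorem St.ext {Ω : Set E} (hΩ : St Ω) (hb : Bornology.IsBounded Ω) {w : E → ℂ}
    (hw : DifferentiableOn ℂ w Ω) {M : ℝ} (hM : ∀ z ∈ Ω, ‖w z‖ ≤ M) {d r : ℝ} (hd : 0 < d)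
    (hr : 0 < r) : ∃ C : ℝ, 0 < C ∧ ∀ (ι : Type) [Fintype ι] (F : E → ι → ℂ) (G : Set E),
      IsOpen G → DifferentiableOn ℂ F G → (∀ z ∈ Ω, ‖w z‖ ≤ d → z ∈ G) → ∀ ε : ℝ, 0 ≤ ε →
      (∀ z ∈ Ω, ‖w z‖ ≤ d → ‖F z‖ ≤ ε) →
      ∃ H : E → ι → ℂ, DifferentiableOn ℂ H Ω ∧ (∀ z ∈ Ω, w z = 0 → H z = F z) ∧
        ∀ z, closedBall z r ⊆ Ω → ‖H z‖ ≤ C * ε := by
  borelize E
  have := FiniteDimensional.proper ℂ E
  obtain ⟨C, hC, h⟩ := h41_ext (Measure.addHaar : Measure E) hΩ hb hw hM hd hr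
  refine ⟨C, hC, fun ι _ F G hG hF hsub ε hε0 hε => ?_⟩
  choose H h1 h2 h3 using fun i : ι => h (fun z => F z i) G hG (differentiableOn_pi.1 hF i) hsub ε
    hε0 fun z hz hw => (norm_le_pi_norm (F z) i).trans (hε z hz hw)
  exact ⟨fun z i => H i z, differentiableOn_pi.2 h1, fun z hz h0 => funext fun i => h2 i z hz h0,
    fun z hz => (pi_norm_le_iff_of_nonneg (by positivity)).2 fun i => h3 i z hz⟩

end Crest.Agent.R279
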