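import Crest.Agent.R279.XProd
import Crest.Agent.R279.G1

/-! Row 279, block X: splitting along a real hypersurface `Im l = const` of a Stein set -/

set_option autoImplicit false

namespace Crest.Agent.R279

open Set Metric Filter Topology

variable {E : Type} [NormedAddCommGroup E] [NormedSpace ℂ E]

/-- **G2**.  `‖l‖ < R₀` on `Λ`, `d = min (a - a') (b' - b) / 2`,
`S = {a - d < Im t < b + d, ‖t‖ < R₀ + 1}`, `Ω = (Λ ×ˢ ball 0 ρ) ×ˢ S ⊆ (E × V) × ℂ` (`St.prod`,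
`St.re_pos`, `St.norm_lt`), `w = t - l z`.  `St.ext` (with `G = {z ∈ Λ, a' < Im (l z) < b',
‖y‖ < ρ}`, `r = min (min r₀ (ρ / 2)) (min d 1)`, `cthickening r₀ (closure Λ') ⊆ Λ`) extends
`F ((z, y), t) = h z y` from `w = 0` to `H`.  `G1_fixed` with `P = Λ'`,
`A = {Im < b} ∩ ball 0 R₀`, `B = {a < Im} ∩ ball 0 R₀`,
`χ ζ = smoothTransition ((b - e - Im ζ) / e)`, `e = (b - a) / 3`, `h (z, t) y = H ((z, y), t)`,
radius `ρ / 2`; finally put `t = l z`.  `K = max 1 (16 K₁ C)`. -/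
theorem G2cut [FiniteDimensional ℂ E] {Λ Λ' : Set E} (hΛ : St Λ) (hb : Bornology.IsBounded Λ)
    (hΛ' : IsOpen Λ') (hcl : closure Λ' ⊆ Λ) {l : E → ℂ} (hl : Differentiable ℂ l)
    {a' a b b' ρ : ℝ} (h1 : a' < a) (h2 : a < b) (h3 : b < b') (hρ : 0 < ρ) :
    ∃ K : ℝ, 1 ≤ K ∧ ∀ (h : E → V → V) (ε : ℝ), 0 < ε → K * ε ≤ ρ →
      HolF h (Λ ∩ {z | a' < (l z).im ∧ (l z).im < b'}) ρ →
      (∀ z ∈ Λ ∩ {z | a' < (l z).im ∧ (l z).im < b'}, ∀ y ∈ ball (0 : V) ρ, ‖h z y‖ ≤ ε) →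
      ∃ α β : E → V → V, Split (Λ' ∩ {z | (l z).im < b}) (Λ' ∩ {z | a < (l z).im}) h (ρ / 4)
        (K * ε) α β := by
  have : ProperSpace E := FiniteDimensional.proper ℂ E
  obtain ⟨R₀, hR₀⟩ : ∃ R₀ : ℝ, ∀ z ∈ Λ, ‖l z‖ < R₀ := by
    obtain ⟨R, hR⟩ := hb.isCompact_closure.exists_bound_of_continuousOn hl.continuous.continuousOn
    exact ⟨R + 1, fun z hz => (hR z (subset_closure hz)).trans_lt (lt_add_one R)⟩
  obtain ⟨r₀, hr₀, hth⟩ := ((hb.subset (subset_closure.trans hcl)).isCompact_closure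
    ).exists_cthickening_subset_open hΛ.isOpen hcl
  obtain ⟨d, hd, hd1, hd2⟩ : ∃ d : ℝ, 0 < d ∧ a' ≤ a - 2 * d ∧ b + 2 * d ≤ b' :=
    ⟨min (a - a') (b' - b) / 2, half_pos (lt_min (by linarith) (by linarith)),
      by linarith [min_le_left (a - a') (b' - b)], by linarith [min_le_right (a - a') (b' - b)]⟩
  obtain ⟨r, hr, r1, r2, r3, r4⟩ : ∃ r : ℝ, 0 < r ∧ r ≤ r₀ ∧ r ≤ ρ / 2 ∧ r ≤ d ∧ r ≤ 1 :=
    ⟨min (min r₀ (ρ / 2)) (min d 1), lt_min (lt_min hr₀ (half_pos hρ)) (lt_min hd one_pos),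
      (min_le_left _ _).trans (min_le_left _ _), (min_le_left _ _).trans (min_le_right _ _),
      (min_le_right _ _).trans (min_le_left _ _), (min_le_right _ _).trans (min_le_right _ _)⟩
  obtain ⟨S, hS, hSm⟩ : ∃ S : Set ℂ, St S ∧
      ∀ t, t ∈ S ↔ a - d < t.im ∧ t.im < b + d ∧ ‖t‖ < R₀ + 1 := by
    refine ⟨_, (((St.univ (E := ℂ)).re_pos (g := fun t => -Complex.I * t - ((a - d : ℝ) : ℂ))
      (by fun_prop)).re_pos (g := fun t => ((b + d : ℝ) : ℂ) + Complex.I * t) (by fun_prop)).norm_lt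
      (f := fun t => t) differentiableOn_id (R₀ + 1), fun t => ?_⟩
    simp only [mem_ofPred_eq, mem_univ, true_and, Complex.sub_re, Complex.add_re, Complex.mul_re,
      Complex.neg_re, Complex.neg_im, Complex.I_re, Complex.I_im, Complex.ofReal_re]
    constructor
    · rintro ⟨⟨p1, p2⟩, p3⟩
      exact ⟨by linarith, by linarith, p3⟩
    · rintro ⟨p1, p2, p3⟩
      exact ⟨⟨by linarith, by linarith⟩, p3⟩
  have hSb : Bornology.IsBounded S :=
    (isBounded_ball (x := (0 : ℂ)) (r := R₀ + 1)).subset fun t ht =>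
      mem_ball_zero_iff.2 ((hSm t).1 ht).2.2
  obtain ⟨C, hC, hext⟩ := St.ext (Ω := (Λ ×ˢ ball (0 : V) ρ) ×ˢ S)
    ((hΛ.prod (St.ballV hρ)).prod hS) ((hb.prod isBounded_ball).prod hSb)
    (w := fun x => x.2 - l x.1.1) (M := R₀ + 1 + R₀)
    (differentiable_snd.sub (hl.comp (differentiable_fst.comp differentiable_fst))).differentiableOn
    (fun x hx => (norm_sub_le _ _).trans (add_le_add ((hSm _).1 hx.2).2.2.le (hR₀ _ hx.1.1).le))
    hd hr
  have him : Continuous fun z : E => (l z).im := Complex.continuous_im.comp hl.continuous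
  obtain ⟨e, he, hee⟩ : ∃ e : ℝ, 0 < e ∧ b = a + 3 * e := ⟨(b - a) / 3, by linarith, by ring⟩
  obtain ⟨K₁, hK₁, hG1⟩ := G1_fixed (E := E) (A := {t : ℂ | t.im < b} ∩ ball 0 R₀)
    (B := {t : ℂ | a < t.im} ∩ ball 0 R₀)
    ((isOpen_lt Complex.continuous_im continuous_const).inter isOpen_ball)
    ((isOpen_lt continuous_const Complex.continuous_im).inter isOpen_ball)
    (isBounded_ball.subset fun t ht => ht.1.2)
    (χ := fun ζ => Real.smoothTransition ((b - e - ζ.im) / e))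
    (Real.smoothTransition.contDiff.comp
      ((contDiff_const.sub Complex.imCLM.contDiff).div_const e))
    (fun ζ => ⟨Real.smoothTransition.nonneg _, Real.smoothTransition.le_one _⟩)
    (fun ζ hA hB => by
      have h4 : ζ.im < a + e := by
        by_contra h5
        exact hB ⟨show a < ζ.im by linarith [not_lt.1 h5], hA.2⟩
      filter_upwards [(isOpen_lt Complex.continuous_im continuous_const).mem_nhds h4] with ξ hξ _
      refine Real.smoothTransition.one_of_one_le ((one_le_div he).2 ?_)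
      have h6 : ξ.im < a + e := hξ
      linarith)
    (fun ζ hB hA => by
      have h4 : b - e < ζ.im := by
        by_contra h5
        exact hA ⟨show ζ.im < b by linarith [not_lt.1 h5], hB.2⟩
      filter_upwards [(isOpen_lt continuous_const Complex.continuous_im).mem_nhds h4] with ξ hξ _
      refine Real.smoothTransition.zero_of_nonpos (div_nonpos_of_nonpos_of_nonneg ?_ he.le)
      have h6 : b - e < ξ.im := hξ
      linarith)
  refine ⟨max 1 (16 * K₁ * C), le_max_left _ _, fun h ε hε hKε hh hbd => ?_⟩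
  have hK2 : 16 * K₁ * C * ε ≤ max 1 (16 * K₁ * C) * ε :=
    mul_le_mul_of_nonneg_right (le_max_right _ _) hε.le
  have hpos : 0 < K₁ * (C * ε) := by positivity
  have hG : ∀ x ∈ (Λ ×ˢ ball (0 : V) ρ) ×ˢ S, ‖x.2 - l x.1.1‖ ≤ d →
      x.1 ∈ (Λ ∩ {z | a' < (l z).im ∧ (l z).im < b'}) ×ˢ ball (0 : V) ρ := fun x hx hw => by
    obtain ⟨p1, p2, -⟩ := (hSm _).1 hx.2
    have p3 := abs_le.1 ((Complex.abs_im_le_norm _).trans hw)
    rw [Complex.sub_im] at p3
    exact ⟨⟨hx.1.1, by linarith [p3.2], by linarith [p3.1]⟩, hx.1.2⟩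
  obtain ⟨H, hH, hH0, hHb⟩ := hext (Fin 4) (fun x => h x.1.1 x.1.2)
    (Prod.fst ⁻¹' ((Λ ∩ {z | a' < (l z).im ∧ (l z).im < b'}) ×ˢ ball (0 : V) ρ))
    (((hΛ.isOpen.inter ((isOpen_lt continuous_const him).inter
      (isOpen_lt him continuous_const))).prod isOpen_ball).preimage continuous_fst)
    (DifferentiableOn.comp (g := fun x : E × V => h x.1 x.2) hh differentiableOn_fst
      (mapsTo_preimage _ _)) hG ε hε.le
    fun x hx hw => hbd _ (hG x hx hw).1 _ (hG x hx hw).2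
  have hball : ∀ x ∈ Λ' ×ˢ (({t : ℂ | t.im < b} ∩ ball 0 R₀) ∩ ({t : ℂ | a < t.im} ∩ ball 0 R₀)),
      ∀ y ∈ ball (0 : V) (ρ / 2), closedBall (((x.1, y), x.2) : (E × V) × ℂ) r ⊆
        (Λ ×ˢ ball (0 : V) ρ) ×ˢ S := fun x hx y hy x' hx' => by
    rw [mem_closedBall, Prod.dist_eq, Prod.dist_eq, max_le_iff, max_le_iff] at hx'
    obtain ⟨⟨q1, q2⟩, q3⟩ := hx'
    have q4 : x.2.im < b := hx.2.1.1
    have q5 : a < x.2.im := hx.2.2.1
    have q6 := mem_ball.1 hx.2.1.2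
    have q7 := mem_ball.1 hy
    have q8 := abs_le.1 ((Complex.abs_im_le_norm _).trans ((dist_eq_norm _ _).symm.trans_le q3))
    rw [Complex.sub_im] at q8
    refine ⟨⟨hth (mem_cthickening_of_dist_le _ _ _ _ (subset_closure hx.1) (q1.trans r1)), ?_⟩,
      (hSm _).2 ⟨by linarith [q8.1], by linarith [q8.2], ?_⟩⟩
    · rw [mem_ball]
      linarith [dist_triangle x'.1.2 y 0]
    · rw [← dist_zero_right]
      linarith [dist_triangle x'.2 x.2 0]
  obtain ⟨α, β, hs⟩ := hG1 Λ' (fun x y => H ((x.1, y), x.2)) (ρ / 2) (C * ε) hΛ'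
    (DifferentiableOn.comp (f := fun x : (E × ℂ) × V => ((x.1.1, x.2), x.1.2)) hH
      (by fun_prop) fun x hx => hball x.1 hx.1 x.2 hx.2 (mem_closedBall_self hr.le))
    (fun x hx y hy => hHb _ (hball x hx y hy)) (by positivity) (by linarith)
  have hΛΛ : Λ' ⊆ Λ := subset_closure.trans hcl
  have hmA : ∀ z ∈ Λ' ∩ {z | (l z).im < b},
      (z, l z) ∈ Λ' ×ˢ ({t : ℂ | t.im < b} ∩ ball 0 R₀) := fun z hz =>
    ⟨hz.1, hz.2, mem_ball_zero_iff.2 (hR₀ z (hΛΛ hz.1))⟩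
  have hmB : ∀ z ∈ Λ' ∩ {z | a < (l z).im},
      (z, l z) ∈ Λ' ×ˢ ({t : ℂ | a < t.im} ∩ ball 0 R₀) := fun z hz =>
    ⟨hz.1, hz.2, mem_ball_zero_iff.2 (hR₀ z (hΛΛ hz.1))⟩
  have e4 : ρ / 2 / 2 = ρ / 4 := by ring
  rw [e4] at hs
  have hd' : Differentiable ℂ fun x : E × V => (x.1, l x.1) :=
    differentiable_fst.prodMk (hl.comp differentiable_fst)
  refine ⟨fun z => α (z, l z), fun z => β (z, l z),
    hs.hola.comp hd'.differentiableOn differentiableOn_snd (fun x hx => hmA _ hx.1)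
      fun x hx => mem_ball_zero_iff.1 hx.2,
    hs.holb.comp hd'.differentiableOn differentiableOn_snd (fun x hx => hmB _ hx.1)
      fun x hx => mem_ball_zero_iff.1 hx.2,
    fun z hz y hy => (hs.bda _ (hmA z hz) y hy).trans (by linarith),
    fun z hz y hy => (hs.bdb _ (hmB z hz) y hy).trans (by linarith), fun z hz hz' y hy => ?_⟩
  rw [hs.eq _ (hmA z hz) (hmB z hz') y hy]
  congr 1
  have q1 : (l z).im < b := hz.2
  have q2 : a < (l z).im := hz'.2
  refine hH0 ((z, y + β (z, l z) y), l z) ⟨⟨hΛΛ hz.1, mem_ball_zero_iff.2 ?_⟩,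
    (hSm _).2 ⟨by linarith, by linarith, (hR₀ z (hΛΛ hz.1)).trans (lt_add_one _)⟩⟩ (sub_self _)
  have q3 := hs.bdb _ (hmB z hz') y hy
  have q4 := mem_ball_zero_iff.1 hy
  linarith [norm_add_le y (β (z, l z) y)]

end Crest.Agent.R279
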