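import Crest.Agent.R279.XExt
import Crest.Agent.R279.Defs

/-! Row 279, block X: products of Stein sets, analytic polyhedra -/

set_option autoImplicit false

namespace Crest.Agent.R279

open Set Metric Filter Topology

variable {E F : Type} [NormedAddCommGroup E] [NormedSpace ℂ E] [NormedAddCommGroup F]
  [NormedSpace ℂ F]

private theorem h1_levi_clm {G H : Type} [NormedAddCommGroup G] [NormedSpace ℂ G]
    [NormedAddCommGroup H] [NormedSpace ℂ H] (L : G →L[ℂ] H) {φ : H → ℝ} {x : G}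
    (hφ : ContDiffAt ℝ 2 φ (L x)) (v : G) :
    R271.levi (fun y => φ (L y)) x v = R271.levi φ (L x) (L v) := by
  have key : ∀ u w : G, fderiv ℝ (fderiv ℝ fun y => φ (L y)) x w u =
      fderiv ℝ (fderiv ℝ φ) (L x) (L w) (L u) := by
    intro u w
    have hL : HasFDerivAt (fun y => L y) (L.restrictScalars ℝ) x :=
      (L.restrictScalars ℝ).hasFDerivAt
    have h1 : ContDiffAt ℝ 2 (fun y => φ (L y)) x :=
      hφ.comp x (L.restrictScalars ℝ).contDiff.contDiffAt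
    have h2 : (fun y => fderiv ℝ (fun y => φ (L y)) y u) =ᶠ[𝓝 x]
        fun y => fderiv ℝ φ (L y) (L u) := by
      filter_upwards [L.continuous.continuousAt.eventually (R271.lpa_ev hφ)] with y hy
      have := (hy.hasFDerivAt.comp y (L.restrictScalars ℝ).hasFDerivAt).fderiv
      exact congrArg (fun A : G →L[ℝ] ℝ => A u) this
    have h3 := (R271.lpa_has hφ (L u)).comp x hL
    exact R271.lpa_key h1 h2 h3 w
  simp only [R271.levi, key, map_smul]

private theorem h1_bdd {G : Type} [NormedAddCommGroup G] [NormedSpace ℂ G] {A : Set G}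
    {ϱ : G → ℝ} (h1 : ∀ y ∈ A, ContDiffAt ℝ 2 ϱ y) (h2 : ∀ c : ℝ, IsCompact {y ∈ A | ϱ y ≤ c}) :
    ∃ m : ℝ, ∀ y ∈ A, m ≤ ϱ y := by
  obtain ⟨m, hm⟩ := (h2 0).bddBelow_image (f := ϱ)
    fun y hy => (h1 y hy.1).continuousAt.continuousWithinAt
  refine ⟨min m 0, fun y hy => ?_⟩
  by_cases h : ϱ y ≤ 0
  · exact (min_le_left _ _).trans (hm ⟨y, ⟨hy, h⟩, rfl⟩)
  · exact (min_le_right _ _).trans (not_le.1 h).le

/-- exhaustion `ϱ₁ x.1 + ϱ₂ x.2`; both functions are bounded below on their sets (continuous on the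
compact sublevel set `{ϱ ≤ 0}`, positive off it), so a sublevel set is a closed subset of a product
of two sublevel sets; `levi (ϱ ∘ L) x v = levi ϱ (L x) (L v)` for complex linear `L`. -/
theorem St.prod {A : Set E} {B : Set F} (hA : St A) (hB : St B) : St (A ×ˢ B) := by
  obtain ⟨hAo, ϱ₁, ⟨a1, a2⟩, a3⟩ := hA
  obtain ⟨hBo, ϱ₂, ⟨b1, b2⟩, b3⟩ := hB
  have c1 : ∀ y ∈ A ×ˢ B, ContDiffAt ℝ 2 (fun x : E × F => ϱ₁ x.1) y := fun y hy =>
    (a1 y.1 hy.1).comp y contDiffAt_fst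
  have c2 : ∀ y ∈ A ×ˢ B, ContDiffAt ℝ 2 (fun x : E × F => ϱ₂ x.2) y := fun y hy =>
    (b1 y.2 hy.2).comp y contDiffAt_snd
  refine ⟨hAo.prod hBo, fun x => ϱ₁ x.1 + ϱ₂ x.2, ⟨fun y hy => (c1 y hy).add (c2 y hy),
    fun y hy v => ?_⟩, fun c => ?_⟩
  · rw [R271.levi_add (c1 y hy) (c2 y hy)]
    have e1 := h1_levi_clm (ContinuousLinearMap.fst ℂ E F) (φ := ϱ₁) (x := y) (a1 y.1 hy.1) v
    have e2 := h1_levi_clm (ContinuousLinearMap.snd ℂ E F) (φ := ϱ₂) (x := y) (b1 y.2 hy.2) v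
    exact add_nonneg (e1 ▸ a2 y.1 hy.1 v.1) (e2 ▸ b2 y.2 hy.2 v.2)
  · obtain ⟨m₁, hm₁⟩ := h1_bdd a1 a3
    obtain ⟨m₂, hm₂⟩ := h1_bdd b1 b3
    have hK := (a3 (c - m₂)).prod (b3 (c - m₁))
    have hc : ContinuousOn (fun x : E × F => ϱ₁ x.1 + ϱ₂ x.2)
        ({y ∈ A | ϱ₁ y ≤ c - m₂} ×ˢ {y ∈ B | ϱ₂ y ≤ c - m₁}) := fun y hy =>
      ((c1 y ⟨hy.1.1, hy.2.1⟩).add (c2 y ⟨hy.1.1, hy.2.1⟩)).continuousAt.continuousWithinAt
    have h := hK.of_isClosed_subset
      (hc.preimage_isClosed_of_isClosed hK.isClosed (isClosed_Iic (a := c))) inter_subset_left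
    refine (Set.ext fun x => ?_ : {y ∈ A ×ˢ B | ϱ₁ y.1 + ϱ₂ y.2 ≤ c} = _) ▸ h
    constructor
    · rintro ⟨⟨h1, h2⟩, h3⟩
      have h4 := hm₁ _ h1
      have h5 := hm₂ _ h2
      exact ⟨⟨⟨h1, by linarith⟩, h2, by linarith⟩, h3⟩
    · rintro ⟨⟨h1, h2⟩, h3⟩
      exact ⟨⟨h1.1, h2.1⟩, h3⟩

theorem St.ballV {ρ : ℝ} (hρ : 0 < ρ) : St (ball (0 : V) ρ) := by
  have h := (St.univ (E := V)).forall_norm_lt (ι := Fin 4) (f := fun i z => z i)
    (fun i => (differentiable_apply i).differentiableOn) fun _ => ρ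
  convert h using 1
  ext z
  simp only [mem_ball_zero_iff, pi_norm_lt_iff hρ, mem_univ, true_and, mem_ofPred_eq]

/-- an analytic polyhedron with slack `u`. -/
def AP {ι ι' : Type} (h : ι → E → ℂ) (f : ι' → E → ℂ) (u : ℝ) : Set E :=
  {x | (∀ i, -u < (h i x).re) ∧ ∀ i, ‖f i x‖ < 1 + u}

theorem AP.mono {ι ι' : Type} (h : ι → E → ℂ) (f : ι' → E → ℂ) {u u' : ℝ} (hu : u ≤ u') :
    AP h f u ⊆ AP h f u' := by
  rintro x ⟨h1, h2⟩
  exact ⟨fun i => by linarith [h1 i], fun i => by linarith [h2 i]⟩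

theorem AP.st [FiniteDimensional ℂ E] {ι ι' : Type} [Finite ι] [Finite ι'] {h : ι → E → ℂ}
    {f : ι' → E → ℂ} (hh : ∀ i, Differentiable ℂ (h i)) (hf : ∀ i, Differentiable ℂ (f i))
    (u : ℝ) : St (AP h f u) := by
  have h1 := (St.univ (E := E)).forall_re_pos (g := fun i z => h i z + u)
    fun i => ((hh i).add_const _).differentiableOn
  have h2 := h1.forall_norm_lt (f := f) (fun i => (hf i).differentiableOn) fun _ => 1 + u
  convert h2 using 1
  ext z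
  simp only [AP, mem_univ, true_and, mem_ofPred_eq, Complex.add_re, Complex.ofReal_re,
    neg_lt_iff_pos_add]

theorem AP.closure_subset {ι ι' : Type} {h : ι → E → ℂ} {f : ι' → E → ℂ}
    (hh : ∀ i, Continuous (h i)) (hf : ∀ i, Continuous (f i)) {u u' : ℝ} (hu : u < u') :
    closure (AP h f u) ⊆ AP h f u' := by
  have hc : IsClosed {x : E | (∀ i, -u ≤ (h i x).re) ∧ ∀ i, ‖f i x‖ ≤ 1 + u} := by
    simp only [ofPred_and, ofPred_forall]
    exact (isClosed_iInter fun i => isClosed_le continuous_const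
      (Complex.continuous_re.comp (hh i))).inter
      (isClosed_iInter fun i => isClosed_le (hf i).norm continuous_const)
  intro x hx
  have h1 := closure_minimal (fun y (hy : y ∈ AP h f u) =>
    (⟨fun i => (hy.1 i).le, fun i => (hy.2 i).le⟩ :
      y ∈ {x : E | (∀ i, -u ≤ (h i x).re) ∧ ∀ i, ‖f i x‖ ≤ 1 + u})) hc hx
  exact ⟨fun i => by linarith [h1.1 i], fun i => by linarith [h1.2 i]⟩

end Crest.Agent.R279
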